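import Vale.Agent.P159.H358.Un3

/-!
P159, module VTOR, numbers for fine cells, part 4: all fields of `Pr2` from tori with Theorem A,
Theorem A at mass `t`, oscillations, and block noise on one base torus; probabilities; final bound.
-/

open Finset MeasureTheory

set_option linter.unusedSectionVars false
set_option linter.unusedDecidableInType false

namespace Vale.Agent.P159.H358

open Vale.Agent.P159.TM.Spec (V)
open Vale.Agent.P159.TM.SpecC (wT)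
open Vale.Agent.P159.H37 (gau)
open Vale.Agent.P159.H145 (mt OscZ)
open Vale.Agent.P159.H552 (lft)
open Vale.Agent.P159.H864 (cl)
open Vale.Agent.P159.H813 (LB4)
open Vale.Agent.P159.H462 (Dom)
open Vale.Agent.P159.H363 (Below n2)
open Vale.Agent.P159.H889 (uc)
open Matrix

/-- a torus in the range, cells `l`, scale `ξ`, mass `t` -/
structure Tn (K : ℕ) [NeZero K] (b : ℝ) (hb : 0 ≤ b) (ξ l : ℕ) (t y cx Cx c4 C4 L q K1 : ℝ) :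
    Prop where
  hl : l ∣ K
  hT : HAt K b ξ t hb y cx Cx
  lb : LB4 K b t ξ c4 C4
  os : OscZ (wT b K) (mt K t) (1 / 2)
  up : (K : ℝ) ≤ Real.exp (q * L) * ξ
  lo : K1 * L ^ 7 * ξ ≤ K

/-- constants of the numbers -/
structure Cst (b cx Cx c4 C4 q β c0 κ₀ A0 A' bo bb g K1 R : ℝ) : Prop where
  hb : 0 ≤ b
  hcx : 0 < cx
  hCx : 0 < Cx
  hc4 : 0 < c4
  hC4 : 0 ≤ C4
  hq : 0 ≤ q
  hβ : 0 ≤ β
  hc0 : 0 < c0
  hκ₀ : 0 < κ₀
  hκ1 : κ₀ * (b + 12 * max b 1 ^ 2 * 1 ^ 2) ≤ 1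
  hbo : bo = 2 * β + 9
  hg : g = gc q c0 bo
  hA0 : KA q β g C4 ≤ c4 * A0
  hA01 : 1 ≤ A0
  hA' : A' = 2 * A0
  hbb : bb = 2 * β + 16 + 32 * A' ^ 2
  hR : R = KR cx (K8 A' q c0 κ₀ bb) (K9 g A' Cx) q β
  hK1 : K1 = 2 * (R + 1) + 2 * A' + 3

theorem Cst.b1 {b cx Cx c4 C4 q β c0 κ₀ A0 A' bo bb g K1 R : ℝ}
    (C : Cst b cx Cx c4 C4 q β c0 κ₀ A0 A' bo bb g K1 R) : 1 ≤ g := by
  rw [C.hg]
  refine gc_pos C.hq C.hc0 ?_
  rw [C.hbo]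
  have := C.hβ
  positivity

theorem Cst.A1 {b cx Cx c4 C4 q β c0 κ₀ A0 A' bo bb g K1 R : ℝ}
    (C : Cst b cx Cx c4 C4 q β c0 κ₀ A0 A' bo bb g K1 R) : 1 ≤ A' := by
  rw [C.hA']
  linarith [C.hA01]

theorem Cst.bb1 {b cx Cx c4 C4 q β c0 κ₀ A0 A' bo bb g K1 R : ℝ}
    (C : Cst b cx Cx c4 C4 q β c0 κ₀ A0 A' bo bb g K1 R) : 1 ≤ bb := by
  rw [C.hbb]
  have := C.hβ
  nlinarith [sq_nonneg A']

theorem Cst.bo0 {b cx Cx c4 C4 q β c0 κ₀ A0 A' bo bb g K1 R : ℝ}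
    (C : Cst b cx Cx c4 C4 q β c0 κ₀ A0 A' bo bb g K1 R) : 0 ≤ bo := by
  rw [C.hbo]
  have := C.hβ
  positivity

theorem Cst.κ1 {b cx Cx c4 C4 q β c0 κ₀ A0 A' bo bb g K1 R : ℝ}
    (C : Cst b cx Cx c4 C4 q β c0 κ₀ A0 A' bo bb g K1 R) : κ₀ ≤ 1 := by
  have h := C.hκ1
  have hb := C.hb
  have h1 : 1 ≤ b + 12 * max b 1 ^ 2 * 1 ^ 2 := by
    have : 1 ≤ max b 1 ^ 2 := one_le_pow₀ (le_max_right _ _)
    nlinarith
  nlinarith [C.hκ₀]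

theorem Cst.k8 {b cx Cx c4 C4 q β c0 κ₀ A0 A' bo bb g K1 R : ℝ}
    (C : Cst b cx Cx c4 C4 q β c0 κ₀ A0 A' bo bb g K1 R) : 0 < K8 A' q c0 κ₀ bb :=
  K8_pos C.A1 C.hq C.hc0 C.hκ₀ (by linarith [C.bb1])

theorem Cst.R2 {b cx Cx c4 C4 q β c0 κ₀ A0 A' bo bb g K1 R : ℝ}
    (C : Cst b cx Cx c4 C4 q β c0 κ₀ A0 A' bo bb g K1 R) : 2 ≤ R := by
  rw [C.hR]
  exact KR_pos C.hcx C.k8.le (by linarith [K9_pos (A' := A') (C := Cx) C.b1]) C.hq C.hβ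

/-- the constants exist -/
theorem cst_ex {b2 cx Cx c4 C4 q β c0 : ℝ} (hb2 : 0 ≤ b2) (hcx : 0 < cx) (hCx : 0 < Cx)
    (hc4 : 0 < c4) (hC4 : 0 ≤ C4) (hq : 0 ≤ q) (hβ : 0 ≤ β) (hc0 : 0 < c0) (A1 : ℝ) :
    ∃ κ₀ A0 A' bo bb g K1 R : ℝ, A1 ≤ A0 ∧ ∀ b : ℝ, 0 ≤ b → b ≤ b2 →
      Cst b cx Cx c4 C4 q β c0 κ₀ A0 A' bo bb g K1 R := by
  set κ₀ : ℝ := (b2 + 12 * max b2 1 ^ 2 * 1 ^ 2)⁻¹ with hκ
  have hm : 0 < b2 + 12 * max b2 1 ^ 2 * 1 ^ 2 := by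
    have : 1 ≤ max b2 1 := le_max_right _ _
    positivity
  set bo : ℝ := 2 * β + 9
  set g : ℝ := gc q c0 bo
  set A0 : ℝ := max (max 1 A1) (KA q β g C4 / c4)
  set A' : ℝ := 2 * A0
  set bb : ℝ := 2 * β + 16 + 32 * A' ^ 2
  set R : ℝ := KR cx (K8 A' q c0 κ₀ bb) (K9 g A' Cx) q β
  refine ⟨κ₀, A0, A', bo, bb, g, 2 * (R + 1) + 2 * A' + 3, R, ?_, fun b h0 h1 => ?_⟩
  · exact (le_max_right _ _).trans (le_max_left _ _)
  · refine ⟨h0, hcx, hCx, hc4, hC4, hq, hβ, hc0, by positivity, ?_, rfl, rfl, ?_, ?_, rfl, rfl,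
      rfl, rfl⟩
    · have h2 : b + 12 * max b 1 ^ 2 * 1 ^ 2 ≤ b2 + 12 * max b2 1 ^ 2 * 1 ^ 2 := by gcongr
      calc κ₀ * (b + 12 * max b 1 ^ 2 * 1 ^ 2) ≤ κ₀ * (b2 + 12 * max b2 1 ^ 2 * 1 ^ 2) :=
            mul_le_mul_of_nonneg_left h2 (by positivity)
        _ = 1 := inv_mul_cancel₀ hm.ne'
    · have h3 : KA q β g C4 / c4 ≤ A0 := le_max_right _ _
      rw [div_le_iff₀ hc4] at h3
      linarith
    · exact (le_max_left _ _).trans (le_max_left _ _)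

section fin

variable {N M B l Q : ℕ} [NeZero N] [NeZero M] [NeZero B] [NeZero (N / l)] [NeZero (M / l)]
  [NeZero (B / l)] {b : ℝ} {hb : 0 ≤ b} {ξ D0 : ℕ}
  {t y cx Cx c4 C4 L q β c0 κ₀ A0 A' bo bb g K1 R : ℝ}

/-- the radius -/
noncomputable def rad (R L : ℝ) (ξ : ℕ) : ℕ := ⌈R * L ^ 7⌉₊ * ξ

theorem rad_lo (R L : ℝ) (ξ : ℕ) : R * L ^ 7 * ξ ≤ rad R L ξ := by
  unfold rad
  push_cast
  exact mul_le_mul_of_nonneg_right (Nat.le_ceil _) (Nat.cast_nonneg _)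

theorem rad_up {R L : ℝ} (hR : 0 ≤ R) (hL : 1 ≤ L) (ξ : ℕ) :
    (rad R L ξ : ℝ) ≤ (R + 1) * L ^ 7 * ξ := by
  unfold rad
  push_cast
  have h1 : (⌈R * L ^ 7⌉₊ : ℝ) ≤ R * L ^ 7 + 1 := (Nat.ceil_lt_add_one (by positivity)).le
  have h2 : 1 ≤ L ^ 7 := one_le_pow₀ hL
  exact mul_le_mul_of_nonneg_right (by nlinarith) (Nat.cast_nonneg _)

theorem rad_2 {R L : ℝ} (hR : 2 ≤ R) (hL : 1 ≤ L) {ξ : ℕ} (hξ : 0 < ξ) : ξ + 1 ≤ rad R L ξ := by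
  unfold rad
  have h2 : 1 ≤ L ^ 7 := one_le_pow₀ hL
  have h3 : 2 ≤ ⌈R * L ^ 7⌉₊ := by
    have : (2 : ℝ) ≤ (⌈R * L ^ 7⌉₊ : ℝ) := le_trans (by nlinarith) (Nat.le_ceil _)
    exact_mod_cast this
  nlinarith

theorem Tn.sz (C : Cst b cx Cx c4 C4 q β c0 κ₀ A0 A' bo bb g K1 R) (H : Nm ξ l Q D0 t L q A')
    {K : ℕ} [NeZero K] (T : Tn K b hb ξ l t y cx Cx c4 C4 L q K1) :
    2 * rad R L ξ + (2 * D0 + 2) * l < K := by
  have hL := H.hL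
  have hξ := H.ξ0'
  have h1 := rad_up (R := R) (by linarith [C.R2]) hL ξ
  have h2 := T.lo
  have h3 := H.hD
  have h4 := H.lξ
  have hA1 := C.A1
  have hL7 : L ≤ L ^ 7 := by
    calc L = L ^ 1 := (pow_one L).symm
      _ ≤ L ^ 7 := pow_le_pow_right₀ hL (by norm_num)
  have h7 : 1 ≤ L ^ 7 := one_le_pow₀ hL
  rw [C.hK1] at h2
  have h5 : A' * L * ξ ≤ A' * L ^ 7 * ξ := by gcongr
  have h6 : (ξ : ℝ) ≤ L ^ 7 * ξ := le_mul_of_one_le_left hξ.le h7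
  have h8 : ((2 * rad R L ξ + (2 * D0 + 2) * l : ℕ) : ℝ) < K := by
    push_cast
    refine lt_of_lt_of_le ?_ h2
    have e : (2 * (R + 1) + 2 * A' + 3) * L ^ 7 * ξ = 2 * ((R + 1) * L ^ 7 * ξ) +
        2 * (A' * L ^ 7 * ξ) + 3 * (L ^ 7 * ξ) := by ring
    rw [e]
    nlinarith
  exact_mod_cast h8

theorem Tn.ge (C : Cst b cx Cx c4 C4 q β c0 κ₀ A0 A' bo bb g K1 R) (H : Nm ξ l Q D0 t L q A')
    {K : ℕ} [NeZero K] (T : Tn K b hb ξ l t y cx Cx c4 C4 L q K1) : ξ ≤ K := by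
  have h1 := T.sz C H
  have h2 := rad_2 C.R2 H.hL H.ξ0
  omega

theorem Tn.fit (C : Cst b cx Cx c4 C4 q β c0 κ₀ A0 A' bo bb g K1 R) (H : Nm ξ l Q D0 t L q A')
    {K : ℕ} [NeZero K] (T : Tn K b hb ξ l t y cx Cx c4 C4 L q K1) : 2 * D0 < K / l := by
  have h1 := T.sz C H
  have hl := H.hl
  have h2 : 2 * D0 + 1 ≤ K / l := by
    rw [Nat.le_div_iff_mul_le hl]
    nlinarith
  omega

/-- the structure `UG` -/
theorem ug_of (C : Cst b cx Cx c4 C4 q β c0 κ₀ A0 A' bo bb g K1 R) (H : Nm ξ l Q D0 t L q A')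
    (hD : A0 * L * ξ ≤ D0 * l) (hy : (R + 1) * L ^ 7 * y ≤ cx) (hy0 : 0 ≤ y)
    (T1 : Tn N b hb ξ l t y cx Cx c4 C4 L q K1) (T2 : Tn B b hb ξ l t y cx Cx c4 C4 L q K1) :
    UG N B l b hb ξ t y y cx Cx c4 C4 (rad R L ξ) D0 D0 (A0 * L) := by
  have hL := H.hL
  have hξ := H.ξ0'
  have hr : (rad R L ξ : ℝ) * y ≤ cx * ξ := by
    have h1 := rad_up (R := R) (by linarith [C.R2]) hL ξ
    calc (rad R L ξ : ℝ) * y ≤ ((R + 1) * L ^ 7 * ξ) * y := mul_le_mul_of_nonneg_right h1 hy0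
      _ = ((R + 1) * L ^ 7 * y) * ξ := by ring
      _ ≤ cx * ξ := mul_le_mul_of_nonneg_right hy hξ.le
  exact ⟨H.ξ0, H.t0, C.hCx, T1.hT, T2.hT, rad_2 C.R2 hL H.ξ0, hr, hr, T1.hl, T2.hl, T1.lb, T2.lb,
    C.hC4, by have := C.hA01; have := H.L0; positivity, hD, le_rfl, T1.sz C H, T2.sz C H⟩

/-- the numbers of the good set -/
theorem pri_of (C : Cst b cx Cx c4 C4 q β c0 κ₀ A0 A' bo bb g K1 R) (H : Nm ξ l Q D0 t L q A')
    (T1 : Tn N b hb ξ l t y cx Cx c4 C4 L q K1) (T2 : Tn M b hb ξ l t y cx Cx c4 C4 L q K1)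
    (T3 : Tn B b hb ξ l t y cx Cx c4 C4 L q K1) {X δ : ℝ} (hδ : 0 ≤ δ)
    (hAP : APB B l Q b X t δ) (hX : K7 A' q c0 bb * L ^ 4 ≤ X) (hX0 : 0 < X)
    (hξl : (ξ : ℝ) ≤ (l : ℝ) ^ 2) (hl1 : (2 * (2 + q) + 4) * Kc A' g * L ^ 5 ≤ l) :
    PrI N M B l Q b t κ₀ 1 X δ D0 D0 D0 ((((2 * D0 / Q + 2) ^ 2 : ℕ) : ℝ)) (g * L * Q) := by
  have hL := H.hL
  have hQ := H.Q0
  have hg := C.b1
  refine ⟨C.hb, H.t0, T1.hl, T2.hl, T3.hl, C.hκ₀, C.hκ1, zero_le_one, le_rfl, hδ, hX0, hAP, H.hQ,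
    le_rfl, T1.fit C H, T2.fit C H, le_rfl, ?_, le_rfl, H.cut C.hc0 C.bb1 hX, ?_,
    H.edge C.hκ₀ C.κ1 hg T1.up (T1.ge C H) hξl hl1, H.edge C.hκ₀ C.κ1 hg T2.up (T2.ge C H) hξl hl1,
    H.edge C.hκ₀ C.κ1 hg T3.up (T3.ge C H) hξl hl1⟩
  · have := T3.fit C H
    omega
  · have : 0 ≤ L := by linarith
    have : 0 ≤ g := by linarith
    positivity

/-- **all numbers** -/
theorem pr2_of (C : Cst b cx Cx c4 C4 q β c0 κ₀ A0 A' bo bb g K1 R) (H : Nm ξ l Q D0 t L q A')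
    (hD : A0 * L * ξ ≤ D0 * l) (hy : (R + 1) * L ^ 7 * y ≤ cx) (hy0 : 0 ≤ y)
    (T1 : Tn N b hb ξ l t y cx Cx c4 C4 L q K1) (T2 : Tn M b hb ξ l t y cx Cx c4 C4 L q K1)
    (T3 : Tn B b hb ξ l t y cx Cx c4 C4 L q K1) {X δ τ : ℝ} (hδ : 0 ≤ δ) (hδ1 : δ ≤ 1)
    (hAP : APB B l Q b X t δ) (hX : K7 A' q c0 bb * L ^ 4 ≤ X) (hX0 : 0 < X)
    (hξl : (ξ : ℝ) ≤ (l : ℝ) ^ 2) (hl1 : (2 * (2 + q) + 4) * Kc A' g * L ^ 5 ≤ l)
    (hτ : 4 ≤ τ) :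
    Pr2 N M B l Q b hb ξ t y y y cx Cx c4 C4 (rad R L ξ) D0 D0 (A0 * L) κ₀ 1 X δ D0
      ((((2 * D0 / Q + 2) ^ 2 : ℕ) : ℝ)) (g * L * Q) τ
      (512 * (K4 A' q c0 κ₀ * L ^ 6) * (bb * L)) (K8 A' q c0 κ₀ bb * L ^ 7) (A0 * L) := by
  have hL := H.hL
  have hL0 := H.L0
  refine ⟨ug_of C H hD hy hy0 T2 T3, ug_of C H hD hy hy0 T1 T3, T1.os, T2.os, T3.os,
    pri_of C H T1 T2 T3 hδ hAP hX hX0 hξl hl1, ?_, hD, ?_, ?_⟩
  · have := C.hA01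
    positivity
  · have h1 := H.tx4
    have h2 := H.kn_le
    have h0 : (0 : ℝ) ≤ kn l ξ D0 := Nat.cast_nonneg _
    have ht := H.t0
    have h3 : (t * (ξ : ℝ) ^ 2) * kn l ξ D0 ≤ 4 * (16 * A' ^ 2 * L ^ 2) :=
      mul_le_mul h1 h2 h0 (by norm_num)
    have h4 : L ^ 2 ≤ L ^ 7 := pow_le_pow_right₀ hL (by norm_num)
    have h5 : A' ^ 2 * L ^ 2 ≤ A' ^ 2 * L ^ 7 := mul_le_mul_of_nonneg_left h4 (sq_nonneg _)
    unfold K8
    have e : (512 * K4 A' q c0 κ₀ * bb + 165888 * A' ^ 2) * L ^ 7 =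
        512 * (K4 A' q c0 κ₀ * L ^ 6) * (bb * L) + 165888 * (A' ^ 2 * L ^ 7) := by ring
    rw [e]
    nlinarith
  · have h1 := H.erR_le (C := Cx) (r := rad R L ξ) C.b1 C.hcx C.k8.le C.hβ
      (by rw [← C.hR]; exact rad_lo R L ξ)
    linarith

/-- **the probability** -/
theorem pb_of (C : Cst b cx Cx c4 C4 q β c0 κ₀ A0 A' bo bb g K1 R) (H : Nm ξ l Q D0 t L q A')
    (T1 : Tn N b hb ξ l t y cx Cx c4 C4 L q K1) (T2 : Tn M b hb ξ l t y cx Cx c4 C4 L q K1)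
    (T3 : Tn B b hb ξ l t y cx Cx c4 C4 L q K1) {c pf : ℝ} (hc : c0 ≤ c)
    (hpf : pf ≤ Real.exp (-((2 * (β + 3) + 2) * L))) :
    PBn N M B l t κ₀ (κw (M / l) D0 (t * (l : ℝ) ^ 2) c) D0 (g * L * Q) (√(K5 q c0 * L) * Q)
      (512 * (K4 A' q c0 κ₀ * L ^ 6) * (bb * L)) ((((2 * D0 / Q + 2) ^ 2 : ℕ) : ℝ))
      √(7 * bb * L) pf ≤ Real.exp (-((β + 3) * L)) ^ 2 := by
  have hL := H.hL
  have hL0 := H.L0
  have hn := H.side T2.hl T2.up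
  have hbb := C.bb1
  have hbb0 : 0 ≤ bb := by linarith
  have hβ := C.hβ
  have h1 := H.osc_exp hn C.hc0 C.bo0
  rw [← C.hg] at h1
  have h2 := H.en_exp hn C.hc0 hc C.hκ₀ T2.hl T2.up (T2.ge C H) hbb0
  have h3 := H.en_exp hn C.hc0 hc C.hκ₀ T3.hl T3.up (T3.ge C H) hbb0
  have h4 := H.en_exp hn C.hc0 hc C.hκ₀ T1.hl T1.up (T1.ge C H) hbb0
  have h5 := H.m_le
  have e1 : √(7 * bb * L) ^ 2 / 7 = bb * L := by
    rw [Real.sq_sqrt (by positivity)]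
    ring
  have e2 : Real.exp (-((β + 3) * L)) ^ 2 = Real.exp (-(2 * (β + 3) * L)) := by
    rw [← Real.exp_nat_mul]
    congr 1
    push_cast
    ring
  set E := Real.exp (-(2 * (β + 3) * L)) with hE
  have hE0 : 0 < E := Real.exp_pos _
  have f1 : Real.exp (-(bo * L)) ≤ 1 / 8 * E := by
    rw [C.hbo]
    have k1 : (4 : ℝ) ≤ Real.exp 3 := by linarith [Real.add_one_le_exp (3 : ℝ)]
    have k1' : (8 : ℝ) ≤ Real.exp 3 := by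
      have k2 : (2 : ℝ) ≤ Real.exp 1 := by linarith [Real.add_one_le_exp (1 : ℝ)]
      have k3 := pow_le_pow_left₀ (by norm_num) k2 3
      rw [← Real.exp_nat_mul] at k3
      norm_num at k3
      exact k3
    have k4 : Real.exp (-((2 * β + 9) * L)) = Real.exp (-(3 * L)) * E := by
      rw [hE, ← Real.exp_add]
      ring_nf
    rw [k4]
    refine mul_le_mul_of_nonneg_right ?_ hE0.le
    have k5 : Real.exp 3 ≤ Real.exp (3 * L) := Real.exp_le_exp.2 (by linarith)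
    rw [Real.exp_neg, inv_le_comm₀ (Real.exp_pos _) (by norm_num)]
    linarith
  have f2 : pf ≤ 1 / 4 * E := by
    refine hpf.trans ?_
    have k2 : (2 : ℝ) ≤ Real.exp 1 := by linarith [Real.add_one_le_exp (1 : ℝ)]
    have k1' : (4 : ℝ) ≤ Real.exp 2 := by
      have k3 := pow_le_pow_left₀ (by norm_num) k2 2
      rw [← Real.exp_nat_mul] at k3
      norm_num at k3
      exact k3
    have k4 : Real.exp (-((2 * (β + 3) + 2) * L)) = Real.exp (-(2 * L)) * E := by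
      rw [hE, ← Real.exp_add]
      ring_nf
    rw [k4]
    refine mul_le_mul_of_nonneg_right ?_ hE0.le
    have k5 : Real.exp 2 ≤ Real.exp (2 * L) := Real.exp_le_exp.2 (by linarith)
    rw [Real.exp_neg, inv_le_comm₀ (Real.exp_pos _) (by norm_num)]
    linarith
  have f3 : (6 + 32 * A' ^ 2 * L ^ 2) * Real.exp (-(bb * L)) ≤ 1 / 2 * E := by
    have k0 : L ^ 2 ≤ Real.exp (2 * L) := by
      have := pow_le_pow_left₀ hL0.le (le_exp' L) 2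
      rwa [← Real.exp_nat_mul] at this
    have k1 : 1 ≤ Real.exp (2 * L) := Real.one_le_exp (by positivity)
    have k2 : 6 + 32 * A' ^ 2 * L ^ 2 ≤ Real.exp (6 + 32 * A' ^ 2) * Real.exp (2 * L) := by
      have k3 := le_exp' (6 + 32 * A' ^ 2)
      calc 6 + 32 * A' ^ 2 * L ^ 2 ≤ 6 * Real.exp (2 * L) + 32 * A' ^ 2 * Real.exp (2 * L) := by
            have := mul_le_mul_of_nonneg_left k0 (show 0 ≤ 32 * A' ^ 2 by positivity)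
            linarith
        _ = (6 + 32 * A' ^ 2) * Real.exp (2 * L) := by ring
        _ ≤ _ := mul_le_mul_of_nonneg_right k3 (Real.exp_pos _).le
    have k6 : Real.exp (-1) ≤ 1 / 2 := by
      rw [Real.exp_neg, inv_le_comm₀ (Real.exp_pos _) (by norm_num)]
      linarith [Real.add_one_le_exp (1 : ℝ)]
    calc (6 + 32 * A' ^ 2 * L ^ 2) * Real.exp (-(bb * L))
        ≤ (Real.exp (6 + 32 * A' ^ 2) * Real.exp (2 * L)) * Real.exp (-(bb * L)) :=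
          mul_le_mul_of_nonneg_right k2 (Real.exp_pos _).le
      _ = Real.exp (6 + 32 * A' ^ 2 + 2 * L + -(bb * L)) := by
          rw [← Real.exp_add, ← Real.exp_add]
      _ ≤ Real.exp (-1 + -(2 * (β + 3) * L)) := by
          refine Real.exp_le_exp.2 ?_
          rw [C.hbb]
          have k7 : 6 + 32 * A' ^ 2 ≤ (6 + 32 * A' ^ 2) * L :=
            le_mul_of_one_le_right (by positivity) hL
          nlinarith
      _ = Real.exp (-1) * E := by rw [Real.exp_add]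
      _ ≤ 1 / 2 * E := mul_le_mul_of_nonneg_right k6 hE0.le
  have h6 : ((((2 * D0 / Q + 2) ^ 2 : ℕ) : ℝ)) * Real.exp (-(bb * L)) ≤
      16 * A' ^ 2 * L ^ 2 * Real.exp (-(bb * L)) :=
    mul_le_mul_of_nonneg_right h5 (Real.exp_pos _).le
  unfold PBn
  rw [e1, e2]
  set x := Real.exp (-(bb * L)) with hx
  linarith

/-- **`L²` distance of the densities to the cut densities** -/
theorem num_one (C : Cst b cx Cx c4 C4 q β c0 κ₀ A0 A' bo bb g K1 R) (H : Nm ξ l Q D0 t L q A')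
    (hD : A0 * L * ξ ≤ D0 * l) (hy : (R + 1) * L ^ 7 * y ≤ cx) (hy0 : 0 ≤ y)
    (T2 : Tn M b hb ξ l t y cx Cx c4 C4 L q K1)
    (T3 : Tn B b hb ξ l t y cx Cx c4 C4 L q K1) {X δ τ : ℝ} (hδ : 0 ≤ δ) (hδ1 : δ ≤ 1)
    (hAP : APB B l Q b X t δ) (hX : K7 A' q c0 bb * L ^ 4 ≤ X) (hX0 : 0 < X)
    (hξl : (ξ : ℝ) ≤ (l : ℝ) ^ 2) (hl1 : (2 * (2 + q) + 4) * Kc A' g * L ^ 5 ≤ l)
    (hτ : 4 ≤ τ) (hτ2 : τ ≤ 8 * L)
    {A : Matrix (V (M / l)) (V (M / l)) ℝ} {c : ℝ} (hA : Dom A (t * (l : ℝ) ^ 2) c) (hc : c0 ≤ c)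
    {I : Type*} [Fintype I] {Bm : Matrix (V (M / l)) I ℝ} (hB : Below A Bm) {pf : ℝ}
    (hf : (gau I).real {g | τ < Rn M b t (lft (cl : V M → V (M / l)) (Bm *ᵥ g))} ≤ pf)
    (hpf : pf ≤ Real.exp (-((2 * (β + 3) + 2) * L))) (x : V (M / l)) :
    n2 (gau I) (fun g => uc M l b t x (Bm *ᵥ g) - mcm M l b t D0 x (Bm *ᵥ g)) ≤
      Real.exp (-(β * L)) := by
  have hL := H.hL
  have hL0 := H.L0
  have hn := H.side T2.hl T2.up
  have P := pr2_of C H hD hy hy0 T2 T2 T3 hδ hδ1 hAP hX hX0 hξl hl1 hτ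
  have hbb := C.bb1
  have hQ := H.Q0
  have hK5 := K5_pos C.hq C.hc0
  have h := n2_ucm1 P hA hB (σ := √(K5 q c0 * L) * Q) (a := √(7 * bb * L)) (pf := pf)
    (p := Real.exp (-((β + 3) * L))) (by positivity) (H.sig hn C.hc0 hc)
    (by
      rw [Real.one_le_sqrt]
      nlinarith)
    (H.blk hn C.hc0 hc hbb hX) hf (Real.exp_pos _).le (pb_of C H T2 T2 T3 hc hpf) x
  refine h.trans ?_
  have h1 := H.elo_le C.hC4 C.b1 hτ2 T2.up C.hA0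
  have h2 : Real.pi⁻¹ * (t * (l : ℝ) ^ 2) ≤ 2 := by
    have k1 := H.tlξ
    have k2 := H.lξ
    have ht := H.t0
    have hl := H.l0
    have k3 : t * (l : ℝ) ^ 2 ≤ 4 := by
      calc t * (l : ℝ) ^ 2 = t * l * l := by ring
        _ ≤ t * l * ξ := by gcongr
        _ ≤ 4 := k1
    have k4 : Real.pi⁻¹ ≤ 1 / 2 := by
      rw [inv_le_comm₀ (by positivity) (by norm_num)]
      linarith [Real.pi_gt_three]
    calc Real.pi⁻¹ * (t * (l : ℝ) ^ 2) ≤ 1 / 2 * 4 := by gcongr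
      _ = 2 := by norm_num
  have h3 := mul_le_mul_of_nonneg_right h2 (Real.exp_pos (-((β + 3) * L))).le
  have h4 : Real.exp (-((β + 3) * L)) = Real.exp (-(3 * L)) * Real.exp (-(β * L)) := by
    rw [← Real.exp_add]
    ring_nf
  have h5 : Real.exp (-(3 * L)) ≤ 1 / 8 := by
    have k2 : (2 : ℝ) ≤ Real.exp 1 := by linarith [Real.add_one_le_exp (1 : ℝ)]
    have k3 := pow_le_pow_left₀ (by norm_num) k2 3
    rw [← Real.exp_nat_mul] at k3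
    norm_num at k3
    have k5 : Real.exp 3 ≤ Real.exp (3 * L) := Real.exp_le_exp.2 (by linarith)
    rw [Real.exp_neg, inv_le_comm₀ (Real.exp_pos _) (by norm_num)]
    linarith
  have h6 := mul_le_mul_of_nonneg_right h5 (Real.exp_pos (-(β * L))).le
  have h7 := Real.exp_pos (-(β * L))
  rw [← h4] at h6
  linarith

/-- **`L²` distance of the densities to the cut densities of another torus** -/
theorem num_two (C : Cst b cx Cx c4 C4 q β c0 κ₀ A0 A' bo bb g K1 R) (H : Nm ξ l Q D0 t L q A')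
    (hD : A0 * L * ξ ≤ D0 * l) (hy : (R + 1) * L ^ 7 * y ≤ cx) (hy0 : 0 ≤ y)
    (T1 : Tn N b hb ξ l t y cx Cx c4 C4 L q K1) (T2 : Tn M b hb ξ l t y cx Cx c4 C4 L q K1)
    (T3 : Tn B b hb ξ l t y cx Cx c4 C4 L q K1) {X δ τ : ℝ} (hδ : 0 ≤ δ) (hδ1 : δ ≤ 1)
    (hAP : APB B l Q b X t δ) (hX : K7 A' q c0 bb * L ^ 4 ≤ X) (hX0 : 0 < X)
    (hξl : (ξ : ℝ) ≤ (l : ℝ) ^ 2) (hl1 : (2 * (2 + q) + 4) * Kc A' g * L ^ 5 ≤ l)
    (hτ : 4 ≤ τ) (hτ2 : τ ≤ 8 * L)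
    {A : Matrix (V (M / l)) (V (M / l)) ℝ} {c : ℝ} (hA : Dom A (t * (l : ℝ) ^ 2) c) (hc : c0 ≤ c)
    {I : Type*} [Fintype I] {Bm : Matrix (V (M / l)) I ℝ} (hB : Below A Bm) {pf : ℝ}
    (hf : (gau I).real {g | τ < Rn M b t (lft (cl : V M → V (M / l)) (Bm *ᵥ g))} ≤ pf)
    (hpf : pf ≤ Real.exp (-((2 * (β + 3) + 2) * L))) (x : V (M / l)) :
    n2 (gau I) (fun g => uc M l b t x (Bm *ᵥ g) -
      H733.Vt.lft D0 (mcm N l b t D0) x (Bm *ᵥ g)) ≤ Real.exp (-(β * L)) := by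
  have hL := H.hL
  have hL0 := H.L0
  have hn := H.side T2.hl T2.up
  have P := pr2_of C H hD hy hy0 T1 T2 T3 hδ hδ1 hAP hX hX0 hξl hl1 hτ
  have hbb := C.bb1
  have hQ := H.Q0
  have hK5 := K5_pos C.hq C.hc0
  have h := n2_ucm2 P hA hB (σ := √(K5 q c0 * L) * Q) (a := √(7 * bb * L)) (pf := pf)
    (p := Real.exp (-((β + 3) * L))) (by positivity) (H.sig hn C.hc0 hc)
    (by
      rw [Real.one_le_sqrt]
      nlinarith)
    (H.blk hn C.hc0 hc hbb hX) hf (Real.exp_pos _).le (pb_of C H T1 T2 T3 hc hpf) x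
  refine h.trans ?_
  have hR : KR cx (K8 A' q c0 κ₀ bb) (K9 g A' Cx) q β * L ^ 7 * ξ ≤ rad R L ξ := by
    rw [← C.hR]
    exact rad_lo R L ξ
  have h1 := H.elo_le C.hC4 C.b1 hτ2 T2.up C.hA0
  have h1a := H.eru_le (C := Cx) (r := rad R L ξ) C.hC4 C.b1 hτ2 T2.up T3.up C.hA0 C.hcx C.k8.le
    C.hβ hR
  have h1b := H.eru_le (C := Cx) (r := rad R L ξ) C.hC4 C.b1 hτ2 T1.up T3.up C.hA0 C.hcx C.k8.le
    C.hβ hR
  have h2 : Real.pi⁻¹ * (t * (l : ℝ) ^ 2) ≤ 2 := by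
    have k1 := H.tlξ
    have k2 := H.lξ
    have ht := H.t0
    have hl := H.l0
    have k3 : t * (l : ℝ) ^ 2 ≤ 4 := by
      calc t * (l : ℝ) ^ 2 = t * l * l := by ring
        _ ≤ t * l * ξ := by gcongr
        _ ≤ 4 := k1
    have k4 : Real.pi⁻¹ ≤ 1 / 2 := by
      rw [inv_le_comm₀ (by positivity) (by norm_num)]
      linarith [Real.pi_gt_three]
    calc Real.pi⁻¹ * (t * (l : ℝ) ^ 2) ≤ 1 / 2 * 4 := by gcongr
      _ = 2 := by norm_num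
  have h3 := mul_le_mul_of_nonneg_right h2 (Real.exp_pos (-((β + 3) * L))).le
  have h4 : Real.exp (-((β + 3) * L)) = Real.exp (-(3 * L)) * Real.exp (-(β * L)) := by
    rw [← Real.exp_add]
    ring_nf
  have h5 : Real.exp (-(3 * L)) ≤ 1 / 8 := by
    have k2 : (2 : ℝ) ≤ Real.exp 1 := by linarith [Real.add_one_le_exp (1 : ℝ)]
    have k3 := pow_le_pow_left₀ (by norm_num) k2 3
    rw [← Real.exp_nat_mul] at k3
    norm_num at k3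
    have k5 : Real.exp 3 ≤ Real.exp (3 * L) := Real.exp_le_exp.2 (by linarith)
    rw [Real.exp_neg, inv_le_comm₀ (Real.exp_pos _) (by norm_num)]
    linarith
  have h6 := mul_le_mul_of_nonneg_right h5 (Real.exp_pos (-(β * L))).le
  have h7 := Real.exp_pos (-(β * L))
  rw [← h4] at h6
  linarith

end fin

end Vale.Agent.P159.H358
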