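import Vale.Agent.P159.H358.Un8
import Vale.Agent.P159.H889.Vpc
import Vale.Agent.P159.H889.Vcx
import Vale.Agent.P159.H767.Nr15
import Vale.Agent.P159.H816.Ty5
import Vale.Agent.P159.H789.TaI

/-!
P159, module VTOR, numbers for fine cells, part 9: helper889's piece `PcM` (local approximants of the
real densities in the reference laws), one `b`, exponent of the cells after `C0`.
-/

open Finset MeasureTheory Filter Topology

set_option linter.unusedSectionVars false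
set_option linter.unusedDecidableInType false

namespace Vale.Agent.P159.H358

open Vale.Agent.P159.TM.Spec (V Rng)
open Vale.Agent.P159.TM.SpecC (wT)
open Vale.Agent.P159.H37 (gau Rs)
open Vale.Agent.P159.H552 (lft)
open Vale.Agent.P159.H864 (cl MC yt)
open Vale.Agent.P159.H462 (Dom)
open Vale.Agent.P159.H363 (acl Nf rel lf Below n2 below_pin)
open Vale.Agent.P159.H239 (TypE)
open Vale.Agent.P159.H889 (uc norm_uc_le Lcl tn2 CxF Cx BR MuR Bq top Lg lam nu)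
open Vale.Agent.P159.H972 (Par lg tn RNG Good GP)
open Vale.Agent.P159.H801 (Ev PS)
open Vale.Agent.P159.H816 (ev_typV ev_of_fam)
open Vale.Agent.P159.H789 (fam_apV)
open Vale.Agent.P159.H767 (Lv Sm1 sm1_ev)
open Matrix

/-- the body of helper889's `PcM` at one `b` -/
def PcMb (P : Par) (b c1 C1 k0 c0 Cm A0 B : ℝ) : Prop :=
  ∀ (a : ℝ) (n s : ℕ) (e y : ℝ), CxF P b a C1 c1 n s e y →
    ∀ r r', P.TT n e r → P.TT n e r' →
    ∀ [NeZero (2 ^ r / 2 ^ s)] [NeZero (2 ^ r' / 2 ^ s)] [NeZero (2 ^ (top P n e) / 2 ^ s)]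
      (h : 2 ^ r / 2 ^ s ∣ 2 ^ (top P n e) / 2 ^ s) (h' : 2 ^ r' / 2 ^ s ∣ 2 ^ (top P n e) / 2 ^ s),
      BR b n s r (top P n e) e a k0 c0 Cm h → BR b n s r' (top P n e) e a k0 c0 Cm h' →
      MuR b n s r r' ⌊A0 * Lg n s / lam n s⌋₊ B (Bq b n s r (top P n e) h)
        (Bq b n s r' (top P n e) h')

/-- thresholds -/
theorem ev_sq {b1 b2 pf : ℝ} (Q : ℕ) : Ev b1 b2 pf Q fun P _ =>
    2 ^ 12 ≤ P.X0 ∧ P.th ≤ 1 ∧ ∀ e, 0 < e → e ≤ P.es → Sq P.th e := by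
  refine Ev.of ⟨0, fun W _ => ⟨1, one_pos, fun ys _ _ => ⟨2 ^ 12, fun X0 hX0 => ⟨1, one_pos,
    fun x1 _ _ => ⟨1, one_pos, fun thp _ _ => ⟨1, one_pos, fun th hth hth1 => ⟨0, fun C0 _ =>
    ⟨1, one_pos, fun c1 _ _ => ?_⟩⟩⟩⟩⟩⟩⟩⟩
  obtain ⟨E, hE, h⟩ := sq_ex hth
  refine ⟨E, hE, fun P hP => ⟨by rw [hP.eX0]; exact hX0, by rw [hP.eth]; exact hth1, ?_⟩⟩
  intro e he hle
  rw [hP.eth]
  exact h e he (hle.trans hP.ees)

section one

variable {P : Par} {b c1 C1 : ℝ} {n s : ℕ} {e : ℝ}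

/-- the tail of `Rn` in a law close to the typical law -/
theorem rn_law (hb : 0 < b) {r : ℕ} [NeZero (2 ^ r / 2 ^ s)] (hsr : s ≤ r) {T : ℝ} (hT : 0 < T)
    (he : 0 < e) (he1 : e ≤ 1) (hth1 : P.th ≤ 1) (S : Sq P.th e)
    (htv : ∀ a', 0 < a' → a' < T → TypE (2 ^ r) (2 ^ s) b T a' (e ^ (-(P.th / 16))) 1
      (Real.exp (-(e ^ (-(P.th / 16))))))
    {A : Matrix (V (2 ^ r / 2 ^ s)) (V (2 ^ r / 2 ^ s)) ℝ} (hA : Nf A)
    (hHS : ∑ k, rel (acl (2 ^ r) (2 ^ s) b T T) A k ^ 2 ≤ (e ^ (22 / 25 : ℝ)) ^ 2) :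
    (gau (V (2 ^ r / 2 ^ s))).real {g | 8 < Rn (2 ^ r) b T
      (lft (cl : V (2 ^ r) → V (2 ^ r / 2 ^ s)) (H363.pin A *ᵥ g))} ≤
      Real.exp (-(e ^ (-(P.th / 20)))) := by
  have hl : 2 ^ s ∣ 2 ^ r := pow_dvd_pow 2 hsr
  have hnf := nf_aclT (N := 2 ^ r) (l := 2 ^ s) hb hl hT
  have hth := P.th0
  set u : ℝ := e ^ (-(P.th / 16)) with hu
  have hu0 : 0 < u := Real.rpow_pos_of_pos he _
  have h16 : 16 ≤ u := by
    have h1 := S.b2
    have h2 : e ^ (P.th / 16) * u = 1 := by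
      rw [hu, ← Real.rpow_add he, add_neg_cancel, Real.rpow_zero]
    have h3 := mul_le_mul_of_nonneg_right h1 hu0.le
    rw [mul_assoc, h2] at h3
    linarith
  have hp : Real.exp (-u) ≤ 1 / 2 := by
    rw [Real.exp_neg, inv_le_comm₀ (Real.exp_pos _) (by norm_num)]
    linarith [Real.add_one_le_exp u]
  have h1 := rn_typ hb hl hT (by linarith : 2 ≤ u) hp htv
  have mB : MeasurableSet {F : V (2 ^ r / 2 ^ s) → ℝ | 8 < Rn (2 ^ r) b T
      (lft (cl : V (2 ^ r) → V (2 ^ r / 2 ^ s)) F)} :=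
    measurableSet_lt measurable_const (measurable_Rn hb hl hT)
  have hη0 : 0 < e ^ (22 / 25 : ℝ) := Real.rpow_pos_of_pos he _
  have h2 := law_set hnf hA hη0 S.b3 hHS mB
  exact h2.trans (S.prob he he1 hth1 h1)

theorem Lg_Ls (h : s ≤ n) : Lg n s = Ls n s := by
  unfold H889.Lg Ls
  rw [Nat.cast_sub h]

/-- the window in cells -/
theorem D0_lo (hs : s ≤ n) {A0 : ℝ} (h : 2 ≤ A0 * Lg n s / lam n s) :
    A0 / 2 * Ls n s * 2 ^ n ≤ (⌊A0 * Lg n s / lam n s⌋₊ : ℝ) * 2 ^ s := by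
  have h1 : A0 * Lg n s / lam n s / 2 ≤ (⌊A0 * Lg n s / lam n s⌋₊ : ℝ) := by
    have := (Nat.lt_floor_add_one (A0 * Lg n s / lam n s)).le
    linarith
  have h2 := mul_le_mul_of_nonneg_right h1 (show (0 : ℝ) ≤ 2 ^ s by positivity)
  refine le_trans (le_of_eq ?_) h2
  rw [← Lg_Ls hs]
  unfold H889.lam
  field_simp

theorem D0_up (hs : s ≤ n) {A0 : ℝ} (h : 2 ≤ A0 * Lg n s / lam n s) :
    (⌊A0 * Lg n s / lam n s⌋₊ : ℝ) * 2 ^ s ≤ 2 * (A0 / 2) * Ls n s * 2 ^ n := by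
  have h1 : (⌊A0 * Lg n s / lam n s⌋₊ : ℝ) ≤ A0 * Lg n s / lam n s :=
    Nat.floor_le (by linarith)
  have h2 := mul_le_mul_of_nonneg_right h1 (show (0 : ℝ) ≤ 2 ^ s by positivity)
  refine h2.trans (le_of_eq ?_)
  rw [← Lg_Ls hs]
  unfold H889.lam
  field_simp

end one

/-- **helper889's piece `PcM`** -/
theorem pcm_ev {b1 b2 b : ℝ} (hb1 : 0 < b1) (hb : b1 ≤ b) (hb2 : 0 < b2) {c0 B : ℝ}
    (hc0 : 0 < c0) (hB : 0 ≤ B) :
    ∃ A00 : ℝ, 1 ≤ A00 ∧ ∀ A0 : ℝ, A00 ≤ A0 → ∀ (k0 Cm K : ℝ) (Q : ℕ),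
      Ev b1 b2 (9 / 10) Q fun P c1 => ∀ C1 : ℝ, 1 ≤ C1 → P.C0 ≤ C1 → C1 ≤ K * P.C0 →
        PcMb P b c1 C1 k0 c0 Cm A0 B := by
  have hb0 : 0 < b := hb1.trans_le hb
  obtain ⟨A00, hA00, hvt⟩ := vt_ev (β := 3 * B) hb1 hb2 hc0 (by positivity)
  refine ⟨2 * A00, by linarith, fun A0 hA0 k0 Cm K Q => ?_⟩
  refine (((((hvt (A0 / 2) (by linarith) (9 / 10) Q).and
    (ev_typV (b := b) (b2 := b2) hb1 hb (show (0 : ℝ) < 9 / 10 by norm_num) Q)).and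
    (ev_of_fam (fam_apV (b := b) (b1 := b1) (b2 := b2) (pf := 9 / 10) hb1 hb) Q)).and
    (sm1_ev (b1 := b1) (b2 := b2) K Q)).and (ev_sq (b1 := b1) (b2 := b2) (pf := 9 / 10) Q)).mono ?_
  rintro P c1 hA ⟨⟨⟨⟨⟨hc1, hc1t, hvt⟩, htv⟩, hap⟩, hc1', hpf, hPb1, hPb2, hsm⟩, hX12, hth1, hsq⟩
  intro C1 hC1 hC0 hCK a n s e y hF r r' hT hT' _ _ _ h h' hBR hBR'
  have cx := hF.cx
  have he := cx.e0
  have L : Lv P C1 c1 n s e y := ⟨cx.e0, cx.es, cx.y0, cx.y1, cx.yL, cx.s1, cx.s2⟩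
  have hs := hsm C1 hC1 hCK e cx.e0 cx.es
  have hsn := L.sn hs hC1
  have hns := L.ns hs hC1 hc1
  have hlam := L.lam hs hC1
  have hyy := L.yy hs
  have hsE := L.sE hs hC1 hC0 P.C00.le
  have he4 := hs.a6
  have he1 : e ≤ 1 := by linarith
  have htn := H972.tn_pos n
  have hth := P.th0
  have S := hsq e cx.e0 cx.es
  have lv : Lvl P b c1 n s e (tn n) :=
    ⟨cx.e0, cx.es, cx.G, le_rfl, by linarith, hsn, cx.ns, hns, hlam⟩
  obtain ⟨τ0, a0, ht1, ht2, hGP⟩ := cx.G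
  have gp := hGP e le_rfl cx.es
  have hn12 : 12 ≤ n := by
    have h2 := (gp.rng r (Or.inl hT)).1.hX
    exact (pow_le_pow_iff_right₀ (one_lt_two : (1 : ℕ) < 2)).1 (hX12.trans h2)
  have hsr : s ≤ r := hsn.trans ((Nat.le_add_right _ _).trans hT.1)
  have hsr' : s ≤ r' := hsn.trans ((Nat.le_add_right _ _).trans hT'.1)
  -- block noise
  set v : ℝ := e ^ (-(49 / 100 * P.th)) with hv
  have hv0 : 0 < v := Real.rpow_pos_of_pos he _
  have hv1 : e ^ (49 / 100 * P.th) * v = 1 := by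
    rw [hv, ← Real.rpow_add he, add_neg_cancel, Real.rpow_zero]
  have hv6 : 6 ≤ v := by
    have h3 := mul_le_mul_of_nonneg_right S.b6 hv0.le
    rw [mul_assoc, hv1] at h3
    linarith
  have hv2 : v ^ 2 * e ^ (-(P.th / 400)) ≤ 2 ^ (r - n) := by
    have h3 : e ^ (-P.th) ≤ (2 : ℝ) ^ (r - n) := by
      refine (H733.Vt.lg_ge (c := P.th) he).trans (pow_le_pow_right₀ one_le_two ?_)
      have := hT.1
      unfold H972.Par.kE at this
      omega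
    refine le_trans ?_ h3
    rw [hv, ← Real.rpow_natCast (e ^ (-(49 / 100 * P.th))), ← Real.rpow_mul he.le,
      ← Real.rpow_add he]
    refine Real.rpow_le_rpow_of_exponent_ge he he1 ?_
    push_cast
    linarith
  have hv3 : v ≤ 2 ^ P.xE e := by
    refine le_trans ?_ (H733.Vt.lg_ge (c := P.x1) he)
    refine Real.rpow_le_rpow_of_exponent_ge he he1 ?_
    have h3 := hA.hx
    have h4 := P.thp0
    have h5 := P.x10
    linarith
  have hap' := hap a0 n e τ0 he cx.es hn12 gp r hT v hv6 hv2 hv3 s hsE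
  have hX1 : e ^ (-(P.th / 4)) ≤ v / 72 := by
    rw [le_div_iff₀ (by norm_num)]
    have h3 : e ^ (-(P.th / 4)) = e ^ (49 / 100 * P.th - P.th / 4) * v := by
      rw [hv, ← Real.rpow_add he]
      congr 1
      ring
    have h4 := mul_le_mul_of_nonneg_right S.b5 hv0.le
    rw [h3]
    linarith
  have hV : VtIn P b c1 n s e (tn n) (e ^ (-(P.thp / 20)) * y) (v / 72) (2 * e ^ (1 / 8 : ℝ)) r r' :=
    ⟨lv, hT, hT', cx.vy r hT, cx.vy r' hT', hyy,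
      by have := Real.rpow_pos_of_pos he (1 / 8 : ℝ); positivity, S.b4, hap', hX1⟩
  -- the window
  have hLL := Lg_Ls hsn
  have hLs1 : 1 ≤ Ls n s := lv.L1 he4
  have h2 : 2 ≤ A0 * Lg n s / lam n s := by
    have hl0 : 0 < lam n s := by
      unfold H889.lam
      positivity
    rw [le_div_iff₀ hl0, hLL]
    have hl1 : lam n s ≤ 1 := by
      have : lam n s ≤ e := hlam
      linarith
    nlinarith
  have hD1 := D0_lo hsn h2
  have hD2 := D0_up hsn h2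
  obtain ⟨N1, N2⟩ := hvt b n s e (tn n) (e ^ (-(P.thp / 20)) * y) (v / 72) (2 * e ^ (1 / 8 : ℝ))
    r r' hV _ hD1 hD2
  have hnR : ((n : ℝ) - s) ≤ e ^ (-(2 * c1)) := by
    rw [← Nat.cast_sub hsn]
    exact hns
  have hf := rn_law (P := P) hb0 hsr htn he he1 hth1 S
    (fun a' ha ha' => htv n e τ0 a0 he cx.es gp r hT s hsE cx.ns hnR (tn n) le_rfl (by linarith)
      a' ha ha') hBR.nf hBR.hs
  have hf' := rn_law (P := P) hb0 hsr' htn he he1 hth1 S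
    (fun a' ha ha' => htv n e τ0 a0 he cx.es gp r' hT' s hsE cx.ns hnR (tn n) le_rfl (by linarith)
      a' ha ha') hBR'.nf hBR'.hs
  have k1 := N1 hBR.two.dom le_rfl (below_pin _) hf
  have k2 := N2 hBR'.two.dom le_rfl (below_pin _) hf'
  rw [← hLL] at k1 k2
  have hl : 2 ^ s ∣ 2 ^ r := pow_dvd_pow 2 hsr
  refine ⟨mcm (2 ^ r) (2 ^ s) b (tn n) ⌊A0 * Lg n s / lam n s⌋₊, lcl_ucm hb0.le htn hl k1, ?_,
    H733.Vt.lcl_lft (lcl_mcm hb0.le htn hl (1 : Matrix (V (2 ^ r / 2 ^ s)) (V (2 ^ r / 2 ^ s)) ℝ)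
      _) k2⟩
  intro x F
  refine (norm_uc_le hb0.le htn hl x _).trans ?_
  have hpi := Real.pi_pos
  have h5 : (2 * Real.pi)⁻¹ ≤ Real.pi⁻¹ := inv_anti₀ hpi (by linarith)
  exact mul_le_mul_of_nonneg_right h5 (by positivity)

end Vale.Agent.P159.H358
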