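import Vale.Agent.P159.H358.Ugeo4

/-!
P159, module VTOR, `u_two` for fine cells, part 1: the cut field with the MEAN over the box as the
reference constant, and the local approximants `mcm` of the densities.
-/

open Finset MeasureTheory

set_option linter.unusedSectionVars false
set_option linter.unusedDecidableInType false

namespace Vale.Agent.P159.H358

open Vale.Agent.P159.H37 (wt Rs gau)
open Vale.Agent.P159.TM.Spec (V)
open Vale.Agent.P159.H552 (ut ut_ch cutB)
open Vale.Agent.P159.H864 (cl)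
open Vale.Agent.P159.H363 (Ch Cov sh Loc measurable_mulVec)
open Vale.Agent.P159.H889 (uc cov_uc ch_uc cutx norm_uc_le continuous_uc tn2 tn2_sq Lcl mem_box_add)
open Vale.Agent.P159.H733.Torg (ip)
open Vale.Agent.P159.H733.Vt (zb zz trp)
open Matrix

/-! ### mean and cut -/

section cut

variable {K : ℕ} [NeZero K]

/-- mean over the box -/
noncomputable def av (D : ℕ) (x : V K) (F : V K → ℝ) : ℝ :=
  ((H462.box x D).card : ℝ)⁻¹ * ∑ v ∈ H462.box x D, F v

theorem card_box_pos (D : ℕ) (x : V K) : (0 : ℝ) < (H462.box x D).card := by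
  exact_mod_cast Finset.card_pos.2 ⟨x, H889.self_mem_box x D⟩

theorem av_add (D : ℕ) (x : V K) (F : V K → ℝ) (c : ℝ) :
    av D x (fun y => F y + c) = av D x F + c := by
  have h := card_box_pos D x
  unfold av
  rw [Finset.sum_add_distrib, Finset.sum_const, nsmul_eq_mul]
  field_simp

theorem av_congr {D : ℕ} {x : V K} {F F' : V K → ℝ} (h : ∀ v ∈ H462.box x D, F v = F' v) :
    av D x F = av D x F' := by
  unfold av
  rw [Finset.sum_congr rfl h]

theorem av_sub_le {D : ℕ} {x : V K} {F F' : V K → ℝ} {r : ℝ}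
    (h : ∀ v ∈ H462.box x D, |F v - F' v| ≤ r) : |av D x F - av D x F'| ≤ r := by
  have hc := card_box_pos D x
  unfold av
  rw [← mul_sub, ← Finset.sum_sub_distrib, abs_mul, abs_of_pos (inv_pos.2 hc)]
  calc ((H462.box x D).card : ℝ)⁻¹ * |∑ v ∈ H462.box x D, (F v - F' v)|
      ≤ ((H462.box x D).card : ℝ)⁻¹ * ∑ v ∈ H462.box x D, r := by
        refine mul_le_mul_of_nonneg_left ?_ (inv_pos.2 hc).le
        exact (Finset.abs_sum_le_sum_abs _ _).trans (Finset.sum_le_sum h)
    _ = r := by
        rw [Finset.sum_const, nsmul_eq_mul]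
        field_simp

theorem sum_sub_av (D : ℕ) (x : V K) (F : V K → ℝ) :
    ∑ v ∈ H462.box x D, (F v - av D x F) = 0 := by
  have hc := card_box_pos D x
  rw [Finset.sum_sub_distrib, Finset.sum_const, nsmul_eq_mul]
  unfold av
  field_simp
  ring

theorem av_sh (D : ℕ) (a x : V K) (F : V K → ℝ) : av D (x + a) F = av D x (sh a F) := by
  have e : ∑ v ∈ H462.box (x + a) D, F v = ∑ v ∈ H462.box x D, sh a F v := by
    symm
    refine Finset.sum_equiv (Equiv.addRight a) (fun v => ?_) (fun v _ => ?_)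
    · rw [Equiv.coe_addRight, mem_box_add]
    · rw [Equiv.coe_addRight]
      rfl
  have e2 : (H462.box (x + a) D).card = (H462.box x D).card := by
    symm
    refine Finset.card_equiv (Equiv.addRight a) fun v => ?_
    rw [Equiv.coe_addRight, mem_box_add]
  unfold av
  rw [e, e2]

theorem continuous_av (D : ℕ) (x : V K) : Continuous (av D x) := by
  unfold av
  fun_prop

/-- the field cut to the box, its mean outside -/
noncomputable def cutm (D : ℕ) (x : V K) (F : V K → ℝ) : V K → ℝ :=
  fun v => if v ∈ H462.box x D then F v else av D x F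

theorem cutm_add (D : ℕ) (x : V K) (F : V K → ℝ) (c : ℝ) :
    cutm D x (fun y => F y + c) = fun y => cutm D x F y + c := by
  funext v
  unfold cutm
  rw [av_add]
  split_ifs <;> rfl

theorem cutm_congr {D : ℕ} {x : V K} {F F' : V K → ℝ} (h : ∀ v ∈ H462.box x D, F v = F' v) :
    cutm D x F = cutm D x F' := by
  funext v
  unfold cutm
  rw [av_congr h]
  split_ifs with hv
  · exact h v hv
  · rfl

theorem cutm_sub_le {D : ℕ} {x : V K} {F F' : V K → ℝ} {r : ℝ}
    (h : ∀ v ∈ H462.box x D, |F v - F' v| ≤ r) (v : V K) :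
    |cutm D x F v - cutm D x F' v| ≤ r := by
  unfold cutm
  split_ifs with hv
  · exact h v hv
  · exact av_sub_le h

theorem sh_cutm (D : ℕ) (a x : V K) (F : V K → ℝ) :
    sh a (cutm D (x + a) F) = cutm D x (sh a F) := by
  funext y
  unfold cutm
  rw [← av_sh]
  show (if y + a ∈ H462.box (x + a) D then F (y + a) else av D (x + a) F) = _
  by_cases h : y ∈ H462.box x D
  · rw [if_pos h, if_pos (mem_box_add.2 h)]
    rfl
  · rw [if_neg h, if_neg (fun h' => h (mem_box_add.1 h'))]

theorem continuous_cutm (D : ℕ) (x : V K) : Continuous (cutm D x) := by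
  refine continuous_pi fun v => ?_
  unfold cutm
  split_ifs
  · exact continuous_apply v
  · exact continuous_av D x

end cut

/-! ### local approximants -/

section lcl

variable {N l : ℕ} [NeZero N] [NeZero (N / l)] {b t : ℝ}

/-- the densities of the field cut to the box, mean outside -/
noncomputable def mcm (N l : ℕ) [NeZero N] [NeZero (N / l)] (b t : ℝ) (D0 : ℕ) (x : V (N / l))
    (F : V (N / l) → ℝ) : ℂ := uc N l b t x (cutm D0 x F)

/-- **local approximants of the real densities, mean reference** -/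
theorem lcl_ucm (hb : 0 ≤ b) (ht : 0 < t) (hl : l ∣ N) {A : Matrix (V (N / l)) (V (N / l)) ℝ}
    {D0 : ℕ} {η : ℝ} (h : ∀ x, tn2 A (fun F => uc N l b t x F - uc N l b t x (cutm D0 x F)) ≤ η) :
    Lcl A D0 η (Real.pi⁻¹ * (t * (l : ℝ) ^ 2)) (uc N l b t) (mcm N l b t D0) := by
  refine ⟨fun x => ?_, ⟨_, fun x F => norm_uc_le hb ht hl x _⟩, fun x => ?_, fun a x F => ?_,
    fun x F F' hF => ?_, fun x F F' r hr => ?_, h⟩
  · exact ((continuous_uc hb ht x).comp (continuous_cutm D0 x)).measurable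
  · intro F c
    unfold mcm
    rw [cutm_add, ch_uc hb ht]
  · unfold mcm
    rw [cov_uc hb ht hl a x, sh_cutm]
  · unfold mcm
    rw [cutm_congr hF]
  · unfold mcm uc
    have e : H552.nc (cl : V N → V (N / l)) x = (l : ℝ) ^ 2 := by
      rw [H552.nc_eq]
      exact H864.card_cell hl x
    rw [← e]
    exact H552.ut_lip hb ht x _ _ r fun v => cutm_sub_le hr v

/-- the approximants are their own approximants -/
theorem lcl_mcm (hb : 0 ≤ b) (ht : 0 < t) (hl : l ∣ N) (A : Matrix (V (N / l)) (V (N / l)) ℝ)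
    (D0 : ℕ) : Lcl A D0 0 (Real.pi⁻¹ * (t * (l : ℝ) ^ 2)) (mcm N l b t D0) (mcm N l b t D0) := by
  have hB : ∀ x F, ‖uc N l b t x F - uc N l b t x (cutm D0 x F)‖ ≤
      Real.pi⁻¹ * (t * (l : ℝ) ^ 2) := by
    intro x F
    refine (norm_sub_le _ _).trans ((add_le_add (norm_uc_le hb ht hl x F)
      (norm_uc_le hb ht hl x _)).trans (le_of_eq ?_))
    have := Real.pi_pos
    field_simp
    ring
  have h : Lcl A D0 (Real.pi⁻¹ * (t * (l : ℝ) ^ 2)) (Real.pi⁻¹ * (t * (l : ℝ) ^ 2))
      (uc N l b t) (mcm N l b t D0) := by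
    refine lcl_ucm hb ht hl fun x => ?_
    refine H363.n2_le_const ?_ (by positivity) fun g => hB x _
    have hc : Continuous fun F => uc N l b t x F - uc N l b t x (cutm D0 x F) :=
      (continuous_uc hb ht x).sub ((continuous_uc hb ht x).comp (continuous_cutm D0 x))
    exact (hc.measurable.comp (measurable_mulVec _)).aestronglyMeasurable
  exact H733.Vt.Lcl.self h

end lcl

/-! ### window fields in natural coordinates, outside constant `a` -/

section win

variable {K : ℕ} [NeZero K]

/-- the field `h` on the box of radius `D` around `x`, the constant `a` outside -/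
noncomputable def cwa (K : ℕ) [NeZero K] (D : ℕ) (h : ℤ × ℤ → ℝ) (a : ℝ) (x v : V K) : ℝ :=
  if v ∈ H462.box x D then h ((v - x).1.valMinAbs, (v - x).2.valMinAbs) else a

/-- the field relative to the constant `a`, natural coordinates -/
noncomputable def gqa (q D : ℕ) (h : ℤ × ℤ → ℝ) (a : ℝ) (i k : ℕ) : ℝ :=
  if nr q D i k then h ((i : ℤ) - q, (k : ℤ) - q) - a else 0

/-- mean of a window function -/
noncomputable def avz (D : ℕ) (h : ℤ × ℤ → ℝ) : ℝ := ((zb D).card : ℝ)⁻¹ * ∑ ζ ∈ zb D, h ζ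

theorem cwa_nat {q D : ℕ} (h1 : D ≤ q) (h2 : q + D < K) (h3 : 2 * D < K) (h : ℤ × ℤ → ℝ) (a : ℝ) :
    cwa K D h a (pc K (q, q)) = fun v => cfn K (gqa q D h a) v + a := by
  have hq : ((q : ℕ) : ZMod K).val = q := ZMod.val_cast_of_lt (by omega)
  funext v
  unfold cwa cfn gqa
  by_cases hv : v ∈ H462.box (pc K (q, q)) D
  · have hn := (box_nat h1 h2 h3 v).1 hv
    rw [if_pos hv, if_pos hn, sub_add_cancel]
    have e1 := vma_of (K := K) (q : ZMod K) v.1 h3 (by rw [hq]; exact hn.1)
    have e2 := vma_of (K := K) (q : ZMod K) v.2 h3 (by rw [hq]; exact hn.2)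
    rw [hq] at e1 e2
    show h ((v.1 - (q : ZMod K)).valMinAbs, (v.2 - (q : ZMod K)).valMinAbs) = _
    rw [e1, e2]
  · rw [if_neg hv, if_neg (fun hn => hv ((box_nat h1 h2 h3 v).2 hn)), zero_add]

theorem cwa_sh (D : ℕ) (h : ℤ × ℤ → ℝ) (c : ℝ) (x a v : V K) :
    cwa K D h c (x + a) (v + a) = cwa K D h c x v := by
  unfold cwa
  rw [add_sub_add_right_eq_sub]
  by_cases hv : v ∈ H462.box x D
  · rw [if_pos hv, if_pos (mem_box_add.2 hv)]
  · rw [if_neg hv, if_neg fun h2 => hv (mem_box_add.1 h2)]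

theorem ip_vma (x v : V K) : x + ip K ((v - x).1.valMinAbs, (v - x).2.valMinAbs) = v := by
  unfold H733.Torg.ip
  refine Prod.ext ?_ ?_
  · show x.1 + (((v - x).1.valMinAbs : ℤ) : ZMod K) = v.1
    rw [ZMod.coe_valMinAbs]
    show x.1 + (v.1 - x.1) = v.1
    ring
  · show x.2 + (((v - x).2.valMinAbs : ℤ) : ZMod K) = v.2
    rw [ZMod.coe_valMinAbs]
    show x.2 + (v.2 - x.2) = v.2
    ring

theorem card_box_eq {D : ℕ} (hD : 2 * D < K) (x : V K) : (H462.box x D).card = (zb D).card := by
  have h := H733.Vt.sum_box hD x (fun _ : V K => (1 : ℕ))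
  simpa using h

theorem av_eq {D : ℕ} (hD : 2 * D < K) (x : V K) (F : V K → ℝ) :
    av D x F = avz D fun ζ => F (x + ip K ζ) := by
  unfold av avz
  rw [card_box_eq hD, H733.Vt.sum_box hD]

theorem cutm_eq {D : ℕ} (hD : 2 * D < K) (x : V K) (F : V K → ℝ) :
    cutm D x F = cwa K D (fun ζ => F (x + ip K ζ)) (avz D fun ζ => F (x + ip K ζ)) x := by
  funext v
  unfold cutm cwa
  rw [← av_eq hD]
  show _ = if v ∈ H462.box x D then F (x + ip K ((v - x).1.valMinAbs, (v - x).2.valMinAbs)) else _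
  rw [ip_vma]

theorem trp_box {K' : ℕ} [NeZero K'] {D : ℕ} (z : V K) (x : V K') (F : V K' → ℝ) {v : V K}
    (hv : v ∈ H462.box z D) :
    trp D z x F v = F (x + ip K' ((v - z).1.valMinAbs, (v - z).2.valMinAbs)) := by
  unfold H733.Vt.trp H733.Vt.zz
  rw [if_pos hv]

/-- the cut of the transported field is the same window field -/
theorem cutm_trp {K' : ℕ} [NeZero K'] {D : ℕ} (hD : 2 * D < K) (z : V K) (x : V K')
    (F : V K' → ℝ) :
    cutm D z (trp D z x F) =
      cwa K D (fun ζ => F (x + ip K' ζ)) (avz D fun ζ => F (x + ip K' ζ)) z := by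
  have e : av D z (trp D z x F) = avz D fun ζ => F (x + ip K' ζ) := by
    unfold av avz
    rw [card_box_eq hD, H733.Vt.sum_box hD]
    congr 1
    refine Finset.sum_congr rfl fun ζ hζ => ?_
    unfold H733.Vt.trp
    rw [H733.Vt.zz_ip hD hζ]
  funext v
  unfold cutm cwa
  rw [e]
  by_cases hv : v ∈ H462.box z D
  · rw [if_pos hv, if_pos hv, trp_box z x F hv]
  · rw [if_neg hv, if_neg hv]

end win

section place

variable {K l : ℕ} [NeZero K] [NeZero (K / l)] {b t : ℝ}

/-- the density of a window field does not depend on the place -/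
theorem uc_cwa (hb : 0 ≤ b) (ht : 0 < t) (hl : l ∣ K) (D : ℕ) (h : ℤ × ℤ → ℝ) (a : ℝ)
    (x p : V (K / l)) :
    uc K l b t x (cwa (K / l) D h a x) = uc K l b t p (cwa (K / l) D h a p) := by
  have e : p = x + (p - x) := by ring
  conv_rhs => rw [e]
  rw [cov_uc hb ht hl]
  congr 1
  funext v
  exact (cwa_sh D h a x (p - x) v).symm

/-- sums over the sites of a window field vanish when `a` is the mean -/
theorem sum_cwa (hl : l ∣ K) {D : ℕ} (hD : 2 * D < K / l) (h : ℤ × ℤ → ℝ) (x : V (K / l)) :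
    ∑ v : V K, H552.lft (cl : V K → V (K / l))
      (fun v => cwa (K / l) D h (avz D h) x v - avz D h) v = 0 := by
  have e1 : ∑ v : V K, H552.lft (cl : V K → V (K / l))
      (fun v => cwa (K / l) D h (avz D h) x v - avz D h) v =
      ∑ c : V (K / l), (l : ℝ) ^ 2 * (cwa (K / l) D h (avz D h) x c - avz D h) := by
    rw [← Finset.sum_fiberwise (s := Finset.univ) (g := (cl : V K → V (K / l)))]
    refine Finset.sum_congr rfl fun c _ => ?_
    rw [Finset.sum_congr rfl (g := fun _ => cwa (K / l) D h (avz D h) x c - avz D h) fun v hv => by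
      unfold H552.lft
      rw [(Finset.mem_filter.1 hv).2], Finset.sum_const, nsmul_eq_mul, H864.card_cell hl]
  rw [e1, ← Finset.mul_sum]
  have e2 : ∑ c : V (K / l), (cwa (K / l) D h (avz D h) x c - avz D h) =
      ∑ c ∈ H462.box x D, (cwa (K / l) D h (avz D h) x c - avz D h) := by
    symm
    refine Finset.sum_subset (Finset.subset_univ _) fun c _ hc => ?_
    unfold cwa
    rw [if_neg hc, sub_self]
  have e3 : ∑ c ∈ H462.box x D, (cwa (K / l) D h (avz D h) x c - avz D h) = 0 := by
    rw [H733.Vt.sum_box hD]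
    have e4 : ∀ ζ ∈ zb D, cwa (K / l) D h (avz D h) x (x + ip (K / l) ζ) - avz D h =
        h ζ - avz D h := by
      intro ζ hζ
      have h1 := H733.Vt.zz_ip hD hζ x
      have hm : x + ip (K / l) ζ ∈ H462.box x D := H733.Vt.ip_mem_box hζ x
      unfold H733.Vt.zz at h1
      rw [if_pos hm] at h1
      unfold cwa
      rw [if_pos hm, h1]
    rw [Finset.sum_congr rfl e4, Finset.sum_sub_distrib, Finset.sum_const, nsmul_eq_mul]
    have hc : (0 : ℝ) < (zb D).card := by
      exact_mod_cast Finset.card_pos.2 ⟨0, H733.Vt.zero_mem_zb D⟩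
    have : ((zb D).card : ℝ) * avz D h = ∑ ζ ∈ zb D, h ζ := by
      unfold avz
      field_simp
    rw [this, sub_self]
  rw [e2, e3, mul_zero]

end place

end Vale.Agent.P159.H358
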