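import Vale.Agent.P159.H358.Vtor1

/-!
P159, module VTOR, abstract part 2: the deviation `|ψ_x / z - main|` in the typical law on one torus
from the deviation on the other torus. Laws of the window field modulo constants:
`D_k(b,j) = C_k(ι_k b, j) - C_k(ι_k b0, j)`, `D₂ D₂ᵀ = D₁ (1 + H') D₁ᵀ`, `|H'|_HS ≤ η'`.
-/

namespace Vale.Agent.P159.H358

open MeasureTheory ProbabilityTheory Finset Matrix
open Vale.Agent.P159.H37 (gau)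
open Vale.Agent.P159.H363 (Ch Loc mainf ee norm_ee measurable_mainf norm_mainf_le
  measurable_mulVec n2 n2_le n2_sq n2_nonneg n2_add_le n2_sub_le memLp_bdd n2_const_mul n2_congr)
open Vale.Agent.P159.H552 (Ps cutB hs_l2 hs_le norm_Ps_le measurable_Ps ch_Ps meas_mulVec ch_mainf
  norm_mainf_le_one norm_ee_sub_le l2_good)
open scoped Real

noncomputable section

set_option linter.unusedSectionVars false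

variable {B Λ : Type*} [Fintype B] [Fintype Λ] [DecidableEq B] [DecidableEq Λ]

/-- centred window field of `C a` -/
def Dw {J : Type*} (ι : B → Λ) (b0 : B) (C : Matrix Λ J ℝ) : Matrix B J ℝ :=
  fun b j => C (ι b) j - C (ι b0) j

theorem Dw_mulVec {J : Type*} [Fintype J] (ι : B → Λ) (b0 : B) (C : Matrix Λ J ℝ) (a : J → ℝ)
    (b : B) : (Dw ι b0 C *ᵥ a) b = rsw ι (C *ᵥ a) b + -(C *ᵥ a) (ι b0) := by
  simp only [mulVec, dotProduct, Dw, rsw, sub_mul, Finset.sum_sub_distrib]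
  ring

/-- a charge one functional on window fields has the same modulus at `φ` and at `φ + c` -/
theorem ch_norm {ψ : (Λ → ℝ) → ℂ} (h : Ch ψ) (F : Λ → ℝ) (c : ℝ) :
    ‖ψ (fun x => F x + c)‖ = ‖ψ F‖ := by
  rw [h F c, norm_mul, Complex.norm_exp_ofReal_mul_I, one_mul]

theorem norm_Dw {J : Type*} [Fintype J] {del : (B → ℝ) → ℂ} (hc : Ch del) (ι : B → Λ) (b0 : B)
    (C : Matrix Λ J ℝ) (a : J → ℝ) : ‖del (Dw ι b0 C *ᵥ a)‖ = ‖del (rsw ι (C *ᵥ a))‖ := by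
  have e : Dw ι b0 C *ᵥ a = fun b => rsw ι (C *ᵥ a) b + -(C *ᵥ a) (ι b0) :=
    funext fun b => Dw_mulVec ι b0 C a b
  rw [e, ch_norm hc]

theorem n2_le_sqrt {Ω : Type*} [MeasurableSpace Ω] {P : Measure Ω} {u : Ω → ℂ} (hu : MemLp u 2 P)
    {s : ℝ} (h : ∫ a, ‖u a‖ ^ 2 ∂P ≤ s) : n2 P u ≤ √s := by
  have h0 : 0 ≤ s := (integral_nonneg fun a => by positivity).trans h
  rw [n2_le hu (Real.sqrt_nonneg _), Real.sq_sqrt h0]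
  exact h

theorem sqrt_add_sq_le {a c : ℝ} (ha : 0 ≤ a) (hc : 0 ≤ c) : √(a ^ 2 + c) ≤ a + √c := by
  rw [Real.sqrt_le_left (by positivity)]
  have h1 := Real.sq_sqrt hc
  have h2 := Real.sqrt_nonneg c
  nlinarith

variable {I₁ I₂ J₁ J₂ Λ₁ Λ₂ : Type*} [Fintype I₁] [Fintype I₂] [Fintype J₁] [Fintype J₂]
  [Fintype Λ₁] [Fintype Λ₂] [DecidableEq Λ₁] [DecidableEq Λ₂]

/-- **VTOR, abstract form.** -/
theorem vtor {ι₁ : B → Λ₁} {ι₂ : B → Λ₂} {ah₁ : Matrix Λ₁ Λ₁ ℝ} {ah₂ : Matrix Λ₂ Λ₂ ℝ}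
    {A₁ : Matrix Λ₁ I₁ ℝ} {A₂ : Matrix Λ₂ I₂ ℝ} {u₁ : Λ₁ → (Λ₁ → ℝ) → ℂ}
    {u₂ : Λ₂ → (Λ₂ → ℝ) → ℂ} {K : ℝ} (T₁ : TD ι₁ ah₁ A₁ u₁ K) (T₂ : TD ι₂ ah₂ A₂ u₂ K)
    {S₁ : Matrix Λ₁ Λ₁ ℝ} {S₂ : Matrix Λ₂ Λ₂ ℝ} (hS₁0 : ∀ x y, 0 ≤ S₁ x y)
    (hS₁1 : ∀ x, ∑ y, S₁ x y = 1) (hS₂0 : ∀ x y, 0 ≤ S₂ x y) (hS₂1 : ∀ x, ∑ y, S₂ x y = 1)
    (b0 : B) (C₁ : Matrix Λ₁ J₁ ℝ) (C₂ : Matrix Λ₂ J₂ ℝ) (z : ℂ) {α β γ γ' p κ η : ℝ}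
    (hα₁ : n2 (gau J₁) (fun a => Ps ah₁ A₁ u₁ (ι₁ b0) (C₁ *ᵥ a) -
      Ps ah₁ A₁ u₁ (ι₁ b0) (exw ι₁ univ b0 (rsw ι₁ (C₁ *ᵥ a)))) ≤ α)
    (hα₂ : n2 (gau J₂) (fun a => Ps ah₂ A₂ u₂ (ι₂ b0) (C₂ *ᵥ a) -
      Ps ah₂ A₂ u₂ (ι₂ b0) (exw ι₂ univ b0 (rsw ι₂ (C₂ *ᵥ a)))) ≤ α)
    (hβ₁ : n2 (gau J₁) (fun a => mainf S₁ (ι₁ b0) (C₁ *ᵥ a) -
      mainf S₁ (ι₁ b0) (exw ι₁ univ b0 (rsw ι₁ (C₁ *ᵥ a)))) ≤ β)
    (hβ₂ : n2 (gau J₂) (fun a => mainf S₂ (ι₂ b0) (C₂ *ᵥ a) -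
      mainf S₂ (ι₂ b0) (exw ι₂ univ b0 (rsw ι₂ (C₂ *ᵥ a)))) ≤ β)
    {G : Set (B → ℝ)} (hG : MeasurableSet G) (hγ0 : 0 ≤ γ) (hγ'0 : 0 ≤ γ')
    (hγ : ∀ φ ∈ G, ‖Ps ah₂ A₂ u₂ (ι₂ b0) (exw ι₂ univ b0 φ) -
      Ps ah₁ A₁ u₁ (ι₁ b0) (exw ι₁ univ b0 φ)‖ ≤ γ)
    (hγ' : ∀ φ ∈ G, ‖mainf S₂ (ι₂ b0) (exw ι₂ univ b0 φ) -
      mainf S₁ (ι₁ b0) (exw ι₁ univ b0 φ)‖ ≤ γ')
    (hp : (gau J₂).real {a | rsw ι₂ (C₂ *ᵥ a) ∉ G} ≤ p)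
    [DecidableEq J₁] {H : Matrix J₁ J₁ ℝ} (hH : Hᵀ = H)
    (hcov : Dw ι₂ b0 C₂ * (Dw ι₂ b0 C₂)ᵀ = Dw ι₁ b0 C₁ * (1 + H) * (Dw ι₁ b0 C₁)ᵀ)
    (hη : 0 < η) (hη2 : η ≤ 1 / 2) (hκ : 1 ≤ κ) (hHS : ∑ x, ∑ y, H x y ^ 2 ≤ η ^ 2) :
    n2 (gau J₂) (fun a => Ps ah₂ A₂ u₂ (ι₂ b0) (C₂ *ᵥ a) -
        z * mainf S₂ (ι₂ b0) (C₂ *ᵥ a)) ≤
      √κ * n2 (gau J₁) (fun a => Ps ah₁ A₁ u₁ (ι₁ b0) (C₁ *ᵥ a) -
        z * mainf S₁ (ι₁ b0) (C₁ *ᵥ a)) +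
      ((1 + √κ) * (α + ‖z‖ * β) + (γ + ‖z‖ * γ') + 2 * (K + ‖z‖) * √p +
        (K + ‖z‖) * √(2 * κ ^ (-(1 / (2 * η))))) := by
  have hK0 : 0 ≤ K := (norm_nonneg _).trans (T₁.hK (ι₁ b0) 0)
  set x₁ := ι₁ b0 with hx₁
  set x₂ := ι₂ b0 with hx₂
  set ψ₁ : (Λ₁ → ℝ) → ℂ := Ps ah₁ A₁ u₁ x₁ with hψ₁
  set ψ₂ : (Λ₂ → ℝ) → ℂ := Ps ah₂ A₂ u₂ x₂ with hψ₂
  set m₁ : (Λ₁ → ℝ) → ℂ := mainf S₁ x₁ with hm₁
  set m₂ : (Λ₂ → ℝ) → ℂ := mainf S₂ x₂ with hm₂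
  set E₁ : (B → ℝ) → Λ₁ → ℝ := exw ι₁ univ b0 with hE₁
  set E₂ : (B → ℝ) → Λ₂ → ℝ := exw ι₂ univ b0 with hE₂
  set R₁ : (J₁ → ℝ) → B → ℝ := fun a => rsw ι₁ (C₁ *ᵥ a) with hR₁
  set R₂ : (J₂ → ℝ) → B → ℝ := fun a => rsw ι₂ (C₂ *ᵥ a) with hR₂
  -- bounds
  have bψ₁ : ∀ F, ‖ψ₁ F‖ ≤ K := fun F => norm_Ps_le T₁.h0 T₁.h1 T₁.hK x₁ F
  have bψ₂ : ∀ F, ‖ψ₂ F‖ ≤ K := fun F => norm_Ps_le T₂.h0 T₂.h1 T₂.hK x₂ F
  have bm₁ : ∀ F, ‖m₁ F‖ ≤ 1 := fun F => norm_mainf_le_one hS₁0 hS₁1 x₁ F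
  have bm₂ : ∀ F, ‖m₂ F‖ ≤ 1 := fun F => norm_mainf_le_one hS₂0 hS₂1 x₂ F
  -- measurability
  have mψ₁ : Measurable ψ₁ := measurable_Ps T₁.hm x₁
  have mψ₂ : Measurable ψ₂ := measurable_Ps T₂.hm x₂
  have mm₁ : Measurable m₁ := measurable_mainf S₁ x₁
  have mm₂ : Measurable m₂ := measurable_mainf S₂ x₂
  have mC₁ : Measurable fun a : J₁ → ℝ => C₁ *ᵥ a := measurable_mulVec C₁
  have mC₂ : Measurable fun a : J₂ → ℝ => C₂ *ᵥ a := measurable_mulVec C₂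
  have mE₁ : Measurable E₁ := measurable_exw ι₁ univ b0
  have mE₂ : Measurable E₂ := measurable_exw ι₂ univ b0
  have mR₁ : Measurable R₁ := (measurable_rsw ι₁).comp mC₁
  have mR₂ : Measurable R₂ := (measurable_rsw ι₂).comp mC₂
  -- the four pieces on torus 2
  set X₂ := fun a => ψ₂ (C₂ *ᵥ a) - z * m₂ (C₂ *ᵥ a) with hX₂
  set P1 := fun a : J₂ → ℝ => ψ₂ (C₂ *ᵥ a) - ψ₂ (E₂ (R₂ a)) with hP1
  set P2 := fun a : J₂ → ℝ => m₂ (C₂ *ᵥ a) - m₂ (E₂ (R₂ a)) with hP2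
  set dif : (B → ℝ) → ℂ := fun φ => (ψ₂ (E₂ φ) - ψ₁ (E₁ φ)) - z * (m₂ (E₂ φ) - m₁ (E₁ φ)) with hdif
  set del : (B → ℝ) → ℂ := fun φ => ψ₁ (E₁ φ) - z * m₁ (E₁ φ) with hdel
  have mdif : Measurable dif := ((mψ₂.comp mE₂).sub (mψ₁.comp mE₁)).sub
    (((mm₂.comp mE₂).sub (mm₁.comp mE₁)).const_mul z)
  have mdel : Measurable del := (mψ₁.comp mE₁).sub ((mm₁.comp mE₁).const_mul z)
  have bdif : ∀ φ, ‖dif φ‖ ≤ 2 * (K + ‖z‖) := by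
    intro φ
    simp only [hdif]
    refine (norm_sub_le _ _).trans ?_
    rw [norm_mul]
    have h1 := (norm_sub_le (ψ₂ (E₂ φ)) (ψ₁ (E₁ φ))).trans (add_le_add (bψ₂ _) (bψ₁ _))
    have h2 := (norm_sub_le (m₂ (E₂ φ)) (m₁ (E₁ φ))).trans (add_le_add (bm₂ _) (bm₁ _))
    have h3 := mul_le_mul_of_nonneg_left h2 (norm_nonneg z)
    linarith
  have bdel : ∀ φ, ‖del φ‖ ≤ K + ‖z‖ := by
    intro φ
    simp only [hdel]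
    refine (norm_sub_le _ _).trans ?_
    rw [norm_mul]
    have h3 := mul_le_mul_of_nonneg_left (bm₁ (E₁ φ)) (norm_nonneg z)
    linarith [bψ₁ (E₁ φ)]
  have LP1 : MemLp P1 2 (gau J₂) := memLp_bdd (C := 2 * K)
    ((mψ₂.comp mC₂).sub (mψ₂.comp (mE₂.comp mR₂))).aestronglyMeasurable fun a =>
      (norm_sub_le _ _).trans (by linarith [bψ₂ (C₂ *ᵥ a), bψ₂ (E₂ (R₂ a))])
  have LP2 : MemLp P2 2 (gau J₂) := memLp_bdd (C := 2)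
    ((mm₂.comp mC₂).sub (mm₂.comp (mE₂.comp mR₂))).aestronglyMeasurable fun a =>
      (norm_sub_le _ _).trans (by linarith [bm₂ (C₂ *ᵥ a), bm₂ (E₂ (R₂ a))])
  have LP3 : MemLp (fun a => dif (R₂ a)) 2 (gau J₂) := memLp_bdd
    (mdif.comp mR₂).aestronglyMeasurable fun a => bdif _
  have LP4 : MemLp (fun a => del (R₂ a)) 2 (gau J₂) := memLp_bdd
    (mdel.comp mR₂).aestronglyMeasurable fun a => bdel _
  have split : ∀ a, X₂ a = (P1 a - z * P2 a) + (dif (R₂ a) + del (R₂ a)) := by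
    intro a
    simp only [hX₂, hP1, hP2, hdif, hdel]
    ring
  have N0 : n2 (gau J₂) X₂ ≤ (n2 (gau J₂) P1 + ‖z‖ * n2 (gau J₂) P2) +
      (n2 (gau J₂) (fun a => dif (R₂ a)) + n2 (gau J₂) fun a => del (R₂ a)) := by
    rw [n2_congr split]
    refine (n2_add_le (LP1.sub (LP2.const_mul z)) (LP3.add LP4)).trans (add_le_add ?_ ?_)
    · have h := n2_sub_le LP1 (LP2.const_mul z)
      rw [n2_const_mul] at h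
      exact h
    · exact n2_add_le LP3 LP4
  -- the good set
  have N3 : n2 (gau J₂) (fun a => dif (R₂ a)) ≤ (γ + ‖z‖ * γ') + 2 * (K + ‖z‖) * √p := by
    have hp0 : 0 ≤ p := measureReal_nonneg.trans hp
    have h1 : ∫ a, ‖dif (R₂ a)‖ ^ 2 ∂(gau J₂) ≤
        (γ + ‖z‖ * γ') ^ 2 + (2 * (K + ‖z‖)) ^ 2 * p := by
      refine l2_good mR₂ mdif hG (fun φ hφ => ?_) bdif hp
      simp only [hdif]
      refine (norm_sub_le _ _).trans ?_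
      rw [norm_mul]
      exact add_le_add (hγ φ hφ) (mul_le_mul_of_nonneg_left (hγ' φ hφ) (norm_nonneg z))
    refine (n2_le_sqrt LP3 h1).trans ?_
    refine (sqrt_add_sq_le (by positivity) (by positivity)).trans (le_of_eq ?_)
    rw [Real.sqrt_mul (by positivity), Real.sqrt_sq (by positivity)]
  -- the change of law
  have hc : Ch del := by
    intro φ c
    simp only [hdel, hE₁]
    rw [exw_add]
    have h1 := ch_Ps (A := A₁) T₁.h1 T₁.ch x₁ (exw ι₁ univ b0 φ) c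
    have h2 := ch_mainf hS₁1 x₁ (exw ι₁ univ b0 φ) c
    simp only [hψ₁, hm₁]
    rw [h1, h2]
    ring
  have N4 : n2 (gau J₂) (fun a => del (R₂ a)) ≤ √κ * n2 (gau J₁) (fun a => del (R₁ a)) +
      (K + ‖z‖) * √(2 * κ ^ (-(1 / (2 * η)))) := by
    have LD : MemLp (fun a => del (R₁ a)) 2 (gau J₁) := memLp_bdd
      (mdel.comp mR₁).aestronglyMeasurable fun a => bdel _
    have h1 := hs_le (B₁ := Dw ι₁ b0 C₁) (B₂ := Dw ι₂ b0 C₂) hH hcov hη hη2 hκ hHS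
      (f := fun φ => ‖del φ‖ ^ 2) (mdel.norm.pow_const 2) (fun φ => by positivity)
      (B := (K + ‖z‖) ^ 2) fun φ => pow_le_pow_left₀ (norm_nonneg _) (bdel φ) 2
    have i1 := fun a : J₁ → ℝ => norm_Dw hc ι₁ b0 C₁ a
    have i2 := fun a : J₂ → ℝ => norm_Dw hc ι₂ b0 C₂ a
    simp only [i1, i2] at h1
    have h2 : ∫ a, ‖del (rsw ι₁ (C₁ *ᵥ a))‖ ^ 2 ∂(gau J₁) =
        n2 (gau J₁) (fun a => del (R₁ a)) ^ 2 := (n2_sq LD).symm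
    rw [h2] at h1
    refine (n2_le_sqrt LP4 h1).trans ?_
    have hκ0 : 0 ≤ κ := by linarith
    have hN0 := n2_nonneg (μ := gau J₁) fun a => del (R₁ a)
    have e1 : κ * n2 (gau J₁) (fun a => del (R₁ a)) ^ 2 =
        (√κ * n2 (gau J₁) (fun a => del (R₁ a))) ^ 2 := by
      rw [mul_pow, Real.sq_sqrt hκ0]
    have hr : 0 ≤ κ ^ (-(1 / (2 * η))) := Real.rpow_nonneg hκ0 _
    rw [e1]
    refine (sqrt_add_sq_le (by positivity) (by positivity)).trans ?_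
    refine add_le_add le_rfl (le_of_eq ?_)
    have e2 : 2 * (K + ‖z‖) ^ 2 * κ ^ (-(1 / (2 * η))) =
        (K + ‖z‖) ^ 2 * (2 * κ ^ (-(1 / (2 * η)))) := by ring
    rw [e2, Real.sqrt_mul (by positivity), Real.sqrt_sq (by positivity)]
  -- back on torus 1
  have N5 : n2 (gau J₁) (fun a => del (R₁ a)) ≤
      n2 (gau J₁) (fun a => ψ₁ (C₁ *ᵥ a) - z * m₁ (C₁ *ᵥ a)) + (α + ‖z‖ * β) := by
    set Q1 := fun a : J₁ → ℝ => ψ₁ (C₁ *ᵥ a) - ψ₁ (E₁ (R₁ a)) with hQ1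
    set Q2 := fun a : J₁ → ℝ => m₁ (C₁ *ᵥ a) - m₁ (E₁ (R₁ a)) with hQ2
    have LQ1 : MemLp Q1 2 (gau J₁) := memLp_bdd (C := 2 * K)
      ((mψ₁.comp mC₁).sub (mψ₁.comp (mE₁.comp mR₁))).aestronglyMeasurable fun a =>
        (norm_sub_le _ _).trans (by linarith [bψ₁ (C₁ *ᵥ a), bψ₁ (E₁ (R₁ a))])
    have LQ2 : MemLp Q2 2 (gau J₁) := memLp_bdd (C := 2)
      ((mm₁.comp mC₁).sub (mm₁.comp (mE₁.comp mR₁))).aestronglyMeasurable fun a =>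
        (norm_sub_le _ _).trans (by linarith [bm₁ (C₁ *ᵥ a), bm₁ (E₁ (R₁ a))])
    have LX : MemLp (fun a => ψ₁ (C₁ *ᵥ a) - z * m₁ (C₁ *ᵥ a)) 2 (gau J₁) :=
      (memLp_bdd (mψ₁.comp mC₁).aestronglyMeasurable fun a => bψ₁ _).sub
        ((memLp_bdd (mm₁.comp mC₁).aestronglyMeasurable fun a => bm₁ _).const_mul z)
    have sp : ∀ a, del (R₁ a) = (ψ₁ (C₁ *ᵥ a) - z * m₁ (C₁ *ᵥ a)) - (Q1 a - z * Q2 a) := by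
      intro a
      simp only [hdel, hQ1, hQ2]
      ring
    rw [n2_congr sp]
    refine (n2_sub_le LX (LQ1.sub (LQ2.const_mul z))).trans (add_le_add le_rfl ?_)
    have h := n2_sub_le LQ1 (LQ2.const_mul z)
    rw [n2_const_mul] at h
    refine h.trans (add_le_add hα₁ (mul_le_mul_of_nonneg_left hβ₁ (norm_nonneg z)))
  have h6 := mul_le_mul_of_nonneg_left N5 (Real.sqrt_nonneg κ)
  have h7 := mul_le_mul_of_nonneg_left hβ₂ (norm_nonneg z)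
  linarith

end

end Vale.Agent.P159.H358
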