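import Vale.Agent.P159.H358.Un6

/-!
P159, module VTOR, numbers for fine cells, part 7: `vt_ev`, the distance of the densities to the cut
densities (same torus, other torus) in the order of constants, every real mass, every law below.
-/

open Finset MeasureTheory

set_option linter.unusedSectionVars false
set_option linter.unusedDecidableInType false

namespace Vale.Agent.P159.H358

open Vale.Agent.P159.TM.Spec (V Rng)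
open Vale.Agent.P159.TM.SpecC (wT)
open Vale.Agent.P159.H37 (gau)
open Vale.Agent.P159.H145 (mt OscZ)
open Vale.Agent.P159.H552 (lft)
open Vale.Agent.P159.H864 (cl yt)
open Vale.Agent.P159.H813 (LB4)
open Vale.Agent.P159.H462 (Dom)
open Vale.Agent.P159.H363 (Below n2)
open Vale.Agent.P159.H889 (uc)
open Vale.Agent.P159.H972 (Par lg tn RNG Good GP)
open Vale.Agent.P159.H801 (Ev PS)
open Vale.Agent.P159.H640 (sm_rpow rng_thr osc_yt)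
open Matrix

/-- the numbers of `num_one`, `num_two` at one level -/
structure NumOk (P : Par) (n s : ℕ) (e X : ℝ) (b cx Cx c4 C4 β c0 κ₀ A0 bo bb g K1 R : ℝ) :
    Prop where
  C : Cst b cx Cx c4 C4 1 β c0 κ₀ A0 (2 * A0) bo bb g K1 R
  hy : (R + 1) * Ls n s ^ 7 * e ^ (1 / 4 : ℝ) ≤ cx
  hX : K7 (2 * A0) 1 c0 bb * Ls n s ^ 4 ≤ X
  hX0 : 0 < X
  hl : ((2 ^ n : ℕ) : ℝ) ≤ ((2 ^ s : ℕ) : ℝ) ^ 2
  hl1 : (2 * (2 + 1) + 4) * Kc (2 * A0) g * Ls n s ^ 5 ≤ ((2 ^ s : ℕ) : ℝ)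
  hpf : Real.exp (-(e ^ (-(P.th / 20)))) ≤ Real.exp (-((2 * (β + 3) + 2) * Ls n s))
  hL : 1 ≤ Ls n s

theorem numOk_of {P : Par} {b c1 : ℝ} {n s : ℕ} {e T X : ℝ}
    {cx Cx c4 C4 β c0 κ₀ A0 bo bb g K1 R : ℝ}
    (C : Cst b cx Cx c4 C4 1 β c0 κ₀ A0 (2 * A0) bo bb g K1 R) (h : Lvl P b c1 n s e T)
    (S : Sp P.th P.thp c1 P.q0 cx c4 K1 R (K7 (2 * A0) 1 c0 bb)
      ((2 * (2 + 1) + 4) * Kc (2 * A0) g) β e) (hX : e ^ (-(P.th / 4)) ≤ X) :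
    NumOk P n s e X b cx Cx c4 C4 β c0 κ₀ A0 bo bb g K1 R := by
  have he := h.e0
  have hL1 := h.L1 S.e4
  have hL0 : 0 < Ls n s := by linarith
  have hR := C.R2
  have hp4 : 0 < e ^ (-(P.th / 4)) := Real.rpow_pos_of_pos he _
  have hp20 : 0 < e ^ (-(P.th / 20)) := Real.rpow_pos_of_pos he _
  refine ⟨C, ?_, ?_, hp4.trans_le hX, ?_, ?_, ?_, hL1⟩
  · have h7 := h.Lk 7
    have e8 : e ^ (-(2 * (7 : ℕ) * c1)) * e ^ (1 / 4 : ℝ) = e ^ (1 / 4 - 14 * c1) := by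
      rw [← Real.rpow_add he]
      congr 1
      push_cast
      ring
    calc (R + 1) * Ls n s ^ 7 * e ^ (1 / 4 : ℝ)
        ≤ (R + 1) * e ^ (-(2 * (7 : ℕ) * c1)) * e ^ (1 / 4 : ℝ) := by
          have hq : 0 < e ^ (1 / 4 : ℝ) := Real.rpow_pos_of_pos he _
          gcongr
      _ = (R + 1) * e ^ (1 / 4 - 14 * c1) := by rw [mul_assoc, e8]
      _ ≤ cx := S.a2
  · refine le_trans ?_ hX
    have h7 := h.Lk 4
    have e8 : e ^ (-(2 * (4 : ℕ) * c1)) = e ^ (P.th / 4 - 8 * c1) * e ^ (-(P.th / 4)) := by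
      rw [← Real.rpow_add he]
      congr 1
      push_cast
      ring
    rw [e8] at h7
    have hk : 0 ≤ K7 (2 * A0) 1 c0 bb := by
      unfold K7
      have := C.bb1
      have := K3_pos (A' := 2 * A0) C.hq C.hc0
      positivity
    calc K7 (2 * A0) 1 c0 bb * Ls n s ^ 4
        ≤ K7 (2 * A0) 1 c0 bb * (e ^ (P.th / 4 - 8 * c1) * e ^ (-(P.th / 4))) :=
          mul_le_mul_of_nonneg_left h7 hk
      _ = (K7 (2 * A0) 1 c0 bb * e ^ (P.th / 4 - 8 * c1)) * e ^ (-(P.th / 4)) := by ring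
      _ ≤ 1 * e ^ (-(P.th / 4)) := mul_le_mul_of_nonneg_right S.a3 hp4.le
      _ = _ := one_mul _
  · push_cast
    rw [← pow_mul]
    exact pow_le_pow_right₀ one_le_two (by linarith [h.ns])
  · have h7 := h.Lk 5
    have e8 : e ^ (-(2 * (5 : ℕ) * c1)) = e ^ (1 - 10 * c1) * (1 / e) := by
      rw [one_div, ← Real.rpow_neg_one e, ← Real.rpow_add he]
      congr 1
      push_cast
      ring
    rw [e8] at h7
    have hk : 0 ≤ (2 * (2 + 1) + 4) * Kc (2 * A0) g := by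
      unfold Kc
      positivity
    have hq := h.Q1
    have hp : 0 < 1 / e := by positivity
    have h8 : (2 : ℝ) ^ (n - s) ≤ 2 ^ s := pow_le_pow_right₀ one_le_two (by have := h.ns; omega)
    push_cast
    calc (2 * (2 + 1) + 4) * Kc (2 * A0) g * Ls n s ^ 5
        ≤ (2 * (2 + 1) + 4) * Kc (2 * A0) g * (e ^ (1 - 10 * c1) * (1 / e)) :=
          mul_le_mul_of_nonneg_left h7 hk
      _ = ((2 * (2 + 1) + 4) * Kc (2 * A0) g * e ^ (1 - 10 * c1)) * (1 / e) := by ring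
      _ ≤ 1 * (1 / e) := mul_le_mul_of_nonneg_right S.a4 hp.le
      _ ≤ 2 ^ s := by linarith
  · refine Real.exp_le_exp.2 (neg_le_neg ?_)
    have h7 := h.Lk 1
    rw [pow_one] at h7
    have e8 : e ^ (-(2 * (1 : ℕ) * c1)) = e ^ (P.th / 20 - 2 * c1) * e ^ (-(P.th / 20)) := by
      rw [← Real.rpow_add he]
      congr 1
      push_cast
      ring
    rw [e8] at h7
    have hβ := C.hβ
    calc (2 * (β + 3) + 2) * Ls n s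
        ≤ (2 * (β + 3) + 2) * (e ^ (P.th / 20 - 2 * c1) * e ^ (-(P.th / 20))) :=
          mul_le_mul_of_nonneg_left h7 (by positivity)
      _ = ((2 * (β + 3) + 2) * e ^ (P.th / 20 - 2 * c1)) * e ^ (-(P.th / 20)) := by ring
      _ ≤ 1 * e ^ (-(P.th / 20)) := mul_le_mul_of_nonneg_right S.a5 hp20.le
      _ = _ := one_mul _

/-- the conclusion on one torus -/
def NearOne (P : Par) (b c0 β : ℝ) (n s : ℕ) (e T : ℝ) (D0 r : ℕ) [NeZero (2 ^ r / 2 ^ s)] : Prop :=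
  ∀ {A : Matrix (V (2 ^ r / 2 ^ s)) (V (2 ^ r / 2 ^ s)) ℝ} {c : ℝ},
    Dom A (T * ((2 ^ s : ℕ) : ℝ) ^ 2) c → c0 ≤ c →
    ∀ {I : Type} [Fintype I] {Bm : Matrix (V (2 ^ r / 2 ^ s)) I ℝ}, Below A Bm →
    (gau I).real {g | 8 < Rn (2 ^ r) b T (lft (cl : V (2 ^ r) → V (2 ^ r / 2 ^ s))
      (Bm *ᵥ g))} ≤ Real.exp (-(e ^ (-(P.th / 20)))) →
    ∀ x, n2 (gau I) (fun g => uc (2 ^ r) (2 ^ s) b T x (Bm *ᵥ g) -
      mcm (2 ^ r) (2 ^ s) b T D0 x (Bm *ᵥ g)) ≤ Real.exp (-(β * Ls n s))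

/-- the conclusion on two tori -/
def NearTwo (P : Par) (b c0 β : ℝ) (n s : ℕ) (e T : ℝ) (D0 r1 r2 : ℕ) [NeZero (2 ^ r1 / 2 ^ s)]
    [NeZero (2 ^ r2 / 2 ^ s)] : Prop :=
  ∀ {A : Matrix (V (2 ^ r2 / 2 ^ s)) (V (2 ^ r2 / 2 ^ s)) ℝ} {c : ℝ},
    Dom A (T * ((2 ^ s : ℕ) : ℝ) ^ 2) c → c0 ≤ c →
    ∀ {I : Type} [Fintype I] {Bm : Matrix (V (2 ^ r2 / 2 ^ s)) I ℝ}, Below A Bm →
    (gau I).real {g | 8 < Rn (2 ^ r2) b T (lft (cl : V (2 ^ r2) → V (2 ^ r2 / 2 ^ s))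
      (Bm *ᵥ g))} ≤ Real.exp (-(e ^ (-(P.th / 20)))) →
    ∀ x, n2 (gau I) (fun g => uc (2 ^ r2) (2 ^ s) b T x (Bm *ᵥ g) -
      H733.Vt.lft D0 (mcm (2 ^ r1) (2 ^ s) b T D0) x (Bm *ᵥ g)) ≤ Real.exp (-(β * Ls n s))

/-- **the distance of the densities to the cut densities**, order of constants -/
theorem vt_ev {b1 b2 : ℝ} (hb1 : 0 < b1) (hb2 : 0 < b2) {c0 β : ℝ} (hc0 : 0 < c0) (hβ : 0 ≤ β) :
    ∃ A00 : ℝ, 1 ≤ A00 ∧ ∀ A0 : ℝ, A00 ≤ A0 → ∀ (pf : ℝ) (Q : ℕ), Ev b1 b2 pf Q fun P c1 =>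
      0 < c1 ∧ 100 * c1 ≤ P.th ∧ ∀ (b : ℝ) (n s : ℕ) (e T Y X δ : ℝ) (r1 r2 : ℕ)
        [NeZero (2 ^ r1 / 2 ^ s)] [NeZero (2 ^ r2 / 2 ^ s)],
        VtIn P b c1 n s e T Y X δ r1 r2 → ∀ D0 : ℕ, A0 * Ls n s * 2 ^ n ≤ D0 * 2 ^ s →
        (D0 : ℝ) * 2 ^ s ≤ 2 * A0 * Ls n s * 2 ^ n →
        NearOne P b c0 β n s e T D0 r1 ∧ NearTwo P b c0 β n s e T D0 r1 r2 := by
  obtain ⟨c4, C4, W₀, hc4, hC4, h0⟩ := tn_rng hb1 b2 (5 / 2)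
  obtain ⟨A00, hA00, hA⟩ := cst_A (q := 1) hb2.le hc4 hC4 zero_le_one hβ hc0
  refine ⟨A00, hA00, fun A0 hA0 pf Q => Ev.of ⟨W₀, fun W hW => ?_⟩⟩
  obtain ⟨cx, Cx, ys, X, hcx, hCx, hys, hX, h1⟩ := h0 W hW
  obtain ⟨κ₀, bo, bb, g, K1, R, hC⟩ := hA A0 hA0 cx Cx hcx hCx
  refine ⟨ys, hys, fun ys' hys0 hys' => ⟨max X 2, fun X0 hX0 => ?_⟩⟩
  refine ⟨1 / 80, by norm_num, fun x1 hx1 hx1' => ?_⟩
  refine ⟨1 / (80 * (Q + 3)), by positivity, fun thp hthp hthp' => ?_⟩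
  refine ⟨1 / 80, by norm_num, fun th hth hth' => ⟨0, fun C0 _ => ?_⟩⟩
  refine ⟨th / 100, by positivity, fun c1 hc1 hc1' => ?_⟩
  have hthp2 : ((Q : ℝ) + 3) * thp ≤ 1 / 80 := by
    rw [le_div_iff₀ (by positivity)] at hthp'
    linarith
  have hq0 : ((Q + ⌈x1 / thp⌉₊ + 2 : ℕ) : ℝ) * thp ≤ x1 + (Q + 3) * thp := by
    push_cast
    have h2 : (⌈x1 / thp⌉₊ : ℝ) ≤ x1 / thp + 1 := (Nat.ceil_lt_add_one (by positivity)).le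
    have h3 : (⌈x1 / thp⌉₊ : ℝ) * thp ≤ x1 + thp := by
      calc (⌈x1 / thp⌉₊ : ℝ) * thp ≤ (x1 / thp + 1) * thp := by gcongr
        _ = x1 + thp := by field_simp
    linarith
  have hsum : th + 4 * ((Q + ⌈x1 / thp⌉₊ + 2 : ℕ) : ℝ) * thp < 1 / 4 := by linarith
  obtain ⟨E0, hE0, hS⟩ := sp_ex (Q + ⌈x1 / thp⌉₊ + 2) K1 R (K7 (2 * A0) 1 c0 bb)
    ((2 * (2 + 1) + 4) * Kc (2 * A0) g) β hcx hc4 hth hc1 (by linarith) (by linarith) hsum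
  refine ⟨E0, hE0, fun P hP => ⟨hc1, by rw [hP.eth]; linarith, ?_⟩⟩
  intro b n s e T Y Xa δ r1 r2 _ _ hV D0 hD1 hD2
  have he := hV.lv.e0
  have hes := hV.lv.ees
  obtain ⟨τ0, a0, -, -, hGP⟩ := hV.lv.G
  have hr := ((hGP e le_rfl hes).rng r1 (Or.inl hV.T1)).1
  have hbb : b1 ≤ b := by
    have h2 := hr.hb1
    rwa [hP.eb1] at h2
  have hbb2 : b ≤ b2 := by
    have h2 := hr.hb2
    rwa [hP.eb2] at h2
  have hb0 : 0 < b := hb1.trans_le hbb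
  have hb : 0 ≤ b := hb0.le
  have S : Sp P.th P.thp c1 P.q0 cx c4 K1 R (K7 (2 * A0) 1 c0 bb)
      ((2 * (2 + 1) + 4) * Kc (2 * A0) g) β e := by
    rw [hP.eth, hP.ethp, hP.eq0]
    exact hS e he (hes.trans hP.ees)
  have C := hC b hb hbb2
  have hK1 : 0 ≤ K1 := by
    rw [C.hK1]
    linarith [C.R2, C.A1]
  have hX0' : X ≤ P.X0 ∧ 2 ≤ P.X0 := by
    rw [hP.eX0]
    exact ⟨(le_max_left _ _).trans hX0, (le_max_right _ _).trans hX0⟩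
  have hysP : P.ys ≤ ys := by rw [hP.eys]; exact hys'
  have hH : ∀ (K : ℕ) [NeZero K] (b : ℝ) (hb : 0 ≤ b) (l : ℕ) (y t : ℝ),
      Rng P.b1 b2 (5 / 2) P.W ys X K b l y → Rng P.b1 b2 (5 / 2) P.W ys X K b (2 * l) y →
      1 / ((2 * l : ℕ) : ℝ) ^ 2 ≤ t → t ≤ 4 / ((2 * l : ℕ) : ℝ) ^ 2 →
      (K : ℝ) * y ≤ c4 * ((2 * l : ℕ) : ℝ) →
      HAt K b (2 * l) t hb y cx Cx ∧ LB4 K b t (2 * l) c4 C4 := by
    rw [hP.eb1, hP.eW]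
    exact h1
  have N := numOk_of C hV.lv S hV.X1
  have T1 := hV.lv.tn (Cx := Cx) (C4 := C4) hb hb0 S hK1 hH hP.eb2 hysP hX0'.1 hX0'.2 hV.T1 hV.y1
    hV.Y2
  have T2 := hV.lv.tn (Cx := Cx) (C4 := C4) hb hb0 S hK1 hH hP.eb2 hysP hX0'.1 hX0'.2 hV.T2 hV.y2
    hV.Y2
  have H := hV.lv.nm S.e4 (A' := 2 * A0) C.A1 hD2
  have hD : A0 * Ls n s * ((2 ^ n : ℕ) : ℝ) ≤ D0 * ((2 ^ s : ℕ) : ℝ) := by
    push_cast
    exact hD1
  have hy0 : 0 ≤ e ^ (1 / 4 : ℝ) := (Real.rpow_pos_of_pos he _).le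
  have hL := N.hL
  refine ⟨?_, ?_⟩
  · intro A c hA hc I _ Bm hB hf x
    exact num_one C H hD N.hy hy0 T1 T1 hV.δ0 hV.δ1 hV.ap N.hX N.hX0 N.hl N.hl1 (by norm_num)
      (by linarith) hA hc hB hf N.hpf x
  · intro A c hA hc I _ Bm hB hf x
    exact num_two C H hD N.hy hy0 T1 T2 T1 hV.δ0 hV.δ1 hV.ap N.hX N.hX0 N.hl N.hl1 (by norm_num)
      (by linarith) hA hc hB hf N.hpf x

end Vale.Agent.P159.H358
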