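import Vale.Agent.P159.H358.Un10
import Vale.Agent.P159.H30.Apr10

/-!
P159, module VTOR, numbers for fine cells, part 11: block noise and typical sources inside. At every
real mass and in every law below a law close to the typical law: no hypothesis on the model left.
-/

open Finset MeasureTheory Filter Topology

set_option linter.unusedSectionVars false
set_option linter.unusedDecidableInType false

namespace Vale.Agent.P159.H358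

open Vale.Agent.P159.TM.Spec (V Rng)
open Vale.Agent.P159.TM.SpecC (wT)
open Vale.Agent.P159.H37 (gau Rs qf)
open Vale.Agent.P159.H552 (lft)
open Vale.Agent.P159.H864 (cl MC yt)
open Vale.Agent.P159.H462 (Dom)
open Vale.Agent.P159.H363 (acl Nf rel lf Below n2 below_pin)
open Vale.Agent.P159.H239 (TypE)
open Vale.Agent.P159.H972 (Par lg tn RNG Good GP)
open Vale.Agent.P159.H801 (Ev PS)
open Vale.Agent.P159.H816 (ev_typV TypV)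
open Vale.Agent.P159.H30 (ev_apT ApT)
open Vale.Agent.P159.H889 (uc)
open Matrix

/-- a real mass at a level, two tori of the type `TT` -/
structure LvR (P : Par) (b c1 : ℝ) (n s : ℕ) (e T Y : ℝ) (r1 r2 : ℕ) : Prop where
  lv : Lvl P b c1 n s e T
  sE : s ≤ P.sE n e
  T1 : P.TT n e r1
  T2 : P.TT n e r2
  y1 : yt (2 ^ r1) b (4 * tn n) ≤ Y
  y2 : yt (2 ^ r2) b (4 * tn n) ≤ Y
  Y2 : 16 * Y ^ 2 ≤ e

theorem LvR.swap {P : Par} {b c1 : ℝ} {n s : ℕ} {e T Y : ℝ} {r1 r2 : ℕ}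
    (h : LvR P b c1 n s e T Y r1 r2) : LvR P b c1 n s e T Y r2 r1 :=
  ⟨h.lv, h.sE, h.T2, h.T1, h.y2, h.y1, h.Y2⟩

theorem LvR.one {P : Par} {b c1 : ℝ} {n s : ℕ} {e T Y : ℝ} {r1 r2 : ℕ}
    (h : LvR P b c1 n s e T Y r1 r2) : LvR P b c1 n s e T Y r1 r1 :=
  ⟨h.lv, h.sE, h.T1, h.T1, h.y1, h.y1, h.Y2⟩

/-- the tail of the full field in every law below a law close to the typical law -/
def RnT (P : Par) (b : ℝ) (s : ℕ) (e T : ℝ) (r : ℕ) : Prop :=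
  ∀ [NeZero (2 ^ r / 2 ^ s)] {A : Matrix (V (2 ^ r / 2 ^ s)) (V (2 ^ r / 2 ^ s)) ℝ}, Nf A →
    ∑ k, rel (acl (2 ^ r) (2 ^ s) b T T) A k ^ 2 ≤ (e ^ (22 / 25 : ℝ)) ^ 2 →
    ∀ {I : Type} [Fintype I] {Bm : Matrix (V (2 ^ r / 2 ^ s)) I ℝ}, Below A Bm →
    (gau I).real {g | 8 < Rn (2 ^ r) b T
      (lft (cl : V (2 ^ r) → V (2 ^ r / 2 ^ s)) (Bm *ᵥ g))} ≤ Real.exp (-(e ^ (-(P.th / 20))))

theorem rel_self {n : ℕ} [NeZero n] {A : Matrix (V n) (V n) ℝ} (h : Nf A) (k : V n) :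
    rel A A k = 0 := by
  unfold H363.rel
  split_ifs with hk
  · rfl
  · rw [div_self (h.pos k hk).ne', sub_self]

/-- in the typical law -/
theorem RnT.self {P : Par} {b : ℝ} {s : ℕ} {e T : ℝ} {r : ℕ} (h : RnT P b s e T r) (hb : 0 < b)
    (hsr : s ≤ r) (hT : 0 < T) [NeZero (2 ^ r / 2 ^ s)]
    {I : Type} [Fintype I] {Bm : Matrix (V (2 ^ r / 2 ^ s)) I ℝ}
    (hB : Below (acl (2 ^ r) (2 ^ s) b T T) Bm) :
    (gau I).real {g | 8 < Rn (2 ^ r) b T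
      (lft (cl : V (2 ^ r) → V (2 ^ r / 2 ^ s)) (Bm *ᵥ g))} ≤ Real.exp (-(e ^ (-(P.th / 20)))) := by
  have hnf := nf_aclT (N := 2 ^ r) (l := 2 ^ s) hb (pow_dvd_pow 2 hsr) hT
  refine h hnf ?_ hB
  simp only [rel_self hnf, ne_eq, OfNat.ofNat_ne_zero, not_false_eq_true, zero_pow,
    Finset.sum_const_zero]
  positivity

/-- **inputs of the numbers from the families**, one `b` -/
theorem in_ev {b1 b2 pf b : ℝ} (hb1 : 0 < b1) (hb : b1 ≤ b) (hpf : 0 < pf) (Q : ℕ) :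
    Ev b1 b2 pf Q fun P c1 => ∀ (n s : ℕ) (e T Y : ℝ) (r1 r2 : ℕ),
      LvR P b c1 n s e T Y r1 r2 →
      VtIn P b c1 n s e T Y (e ^ (-(P.th / 4))) (e ^ P.x1) r1 r2 ∧ RnT P b s e T r1 ∧
        RnT P b s e T r2 := by
  have hb0 : 0 < b := hb1.trans_le hb
  refine (((ev_typV (b := b) (b2 := b2) hb1 hb hpf Q).and
    (ev_apT (b := b) (b1 := b1) (b2 := b2) (pf := pf) hb1 hpf hb Q)).and
    (ev_sq (b1 := b1) (b2 := b2) (pf := pf) Q)).mono ?_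
  rintro P c1 hA ⟨⟨htv, hap⟩, hX12, hth1, hsq⟩
  intro n s e T Y r1 r2 h
  have lv := h.lv
  have he := lv.e0
  have he1 : e ≤ 1 := lv.ees.trans (P.es1.trans (by norm_num))
  obtain ⟨τ0, a0, ht1, ht2, hGP⟩ := lv.G
  have gp := hGP e le_rfl lv.ees
  have S := hsq e he lv.ees
  have hT0 : 0 < T := (H972.tn_pos n).trans_le lv.t1
  have hnR : ((n : ℝ) - s) ≤ e ^ (-(2 * c1)) := by
    rw [← Nat.cast_sub lv.sn]
    exact lv.nR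
  have hR : ∀ r, P.TT n e r → RnT P b s e T r := by
    intro r hr _ A hA' hHS I _ Bm hBm
    have hsr : s ≤ r := lv.sn.trans ((Nat.le_add_right _ _).trans hr.1)
    exact rn_law' (P := P) hb0 hsr hT0 he he1 hth1 S
      (fun a' ha ha' => htv n e τ0 a0 he lv.ees gp r hr s h.sE lv.ns hnR T lv.t1 lv.t2 a' ha ha')
      hA' hHS hBm
  refine ⟨⟨lv, h.T1, h.T2, h.y1, h.y2, h.Y2, (Real.rpow_pos_of_pos he _).le,
    Real.rpow_le_one he.le he1 P.x10.le, ?_, le_rfl⟩, hR r1 h.T1, hR r2 h.T2⟩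
  exact hap n e τ0 a0 he lv.ees gp r1 h.T1 s h.sE T lv.t1 lv.t2

/-- one torus -/
def NrOne (b c0 β : ℝ) (n s : ℕ) (e T : ℝ) (D0 r : ℕ) : Prop :=
  ∀ [NeZero (2 ^ r / 2 ^ s)] {A : Matrix (V (2 ^ r / 2 ^ s)) (V (2 ^ r / 2 ^ s)) ℝ} {c : ℝ},
    Dom A (T * ((2 ^ s : ℕ) : ℝ) ^ 2) c → c0 ≤ c → Nf A →
    ∑ k, rel (acl (2 ^ r) (2 ^ s) b T T) A k ^ 2 ≤ (e ^ (22 / 25 : ℝ)) ^ 2 →
    ∀ {I : Type} [Fintype I] {Bm : Matrix (V (2 ^ r / 2 ^ s)) I ℝ}, Below A Bm →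
    ∀ x, n2 (gau I) (fun g => uc (2 ^ r) (2 ^ s) b T x (Bm *ᵥ g) -
      mcm (2 ^ r) (2 ^ s) b T D0 x (Bm *ᵥ g)) ≤ Real.exp (-(β * Ls n s))

/-- two tori -/
def NrTwo (b c0 β : ℝ) (n s : ℕ) (e T : ℝ) (D0 r1 r2 : ℕ) [NeZero (2 ^ r1 / 2 ^ s)]
    [NeZero (2 ^ r2 / 2 ^ s)] : Prop :=
  ∀ {A : Matrix (V (2 ^ r2 / 2 ^ s)) (V (2 ^ r2 / 2 ^ s)) ℝ} {c : ℝ},
    Dom A (T * ((2 ^ s : ℕ) : ℝ) ^ 2) c → c0 ≤ c → Nf A →
    ∑ k, rel (acl (2 ^ r2) (2 ^ s) b T T) A k ^ 2 ≤ (e ^ (22 / 25 : ℝ)) ^ 2 →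
    ∀ {I : Type} [Fintype I] {Bm : Matrix (V (2 ^ r2 / 2 ^ s)) I ℝ}, Below A Bm →
    ∀ x, n2 (gau I) (fun g => uc (2 ^ r2) (2 ^ s) b T x (Bm *ᵥ g) -
      H733.Vt.lft D0 (mcm (2 ^ r1) (2 ^ s) b T D0) x (Bm *ᵥ g)) ≤ Real.exp (-(β * Ls n s))

/-- **the distance of the densities to the cut densities: every real mass, every law below a law
close to the typical law**, no hypothesis on the model left -/
theorem nr_ev {b1 b2 b : ℝ} (hb1 : 0 < b1) (hb : b1 ≤ b) (hb2 : 0 < b2) {c0 β : ℝ} (hc0 : 0 < c0)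
    (hβ : 0 ≤ β) :
    ∃ A00 : ℝ, 1 ≤ A00 ∧ ∀ A0 : ℝ, A00 ≤ A0 → ∀ (pf : ℝ), 0 < pf → ∀ Q : ℕ,
      Ev b1 b2 pf Q fun P c1 => ∀ (n s : ℕ) (e T Y : ℝ) (r1 r2 : ℕ)
        [NeZero (2 ^ r1 / 2 ^ s)] [NeZero (2 ^ r2 / 2 ^ s)],
        LvR P b c1 n s e T Y r1 r2 → ∀ D0 : ℕ, A0 * Ls n s * 2 ^ n ≤ D0 * 2 ^ s →
        (D0 : ℝ) * 2 ^ s ≤ 2 * A0 * Ls n s * 2 ^ n →
        NrOne b c0 β n s e T D0 r1 ∧ NrOne b c0 β n s e T D0 r2 ∧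
          NrTwo b c0 β n s e T D0 r1 r2 ∧ NrTwo b c0 β n s e T D0 r2 r1 := by
  obtain ⟨A00, hA00, hvt⟩ := vt_ev (β := β) hb1 hb2 hc0 hβ
  refine ⟨A00, hA00, fun A0 hA0 pf hpf Q => ?_⟩
  refine ((hvt A0 hA0 pf Q).and (in_ev (b2 := b2) hb1 hb hpf Q)).mono ?_
  rintro P c1 hA ⟨⟨hc1, hc1t, hv⟩, hin⟩
  intro n s e T Y r1 r2 _ _ h D0 hD1 hD2
  have key : ∀ r1 r2 : ℕ, ∀ [NeZero (2 ^ r1 / 2 ^ s)] [NeZero (2 ^ r2 / 2 ^ s)],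
      LvR P b c1 n s e T Y r1 r2 → NrOne b c0 β n s e T D0 r1 ∧ NrTwo b c0 β n s e T D0 r1 r2 := by
    intro r1 r2 _ _ h
    obtain ⟨hV, hR1, hR2⟩ := hin n s e T Y r1 r2 h
    obtain ⟨N1, N2⟩ := hv b n s e T Y (e ^ (-(P.th / 4))) (e ^ P.x1) r1 r2 hV D0 hD1 hD2
    refine ⟨?_, ?_⟩
    · intro _ A c hdom hc hnf hHS I _ Bm hB x
      exact N1 hdom hc hB (hR1 hnf hHS hB) x
    · intro A c hdom hc hnf hHS I _ Bm hB x
      exact N2 hdom hc hB (hR2 hnf hHS hB) x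
  obtain ⟨k1, k2⟩ := key r1 r2 h
  obtain ⟨k3, k4⟩ := key r2 r1 h.swap
  exact ⟨k1, k3, k2, k4⟩

end Vale.Agent.P159.H358
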