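import Vale.Agent.P159.H358.Loc9

/-!
P159, row LOC9, part 2: the torus. `loc9_mean`, `loc9_cv`: means and covariances of local linear
functionals in an arbitrary local background agree on two tori up to
`err9 = 20 (1 + 2 sqrt C A k) exp (141 A² k) exp (- c r / 6 ξ)`.
-/

open Finset MeasureTheory

set_option linter.unusedSectionVars false
set_option linter.unusedDecidableInType false

namespace Vale.Agent.P159.H358

open Vale.Agent.P159.TM.H104
open Vale.Agent.P159.H37 (Zs Ev qf wt)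
open Vale.Agent.P159.TM.Spec (V)
open Vale.Agent.P159.TM.H265 (HA DT)
open Vale.Agent.P159.TM.H705 (dB)
open Vale.Agent.P159.TM.H459 (tS tT ball mem_ball card_ball_le)

variable {N : ℕ} [NeZero N]

theorem em_wt' {b : ℝ} (hb : 0 ≤ b) {ξ : ℝ} (hξ : 0 < ξ) : EM (wt N b (1 / ξ ^ 2)) where
  nn h := by
    rw [wt_eq_bw]
    exact TM.H708.bw_nonneg (fun _ => hb) h
  pos := by
    refine ⟨0, ?_⟩
    rw [wt_eq_bw]
    unfold TM.H708.bw
    rw [TM.H708.iX_zero, mul_one]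
    refine mul_pos ?_ (TM.H708.ga_pos _ _)
    unfold T1.H934.W
    rw [map_zero]
    exact Finset.prod_pos fun e _ => H353.wI_zero_pos hb
  sum C := by
    have hm := TM.H41.ms_pos (N := N) hξ
    have h1 := (TM.H708.bw_summable (D := DT N) (J := fun _ => b) (X := ∅) (fun _ => hb) hm
      (F := fun h => Real.exp (C * nh h)) ⟨1, fun _ => C, fun h => by
        rw [abs_of_pos (Real.exp_pos _), one_mul]
        unfold nh
        rw [Finset.mul_sum]⟩).of_abs
    refine h1.congr fun h => ?_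
    rw [wt_eq_bw]

/-- the bare quadratic form -/
noncomputable def qb {V : Type*} [Fintype V] (ξ : ℝ) (J : V → ℝ) : ℝ := ξ ^ 2 / 2 * ∑ x, J x ^ 2

theorem bb_wt {b : ℝ} (hb : 0 ≤ b) {ξ : ℝ} (hξ : 0 < ξ) : BB (wt N b (1 / ξ ^ 2)) (qb ξ) where
  em := em_wt' hb hξ
  lo J := by
    have hm := TM.H41.ms_pos (N := N) hξ
    have h1 : Zs (wt N b (1 / ξ ^ 2)) 0 ≤ Zs (wt N b (1 / ξ ^ 2)) J := by
      rw [Zs_wt, Zs_wt, ss_exp (fun _ => hb) hm, ss_exp (fun _ => hb) hm]
      unfold TM.H708.SS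
      refine Summable.tsum_le_tsum (fun h => mul_le_mul_of_nonneg_left ?_
        (TM.H708.bw_nonneg (fun _ => hb) h))
        (TM.H708.bw_summable (fun _ => hb) hm (TM.H708.gr_cosh 0)).of_abs
        (TM.H708.bw_summable (fun _ => hb) hm (TM.H708.gr_cosh J)).of_abs
      have : TM.H708.lf (0 : V N → ℝ) h = 0 := by unfold TM.H708.lf; simp
      simp only
      rw [this, Real.cosh_zero]
      exact Real.one_le_cosh _
    exact Real.log_le_log (T_one_pos (em_wt' hb hξ) 0) h1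
  hi J := by
    have hm := TM.H41.ms_pos (N := N) hξ
    have h1 := ss_bare (tS (N := N)) tT (J := fun _ => b) (fun _ => hb) hm J
    have h2 : Zs (wt N b (1 / ξ ^ 2)) J ≤ Real.exp (qb ξ J) * Zs (wt N b (1 / ξ ^ 2)) 0 := by
      rw [Zs_wt, Zs_wt, SS_one_eq]
      refine h1.trans (le_of_eq ?_)
      congr 2
      unfold qb TM.SpecC.ms
      rw [Finset.mul_sum]
      refine Finset.sum_congr rfl fun x _ => ?_
      field_simp
    have p0 : 0 < Zs (wt N b (1 / ξ ^ 2)) 0 := T_one_pos (em_wt' hb hξ) 0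
    have pJ : 0 < Zs (wt N b (1 / ξ ^ 2)) J := T_one_pos (em_wt' hb hξ) J
    have h3 := Real.log_le_log pJ h2
    rw [Real.log_mul (Real.exp_pos _).ne' p0.ne', Real.log_exp] at h3
    have e1 : Real.log (Zs (wt N b (1 / ξ ^ 2)) J) = Lg (wt N b (1 / ξ ^ 2)) J := rfl
    have e2 : Real.log (Zs (wt N b (1 / ξ ^ 2)) 0) = Lg (wt N b (1 / ξ ^ 2)) 0 := rfl
    rw [e1, e2] at h3
    linarith
  par J u := by
    unfold qb
    rw [← mul_add, ← Finset.sum_add_distrib]
    have : ∑ x, ((J + u) x ^ 2 + (J - u) x ^ 2) = 2 * ∑ x, J x ^ 2 + 2 * ∑ x, u x ^ 2 := by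
      rw [Finset.mul_sum, Finset.mul_sum, ← Finset.sum_add_distrib]
      refine Finset.sum_congr rfl fun x _ => ?_
      simp only [Pi.add_apply, Pi.sub_apply]
      ring
    rw [this]
    apply le_of_eq
    ring

/-- a local source: supported in the blocks `I`, size at most `A / ξ²` -/
structure Wd (ξ : ℕ) (I : Finset (ℕ × ℕ)) (A : ℝ) (j : ℕ → ℕ → ℝ) : Prop where
  bd : ∀ i k, |j i k| ≤ A / (ξ : ℝ) ^ 2
  sp : ∀ i k, j i k ≠ 0 → ∃ p ∈ I, dB p (i, k) ≤ ξ

theorem Wd.add {ξ : ℕ} {I : Finset (ℕ × ℕ)} {A B : ℝ} {j u : ℕ → ℕ → ℝ} (h : Wd ξ I A j)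
    (h' : Wd ξ I B u) {s : ℝ} (hs : |s| ≤ 1) : Wd ξ I (A + B) (fun i k => j i k + s * u i k) where
  bd i k := by
    refine (abs_add_le _ _).trans ?_
    rw [abs_mul, add_div]
    refine add_le_add (h.bd i k) ?_
    calc |s| * |u i k| ≤ 1 * |u i k| := mul_le_mul_of_nonneg_right hs (abs_nonneg _)
      _ ≤ _ := by rw [one_mul]; exact h'.bd i k
  sp i k hne := by
    by_cases hj : j i k = 0
    · refine h'.sp i k fun hu => hne ?_
      simp only [hj, hu, mul_zero, add_zero]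
    · exact h.sp i k hj

theorem Wd.mono {ξ : ℕ} {I : Finset (ℕ × ℕ)} {A B : ℝ} (hAB : A ≤ B) {j : ℕ → ℕ → ℝ}
    (h : Wd ξ I A j) : Wd ξ I B j where
  bd i k := (h.bd i k).trans (div_le_div_of_nonneg_right hAB (by positivity))
  sp := h.sp

theorem src_add (n : ℕ) (j u : ℕ → ℕ → ℝ) (s : ℝ) :
    src N n (fun i k => j i k + s * u i k) = src N n j + s • src N n u := by
  funext x
  simp only [src, Pi.add_apply, Pi.smul_apply, smul_eq_mul]
  split_ifs
  · rfl
  · ring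

/-- size of a local source -/
theorem qb_src {ξ : ℕ} (hξ : 0 < ξ) {n : ℕ} {I : Finset (ℕ × ℕ)}
    (hI : ∀ p ∈ I, 2 * (ξ + 1) ≤ n) (hn : n ≤ N) {A : ℝ} {j : ℕ → ℕ → ℝ} (h : Wd ξ I A j) :
    qb (ξ : ℝ) (src N n j) ≤ 9 / 2 * A ^ 2 * I.card := by
  classical
  have hξ' : (0 : ℝ) < ξ := by exact_mod_cast hξ
  have h1 : ∀ x : V N, (src N n j x) ^ 2 ≤
      if x ∈ I.biUnion (fun p => ball (TM.H705.pt N p) ξ) then A ^ 2 / (ξ : ℝ) ^ 4 else 0 := by
    intro x
    have hp : (0 : ℝ) ≤ A ^ 2 / (ξ : ℝ) ^ 4 := by positivity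
    by_cases h0 : src N n j x = 0
    · rw [h0]
      simp only [ne_eq, OfNat.ofNat_ne_zero, not_false_eq_true, zero_pow]
      split_ifs
      · exact hp
      · exact le_rfl
    · have h2 : x ∈ I.biUnion (fun p => ball (TM.H705.pt N p) ξ) := by
        have h0' := h0
        unfold src at h0'
        split_ifs at h0' with h3
        · obtain ⟨p, hp, hd⟩ := h.sp _ _ h0'
          refine Finset.mem_biUnion.2 ⟨p, hp, ?_⟩
          rw [mem_ball]
          have e1 : x = TM.H705.pt N (x.1.val, x.2.val) := by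
            unfold TM.H705.pt
            simp
          unfold TM.H459.sd
          rw [e1, TM.H705.sn_pt_sub (r := ξ) ?_ hd]
          · exact hd
          · have := hI p hp
            omega
        · exact absurd rfl h0'
      rw [if_pos h2]
      have h3 : |src N n j x| ≤ A / (ξ : ℝ) ^ 2 := by
        unfold src
        unfold src at h0
        split_ifs at h0 ⊢ with h4
        · exact h.bd _ _
        · exact absurd rfl h0
      calc (src N n j x) ^ 2 = |src N n j x| ^ 2 := (sq_abs _).symm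
        _ ≤ (A / (ξ : ℝ) ^ 2) ^ 2 := pow_le_pow_left₀ (abs_nonneg _) h3 2
        _ = _ := by rw [div_pow]; congr 1; ring
  unfold qb
  have h2 := Finset.sum_le_sum fun (x : V N) (_ : x ∈ univ) => h1 x
  rw [Finset.sum_ite_mem, Finset.univ_inter, Finset.sum_const, nsmul_eq_mul] at h2
  have h6 : ((I.biUnion fun p => ball (TM.H705.pt N p) ξ).card : ℝ) ≤ I.card * (9 * (ξ : ℝ) ^ 2) := by
    have h7 : (I.biUnion fun p => ball (TM.H705.pt N p) ξ).card ≤ I.card * (2 * ξ + 1) ^ 2 :=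
      Finset.card_biUnion_le_card_mul _ _ _ fun y _ => card_ball_le _ ξ
    have h8 : ((I.biUnion fun p => ball (TM.H705.pt N p) ξ).card : ℝ) ≤
        I.card * (2 * ξ + 1) ^ 2 := by
      exact_mod_cast h7
    have h9 : (1 : ℝ) ≤ ξ := by exact_mod_cast hξ
    refine h8.trans (mul_le_mul_of_nonneg_left ?_ (Nat.cast_nonneg _))
    nlinarith
  calc (ξ : ℝ) ^ 2 / 2 * ∑ x, src N n j x ^ 2
      ≤ (ξ : ℝ) ^ 2 / 2 * (((I.biUnion fun p => ball (TM.H705.pt N p) ξ).card : ℝ) *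
        (A ^ 2 / (ξ : ℝ) ^ 4)) := mul_le_mul_of_nonneg_left h2 (by positivity)
    _ ≤ (ξ : ℝ) ^ 2 / 2 * ((I.card * (9 * (ξ : ℝ) ^ 2)) * (A ^ 2 / (ξ : ℝ) ^ 4)) := by
        gcongr
    _ = _ := by field_simp

/-- the error -/
noncomputable def err9 (C c A : ℝ) (k r ξ : ℕ) : ℝ :=
  20 * (1 + 2 * Real.sqrt C * A * k) * Real.exp (141 * A ^ 2 * k) *
    Real.exp (-(c * r / (6 * ξ)))

/-- the standing hypotheses on the window and on the two tori -/
structure Two (N M : ℕ) [NeZero N] [NeZero M] (b : ℝ) (hb : 0 ≤ b) (ξ : ℕ) (y y' c C : ℝ)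
    (I : Finset (ℕ × ℕ)) (r n : ℕ) : Prop where
  hξ : 0 < ξ
  hC : 0 < C
  hT : HA N b ξ hb y c C
  hT' : HA M b ξ hb y' c C
  hr : ξ + 1 ≤ r
  hny : (r : ℝ) * y ≤ c * ξ
  hny' : (r : ℝ) * y' ≤ c * ξ
  hI : ∀ p ∈ I, (r < p.1 ∧ p.1 + r < n) ∧ r < p.2 ∧ p.2 + r < n
  hn : n ≤ N
  hn' : n ≤ M

variable {M : ℕ} [NeZero M] {b : ℝ} {hb : 0 ≤ b} {ξ : ℕ} {y y' c C : ℝ} {I : Finset (ℕ × ℕ)}
  {r n : ℕ}

/-- **LOC9, diagonal form.** -/
theorem loc9_diag (H : Two N M b hb ξ y y' c C I r n) {j u : ℕ → ℕ → ℝ} {A : ℝ} (hA : 0 ≤ A)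
    (hj : Wd ξ I A j) (hu : Wd ξ I A u) :
    |Ex (wt N b (1 / (ξ : ℝ) ^ 2)) (src N n j) (li (src N n u)) -
      Ex (wt M b (1 / (ξ : ℝ) ^ 2)) (src M n j) (li (src M n u))| ≤ err9 C c A I.card r ξ ∧
    |Cv (wt N b (1 / (ξ : ℝ) ^ 2)) (src N n j) (li (src N n u)) (li (src N n u)) -
      Cv (wt M b (1 / (ξ : ℝ) ^ 2)) (src M n j) (li (src M n u)) (li (src M n u))| ≤
      err9 C c A I.card r ξ := by
  have hξ' : (0 : ℝ) < ξ := by exact_mod_cast H.hξ
  set k : ℝ := (I.card : ℝ) with hk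
  have hk0 : 0 ≤ k := Nat.cast_nonneg _
  set μN := wt N b (1 / (ξ : ℝ) ^ 2) with hμN
  set μM := wt M b (1 / (ξ : ℝ) ^ 2) with hμM
  have bN : BB μN (qb (ξ : ℝ)) := bb_wt hb hξ'
  have bM : BB μM (qb (ξ : ℝ)) := bb_wt hb hξ'
  have hI2 : ∀ p ∈ I, 2 * (ξ + 1) ≤ n := by
    intro p hp
    have h1 := H.hI p hp
    have h2 := H.hr
    omega
  set δ := (1 + 2 * Real.sqrt C * A * k) * Real.exp (96 * A ^ 2 * k) *
    Real.exp (-(c * r / (6 * ξ))) with hδ
  have hs0 : 0 ≤ Real.sqrt C := Real.sqrt_nonneg _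
  have hδ0 : 0 < δ := by positivity
  set φ : ℝ → ℝ := fun s => (Lg μN (src N n j + s • src N n u) - Lg μN 0) -
    (Lg μM (src M n j + s • src M n u) - Lg μM 0) with hφ
  set φ1 : ℝ → ℝ := fun s => Ex μN (src N n j + s • src N n u) (li (src N n u)) -
    Ex μM (src M n j + s • src M n u) (li (src M n u)) with hφ1
  set φ2 : ℝ → ℝ := fun s =>
    Cv μN (src N n j + s • src N n u) (li (src N n u)) (li (src N n u)) -
    Cv μM (src M n j + s • src M n u) (li (src M n u)) (li (src M n u)) with hφ2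
  set φ3 : ℝ → ℝ := fun s =>
    K3 μN (src N n j + s • src N n u) (li (src N n u)) (li (src N n u)) (li (src N n u)) -
    K3 μM (src M n j + s • src M n u) (li (src M n u)) (li (src M n u)) (li (src M n u)) with hφ3
  have d1 : ∀ s, HasDerivAt φ (φ1 s) s := fun s =>
    ((hasDerivAt_Lg bN.em _ _ s).sub_const _).sub ((hasDerivAt_Lg bM.em _ _ s).sub_const _)
  have d2 : ∀ s, HasDerivAt φ1 (φ2 s) s := fun s =>
    (hasDerivAt_Ex bN.em (Gr.li _) _ _ s).sub (hasDerivAt_Ex bM.em (Gr.li _) _ _ s)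
  have d3 : ∀ s, HasDerivAt φ2 (φ3 s) s := fun s =>
    (hasDerivAt_Cv bN.em (Gr.li _) (Gr.li _) _ _ s).sub
      (hasDerivAt_Cv bM.em (Gr.li _) (Gr.li _) _ _ s)
  -- the size of the sources
  have hw : ∀ s : ℝ, |s| ≤ 1 → Wd ξ I (A + A) (fun i k => j i k + s * u i k) := fun s hs =>
    hj.add hu hs
  have qN : ∀ s : ℝ, |s| ≤ 1 → qb (ξ : ℝ) (src N n j + s • src N n u) ≤ 18 * A ^ 2 * k := by
    intro s hs
    have h1 := qb_src (N := N) H.hξ hI2 H.hn (hw s hs)
    rw [src_add] at h1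
    refine h1.trans (le_of_eq ?_)
    rw [← hk]; ring
  have qM : ∀ s : ℝ, |s| ≤ 1 → qb (ξ : ℝ) (src M n j + s • src M n u) ≤ 18 * A ^ 2 * k := by
    intro s hs
    have h1 := qb_src (N := M) H.hξ hI2 H.hn' (hw s hs)
    rw [src_add] at h1
    refine h1.trans (le_of_eq ?_)
    rw [← hk]; ring
  have quN : qb (ξ : ℝ) (src N n u) ≤ 9 / 2 * A ^ 2 * k := qb_src H.hξ hI2 H.hn hu
  have quM : qb (ξ : ℝ) (src M n u) ≤ 9 / 2 * A ^ 2 * k := qb_src H.hξ hI2 H.hn' hu
  have qjN : qb (ξ : ℝ) (src N n j) ≤ 9 / 2 * A ^ 2 * k := qb_src H.hξ hI2 H.hn hj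
  have qjM : qb (ξ : ℝ) (src M n j) ≤ 9 / 2 * A ^ 2 * k := qb_src H.hξ hI2 H.hn' hj
  set X := Real.exp (45 * A ^ 2 * k) with hX
  have hX0 : 0 < X := Real.exp_pos _
  have hexpN : ∀ s : ℝ, |s| ≤ 1 →
      Real.exp (2 * qb (ξ : ℝ) (src N n j + s • src N n u) + 2 * qb (ξ : ℝ) (src N n u)) ≤ X := by
    intro s hs
    refine Real.exp_le_exp.2 ?_
    have := qN s hs
    nlinarith
  have hexpM : ∀ s : ℝ, |s| ≤ 1 →
      Real.exp (2 * qb (ξ : ℝ) (src M n j + s • src M n u) + 2 * qb (ξ : ℝ) (src M n u)) ≤ X := by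
    intro s hs
    refine Real.exp_le_exp.2 ?_
    have := qM s hs
    nlinarith
  -- LOC8
  have hφb : ∀ s, |s| ≤ 1 → |φ s| ≤ δ ^ 3 := by
    intro s hs
    have h1 := loc8_two hb H.hξ H.hC H.hT H.hT' H.hr H.hny H.hny' H.hI H.hn H.hn'
      (A := A + A) (by positivity) (hw s hs).bd (hw s hs).sp
    rw [src_add, src_add] at h1
    refine h1.trans ?_
    unfold eps8
    rw [← hk]
    have e1 : δ ^ 3 = (1 + 2 * Real.sqrt C * A * k) ^ 3 * Real.exp (288 * A ^ 2 * k) *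
        Real.exp (-(c * r / (2 * ξ))) := by
      rw [hδ, mul_pow, mul_pow, ← Real.exp_nat_mul, ← Real.exp_nat_mul]
      congr 2
      · congr 1
        push_cast
        ring
      · congr 1
        push_cast
        field_simp
        ring
    rw [e1]
    have e2 : 72 * (A + A) ^ 2 * k = 288 * A ^ 2 * k := by ring
    rw [e2]
    refine mul_le_mul_of_nonneg_right (mul_le_mul_of_nonneg_right ?_ (Real.exp_pos _).le)
      (Real.exp_pos _).le
    have h2 : 0 ≤ 2 * Real.sqrt C * A * k := by positivity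
    have h3 : Real.sqrt C * (A + A) * k = 2 * Real.sqrt C * A * k := by ring
    rw [h3]
    nlinarith [pow_nonneg h2 2, pow_nonneg h2 3]
  have hB1 : |φ1 0| ≤ 36 * A ^ 2 * k := by
    have h1 := bN.mean_le (src N n j + (0 : ℝ) • src N n u) (src N n u)
    have h2 := bM.mean_le (src M n j + (0 : ℝ) • src M n u) (src M n u)
    have h3 : |φ1 0| ≤ |Ex μN (src N n j + (0 : ℝ) • src N n u) (li (src N n u))| +
        |Ex μM (src M n j + (0 : ℝ) • src M n u) (li (src M n u))| := abs_sub _ _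
    simp only [zero_smul, add_zero] at h1 h2 h3
    linarith
  have hB2 : ∀ s, |s| ≤ 1 → |φ2 s| ≤ 8 * X := by
    intro s hs
    have h1 := bN.cv_le (src N n j + s • src N n u) (src N n u)
    have h2 := bM.cv_le (src M n j + s • src M n u) (src M n u)
    have h3 := hexpN s hs
    have h4 := hexpM s hs
    refine (abs_sub _ _).trans ?_
    linarith
  have hB3 : ∀ s, |s| ≤ 1 → |φ3 s| ≤ 24 * X := by
    intro s hs
    have h1 := bN.k3_le (src N n j + s • src N n u) (src N n u)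
    have h2 := bM.k3_le (src M n j + s • src M n u) (src M n u)
    have h3 := hexpN s hs
    have h4 := hexpM s hs
    refine (abs_sub _ _).trans ?_
    linarith
  have hlk := lk3 d1 d2 d3 hδ0 hφb hB1 hB2 hB3
  have hX1 : 1 + 45 * A ^ 2 * k ≤ X := by
    have := Real.add_one_le_exp (45 * A ^ 2 * k)
    linarith
  have hAk : 0 ≤ A ^ 2 * k := by positivity
  have herr : err9 C c A I.card r ξ = 20 * (δ * X) := by
    unfold err9
    rw [← hk, hδ, hX]
    have : Real.exp (141 * A ^ 2 * k) = Real.exp (96 * A ^ 2 * k) * Real.exp (45 * A ^ 2 * k) := by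
      rw [← Real.exp_add]; congr 1; ring
    rw [this]
    ring
  rw [herr]
  constructor
  · have h1 := hlk.1
    simp only [hφ1, zero_smul, add_zero] at h1
    refine h1.trans ?_
    have : δ * (1 + 8 * X / 2 + 36 * A ^ 2 * k) ≤ δ * (20 * X) := by
      refine mul_le_mul_of_nonneg_left ?_ hδ0.le
      nlinarith
    linarith
  · have h1 := hlk.2
    simp only [hφ2, zero_smul, add_zero] at h1
    refine h1.trans ?_
    have : δ * (4 + 24 * X / 3 + 8 * X) ≤ δ * (20 * X) := by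
      refine mul_le_mul_of_nonneg_left ?_ hδ0.le
      nlinarith
    linarith

theorem Cv_polar {V : Type*} [Fintype V] {μ : (V → ℤ) → ℝ} (hμ : EM μ) (J u v : V → ℝ) :
    Cv μ J (li u) (li v) = (Cv μ J (li (u + v)) (li (u + v)) - Cv μ J (li (u - v)) (li (u - v))) / 4 := by
  have g1 := Gr.li u
  have g2 := Gr.li v
  have e1 : (li (u + v) : (V → ℤ) → ℝ) = fun h => li u h + li v h := by
    funext h; rw [li_add]
  have e2 : (li (u - v) : (V → ℤ) → ℝ) = fun h => li u h - li v h := by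
    funext h; rw [li_sub]
  have e3 : (fun h : V → ℤ => (li u h + li v h) * (li u h + li v h)) =
      fun h => (li u h * li u h + 2 * (li u h * li v h)) + li v h * li v h := by
    funext h; ring
  have e4 : (fun h : V → ℤ => (li u h - li v h) * (li u h - li v h)) =
      fun h => (li u h * li u h - 2 * (li u h * li v h)) + li v h * li v h := by
    funext h; ring
  unfold Cv
  rw [e1, e2, e3, e4, Ex_add hμ g1 g2, Ex_sub hμ g1 g2,
    Ex_add hμ ((g1.mul g1).add ((Gr.const 2).mul (g1.mul g2))) (g2.mul g2),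
    Ex_add hμ (g1.mul g1) ((Gr.const 2).mul (g1.mul g2)),
    Ex_add hμ ((g1.mul g1).sub ((Gr.const 2).mul (g1.mul g2))) (g2.mul g2),
    Ex_sub hμ (g1.mul g1) ((Gr.const 2).mul (g1.mul g2)), Ex_cmul]
  ring

/-- **LOC9, means.** -/
theorem loc9_mean (H : Two N M b hb ξ y y' c C I r n) {j u : ℕ → ℕ → ℝ} {A : ℝ} (hA : 0 ≤ A)
    (hj : Wd ξ I A j) (hu : Wd ξ I A u) :
    |Ex (wt N b (1 / (ξ : ℝ) ^ 2)) (src N n j) (li (src N n u)) -
      Ex (wt M b (1 / (ξ : ℝ) ^ 2)) (src M n j) (li (src M n u))| ≤ err9 C c A I.card r ξ :=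
  (loc9_diag H hA hj hu).1

/-- **LOC9, covariances.** -/
theorem loc9_cv (H : Two N M b hb ξ y y' c C I r n) {j u v : ℕ → ℕ → ℝ} {A : ℝ} (hA : 0 ≤ A)
    (hj : Wd ξ I A j) (hu : Wd ξ I A u) (hv : Wd ξ I A v) :
    |Cv (wt N b (1 / (ξ : ℝ) ^ 2)) (src N n j) (li (src N n u)) (li (src N n v)) -
      Cv (wt M b (1 / (ξ : ℝ) ^ 2)) (src M n j) (li (src M n u)) (li (src M n v))| ≤
      err9 C c (2 * A) I.card r ξ := by
  have hξ' : (0 : ℝ) < ξ := by exact_mod_cast H.hξ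
  have eN : EM (wt N b (1 / (ξ : ℝ) ^ 2)) := em_wt' hb hξ'
  have eM : EM (wt M b (1 / (ξ : ℝ) ^ 2)) := em_wt' hb hξ'
  have hj2 : Wd ξ I (2 * A) j := hj.mono (by linarith)
  have hp : Wd ξ I (2 * A) (fun i k => u i k + 1 * v i k) := by
    have := hu.add hv (s := 1) (by simp)
    exact this.mono (by linarith)
  have hm : Wd ξ I (2 * A) (fun i k => u i k + (-1) * v i k) := by
    have := hu.add hv (s := -1) (by simp)
    exact this.mono (by linarith)
  have h1 := (loc9_diag H (by linarith : 0 ≤ 2 * A) hj2 hp).2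
  have h2 := (loc9_diag H (by linarith : 0 ≤ 2 * A) hj2 hm).2
  rw [src_add, src_add, one_smul, one_smul] at h1
  rw [src_add, src_add, neg_one_smul, neg_one_smul, ← sub_eq_add_neg, ← sub_eq_add_neg] at h2
  rw [Cv_polar eN, Cv_polar eM]
  rw [abs_le] at h1 h2 ⊢
  have h0 : 0 ≤ err9 C c (2 * A) I.card r ξ := by
    unfold err9
    have := Real.sqrt_nonneg C
    positivity
  constructor <;> linarith [h1.1, h1.2, h2.1, h2.2]

end Vale.Agent.P159.H358
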