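import Vale.Agent.P159.H358.Loc8r
import Vale.Agent.P159.H358.Loc9b

/-!
P159, row LOC9, energy form: means and covariances of local linear functionals in an arbitrary
local background agree on two tori up to
`err9q = 60 (1 + 2 sqrt C A k) exp (3 Λ) exp (- c r / 12 ξ)`, where `Λ` bounds the logarithm of
`Z(2 (J + s u)) / Z(0)`, `|s| ≤ 2`, on both tori.
-/

open Finset MeasureTheory

set_option linter.unusedSectionVars false
set_option linter.unusedDecidableInType false

namespace Vale.Agent.P159.H358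

open Vale.Agent.P159.TM.H104
open Vale.Agent.P159.H37 (Zs Ev qf wt)
open Vale.Agent.P159.TM.Spec (V)
open Vale.Agent.P159.TM.H265 (HA DT)
open Vale.Agent.P159.TM.H705 (dB)

section mom

variable {V : Type*} [Fintype V] {μ : (V → ℤ) → ℝ}

/-- local input: `log Z(2 (J + s u))/Z(0) ≤ Λ` for `|s| ≤ 2` -/
structure LL (μ : (V → ℤ) → ℝ) (J u : V → ℝ) (Λ : ℝ) : Prop where
  em : EM μ
  lo : ∀ K, Lg μ 0 ≤ Lg μ K
  hi : ∀ s : ℝ, |s| ≤ 2 → Lg μ ((2 : ℝ) • (J + s • u)) - Lg μ 0 ≤ Λ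

/-- convexity on a ray -/
theorem Lg_half (hμ : EM μ) (hlo : ∀ K, Lg μ 0 ≤ Lg μ K) (K : V → ℝ) :
    Lg μ K ≤ Lg μ ((2 : ℝ) • K) := by
  -- tangent line at `K`: `Lg 0 ≥ Lg K - m`, `Lg 2K ≥ Lg K + m`
  have t1 := Lg_tangent hμ K K
  have t2 := Lg_tangent hμ K (-K)
  have e4 : Ex μ K (li (-K)) = -Ex μ K (li K) := by
    have : (li (-K) : (V → ℤ) → ℝ) = fun h => -1 * li K h := by
      funext h
      rw [li_neg]; ring
    rw [this, Ex_cmul]
    ring
  rw [e4, add_neg_cancel] at t2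
  rw [← two_smul ℝ] at t1
  have := hlo K
  linarith

variable {J u : V → ℝ} {Λ : ℝ}

theorem LL.nonneg (h : LL μ J u Λ) : 0 ≤ Λ := by
  have h1 := h.hi 0 (by simp)
  have h2 := h.lo ((2 : ℝ) • (J + (0 : ℝ) • u))
  linarith

theorem LL.hi1 (h : LL μ J u Λ) {s : ℝ} (hs : |s| ≤ 2) : Lg μ (J + s • u) - Lg μ 0 ≤ Λ := by
  have h1 := h.hi s hs
  have h2 := Lg_half h.em h.lo (J + s • u)
  linarith

theorem LL.exp_dev (h : LL μ J u Λ) {s : ℝ} (hs : |s| ≤ 1) :
    Ex μ (J + s • u) (fun h => Real.exp (li u h - Ex μ (J + s • u) (li u))) ≤ Real.exp (2 * Λ) := by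
  set K := J + s • u with hK
  have e3 : (fun h => Real.exp (li u h - Ex μ K (li u))) =
      fun h => Real.exp (-Ex μ K (li u)) * Real.exp (li u h) := by
    funext h
    rw [← Real.exp_add]
    congr 1
    ring
  rw [e3, Ex_cmul, Ex_exp h.em, ← Real.exp_add]
  refine Real.exp_le_exp.2 ?_
  have t1 := Lg_tangent h.em K (-u)
  have e4 : Ex μ K (li (-u)) = -Ex μ K (li u) := by
    have : (li (-u) : (V → ℤ) → ℝ) = fun h => -1 * li u h := by
      funext h
      rw [li_neg]; ring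
    rw [this, Ex_cmul]
    ring
  rw [e4] at t1
  have b1 := abs_le.1 hs
  have p1 := h.hi1 (s := s + 1) (by rw [abs_le]; constructor <;> linarith [b1.1, b1.2])
  have p2 := h.hi1 (s := s - 1) (by rw [abs_le]; constructor <;> linarith [b1.1, b1.2])
  have q1 : J + (s + 1) • u = K + u := by rw [hK, add_smul, one_smul, add_assoc]
  have q2 : J + (s - 1) • u = K + -u := by rw [hK, sub_smul, one_smul]; abel
  rw [q1] at p1
  rw [q2] at p2
  have a3 := h.lo K
  linarith

theorem LL.exp_dev' (h : LL μ J u Λ) {s : ℝ} (hs : |s| ≤ 1) :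
    Ex μ (J + s • u) (fun h => Real.exp (-(li u h - Ex μ (J + s • u) (li u)))) ≤
      Real.exp (2 * Λ) := by
  set K := J + s • u with hK
  have e3 : (fun h => Real.exp (-(li u h - Ex μ K (li u)))) =
      fun h => Real.exp (Ex μ K (li u)) * Real.exp (li (-u) h) := by
    funext h
    rw [← Real.exp_add, li_neg]
    congr 1
    ring
  rw [e3, Ex_cmul, Ex_exp h.em, ← Real.exp_add]
  refine Real.exp_le_exp.2 ?_
  have t1 := Lg_tangent h.em K u
  have b1 := abs_le.1 hs
  have p1 := h.hi1 (s := s + 1) (by rw [abs_le]; constructor <;> linarith [b1.1, b1.2])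
  have p2 := h.hi1 (s := s - 1) (by rw [abs_le]; constructor <;> linarith [b1.1, b1.2])
  have q1 : J + (s + 1) • u = K + u := by rw [hK, add_smul, one_smul, add_assoc]
  have q2 : J + (s - 1) • u = K + -u := by rw [hK, sub_smul, one_smul]; abel
  rw [q1] at p1
  rw [q2] at p2
  have a3 := h.lo K
  linarith

theorem LL.cv_le (h : LL μ J u Λ) {s : ℝ} (hs : |s| ≤ 1) :
    |Cv μ (J + s • u) (li u) (li u)| ≤ 4 * Real.exp (2 * Λ) := by
  have d1 := h.exp_dev hs
  have d2 := h.exp_dev' hs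
  set K := J + s • u with hK
  set m := Ex μ K (li u) with hm
  have e1 : Cv μ K (li u) (li u) = Ex μ K fun h => (li u h - m) * (li u h - m) := by
    have e2 : (fun h => (li u h - m) * (li u h - m)) =
        fun h => (li u h * li u h - (2 * m) * li u h) + m * m := by
      funext h; ring
    rw [e2, Ex_add h.em (((Gr.li u).mul (Gr.li u)).sub ((Gr.const _).mul (Gr.li u)))
      (Gr.const _), Ex_sub h.em ((Gr.li u).mul (Gr.li u)) ((Gr.const _).mul (Gr.li u)), Ex_cmul,
      Ex_const h.em]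
    unfold Cv
    rw [← hm]
    ring
  have g1 : Gr fun h : V → ℤ => (li u h - m) * (li u h - m) :=
    ((Gr.li u).sub (Gr.const _)).mul ((Gr.li u).sub (Gr.const _))
  have h0 : 0 ≤ Cv μ K (li u) (li u) := by
    rw [e1]
    exact Ex_nonneg h.em (fun h => mul_self_nonneg _) K
  rw [abs_of_nonneg h0, e1]
  have h2 : Ex μ K (fun h => (li u h - m) * (li u h - m)) ≤
      Ex μ K fun h => 2 * (Real.exp (li u h - m) + Real.exp (-(li u h - m))) := by
    refine Ex_mono h.em g1 ((Gr.const 2).mul ((gr_dev u m).add (gr_dev' u m)))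
      (fun h => ?_) K
    have key : ∀ x : ℝ, x * x ≤ 2 * (Real.exp x + Real.exp (-x)) := by
      intro x
      have a1 : ∀ z : ℝ, 0 ≤ z → z * z ≤ 2 * Real.exp z := by
        intro z hz
        have := Real.quadratic_le_exp_of_nonneg hz
        nlinarith
      rcases le_total 0 x with hx | hx
      · have := a1 x hx
        have := Real.exp_pos (-x)
        linarith
      · have := a1 (-x) (by linarith)
        have := Real.exp_pos x
        nlinarith
    exact key _
  refine h2.trans ?_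
  rw [Ex_cmul, Ex_add h.em (gr_dev u m) (gr_dev' u m)]
  linarith

theorem LL.k3_le (h : LL μ J u Λ) {s : ℝ} (hs : |s| ≤ 1) :
    |K3 μ (J + s • u) (li u) (li u) (li u)| ≤ 12 * Real.exp (2 * Λ) := by
  have d1 := h.exp_dev hs
  have d2 := h.exp_dev' hs
  set K := J + s • u with hK
  set m := Ex μ K (li u) with hm
  have gl := Gr.li u
  have gc : Gr fun h : V → ℤ => li u h - m := gl.sub (Gr.const _)
  have e1 : K3 μ K (li u) (li u) (li u) =
      Ex μ K fun h => (li u h - m) * (li u h - m) * (li u h - m) := by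
    have e2 : (fun h => (li u h - m) * (li u h - m) * (li u h - m)) =
        fun h => ((li u h * li u h * li u h - (3 * m) * (li u h * li u h)) +
          (3 * m * m) * li u h) - m * m * m := by
      funext h; ring
    rw [e2, Ex_sub h.em ((((gl.mul gl).mul gl).sub ((Gr.const _).mul (gl.mul gl))).add
        ((Gr.const _).mul gl)) (Gr.const _),
      Ex_add h.em (((gl.mul gl).mul gl).sub ((Gr.const _).mul (gl.mul gl)))
        ((Gr.const _).mul gl),
      Ex_sub h.em ((gl.mul gl).mul gl) ((Gr.const _).mul (gl.mul gl)), Ex_cmul, Ex_cmul,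
      Ex_const h.em]
    unfold K3
    rw [← hm]
    ring
  have g3 : Gr fun h : V → ℤ => (li u h - m) * (li u h - m) * (li u h - m) :=
    (gc.mul gc).mul gc
  have gE : Gr fun h : V → ℤ => 6 * (Real.exp (li u h - m) + Real.exp (-(li u h - m))) :=
    (Gr.const 6).mul ((gr_dev u m).add (gr_dev' u m))
  have key : ∀ x : ℝ, |x * x * x| ≤ 6 * (Real.exp x + Real.exp (-x)) := by
    intro x
    have a1 : ∀ z : ℝ, 0 ≤ z → z * z * z ≤ 6 * Real.exp z := by
      intro z hz
      have h5 := Real.pow_div_factorial_le_exp z hz 3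
      have h6 : ((Nat.factorial 3 : ℕ) : ℝ) = 6 := by norm_num [Nat.factorial]
      rw [h6, div_le_iff₀ (by norm_num)] at h5
      nlinarith
    rcases le_total 0 x with hx | hx
    · rw [abs_of_nonneg (by positivity)]
      have := a1 x hx
      have := Real.exp_pos (-x)
      linarith
    · have e : x * x * x = -((-x) * (-x) * (-x)) := by ring
      have hx' : 0 ≤ -x := by linarith
      rw [e, abs_neg, abs_of_nonneg (by positivity)]
      have := a1 (-x) hx'
      have := Real.exp_pos x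
      linarith
  have hE : Ex μ K (fun h => 6 * (Real.exp (li u h - m) + Real.exp (-(li u h - m)))) ≤
      12 * Real.exp (2 * Λ) := by
    rw [Ex_cmul, Ex_add h.em (gr_dev u m) (gr_dev' u m)]
    linarith
  rw [e1, abs_le]
  constructor
  · have h2 := Ex_mono h.em (gE.neg) g3 (fun h => by
      have := (abs_le.1 (key (li u h - m))).1
      linarith) K
    have h3 : Ex μ K (fun h => -(6 * (Real.exp (li u h - m) + Real.exp (-(li u h - m))))) =
        -Ex μ K (fun h => 6 * (Real.exp (li u h - m) + Real.exp (-(li u h - m)))) := by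
      have : (fun h : V → ℤ => -(6 * (Real.exp (li u h - m) + Real.exp (-(li u h - m))))) =
          fun h => -1 * (6 * (Real.exp (li u h - m) + Real.exp (-(li u h - m)))) := by
        funext h; ring
      rw [this, Ex_cmul]; ring
    rw [h3] at h2
    linarith
  · have h2 := Ex_mono h.em g3 gE (fun h => (abs_le.1 (key (li u h - m))).2) K
    linarith

theorem LL.mean_le (h : LL μ J u Λ) : |Ex μ J (li u)| ≤ Λ := by
  have t1 := Lg_tangent h.em J u
  have t2 := Lg_tangent h.em J (-u)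
  have e4 : Ex μ J (li (-u)) = -Ex μ J (li u) := by
    have : (li (-u) : (V → ℤ) → ℝ) = fun h => -1 * li u h := by
      funext h
      rw [li_neg]; ring
    rw [this, Ex_cmul]
    ring
  rw [e4] at t2
  have a1 := h.hi1 (s := 1) (by norm_num)
  have a2 := h.hi1 (s := -1) (by norm_num)
  rw [one_smul] at a1
  rw [neg_one_smul] at a2
  have a3 := h.lo J
  rw [abs_le]
  constructor <;> linarith

end mom

variable {N : ℕ} [NeZero N] {M : ℕ} [NeZero M] {b : ℝ} {hb : 0 ≤ b} {ξ : ℕ} {y y' c C : ℝ}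
  {I : Finset (ℕ × ℕ)} {r n : ℕ}

/-- the error, energy form -/
noncomputable def err9q (C c A Λ : ℝ) (k r ξ : ℕ) : ℝ :=
  60 * (1 + 2 * Real.sqrt C * A * k) * Real.exp (3 * Λ) * Real.exp (-(c * r / (12 * ξ)))

theorem err9q_nonneg (C c : ℝ) {A : ℝ} (hA : 0 ≤ A) (Λ : ℝ) (k r ξ : ℕ) :
    0 ≤ err9q C c A Λ k r ξ := by
  unfold err9q
  have := Real.sqrt_nonneg C
  positivity

/-- **LOC9, diagonal form, energy form.** -/
theorem loc9q_diag (H : Two N M b hb ξ y y' c C I r n) {j u : ℕ → ℕ → ℝ} {A Λ : ℝ} (hA : 0 ≤ A)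
    (hj : Wd ξ I A j) (hu : Wd ξ I A u)
    (hN : ∀ s : ℝ, |s| ≤ 2 → Lg (wt N b (1 / (ξ : ℝ) ^ 2))
      ((2 : ℝ) • (src N n j + s • src N n u)) - Lg (wt N b (1 / (ξ : ℝ) ^ 2)) 0 ≤ Λ)
    (hM : ∀ s : ℝ, |s| ≤ 2 → Lg (wt M b (1 / (ξ : ℝ) ^ 2))
      ((2 : ℝ) • (src M n j + s • src M n u)) - Lg (wt M b (1 / (ξ : ℝ) ^ 2)) 0 ≤ Λ) :
    |Ex (wt N b (1 / (ξ : ℝ) ^ 2)) (src N n j) (li (src N n u)) -
      Ex (wt M b (1 / (ξ : ℝ) ^ 2)) (src M n j) (li (src M n u))| ≤
        err9q C c A Λ I.card r ξ ∧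
    |Cv (wt N b (1 / (ξ : ℝ) ^ 2)) (src N n j) (li (src N n u)) (li (src N n u)) -
      Cv (wt M b (1 / (ξ : ℝ) ^ 2)) (src M n j) (li (src M n u)) (li (src M n u))| ≤
      err9q C c A Λ I.card r ξ := by
  have hξ' : (0 : ℝ) < ξ := by exact_mod_cast H.hξ
  set k : ℝ := (I.card : ℝ) with hk
  have hk0 : 0 ≤ k := Nat.cast_nonneg _
  set μN := wt N b (1 / (ξ : ℝ) ^ 2) with hμN
  set μM := wt M b (1 / (ξ : ℝ) ^ 2) with hμM
  have bN : LL μN (src N n j) (src N n u) Λ := ⟨em_wt' hb hξ', Lg_zero_le hb hξ', hN⟩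
  have bM : LL μM (src M n j) (src M n u) Λ := ⟨em_wt' hb hξ', Lg_zero_le hb hξ', hM⟩
  have hΛ0 := bN.nonneg
  have hs0 : 0 ≤ Real.sqrt C := Real.sqrt_nonneg _
  set z := 2 * Real.sqrt C * A * k with hz
  have hz0 : 0 ≤ z := by positivity
  set δ := 3 * (1 + z) * Real.exp (Λ / 3) * Real.exp (-(c * r / (12 * ξ))) with hδ
  have hδ0 : 0 < δ := by positivity
  set φ : ℝ → ℝ := fun s => (Lg μN (src N n j + s • src N n u) - Lg μN 0) -
    (Lg μM (src M n j + s • src M n u) - Lg μM 0) with hφ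
  set φ1 : ℝ → ℝ := fun s => Ex μN (src N n j + s • src N n u) (li (src N n u)) -
    Ex μM (src M n j + s • src M n u) (li (src M n u)) with hφ1
  set φ2 : ℝ → ℝ := fun s =>
    Cv μN (src N n j + s • src N n u) (li (src N n u)) (li (src N n u)) -
    Cv μM (src M n j + s • src M n u) (li (src M n u)) (li (src M n u)) with hφ2
  set φ3 : ℝ → ℝ := fun s =>
    K3 μN (src N n j + s • src N n u) (li (src N n u)) (li (src N n u)) (li (src N n u)) -
    K3 μM (src M n j + s • src M n u) (li (src M n u)) (li (src M n u)) (li (src M n u)) with hφ3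
  have d1 : ∀ s, HasDerivAt φ (φ1 s) s := fun s =>
    ((hasDerivAt_Lg bN.em _ _ s).sub_const _).sub ((hasDerivAt_Lg bM.em _ _ s).sub_const _)
  have d2 : ∀ s, HasDerivAt φ1 (φ2 s) s := fun s =>
    (hasDerivAt_Ex bN.em (Gr.li _) _ _ s).sub (hasDerivAt_Ex bM.em (Gr.li _) _ _ s)
  have d3 : ∀ s, HasDerivAt φ2 (φ3 s) s := fun s =>
    (hasDerivAt_Cv bN.em (Gr.li _) (Gr.li _) _ _ s).sub
      (hasDerivAt_Cv bM.em (Gr.li _) (Gr.li _) _ _ s)
  have hw : ∀ s : ℝ, |s| ≤ 1 → Wd ξ I (A + A) (fun i k => j i k + s * u i k) := fun s hs =>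
    hj.add hu hs
  -- LOC8
  have hφb : ∀ s, |s| ≤ 1 → |φ s| ≤ δ ^ 3 := by
    intro s hs
    have h1 := loc8q_two hb H.hξ H.hC H.hT H.hT' H.hr H.hny H.hny' H.hI H.hn H.hn'
      (A := A + A) (Λ := Λ) (by positivity) (hw s hs).bd (hw s hs).sp
      (by rw [src_add]; exact hN s (by linarith)) (by rw [src_add]; exact hM s (by linarith))
    rw [src_add, src_add] at h1
    refine h1.trans ?_
    unfold eps8q
    rw [← hk]
    have e1 : δ ^ 3 = 27 * (1 + z) ^ 3 * Real.exp Λ * Real.exp (-(c * r / (4 * ξ))) := by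
      have q1 : Real.exp (Λ / 3) ^ 3 = Real.exp Λ := by
        rw [← Real.exp_nat_mul]
        congr 1
        push_cast
        ring
      have q2 : Real.exp (-(c * r / (12 * ξ))) ^ 3 = Real.exp (-(c * r / (4 * ξ))) := by
        rw [← Real.exp_nat_mul]
        congr 1
        push_cast
        field_simp
        ring
      rw [hδ, mul_pow, mul_pow, mul_pow, q1, q2]
      norm_num
    rw [e1]
    have h3 : Real.sqrt C * (A + A) * k = z := by rw [hz]; ring
    rw [h3]
    refine mul_le_mul_of_nonneg_right (mul_le_mul_of_nonneg_right ?_ (Real.exp_pos _).le)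
      (Real.exp_pos _).le
    have h4 : Real.sqrt z ≤ 1 + z := by
      rw [Real.sqrt_le_left (by positivity)]
      nlinarith
    have h5 : 1 + z ≤ (1 + z) ^ 3 := by nlinarith [pow_nonneg hz0 2, pow_nonneg hz0 3]
    linarith
  have hB1 : |φ1 0| ≤ 2 * Λ := by
    have h1 := bN.mean_le
    have h2 := bM.mean_le
    have h3 : |φ1 0| ≤ |Ex μN (src N n j + (0 : ℝ) • src N n u) (li (src N n u))| +
        |Ex μM (src M n j + (0 : ℝ) • src M n u) (li (src M n u))| := abs_sub _ _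
    simp only [zero_smul, add_zero] at h1 h2 h3
    linarith
  set X := Real.exp (2 * Λ) with hX
  have hX0 : 0 < X := Real.exp_pos _
  have hB2 : ∀ s, |s| ≤ 1 → |φ2 s| ≤ 8 * X := by
    intro s hs
    have h1 := bN.cv_le hs
    have h2 := bM.cv_le hs
    refine (abs_sub _ _).trans ?_
    linarith
  have hB3 : ∀ s, |s| ≤ 1 → |φ3 s| ≤ 24 * X := by
    intro s hs
    have h1 := bN.k3_le hs
    have h2 := bM.k3_le hs
    refine (abs_sub _ _).trans ?_
    linarith
  have hlk := lk3 d1 d2 d3 hδ0 hφb hB1 hB2 hB3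
  have hX1 : 1 + 2 * Λ ≤ X := by
    have := Real.add_one_le_exp (2 * Λ)
    linarith
  have herr : δ * (20 * X) ≤ err9q C c A Λ I.card r ξ := by
    have e1 : err9q C c A Λ I.card r ξ =
        60 * (1 + z) * Real.exp (3 * Λ) * Real.exp (-(c * r / (12 * ξ))) := by
      unfold err9q
      rw [← hk, hz]
    have e2 : δ * (20 * X) =
        60 * (1 + z) * (Real.exp (Λ / 3) * X) * Real.exp (-(c * r / (12 * ξ))) := by
      rw [hδ]; ring
    rw [e1, e2, hX, ← Real.exp_add]
    have e3 : Real.exp (Λ / 3 + 2 * Λ) ≤ Real.exp (3 * Λ) := Real.exp_le_exp.2 (by linarith)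
    gcongr
  have hX2 : 1 ≤ X := by linarith
  constructor
  · have h1 := hlk.1
    simp only [hφ1, zero_smul, add_zero] at h1
    refine (h1.trans ?_).trans herr
    refine mul_le_mul_of_nonneg_left ?_ hδ0.le
    linarith
  · have h1 := hlk.2
    simp only [hφ2, zero_smul, add_zero] at h1
    refine (h1.trans ?_).trans herr
    refine mul_le_mul_of_nonneg_left ?_ hδ0.le
    linarith

/-- **LOC9, means, energy form.** -/
theorem loc9q_mean (H : Two N M b hb ξ y y' c C I r n) {j u : ℕ → ℕ → ℝ} {A Λ : ℝ} (hA : 0 ≤ A)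
    (hj : Wd ξ I A j) (hu : Wd ξ I A u)
    (hN : ∀ s : ℝ, |s| ≤ 2 → Lg (wt N b (1 / (ξ : ℝ) ^ 2))
      ((2 : ℝ) • (src N n j + s • src N n u)) - Lg (wt N b (1 / (ξ : ℝ) ^ 2)) 0 ≤ Λ)
    (hM : ∀ s : ℝ, |s| ≤ 2 → Lg (wt M b (1 / (ξ : ℝ) ^ 2))
      ((2 : ℝ) • (src M n j + s • src M n u)) - Lg (wt M b (1 / (ξ : ℝ) ^ 2)) 0 ≤ Λ) :
    |Ex (wt N b (1 / (ξ : ℝ) ^ 2)) (src N n j) (li (src N n u)) -
      Ex (wt M b (1 / (ξ : ℝ) ^ 2)) (src M n j) (li (src M n u))| ≤
        err9q C c A Λ I.card r ξ :=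
  (loc9q_diag H hA hj hu hN hM).1

/-- **LOC9, covariances, energy form.** -/
theorem loc9q_cv (H : Two N M b hb ξ y y' c C I r n) {j u v : ℕ → ℕ → ℝ} {A Λ : ℝ} (hA : 0 ≤ A)
    (hj : Wd ξ I A j) (hu : Wd ξ I A u) (hv : Wd ξ I A v)
    (hN : ∀ s e : ℝ, |s| ≤ 2 → |e| = 1 → Lg (wt N b (1 / (ξ : ℝ) ^ 2))
      ((2 : ℝ) • (src N n j + s • (src N n u + e • src N n v))) -
      Lg (wt N b (1 / (ξ : ℝ) ^ 2)) 0 ≤ Λ)
    (hM : ∀ s e : ℝ, |s| ≤ 2 → |e| = 1 → Lg (wt M b (1 / (ξ : ℝ) ^ 2))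
      ((2 : ℝ) • (src M n j + s • (src M n u + e • src M n v))) -
      Lg (wt M b (1 / (ξ : ℝ) ^ 2)) 0 ≤ Λ) :
    |Cv (wt N b (1 / (ξ : ℝ) ^ 2)) (src N n j) (li (src N n u)) (li (src N n v)) -
      Cv (wt M b (1 / (ξ : ℝ) ^ 2)) (src M n j) (li (src M n u)) (li (src M n v))| ≤
      err9q C c (2 * A) Λ I.card r ξ := by
  have hξ' : (0 : ℝ) < ξ := by exact_mod_cast H.hξ
  have eN : EM (wt N b (1 / (ξ : ℝ) ^ 2)) := em_wt' hb hξ'
  have eM : EM (wt M b (1 / (ξ : ℝ) ^ 2)) := em_wt' hb hξ'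
  have hj2 : Wd ξ I (2 * A) j := hj.mono (by linarith)
  have hp : Wd ξ I (2 * A) (fun i k => u i k + 1 * v i k) := by
    have := hu.add hv (s := 1) (by simp)
    exact this.mono (by linarith)
  have hm : Wd ξ I (2 * A) (fun i k => u i k + (-1) * v i k) := by
    have := hu.add hv (s := -1) (by simp)
    exact this.mono (by linarith)
  have h1 := (loc9q_diag H (Λ := Λ) (by linarith : 0 ≤ 2 * A) hj2 hp
    (fun s hs => by rw [src_add]; exact hN s 1 hs (by simp))
    (fun s hs => by rw [src_add]; exact hM s 1 hs (by simp))).2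
  have h2 := (loc9q_diag H (Λ := Λ) (by linarith : 0 ≤ 2 * A) hj2 hm
    (fun s hs => by rw [src_add]; exact hN s (-1) hs (by simp))
    (fun s hs => by rw [src_add]; exact hM s (-1) hs (by simp))).2
  rw [src_add, src_add, one_smul, one_smul] at h1
  rw [src_add, src_add, neg_one_smul, neg_one_smul, ← sub_eq_add_neg, ← sub_eq_add_neg] at h2
  rw [Cv_polar eN, Cv_polar eM]
  rw [abs_le] at h1 h2 ⊢
  have h0 := err9q_nonneg C c (by linarith : 0 ≤ 2 * A) Λ I.card r ξ
  constructor <;> linarith [h1.1, h1.2, h2.1, h2.2]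

end Vale.Agent.P159.H358
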