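import Vale.Agent.P159.H358.Um5
import Vale.Agent.P159.H363.Devl

/-!
P159, module VTOR, probabilities for fine cells, part 1: the window field as a linear image of the
field, its covariance.
-/

open Finset MeasureTheory

set_option linter.unusedSectionVars false
set_option linter.unusedDecidableInType false

namespace Vale.Agent.P159.H358

open Vale.Agent.P159.H37 (gau qf)
open Vale.Agent.P159.TM.Spec (V)
open Vale.Agent.P159.H462 (Dom)
open Vale.Agent.P159.H363 (pin Below Cz row_Cz qf_pin_le)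
open Vale.Agent.P159.H733.Torg (ip ip_inj)
open Vale.Agent.P159.H733.Vt (zb mem_zb sum_box ip_mem_box)
open Matrix

/-! ### the window matrix -/

section wk

variable {n K : ℕ} [NeZero n] [NeZero K]

/-- the window around `x`, minus its mean, put around `p` on the torus `K` -/
noncomputable def wf (K : ℕ) [NeZero K] (D : ℕ) (x : V n) (p : V K) (F : V n → ℝ) : V K → ℝ :=
  ka K D (hx x F) (avz D (hx x F)) p

/-- the dual coefficients -/
noncomputable def wβ (D : ℕ) (x : V n) (p : V K) (α : V K → ℝ) (w : V n) : ℝ :=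
  ∑ ζ ∈ zb D, if w = x + ip n ζ then α (p + ip K ζ) - avz D (fun ζ => α (p + ip K ζ)) else 0

theorem card_zb_pos (D : ℕ) : (0 : ℝ) < (zb D).card := by
  rw [H733.Vt.card_zb]
  positivity

theorem ka_box {D : ℕ} (hK : 2 * D < K) (h : ℤ × ℤ → ℝ) (a : ℝ) (p : V K) {ζ : ℤ × ℤ}
    (hζ : ζ ∈ zb D) : ka K D h a p (p + ip K ζ) = h ζ - a := by
  have h1 := H733.Vt.zz_ip hK hζ p
  have hm : p + ip K ζ ∈ H462.box p D := ip_mem_box hζ p
  unfold H733.Vt.zz at h1
  rw [if_pos hm] at h1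
  unfold ka cwa
  rw [if_pos hm, h1]

theorem ka_out {D : ℕ} (h : ℤ × ℤ → ℝ) (a : ℝ) (p : V K) {v : V K} (hv : v ∉ H462.box p D) :
    ka K D h a p v = 0 := by
  unfold ka cwa
  rw [if_neg hv, sub_self]

theorem wβ_dot (D : ℕ) (x : V n) (p : V K) (α : V K → ℝ) (F : V n → ℝ) :
    ∑ w, wβ D x p α w * F w =
      ∑ ζ ∈ zb D, (α (p + ip K ζ) - avz D (fun ζ => α (p + ip K ζ))) * F (x + ip n ζ) := by
  unfold wβ
  simp only [Finset.sum_mul]
  rw [Finset.sum_comm]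
  refine Finset.sum_congr rfl fun ζ _ => ?_
  rw [Finset.sum_eq_single (x + ip n ζ)]
  · rw [if_pos rfl]
  · intro w _ hw
    rw [if_neg hw, zero_mul]
  · intro h
    exact absurd (Finset.mem_univ _) h

theorem wf_dot {D : ℕ} (hK : 2 * D < K) (x : V n) (p : V K) (α : V K → ℝ) (F : V n → ℝ) :
    ∑ v, α v * wf K D x p F v = ∑ w, wβ D x p α w * F w := by
  rw [wβ_dot]
  have e1 : ∑ v, α v * wf K D x p F v = ∑ v ∈ H462.box p D, α v * wf K D x p F v := by
    symm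
    refine Finset.sum_subset (Finset.subset_univ _) fun v _ hv => ?_
    unfold wf
    rw [ka_out _ _ _ hv, mul_zero]
  rw [e1, sum_box hK]
  have hc := card_zb_pos D
  have e2 : ∀ ζ ∈ zb D, α (p + ip K ζ) * wf K D x p F (p + ip K ζ) =
      α (p + ip K ζ) * (F (x + ip n ζ) - avz D (hx x F)) := by
    intro ζ hζ
    unfold wf
    rw [ka_box hK _ _ _ hζ]
    rfl
  rw [Finset.sum_congr rfl e2]
  simp only [mul_sub, sub_mul, Finset.sum_sub_distrib]
  congr 1
  rw [← Finset.sum_mul, ← Finset.mul_sum]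
  unfold avz
  have e3 : ∀ ζ, hx x F ζ = F (x + ip n ζ) := fun ζ => rfl
  simp only [e3]
  ring

/-- the window matrix -/
noncomputable def wK (K : ℕ) [NeZero K] (D : ℕ) (x : V n) (p : V K) : Matrix (V K) (V n) ℝ :=
  Matrix.of fun v => wβ D x p (Pi.single v 1)

theorem wK_mulVec {D : ℕ} (hK : 2 * D < K) (x : V n) (p : V K) (F : V n → ℝ) :
    wK K D x p *ᵥ F = wf K D x p F := by
  funext v
  show ∑ w, wβ D x p (Pi.single v 1) w * F w = _
  rw [← wf_dot hK, Finset.sum_eq_single v]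
  · rw [Pi.single_eq_same, one_mul]
  · intro w _ hw
    rw [Pi.single_eq_of_ne hw, zero_mul]
  · intro h
    exact absurd (Finset.mem_univ _) h

theorem vecMul_wK {D : ℕ} (hK : 2 * D < K) (x : V n) (p : V K) (α : V K → ℝ) :
    α ᵥ* wK K D x p = wβ D x p α := by
  have h : ∀ F : V n → ℝ, (α ᵥ* wK K D x p) ⬝ᵥ F = wβ D x p α ⬝ᵥ F := by
    intro F
    rw [← Matrix.dotProduct_mulVec, wK_mulVec hK]
    exact wf_dot hK x p α F
  funext w
  have := h (Pi.single w 1)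
  rwa [dotProduct_single_one, dotProduct_single_one] at this

theorem wβ_out (D : ℕ) (x : V n) (p : V K) (α : V K → ℝ) {w : V n} (hw : w ∉ H462.box x D) :
    wβ D x p α w = 0 := by
  unfold wβ
  refine Finset.sum_eq_zero fun ζ hζ => ?_
  rw [if_neg]
  intro h
  rw [h] at hw
  exact hw (ip_mem_box hζ x)

theorem wβ_at {D : ℕ} (hn : 2 * D < n) (x : V n) (p : V K) (α : V K → ℝ) {ζ : ℤ × ℤ}
    (hζ : ζ ∈ zb D) :
    wβ D x p α (x + ip n ζ) = α (p + ip K ζ) - avz D (fun ζ => α (p + ip K ζ)) := by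
  unfold wβ
  rw [Finset.sum_eq_single ζ]
  · rw [if_pos rfl]
  · intro ζ' hζ' hne
    rw [if_neg]
    intro h
    have h1 := mem_zb.1 hζ
    have h2 := mem_zb.1 hζ'
    exact hne (ip_inj hn h1.1 h1.2 h2.1 h2.2 (add_left_cancel h)).symm
  · intro h
    exact absurd hζ h

theorem wβ_sq {D : ℕ} (hn : 2 * D < n) (hK : 2 * D < K) (x : V n) (p : V K) (α : V K → ℝ) :
    ∑ w, wβ D x p α w ^ 2 ≤ ∑ v ∈ H462.box p D, α v ^ 2 := by
  have e1 : ∑ w, wβ D x p α w ^ 2 = ∑ w ∈ H462.box x D, wβ D x p α w ^ 2 := by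
    symm
    refine Finset.sum_subset (Finset.subset_univ _) fun w _ hw => ?_
    rw [wβ_out D x p α hw, zero_pow two_ne_zero]
  rw [e1, sum_box hn, sum_box hK]
  rw [Finset.sum_congr rfl fun ζ hζ => by rw [wβ_at hn x p α hζ]]
  set a := avz D (fun ζ => α (p + ip K ζ)) with ha
  have hc := card_zb_pos D
  have e2 : ∑ ζ ∈ zb D, α (p + ip K ζ) = (zb D).card * a := by
    rw [ha]
    unfold avz
    field_simp
  have e3 : ∑ ζ ∈ zb D, (α (p + ip K ζ) - a) ^ 2 =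
      ∑ ζ ∈ zb D, α (p + ip K ζ) ^ 2 - (zb D).card * a ^ 2 := by
    have : ∀ ζ ∈ zb D, (α (p + ip K ζ) - a) ^ 2 =
        α (p + ip K ζ) ^ 2 - 2 * a * α (p + ip K ζ) + a ^ 2 := fun ζ _ => by ring
    rw [Finset.sum_congr rfl this, Finset.sum_add_distrib, Finset.sum_sub_distrib,
      ← Finset.mul_sum, e2, Finset.sum_const, nsmul_eq_mul]
    ring
  rw [e3]
  have : 0 ≤ (zb D).card * a ^ 2 := by positivity
  linarith

end wk

/-! ### covariance -/

section cov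

variable {n K : ℕ} [NeZero n] [NeZero K] {I : Type*} [Fintype I]

/-- covariance bound for test functions supported in a box -/
def CovB (D : ℕ) (κ : ℝ) (Bm : Matrix (V n) I ℝ) : Prop :=
  ∀ (x : V n) (β : V n → ℝ), (∀ w, w ∉ H462.box x D → β w = 0) →
    ∑ i, (β ᵥ* Bm) i ^ 2 ≤ κ * ∑ w, β w ^ 2

theorem vm_sq_le {W : Type*} [Fintype W] (C : Matrix W I ℝ) {R : ℝ}
    (hrow : ∀ v, ∑ i, C v i ^ 2 ≤ R) (β : W → ℝ) :
    ∑ i, (β ᵥ* C) i ^ 2 ≤ (∑ v, |β v|) ^ 2 * R := by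
  set S := ∑ v, |β v| with hS
  have hS0 : 0 ≤ S := Finset.sum_nonneg fun _ _ => abs_nonneg _
  have h1 : ∀ i, (β ᵥ* C) i ^ 2 ≤ S * ∑ v, |β v| * C v i ^ 2 := by
    intro i
    have h := Finset.sum_mul_sq_le_sq_mul_sq Finset.univ (fun v => √|β v|)
      (fun v => √|β v| * |C v i|)
    have e1 : ∀ v, √|β v| * (√|β v| * |C v i|) = |β v * C v i| := by
      intro v
      rw [← mul_assoc, Real.mul_self_sqrt (abs_nonneg _), abs_mul]
    have e2 : ∀ v, √|β v| ^ 2 = |β v| := fun v => Real.sq_sqrt (abs_nonneg _)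
    have e3 : ∀ v, (√|β v| * |C v i|) ^ 2 = |β v| * C v i ^ 2 := by
      intro v
      rw [mul_pow, e2, sq_abs]
    simp only [e1, e2, e3] at h
    refine le_trans ?_ h
    show (∑ v, β v * C v i) ^ 2 ≤ _
    rw [← sq_abs (∑ v, β v * C v i)]
    exact pow_le_pow_left₀ (abs_nonneg _) (Finset.abs_sum_le_sum_abs _ _) 2
  calc ∑ i, (β ᵥ* C) i ^ 2 ≤ ∑ i, S * ∑ v, |β v| * C v i ^ 2 := Finset.sum_le_sum fun i _ => h1 i
    _ = S * ∑ v, |β v| * ∑ i, C v i ^ 2 := by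
        rw [← Finset.mul_sum, Finset.sum_comm]
        simp only [Finset.mul_sum]
    _ ≤ S * ∑ v, |β v| * R := by
        refine mul_le_mul_of_nonneg_left (Finset.sum_le_sum fun v _ => ?_) hS0
        exact mul_le_mul_of_nonneg_left (hrow v) (abs_nonneg _)
    _ = S ^ 2 * R := by
        rw [← Finset.sum_mul, ← hS]
        ring

theorem l1_sq_le {s : Finset (V n)} {β : V n → ℝ} (h : ∀ w, w ∉ s → β w = 0) :
    (∑ w, |β w|) ^ 2 ≤ s.card * ∑ w, β w ^ 2 := by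
  have e1 : ∑ w, |β w| = ∑ w ∈ s, |β w| := by
    symm
    refine Finset.sum_subset (Finset.subset_univ _) fun w _ hw => ?_
    rw [h w hw, abs_zero]
  rw [e1]
  have h1 := sq_sum_le_card_mul_sum_sq (s := s) (f := fun w => |β w|)
  refine h1.trans (mul_le_mul_of_nonneg_left ?_ (Nat.cast_nonneg _))
  simp only [sq_abs]
  exact Finset.sum_le_sum_of_subset_of_nonneg (Finset.subset_univ _) fun _ _ _ => sq_nonneg _

/-- number of cells of a box times the massless variance -/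
noncomputable def κw (n D : ℕ) (ν c : ℝ) : ℝ :=
  ν⁻¹ + c⁻¹ * ((2 * (D : ℝ) + 1) ^ 2 * (50 * (1 + Real.log (1 + (n : ℝ) ^ 2))))

theorem log_nn (n : ℕ) : 0 ≤ Real.log (1 + (n : ℝ) ^ 2) := Real.log_nonneg (by nlinarith [sq_nonneg (n : ℝ)])

/-- **covariance of windows, typical law** -/
theorem covB_of {A : Matrix (V n) (V n) ℝ} {ν c : ℝ} (h : Dom A ν c) {Bm : Matrix (V n) I ℝ}
    (hB : Below A Bm) {D : ℕ} (hn : 2 * D < n) : CovB D (κw n D ν c) Bm := by
  intro x β hβ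
  have hν := h.hν
  have hc := h.hc
  refine (hB β).trans ((qf_pin_le h β).trans ?_)
  have h1 := vm_sq_le (Cz n) (fun v => row_Cz v) β
  have h2 := l1_sq_le hβ
  have h3 : ((H462.box x D).card : ℝ) = (2 * (D : ℝ) + 1) ^ 2 := by
    rw [card_box_eq hn, H733.Vt.card_zb]
  rw [h3] at h2
  have hR : 0 ≤ 50 * (1 + Real.log (1 + (n : ℝ) ^ 2)) := by
    have := log_nn n
    positivity
  have h4 : ∑ i, (β ᵥ* Cz n) i ^ 2 ≤
      ((2 * (D : ℝ) + 1) ^ 2 * ∑ w, β w ^ 2) * (50 * (1 + Real.log (1 + (n : ℝ) ^ 2))) :=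
    h1.trans (mul_le_mul_of_nonneg_right h2 hR)
  have h5 := mul_le_mul_of_nonneg_left h4 (inv_pos.2 hc).le
  unfold κw
  calc _ ≤ ν⁻¹ * ∑ v, β v ^ 2 + c⁻¹ * (((2 * (D : ℝ) + 1) ^ 2 * ∑ w, β w ^ 2) *
        (50 * (1 + Real.log (1 + (n : ℝ) ^ 2)))) := add_le_add le_rfl h5
    _ = _ := by ring

/-- covariance of the window field -/
theorem wK_cov {D : ℕ} (hn : 2 * D < n) (hK : 2 * D < K) {κ : ℝ} (hκ : 0 ≤ κ)
    {Bm : Matrix (V n) I ℝ} (hB : CovB D κ Bm) (x : V n) (p : V K) (α : V K → ℝ) :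
    ∑ i, (α ᵥ* (wK K D x p * Bm)) i ^ 2 ≤ κ * ∑ v ∈ H462.box p D, α v ^ 2 := by
  rw [← Matrix.vecMul_vecMul, vecMul_wK hK]
  exact (hB x _ fun w hw => wβ_out D x p α hw).trans
    (mul_le_mul_of_nonneg_left (wβ_sq hn hK x p α) hκ)

/-- one value relative to the mean -/
theorem dev_av {A : Matrix (V n) (V n) ℝ} {ν c : ℝ} (h : Dom A ν c) {Bm : Matrix (V n) I ℝ}
    (hB : Below A Bm) (D : ℕ) (x v : V n) :
    ∑ i, ((Pi.single v 1 - fun w => if w ∈ H462.box x D then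
      ((H462.box x D).card : ℝ)⁻¹ else 0 : V n → ℝ) ᵥ* Bm) i ^ 2 ≤
      4 * ν⁻¹ + c⁻¹ * (200 * (1 + Real.log (1 + (n : ℝ) ^ 2))) := by
  have hν := h.hν
  have hc := h.hc
  have hR : 0 ≤ 50 * (1 + Real.log (1 + (n : ℝ) ^ 2)) := by
    have := log_nn n
    positivity
  set β : V n → ℝ := Pi.single v 1 - fun w => if w ∈ H462.box x D then
      ((H462.box x D).card : ℝ)⁻¹ else 0 with hβ
  have hcard := card_box_pos D x
  have hq : ∀ w, 0 ≤ (if w ∈ H462.box x D then ((H462.box x D).card : ℝ)⁻¹ else 0) := by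
    intro w
    split_ifs
    · positivity
    · exact le_rfl
  have hp : ∀ w, 0 ≤ (Pi.single v (1 : ℝ) : V n → ℝ) w := by
    intro w
    rw [Pi.single_apply]
    split_ifs <;> norm_num
  have e1 : ∑ w, (Pi.single v (1 : ℝ) : V n → ℝ) w = 1 := by
    rw [Finset.sum_pi_single']
    simp
  have e2 : ∑ w, (if w ∈ H462.box x D then ((H462.box x D).card : ℝ)⁻¹ else 0) = 1 := by
    rw [Finset.sum_ite_mem, Finset.univ_inter, Finset.sum_const, nsmul_eq_mul]
    exact mul_inv_cancel₀ hcard.ne'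
  have h1 : ∑ w, |β w| ≤ 2 := by
    have : ∀ w, |β w| ≤ (Pi.single v (1 : ℝ) : V n → ℝ) w +
        (if w ∈ H462.box x D then ((H462.box x D).card : ℝ)⁻¹ else 0) := by
      intro w
      rw [hβ, Pi.sub_apply]
      refine (abs_sub _ _).trans ?_
      rw [abs_of_nonneg (hp w), abs_of_nonneg (hq w)]
    refine (Finset.sum_le_sum fun w _ => this w).trans ?_
    rw [Finset.sum_add_distrib, e1, e2]
    norm_num
  have h0 : 0 ≤ ∑ w, |β w| := Finset.sum_nonneg fun _ _ => abs_nonneg _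
  have h2 : ∑ w, β w ^ 2 ≤ 4 := by
    have h3 : ∀ w, β w ^ 2 ≤ |β w| * ∑ w, |β w| := by
      intro w
      rw [← sq_abs, pow_two]
      exact mul_le_mul_of_nonneg_left
        (Finset.single_le_sum (fun w _ => abs_nonneg (β w)) (Finset.mem_univ w)) (abs_nonneg _)
    refine (Finset.sum_le_sum fun w _ => h3 w).trans ?_
    rw [← Finset.sum_mul]
    nlinarith
  refine (hB β).trans ((qf_pin_le h β).trans ?_)
  have h4 := vm_sq_le (Cz n) (fun v => row_Cz v) β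
  have h5 : (∑ w, |β w|) ^ 2 * (50 * (1 + Real.log (1 + (n : ℝ) ^ 2))) ≤
      2 ^ 2 * (50 * (1 + Real.log (1 + (n : ℝ) ^ 2))) :=
    mul_le_mul_of_nonneg_right (pow_le_pow_left₀ h0 h1 2) hR
  have h6 := mul_le_mul_of_nonneg_left (h4.trans h5) (inv_pos.2 hc).le
  have h7 := mul_le_mul_of_nonneg_left h2 (inv_pos.2 hν).le
  calc _ ≤ ν⁻¹ * 4 + c⁻¹ * (2 ^ 2 * (50 * (1 + Real.log (1 + (n : ℝ) ^ 2)))) := add_le_add h7 h6
    _ = _ := by ring

end cov

end Vale.Agent.P159.H358
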