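import Vale.Agent.P159.H358.Loc8e

/-!
P159, row LOC9 of the LOCALITY list (helper145, board 2086): the mean and the covariance of local
linear functionals in a local background agree on two tori, for ALL sources in the window (no
condition on `Tq`): Landau-Kolmogorov from LOC8 and the bare exponential moments.
-/

open Finset MeasureTheory

set_option linter.unusedSectionVars false
set_option linter.unusedDecidableInType false

namespace Vale.Agent.P159.H358

open Vale.Agent.P159.TM.H104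
open Vale.Agent.P159.H37 (Zs Ev qf wt)

/-! ### one variable -/

section lk

theorem abs_le_of_deriv {f f' g g' : ℝ → ℝ} (hf : ∀ s, HasDerivAt f (f' s) s)
    (hg : ∀ s, HasDerivAt g (g' s) s) (h0 : |f 0| ≤ g 0)
    (h : ∀ s, 0 ≤ s → s ≤ 1 → |f' s| ≤ g' s) {s : ℝ} (hs : 0 ≤ s) (hs1 : s ≤ 1) : |f s| ≤ g s := by
  have key : ∀ (σ : ℝ), |σ| = 1 → 0 ≤ g s - σ * f s := by
    intro σ hσ
    have hd : ∀ z, HasDerivAt (fun z => g z - σ * f z) (g' z - σ * f' z) z := fun z =>
      (hg z).sub ((hf z).const_mul σ)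
    have hm : MonotoneOn (fun z => g z - σ * f z) (Set.Icc 0 1) := by
      apply monotoneOn_of_deriv_nonneg (convex_Icc 0 1)
      · exact fun z _ => (hd z).continuousAt.continuousWithinAt
      · exact fun z _ => (hd z).differentiableAt.differentiableWithinAt
      · intro z hz
        rw [interior_Icc] at hz
        rw [(hd z).deriv]
        have h1 := h z hz.1.le hz.2.le
        have h2 : σ * f' z ≤ |f' z| := by
          refine (le_abs_self _).trans ?_
          rw [abs_mul, hσ, one_mul]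
        linarith
    have h3 := hm (Set.mem_Icc.2 ⟨le_rfl, zero_le_one⟩) (Set.mem_Icc.2 ⟨hs, hs1⟩) hs
    simp only at h3
    have h4 : σ * f 0 ≤ |f 0| := by
      refine (le_abs_self _).trans ?_
      rw [abs_mul, hσ, one_mul]
    linarith
  have h1 := key 1 (by norm_num)
  have h2 := key (-1) (by norm_num)
  rw [abs_le]
  constructor <;> linarith

/-- Landau-Kolmogorov, first and second derivative from the third -/
theorem lk3 {φ φ1 φ2 φ3 : ℝ → ℝ} (h1 : ∀ s, HasDerivAt φ (φ1 s) s)
    (h2 : ∀ s, HasDerivAt φ1 (φ2 s) s) (h3 : ∀ s, HasDerivAt φ2 (φ3 s) s) {δ B2 B3 B1 : ℝ}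
    (hδ : 0 < δ) (hφ : ∀ s, |s| ≤ 1 → |φ s| ≤ δ ^ 3) (hB1 : |φ1 0| ≤ B1)
    (hB2 : ∀ s, |s| ≤ 1 → |φ2 s| ≤ B2) (hB3 : ∀ s, |s| ≤ 1 → |φ3 s| ≤ B3) :
    |φ1 0| ≤ δ * (1 + B2 / 2 + B1) ∧ |φ2 0| ≤ δ * (4 + B3 / 3 + B2) := by
  have hB10 : 0 ≤ B1 := (abs_nonneg _).trans hB1
  have hB20 : 0 ≤ B2 := (abs_nonneg _).trans (hB2 0 (by simp))
  have hB30 : 0 ≤ B3 := (abs_nonneg _).trans (hB3 0 (by simp))
  have n1 : ∀ s, HasDerivAt (fun s => φ (-s)) (-φ1 (-s)) s := fun s => by
    have := (h1 (-s)).comp s (hasDerivAt_neg s)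
    exact this.congr_deriv (by ring)
  have n2 : ∀ s, HasDerivAt (fun s => φ1 (-s)) (-φ2 (-s)) s := fun s => by
    have := (h2 (-s)).comp s (hasDerivAt_neg s)
    exact this.congr_deriv (by ring)
  have n3 : ∀ s, HasDerivAt (fun s => φ2 (-s)) (-φ3 (-s)) s := fun s => by
    have := (h3 (-s)).comp s (hasDerivAt_neg s)
    exact this.congr_deriv (by ring)
  -- second derivative near 0
  have a1 : ∀ {s : ℝ}, 0 ≤ s → s ≤ 1 → |φ2 s + φ2 (-s) - 2 * φ2 0| ≤ 2 * B3 * s := by
    intro s hs hs1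
    refine abs_le_of_deriv (f := fun s => φ2 s + φ2 (-s) - 2 * φ2 0)
      (f' := fun s => φ3 s + -φ3 (-s)) (g := fun s => 2 * B3 * s) (g' := fun _ => 2 * B3)
      (fun s => ((h3 s).add (n3 s)).sub_const _)
      (fun s => by simpa using (hasDerivAt_id s).const_mul (2 * B3)) ?_ ?_ hs hs1
    · simp only [neg_zero, mul_zero]
      rw [show φ2 0 + φ2 0 - 2 * φ2 0 = 0 by ring, abs_zero]
    · intro z hz hz1
      have e1 := hB3 z (by rw [abs_of_nonneg hz]; exact hz1)
      have e2 := hB3 (-z) (by rw [abs_neg, abs_of_nonneg hz]; exact hz1)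
      refine (abs_add_le _ _).trans ?_
      rw [abs_neg]
      linarith
  have a2 : ∀ {s : ℝ}, 0 ≤ s → s ≤ 1 → |φ1 s - φ1 (-s) - 2 * φ2 0 * s| ≤ B3 * s ^ 2 := by
    intro s hs hs1
    refine abs_le_of_deriv (f := fun s => φ1 s - φ1 (-s) - 2 * φ2 0 * s)
      (f' := fun s => φ2 s + φ2 (-s) - 2 * φ2 0) (g := fun s => B3 * s ^ 2)
      (g' := fun s => 2 * B3 * s)
      (fun s => ?_) (fun s => ?_) ?_ (fun z hz hz1 => a1 hz hz1) hs hs1
    · have := ((h2 s).sub (n2 s)).sub ((hasDerivAt_id s).const_mul (2 * φ2 0))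
      refine this.congr_deriv ?_
      simp
    · have := ((hasDerivAt_id s).pow 2).const_mul B3
      refine this.congr_deriv ?_
      simp
      ring
    · simp
  have a3 : ∀ {s : ℝ}, 0 ≤ s → s ≤ 1 →
      |φ s + φ (-s) - 2 * φ 0 - φ2 0 * s ^ 2| ≤ B3 / 3 * s ^ 3 := by
    intro s hs hs1
    refine abs_le_of_deriv (f := fun s => φ s + φ (-s) - 2 * φ 0 - φ2 0 * s ^ 2)
      (f' := fun s => φ1 s - φ1 (-s) - 2 * φ2 0 * s) (g := fun s => B3 / 3 * s ^ 3)
      (g' := fun s => B3 * s ^ 2)
      (fun s => ?_) (fun s => ?_) ?_ (fun z hz hz1 => a2 hz hz1) hs hs1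
    · have := (((h1 s).add (n1 s)).sub_const (2 * φ 0)).sub
        (((hasDerivAt_id s).pow 2).const_mul (φ2 0))
      refine this.congr_deriv ?_
      simp
      ring
    · have := ((hasDerivAt_id s).pow 3).const_mul (B3 / 3)
      refine this.congr_deriv ?_
      simp
      ring
    · simp only [neg_zero]
      rw [show φ 0 + φ 0 - 2 * φ 0 - φ2 0 * 0 ^ 2 = 0 by ring, abs_zero]
      norm_num
  -- first derivative near 0
  have b1 : ∀ {s : ℝ}, 0 ≤ s → s ≤ 1 → |φ1 s + φ1 (-s) - 2 * φ1 0| ≤ 2 * B2 * s := by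
    intro s hs hs1
    refine abs_le_of_deriv (f := fun s => φ1 s + φ1 (-s) - 2 * φ1 0)
      (f' := fun s => φ2 s + -φ2 (-s)) (g := fun s => 2 * B2 * s) (g' := fun _ => 2 * B2)
      (fun s => ((h2 s).add (n2 s)).sub_const _)
      (fun s => by simpa using (hasDerivAt_id s).const_mul (2 * B2)) ?_ ?_ hs hs1
    · simp only [neg_zero, mul_zero]
      rw [show φ1 0 + φ1 0 - 2 * φ1 0 = 0 by ring, abs_zero]
    · intro z hz hz1
      have e1 := hB2 z (by rw [abs_of_nonneg hz]; exact hz1)
      have e2 := hB2 (-z) (by rw [abs_neg, abs_of_nonneg hz]; exact hz1)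
      refine (abs_add_le _ _).trans ?_
      rw [abs_neg]
      linarith
  have b2 : ∀ {s : ℝ}, 0 ≤ s → s ≤ 1 → |φ s - φ (-s) - 2 * φ1 0 * s| ≤ B2 * s ^ 2 := by
    intro s hs hs1
    refine abs_le_of_deriv (f := fun s => φ s - φ (-s) - 2 * φ1 0 * s)
      (f' := fun s => φ1 s + φ1 (-s) - 2 * φ1 0) (g := fun s => B2 * s ^ 2)
      (g' := fun s => 2 * B2 * s)
      (fun s => ?_) (fun s => ?_) ?_ (fun z hz hz1 => b1 hz hz1) hs hs1
    · have := ((h1 s).sub (n1 s)).sub ((hasDerivAt_id s).const_mul (2 * φ1 0))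
      refine this.congr_deriv ?_
      simp
    · have := ((hasDerivAt_id s).pow 2).const_mul B2
      refine this.congr_deriv ?_
      simp
      ring
    · simp
  rcases le_total δ 1 with hδ1 | hδ1
  · have p1 := hφ δ (by rw [abs_of_pos hδ]; exact hδ1)
    have p2 := hφ (-δ) (by rw [abs_neg, abs_of_pos hδ]; exact hδ1)
    have p0 := hφ 0 (by simp)
    constructor
    · have q := b2 hδ.le hδ1
      have q1 : |2 * φ1 0 * δ| ≤ 2 * δ ^ 3 + B2 * δ ^ 2 := by
        have e : 2 * φ1 0 * δ = φ δ + -φ (-δ) + -(φ δ - φ (-δ) - 2 * φ1 0 * δ) := by ring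
        rw [e]
        refine (abs_add_le _ _).trans ?_
        have e2 := abs_add_le (φ δ) (-φ (-δ))
        rw [abs_neg] at e2
        rw [abs_neg]
        linarith
      rw [abs_mul, abs_mul, abs_of_pos hδ, abs_of_pos (two_pos : (0:ℝ) < 2)] at q1
      have q2 : |φ1 0| ≤ δ ^ 2 + B2 * δ / 2 := by
        have : δ * (2 * |φ1 0|) ≤ δ * (2 * δ ^ 2 + B2 * δ) := by nlinarith
        have := le_of_mul_le_mul_left this hδ
        linarith
      nlinarith [mul_nonneg hδ.le hB10]
    · have q := a3 hδ.le hδ1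
      have q1 : |φ2 0 * δ ^ 2| ≤ 4 * δ ^ 3 + B3 / 3 * δ ^ 3 := by
        have e : φ2 0 * δ ^ 2 = (φ δ + φ (-δ)) + (-(2 * φ 0) +
          -(φ δ + φ (-δ) - 2 * φ 0 - φ2 0 * δ ^ 2)) := by ring
        rw [e]
        refine (abs_add_le _ _).trans ?_
        have e2 := abs_add_le (φ δ) (φ (-δ))
        have e3 := abs_add_le (-(2 * φ 0)) (-(φ δ + φ (-δ) - 2 * φ 0 - φ2 0 * δ ^ 2))
        rw [abs_neg, abs_neg, abs_mul, abs_of_pos (two_pos : (0:ℝ) < 2)] at e3
        linarith
      rw [abs_mul, abs_of_pos (by positivity : (0:ℝ) < δ ^ 2)] at q1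
      have q2 : |φ2 0| ≤ 4 * δ + B3 / 3 * δ := by
        have : δ ^ 2 * |φ2 0| ≤ δ ^ 2 * (4 * δ + B3 / 3 * δ) := by nlinarith
        exact le_of_mul_le_mul_left this (by positivity)
      nlinarith [mul_nonneg hδ.le hB20]
  · constructor
    · have : B1 ≤ δ * B1 := le_mul_of_one_le_left hB10 hδ1
      have h5 : 0 ≤ δ * (1 + B2 / 2) := by positivity
      nlinarith
    · have : B2 ≤ δ * B2 := le_mul_of_one_le_left hB20 hδ1
      have h5 : 0 ≤ δ * (4 + B3 / 3) := by positivity
      have h6 := hB2 0 (by simp)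
      nlinarith

end lk

/-! ### crude moments of linear functionals in any background -/

section mom

variable {V : Type*} [Fintype V] {μ : (V → ℤ) → ℝ}

/-- `e^{X}` is the shift of the source -/
theorem Ex_exp (hμ : EM μ) (J u : V → ℝ) :
    Ex μ J (fun h => Real.exp (li u h)) = Real.exp (Lg μ (J + u) - Lg μ J) := by
  unfold Ex Lg
  rw [Real.exp_sub, Real.exp_log (T_one_pos hμ _), Real.exp_log (T_one_pos hμ _)]
  congr 1
  unfold TM.H104.T
  refine tsum_congr fun h => ?_
  rw [li_add, Real.exp_add]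
  ring

/-- tangent line -/
theorem Lg_tangent (hμ : EM μ) (J u : V → ℝ) : Ex μ J (li u) ≤ Lg μ (J + u) - Lg μ J := by
  have h1 : Ex μ J (fun h => 1 + (li u h - Ex μ J (li u))) ≤
      Ex μ J (fun h => Real.exp (li u h) * Real.exp (-Ex μ J (li u))) := by
    refine Ex_mono hμ ((Gr.const 1).add ((Gr.li u).sub (Gr.const _)))
      ((Gr.exp_li u).mul (Gr.const _)) (fun h => ?_) J
    rw [← Real.exp_add]
    have := Real.add_one_le_exp (li u h + -Ex μ J (li u))
    linarith
  have e1 : Ex μ J (fun h => 1 + (li u h - Ex μ J (li u))) = 1 := by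
    rw [Ex_add hμ (Gr.const 1) ((Gr.li u).sub (Gr.const _)), Ex_one hμ,
      Ex_sub hμ (Gr.li u) (Gr.const _), Ex_const hμ]
    ring
  have e2 : Ex μ J (fun h => Real.exp (li u h) * Real.exp (-Ex μ J (li u))) =
      Real.exp (Lg μ (J + u) - Lg μ J) * Real.exp (-Ex μ J (li u)) := by
    have e3 : (fun h => Real.exp (li u h) * Real.exp (-Ex μ J (li u))) =
        fun h => Real.exp (-Ex μ J (li u)) * Real.exp (li u h) := by
      funext h; ring
    rw [e3, Ex_cmul, Ex_exp hμ]
    ring
  rw [e1, e2, ← Real.exp_add] at h1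
  have := Real.one_le_exp_iff.1 h1
  linarith

variable {q : (V → ℝ) → ℝ}

/-- the input: `0 ≤ log Z(J)/Z(0) ≤ q J`, `q` satisfies the parallelogram identity -/
structure BB (μ : (V → ℤ) → ℝ) (q : (V → ℝ) → ℝ) : Prop where
  em : EM μ
  lo : ∀ J, Lg μ 0 ≤ Lg μ J
  hi : ∀ J, Lg μ J ≤ Lg μ 0 + q J
  par : ∀ J u, q (J + u) + q (J - u) ≤ 2 * q J + 2 * q u

theorem BB.exp_dev (h : BB μ q) (J u : V → ℝ) :
    Ex μ J (fun h => Real.exp (li u h - Ex μ J (li u))) ≤ Real.exp (2 * q J + 2 * q u) := by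
  have e3 : (fun h => Real.exp (li u h - Ex μ J (li u))) =
      fun h => Real.exp (-Ex μ J (li u)) * Real.exp (li u h) := by
    funext h
    rw [← Real.exp_add]
    congr 1
    ring
  rw [e3, Ex_cmul, Ex_exp h.em, ← Real.exp_add]
  refine Real.exp_le_exp.2 ?_
  have t1 := Lg_tangent h.em J (-u)
  have e4 : Ex μ J (li (-u)) = -Ex μ J (li u) := by
    have : (li (-u) : (V → ℤ) → ℝ) = fun h => -1 * li u h := by
      funext h
      rw [li_neg]; ring
    rw [this, Ex_cmul]
    ring
  rw [e4, ← sub_eq_add_neg] at t1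
  have a1 := h.hi (J + u)
  have a2 := h.hi (J - u)
  have a3 := h.lo J
  have a4 := h.par J u
  linarith

theorem BB.exp_dev' (h : BB μ q) (J u : V → ℝ) :
    Ex μ J (fun h => Real.exp (-(li u h - Ex μ J (li u)))) ≤ Real.exp (2 * q J + 2 * q u) := by
  have e3 : (fun h => Real.exp (-(li u h - Ex μ J (li u)))) =
      fun h => Real.exp (Ex μ J (li u)) * Real.exp (li (-u) h) := by
    funext h
    rw [← Real.exp_add, li_neg]
    congr 1
    ring
  rw [e3, Ex_cmul, Ex_exp h.em, ← Real.exp_add]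
  refine Real.exp_le_exp.2 ?_
  have t1 := Lg_tangent h.em J u
  have a1 := h.hi (J + u)
  have a2 := h.hi (J - u)
  have a3 := h.lo J
  have a4 := h.par J u
  rw [← sub_eq_add_neg]
  linarith

theorem gr_dev (u : V → ℝ) (c : ℝ) :
    Gr fun h : V → ℤ => Real.exp (li u h - c) := by
  have : (fun h : V → ℤ => Real.exp (li u h - c)) = fun h => Real.exp (li u h) * Real.exp (-c) := by
    funext h
    rw [← Real.exp_add, sub_eq_add_neg]
  rw [this]
  exact (Gr.exp_li u).mul (Gr.const _)

theorem gr_dev' (u : V → ℝ) (c : ℝ) :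
    Gr fun h : V → ℤ => Real.exp (-(li u h - c)) := by
  have : (fun h : V → ℤ => Real.exp (-(li u h - c))) =
      fun h => Real.exp (li (-u) h) * Real.exp c := by
    funext h
    rw [← Real.exp_add, li_neg]
    congr 1
    ring
  rw [this]
  exact (Gr.exp_li (-u)).mul (Gr.const _)

/-- crude covariance bound -/
theorem BB.cv_le (h : BB μ q) (J u : V → ℝ) :
    |Cv μ J (li u) (li u)| ≤ 4 * Real.exp (2 * q J + 2 * q u) := by
  set m := Ex μ J (li u) with hm
  have e1 : Cv μ J (li u) (li u) = Ex μ J fun h => (li u h - m) * (li u h - m) := by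
    have e2 : (fun h => (li u h - m) * (li u h - m)) =
        fun h => (li u h * li u h - (2 * m) * li u h) + m * m := by
      funext h; ring
    rw [e2, Ex_add h.em (((Gr.li u).mul (Gr.li u)).sub ((Gr.const _).mul (Gr.li u)))
      (Gr.const _), Ex_sub h.em ((Gr.li u).mul (Gr.li u)) ((Gr.const _).mul (Gr.li u)), Ex_cmul,
      Ex_const h.em]
    unfold Cv
    rw [← hm]
    ring
  have g1 : Gr fun h : V → ℤ => (li u h - m) * (li u h - m) :=
    ((Gr.li u).sub (Gr.const _)).mul ((Gr.li u).sub (Gr.const _))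
  have h0 : 0 ≤ Cv μ J (li u) (li u) := by
    rw [e1]
    exact Ex_nonneg h.em (fun h => mul_self_nonneg _) J
  rw [abs_of_nonneg h0, e1]
  have h2 : Ex μ J (fun h => (li u h - m) * (li u h - m)) ≤
      Ex μ J fun h => 2 * (Real.exp (li u h - m) + Real.exp (-(li u h - m))) := by
    refine Ex_mono h.em g1 ((Gr.const 2).mul ((gr_dev u m).add (gr_dev' u m)))
      (fun h => ?_) J
    have key : ∀ x : ℝ, x * x ≤ 2 * (Real.exp x + Real.exp (-x)) := by
      intro x
      have a1 : ∀ z : ℝ, 0 ≤ z → z * z ≤ 2 * Real.exp z := by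
        intro z hz
        have := Real.quadratic_le_exp_of_nonneg hz
        nlinarith
      rcases le_total 0 x with hx | hx
      · have := a1 x hx
        have := Real.exp_pos (-x)
        linarith
      · have := a1 (-x) (by linarith)
        have := Real.exp_pos x
        nlinarith
    exact key _
  refine h2.trans ?_
  rw [Ex_cmul, Ex_add h.em (gr_dev u m) (gr_dev' u m)]
  have := h.exp_dev J u
  have := h.exp_dev' J u
  linarith

/-- crude bound for the third cumulant -/
theorem BB.k3_le (h : BB μ q) (J u : V → ℝ) :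
    |K3 μ J (li u) (li u) (li u)| ≤ 12 * Real.exp (2 * q J + 2 * q u) := by
  set m := Ex μ J (li u) with hm
  have gl := Gr.li u
  have gc : Gr fun h : V → ℤ => li u h - m := gl.sub (Gr.const _)
  have e1 : K3 μ J (li u) (li u) (li u) =
      Ex μ J fun h => (li u h - m) * (li u h - m) * (li u h - m) := by
    have e2 : (fun h => (li u h - m) * (li u h - m) * (li u h - m)) =
        fun h => ((li u h * li u h * li u h - (3 * m) * (li u h * li u h)) +
          (3 * m * m) * li u h) - m * m * m := by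
      funext h; ring
    rw [e2, Ex_sub h.em ((((gl.mul gl).mul gl).sub ((Gr.const _).mul (gl.mul gl))).add
        ((Gr.const _).mul gl)) (Gr.const _),
      Ex_add h.em (((gl.mul gl).mul gl).sub ((Gr.const _).mul (gl.mul gl)))
        ((Gr.const _).mul gl),
      Ex_sub h.em ((gl.mul gl).mul gl) ((Gr.const _).mul (gl.mul gl)), Ex_cmul, Ex_cmul,
      Ex_const h.em]
    unfold K3
    rw [← hm]
    ring
  have g3 : Gr fun h : V → ℤ => (li u h - m) * (li u h - m) * (li u h - m) :=
    (gc.mul gc).mul gc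
  have gE : Gr fun h : V → ℤ => 6 * (Real.exp (li u h - m) + Real.exp (-(li u h - m))) :=
    (Gr.const 6).mul ((gr_dev u m).add (gr_dev' u m))
  have key : ∀ x : ℝ, |x * x * x| ≤ 6 * (Real.exp x + Real.exp (-x)) := by
    intro x
    have a1 : ∀ z : ℝ, 0 ≤ z → z * z * z ≤ 6 * Real.exp z := by
      intro z hz
      have h5 := Real.pow_div_factorial_le_exp z hz 3
      have h6 : ((Nat.factorial 3 : ℕ) : ℝ) = 6 := by norm_num [Nat.factorial]
      rw [h6, div_le_iff₀ (by norm_num)] at h5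
      nlinarith
    rcases le_total 0 x with hx | hx
    · rw [abs_of_nonneg (by positivity)]
      have := a1 x hx
      have := Real.exp_pos (-x)
      linarith
    · have e : x * x * x = -((-x) * (-x) * (-x)) := by ring
      have hx' : 0 ≤ -x := by linarith
      rw [e, abs_neg, abs_of_nonneg (by positivity)]
      have := a1 (-x) hx'
      have := Real.exp_pos x
      linarith
  have hE : Ex μ J (fun h => 6 * (Real.exp (li u h - m) + Real.exp (-(li u h - m)))) ≤
      12 * Real.exp (2 * q J + 2 * q u) := by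
    rw [Ex_cmul, Ex_add h.em (gr_dev u m) (gr_dev' u m)]
    have := h.exp_dev J u
    have := h.exp_dev' J u
    linarith
  rw [e1, abs_le]
  constructor
  · have h2 := Ex_mono h.em (gE.neg) g3 (fun h => by
      have := (abs_le.1 (key (li u h - m))).1
      linarith) J
    have h3 : Ex μ J (fun h => -(6 * (Real.exp (li u h - m) + Real.exp (-(li u h - m))))) =
        -Ex μ J (fun h => 6 * (Real.exp (li u h - m) + Real.exp (-(li u h - m)))) := by
      have : (fun h : V → ℤ => -(6 * (Real.exp (li u h - m) + Real.exp (-(li u h - m))))) =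
          fun h => -1 * (6 * (Real.exp (li u h - m) + Real.exp (-(li u h - m)))) := by
        funext h; ring
      rw [this, Ex_cmul]; ring
    rw [h3] at h2
    linarith
  · have h2 := Ex_mono h.em g3 gE (fun h => (abs_le.1 (key (li u h - m))).2) J
    linarith

/-- crude bound for the mean -/
theorem BB.mean_le (h : BB μ q) (J u : V → ℝ) :
    |Ex μ J (li u)| ≤ 2 * q J + 2 * q u := by
  have t1 := Lg_tangent h.em J u
  have t2 := Lg_tangent h.em J (-u)
  have e4 : Ex μ J (li (-u)) = -Ex μ J (li u) := by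
    have : (li (-u) : (V → ℤ) → ℝ) = fun h => -1 * li u h := by
      funext h
      rw [li_neg]; ring
    rw [this, Ex_cmul]
    ring
  rw [e4, ← sub_eq_add_neg] at t2
  have a1 := h.hi (J + u)
  have a2 := h.hi (J - u)
  have a3 := h.lo J
  have a4 := h.par J u
  have a5 := h.lo (J + u)
  have a6 := h.lo (J - u)
  rw [abs_le]
  constructor <;> linarith

end mom

end Vale.Agent.P159.H358
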