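import Vale.Agent.P159.H358.Up2
import Vale.Agent.P159.H30.RF1

/-!
P159, module VTOR, probabilities for fine cells, part 3: `R` of window fields from the a priori bound
of block noise.
-/

open Finset MeasureTheory

set_option linter.unusedSectionVars false
set_option linter.unusedDecidableInType false

namespace Vale.Agent.P159.H358

open Vale.Agent.P159.TM.H104 (EM Lg)
open Vale.Agent.P159.H37 (gau qf wt wM Rs cob PK Ev)
open Vale.Agent.P159.TM.Spec (V)
open Vale.Agent.P159.TM.SpecC (wT)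
open Vale.Agent.P159.H552 (lft)
open Vale.Agent.P159.H864 (cl cl1_val cobV)
open Vale.Agent.P159.H972 (cobB)
open Vale.Agent.P159.H733.Torg (ip)
open Vale.Agent.P159.H733.Vt (zb mem_zb sum_box ip_mem_box)
open Matrix

section blocks

variable {K l : ℕ} [NeZero K] [NeZero (K / l)]

/-- block of a cell -/
def jb (Q : ℕ) {n : ℕ} (c : Fin n × Fin n) : ℕ × ℕ := (c.1.val / Q, c.2.val / Q)

/-- `V n → Fin n × Fin n` -/
def fv {n : ℕ} [NeZero n] (v : V n) : Fin n × Fin n :=
  (⟨v.1.val, ZMod.val_lt v.1⟩, ⟨v.2.val, ZMod.val_lt v.2⟩)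

theorem fv_inj {n : ℕ} [NeZero n] : Function.Injective (fv : V n → Fin n × Fin n) := by
  intro v w h
  unfold fv at h
  simp only [Prod.mk.injEq, Fin.mk.injEq] at h
  exact Prod.ext (ZMod.val_injective n h.1) (ZMod.val_injective n h.2)

theorem cobB_vm (Q : ℕ) (j : ℕ × ℕ) (α : V K → ℝ) (c : Fin (K / l) × Fin (K / l)) :
    (α ᵥ* cobB K l Q j) c = if jb Q c = j then (cob K l *ᵥ α) c else 0 := by
  show ∑ x, α x * cobB K l Q j x c = _
  unfold cobB jb
  simp only [Matrix.of_apply]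
  by_cases h : c.1.val / Q = j.1 ∧ c.2.val / Q = j.2
  · rw [if_pos (Prod.ext h.1 h.2)]
    simp only [if_pos h]
    show _ = ∑ x, cob K l c x * α x
    exact Finset.sum_congr rfl fun x _ => mul_comm _ _
  · rw [if_neg fun h2 => h ⟨congrArg Prod.fst h2, congrArg Prod.snd h2⟩]
    simp only [if_neg h, mul_zero, Finset.sum_const_zero]

theorem cobV_cob (hl : l ∣ K) (α : V K → ℝ) (v : V (K / l)) :
    (cobV K l *ᵥ α) v = (cob K l *ᵥ α) (fv v) := by
  show ∑ x, cobV K l v x * α x = ∑ x, cob K l (fv v) x * α x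
  refine Finset.sum_congr rfl fun x _ => ?_
  congr 1
  rw [H864.cobV_apply]
  unfold cob fv
  simp only [Matrix.of_apply]
  have e : (cl x : V (K / l)) = v ↔ x.1.val / l = v.1.val ∧ x.2.val / l = v.2.val := by
    rw [← cl1_val hl x.1, ← cl1_val hl x.2]
    constructor
    · intro h
      rw [← h]
      exact ⟨rfl, rfl⟩
    · intro h
      exact Prod.ext (ZMod.val_injective _ h.1) (ZMod.val_injective _ h.2)
  by_cases h : (cl x : V (K / l)) = v
  · rw [if_pos h, if_pos (e.1 h)]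
  · rw [if_neg h, if_neg fun h2 => h (e.2 h2)]

/-- union of block noises -/
noncomputable def UB (K l Q : ℕ) [NeZero K] (S : Finset (ℕ × ℕ)) (σ : ℝ) :
    Matrix (V K) (Fin (K / l) × Fin (K / l)) ℝ := ∑ j ∈ S, σ • cobB K l Q j

theorem UB_vm (Q : ℕ) (S : Finset (ℕ × ℕ)) (σ : ℝ) (α : V K → ℝ) (c : Fin (K / l) × Fin (K / l)) :
    (α ᵥ* UB K l Q S σ) c = if jb Q c ∈ S then σ * (cob K l *ᵥ α) c else 0 := by
  have e1 : (α ᵥ* UB K l Q S σ) c = ∑ j ∈ S, σ * (α ᵥ* cobB K l Q j) c := by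
    show ∑ x, α x * UB K l Q S σ x c = _
    unfold UB
    simp only [Matrix.sum_apply, Matrix.smul_apply, smul_eq_mul, Finset.mul_sum]
    rw [Finset.sum_comm]
    refine Finset.sum_congr rfl fun j _ => ?_
    show _ = σ * ∑ x, α x * cobB K l Q j x c
    rw [Finset.mul_sum]
    exact Finset.sum_congr rfl fun x _ => by ring
  rw [e1]
  simp only [cobB_vm]
  by_cases h : jb Q c ∈ S
  · rw [if_pos h, Finset.sum_eq_single (jb Q c)]
    · rw [if_pos rfl]
    · intro j _ hj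
      rw [if_neg (Ne.symm hj), mul_zero]
    · intro h2
      exact absurd h h2
  · rw [if_neg h]
    refine Finset.sum_eq_zero fun j hj => ?_
    rw [if_neg, mul_zero]
    intro h2
    rw [h2] at h
    exact h hj

theorem UB_mulVec (Q : ℕ) (S : Finset (ℕ × ℕ)) (σ : ℝ) (g : Fin (K / l) × Fin (K / l) → ℝ) :
    UB K l Q S σ *ᵥ g = ∑ j ∈ S, (1 : ℝ) • (σ • (cobB K l Q j *ᵥ g)) := by
  unfold UB
  rw [Matrix.sum_mulVec]
  refine Finset.sum_congr rfl fun j _ => ?_
  rw [one_smul, Matrix.smul_mulVec]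

/-- the blocks which meet the box -/
def bset (Q : ℕ) {n : ℕ} [NeZero n] (p : V n) (D : ℕ) : Finset (ℕ × ℕ) :=
  (H462.box p D).image fun v => jb Q (fv v)

theorem dom_blocks (hl : l ∣ K) (Q : ℕ) (p : V (K / l)) (D : ℕ) {σ : ℝ} (α : V K → ℝ) :
    σ ^ 2 * ∑ v ∈ H462.box p D, (cobV K l *ᵥ α) v ^ 2 ≤
      ∑ c, (α ᵥ* UB K l Q (bset Q p D) σ) c ^ 2 := by
  have e1 : ∑ v ∈ H462.box p D, (cobV K l *ᵥ α) v ^ 2 =
      ∑ c ∈ (H462.box p D).image fv, (cob K l *ᵥ α) c ^ 2 := by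
    rw [Finset.sum_image fun v _ w _ h => fv_inj h]
    exact Finset.sum_congr rfl fun v _ => by rw [cobV_cob hl]
  rw [e1, Finset.mul_sum]
  have e2 : ∀ c ∈ (H462.box p D).image fv, σ ^ 2 * (cob K l *ᵥ α) c ^ 2 =
      (α ᵥ* UB K l Q (bset Q p D) σ) c ^ 2 := by
    intro c hc
    rw [UB_vm, if_pos, mul_pow]
    obtain ⟨v, hv, rfl⟩ := Finset.mem_image.1 hc
    exact Finset.mem_image.2 ⟨v, hv, rfl⟩
  rw [Finset.sum_congr rfl e2]
  exact Finset.sum_le_sum_of_subset_of_nonneg (Finset.subset_univ _) fun _ _ _ => sq_nonneg _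

/-- number of blocks -/
theorem card_bset {Q q D n : ℕ} [NeZero n] (hQ : 0 < Q) (h1 : D ≤ q) (h2 : q + D < n)
    (h3 : 2 * D < n) : (bset Q (pc n (q, q)) D).card ≤ (2 * D / Q + 2) ^ 2 := by
  have hsub : bset Q (pc n (q, q)) D ⊆
      Finset.Icc ((q - D) / Q) ((q + D) / Q) ×ˢ Finset.Icc ((q - D) / Q) ((q + D) / Q) := by
    intro j hj
    obtain ⟨v, hv, rfl⟩ := Finset.mem_image.1 hj
    have h4 := (box_nat h1 h2 h3 v).1 hv
    unfold nr at h4
    rw [Finset.mem_product, Finset.mem_Icc, Finset.mem_Icc]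
    unfold jb fv
    refine ⟨⟨Nat.div_le_div_right ?_, Nat.div_le_div_right ?_⟩,
      ⟨Nat.div_le_div_right ?_, Nat.div_le_div_right ?_⟩⟩ <;> (simp only; omega)
  refine (Finset.card_le_card hsub).trans ?_
  rw [Finset.card_product, Nat.card_Icc, ← pow_two]
  refine Nat.pow_le_pow_left ?_ 2
  have h5 : q + D = (q - D) + 2 * D := by omega
  have h6 : (q + D) / Q ≤ (q - D) / Q + 2 * D / Q + 1 := by
    rw [h5, Nat.add_div hQ]
    split_ifs
    · exact le_rfl
    · exact Nat.le_succ _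
  generalize (q + D) / Q = x1 at h6 ⊢
  generalize (q - D) / Q = x2 at h6 ⊢
  generalize 2 * D / Q = x3 at h6 ⊢
  omega

theorem cobB_mv (hl : l ∣ K) (Q : ℕ) (j : ℕ × ℕ) (h : Fin (K / l) × Fin (K / l) → ℝ) (z : V K) :
    (cobB K l Q j *ᵥ h) z =
      if jb Q (fv (cl z : V (K / l))) = j then (l : ℝ)⁻¹ * h (fv (cl z)) else 0 := by
  show ∑ c, cobB K l Q j z c * h c = _
  rw [Finset.sum_eq_single (fv (cl z : V (K / l)))]
  · unfold cobB jb cob
    simp only [Matrix.of_apply]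
    have e : z.1.val / l = (fv (cl z : V (K / l))).1.val ∧
        z.2.val / l = (fv (cl z : V (K / l))).2.val :=
      ⟨(cl1_val hl z.1).symm, (cl1_val hl z.2).symm⟩
    rw [if_pos e]
    by_cases hj : (fv (cl z : V (K / l))).1.val / Q = j.1 ∧ (fv (cl z : V (K / l))).2.val / Q = j.2
    · rw [if_pos hj, if_pos (Prod.ext hj.1 hj.2)]
    · rw [if_neg hj, if_neg fun h2 => hj ⟨congrArg Prod.fst h2, congrArg Prod.snd h2⟩, zero_mul]
  · intro c _ hc
    unfold cobB cob
    simp only [Matrix.of_apply]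
    have e : ¬(z.1.val / l = c.1.val ∧ z.2.val / l = c.2.val) := by
      intro h2
      apply hc
      unfold fv
      refine Prod.ext (Fin.ext ?_) (Fin.ext ?_)
      · rw [← h2.1]
        exact (cl1_val hl z.1).symm
      · rw [← h2.2]
        exact (cl1_val hl z.2).symm
    rw [if_neg e]
    split_ifs <;> rw [zero_mul]
  · intro h2
    exact absurd (Finset.mem_univ _) h2

theorem card_div {n Q : ℕ} (hQ : 0 < Q) (j : ℕ) :
    (Finset.univ.filter fun i : Fin n => i.val / Q = j).card ≤ Q := by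
  have h := Finset.card_le_card_of_injOn (s := Finset.univ.filter fun i : Fin n => i.val / Q = j)
    (t := Finset.range Q) (fun i : Fin n => i.val % Q)
    (fun i _ => by
      simp only [Finset.coe_range, Set.mem_Iio]
      exact Nat.mod_lt _ hQ)
    (fun i hi k hk h => by
      simp only [Finset.coe_filter, Finset.mem_univ, true_and, Set.mem_ofPred_eq] at hi hk
      simp only at h
      refine Fin.ext ?_
      have h1 := Nat.div_add_mod i.val Q
      have h2 := Nat.div_add_mod k.val Q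
      rw [hi] at h1
      rw [hk] at h2
      omega)
  rwa [Finset.card_range] at h

theorem card_jb {n Q : ℕ} (hQ : 0 < Q) (j : ℕ × ℕ) :
    ((Finset.univ.filter fun c : Fin n × Fin n => jb Q c = j).card : ℝ) ≤ (Q : ℝ) ^ 2 := by
  have hsub : (Finset.univ.filter fun c : Fin n × Fin n => jb Q c = j) ⊆
      (Finset.univ.filter fun i : Fin n => i.val / Q = j.1) ×ˢ
        (Finset.univ.filter fun i : Fin n => i.val / Q = j.2) := by
    intro c hc
    have h := (Finset.mem_filter.1 hc).2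
    rw [Finset.mem_product, Finset.mem_filter, Finset.mem_filter]
    exact ⟨⟨Finset.mem_univ _, congrArg Prod.fst h⟩, Finset.mem_univ _, congrArg Prod.snd h⟩
  have h1 := Finset.card_le_card hsub
  rw [Finset.card_product] at h1
  have h2 := h1.trans (Nat.mul_le_mul (card_div hQ j.1) (card_div hQ j.2))
  rw [pow_two]
  exact_mod_cast h2

end blocks

/-! ### tails -/

section rs

variable {K l Q : ℕ} [NeZero K] [NeZero (K / l)] {b t : ℝ}

/-- the a priori bound of block noise, torus `K`, cells `l`, blocks of `Q` cells -/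
def APB (K l Q : ℕ) [NeZero K] (b X t δ : ℝ) : Prop :=
  ∀ j : ℕ × ℕ, (gau (Fin (K / l) × Fin (K / l))).real
    {g | δ < Rs (wt K b t) (((X * √t) • cobB K l Q j) *ᵥ g)} ≤ 1 / 30

/-- **`R` of a window field** -/
theorem rs_tail (hb : 0 ≤ b) (ht : 0 < t) (hl : l ∣ K) {δ X : ℝ} (hδ : 0 ≤ δ)
    (hAP : APB K l Q b X t δ) {n : ℕ} [NeZero n] {I : Type*} [Fintype I] {D : ℕ} {κ : ℝ}
    (hκ : 0 < κ) {Bm : Matrix (V n) I ℝ} (hB : CovB D κ Bm) (hn : 2 * D < n) (hK : 2 * D < K / l)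
    (x : V n) (p : V (K / l)) {s m a : ℝ} (hs : 0 < s) (hm0 : 0 < m)
    (hm : ((bset Q p D).card : ℝ) ≤ m) (ha : 1 ≤ a)
    (haX : a * (m * (s * l * √κ)) ≤ X * √t) :
    (gau I).real {g | δ < Rs (wt K b t)
      (s • lft (cl : V K → V (K / l)) (wf (K / l) D x p (Bm *ᵥ g)))} ≤
      2 * (m * Real.exp (-(a ^ 2 / 7))) := by
  have hμ := H789.em_wt (N := K) hb ht
  have hE : Ev (wt K b t) := H789.ev_wt
  have hPK : PK (wt K b t) := H789.pk_wt (N := K) hb ht
  have hl0 : (0 : ℝ) < l := by exact_mod_cast H864.l_pos hl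
  have hsκ : 0 < √κ := Real.sqrt_pos.2 hκ
  have hst : 0 < √t := Real.sqrt_pos.2 ht
  set σ : ℝ := s * l * √κ with hσ
  have hσ0 : 0 < σ := by positivity
  set A' : Matrix (V K) I ℝ := (s * l) • ((cobV K l)ᵀ * (wK (K / l) D x p * Bm)) with hA'
  set U := UB K l Q (bset Q p D) σ with hU
  have eA : ∀ g : I → ℝ, A' *ᵥ g =
      s • lft (cl : V K → V (K / l)) (wf (K / l) D x p (Bm *ᵥ g)) := by
    intro g
    rw [hA', Matrix.smul_mulVec, ← Matrix.mulVec_mulVec, ← Matrix.mulVec_mulVec, wK_mulVec hK,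
      lft_cob hl, smul_smul]
  have hdom : ∀ α : V K → ℝ, ∑ i, (α ᵥ* A') i ^ 2 ≤ ∑ c, (α ᵥ* U) c ^ 2 := by
    intro α
    have e1 : ∀ i, (α ᵥ* A') i = (s * l) * ((cobV K l *ᵥ α) ᵥ* (wK (K / l) D x p * Bm)) i := by
      intro i
      rw [hA', Matrix.vecMul_smul, Pi.smul_apply, smul_eq_mul, ← Matrix.vecMul_vecMul,
        Matrix.vecMul_transpose]
    simp only [e1, mul_pow]
    rw [← Finset.mul_sum]
    have h1 := wK_cov hn hK hκ.le hB x p (cobV K l *ᵥ α)
    have h2 := dom_blocks hl Q p D (σ := σ) α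
    refine le_trans ?_ h2
    calc s ^ 2 * (l : ℝ) ^ 2 * ∑ i, ((cobV K l *ᵥ α) ᵥ* (wK (K / l) D x p * Bm)) i ^ 2
        ≤ s ^ 2 * (l : ℝ) ^ 2 * (κ * ∑ v ∈ H462.box p D, (cobV K l *ᵥ α) v ^ 2) :=
          mul_le_mul_of_nonneg_left h1 (by positivity)
      _ = σ ^ 2 * ∑ v ∈ H462.box p D, (cobV K l *ᵥ α) v ^ 2 := by
          rw [hσ, mul_pow, mul_pow, Real.sq_sqrt hκ.le]
          ring
  have hpsd : (U * Uᵀ - A' * A'ᵀ).PosSemidef := by
    refine H859.psd_of ?_ fun α => ?_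
    · rw [Matrix.transpose_sub, Matrix.transpose_mul, Matrix.transpose_mul,
        Matrix.transpose_transpose, Matrix.transpose_transpose]
    · rw [H864.qf_sub_mat, H37.qf_eq, H37.qf_eq, ← H363.vecMul_sq, ← H363.vecMul_sq]
      have := hdom α
      linarith
  have h1 := H586.small_cov_Rs hμ hE hPK hpsd 0 δ
  simp only [zero_add, eA] at h1
  refine h1.trans (mul_le_mul_of_nonneg_left ?_ (by norm_num))
  -- the blocks
  set a' : ℝ := X * √t / (m * σ) with ha'
  have haa' : a ≤ a' := by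
    rw [ha', le_div_iff₀ (by positivity)]
    exact haX
  have ha'1 : 1 ≤ a' := ha.trans haa'
  have ha'0 : 0 < a' := lt_of_lt_of_le one_pos ha'1
  have hXt : 0 < X * √t := by
    rw [ha'] at ha'0
    have h0 : 0 < m * σ := by positivity
    have := (div_pos_iff_of_pos_right h0).1 ha'0
    exact this
  have hsub : {g | δ < Rs (wt K b t) (U *ᵥ g)} ⊆
      ⋃ j ∈ bset Q p D, {g | δ < Rs (wt K b t) (a'⁻¹ • (((X * √t) • cobB K l Q j) *ᵥ g))} := by
    intro g hg
    simp only [Set.mem_iUnion, Set.mem_ofPred_eq, exists_prop] at hg ⊢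
    by_contra hcon
    push Not at hcon
    apply absurd hg
    rw [not_lt, hU, UB_mulVec]
    refine H586.blocks_Rs hμ hE hPK hδ _ hm0 hm (fun _ _ => zero_le_one) (fun _ _ => le_rfl) _
      fun j hj => ?_
    have h2 := hcon j hj
    have e : m • σ • (cobB K l Q j *ᵥ g) = a'⁻¹ • (((X * √t) • cobB K l Q j) *ᵥ g) := by
      rw [Matrix.smul_mulVec, smul_smul, smul_smul, ha', inv_div]
      congr 1
      rw [div_mul_cancel₀ _ hXt.ne']
    rw [e]
    exact h2
  calc (gau (Fin (K / l) × Fin (K / l))).real {g | δ < Rs (wt K b t) (U *ᵥ g)} ≤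
        (gau (Fin (K / l) × Fin (K / l))).real
          (⋃ j ∈ bset Q p D, {g | δ < Rs (wt K b t) (a'⁻¹ • (((X * √t) • cobB K l Q j) *ᵥ g))}) :=
        measureReal_mono hsub (measure_ne_top _ _)
    _ ≤ ∑ j ∈ bset Q p D, (gau (Fin (K / l) × Fin (K / l))).real
          {g | δ < Rs (wt K b t) (a'⁻¹ • (((X * √t) • cobB K l Q j) *ᵥ g))} :=
        measureReal_biUnion_finset_le _ _
    _ ≤ ∑ _j ∈ bset Q p D, Real.exp (-(a' ^ 2 / 7)) :=
        Finset.sum_le_sum fun j _ => H586.fern_Rs hμ hE hPK _ (hAP j) ha'1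
    _ = (bset Q p D).card * Real.exp (-(a' ^ 2 / 7)) := by
        rw [Finset.sum_const, nsmul_eq_mul]
    _ ≤ m * Real.exp (-(a ^ 2 / 7)) := by
        refine mul_le_mul hm (Real.exp_le_exp.2 ?_) (Real.exp_pos _).le hm0.le
        have : a ^ 2 ≤ a' ^ 2 := pow_le_pow_left₀ (by linarith) haa' 2
        linarith

/-- **`R` of the cut-off** -/
theorem rs_ind (hb : 0 ≤ b) (ht : 0 < t) (hl : l ∣ K) {δ X : ℝ} (hδ : 0 ≤ δ) (hX : 0 < X)
    (hAP : APB K l Q b X t δ) (hQ : 0 < Q) (p : V (K / l)) {D : ℕ} {s m : ℝ} (hs : 0 < s)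
    (hm0 : 0 < m) (hm : ((bset Q p D).card : ℝ) ≤ m)
    (hXs : 4 * m ^ 2 * s ^ 2 * ((l : ℝ) * Q) ^ 2 ≤ 3 * (X ^ 2 * t)) :
    Rs (wt K b t) (s • lft (cl : V K → V (K / l))
      (fun v => if v ∈ H462.box p D then 1 else 0)) ≤ δ := by
  have hμ := H789.em_wt (N := K) hb ht
  have hE : Ev (wt K b t) := H789.ev_wt
  have hPK : PK (wt K b t) := H789.pk_wt (N := K) hb ht
  have hl0 : (0 : ℝ) < l := by exact_mod_cast H864.l_pos hl
  have hst : 0 < √t := Real.sqrt_pos.2 ht
  set c0 : ℝ := 2 * m * s * l / (X * √t) with hc0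
  set hh : ℕ × ℕ → Fin (K / l) × Fin (K / l) → ℝ := fun j c =>
    if jb Q c = j ∧ ∃ v ∈ H462.box p D, fv v = c then c0 else 0 with hhd
  -- decomposition
  have edec : s • lft (cl : V K → V (K / l)) (fun v => if v ∈ H462.box p D then (1 : ℝ) else 0) =
      ∑ j ∈ bset Q p D, (1 : ℝ) • (m⁻¹ • ((1 / 2 : ℝ) • (((X * √t) • cobB K l Q j) *ᵥ hh j))) := by
    funext z
    rw [Finset.sum_apply]
    simp only [Pi.smul_apply, smul_eq_mul, Matrix.smul_mulVec, one_mul]
    simp only [cobB_mv hl]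
    have hsc : m⁻¹ * (1 / 2 * (X * √t * ((l : ℝ)⁻¹ * c0))) = s := by
      rw [hc0]
      field_simp
    by_cases hz : (cl z : V (K / l)) ∈ H462.box p D
    · have hmem : jb Q (fv (cl z : V (K / l))) ∈ bset Q p D := Finset.mem_image.2 ⟨_, hz, rfl⟩
      rw [Finset.sum_eq_single (jb Q (fv (cl z : V (K / l))))]
      · have hval : hh (jb Q (fv (cl z : V (K / l)))) (fv (cl z)) = c0 := by
          rw [hhd]
          exact if_pos ⟨rfl, _, hz, rfl⟩
        rw [if_pos rfl, hval, hsc]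
        show s * (if (cl z : V (K / l)) ∈ H462.box p D then (1 : ℝ) else 0) = s
        rw [if_pos hz, mul_one]
      · intro j _ hj
        rw [if_neg (Ne.symm hj)]
        ring
      · intro h2
        exact absurd hmem h2
    · show s * (if (cl z : V (K / l)) ∈ H462.box p D then (1 : ℝ) else 0) = _
      rw [if_neg hz, mul_zero]
      symm
      refine Finset.sum_eq_zero fun j _ => ?_
      have h3 : hh j (fv (cl z)) = 0 := by
        rw [hhd]
        simp only
        rw [if_neg]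
        rintro ⟨_, v, hv, hv2⟩
        rw [fv_inj hv2] at hv
        exact hz hv
      rw [h3]
      split_ifs <;> ring
  rw [edec]
  refine H586.blocks_Rs hμ hE hPK hδ _ hm0 hm (fun _ _ => zero_le_one) (fun _ _ => le_rfl) _
    fun j _ => ?_
  rw [smul_smul, mul_inv_cancel₀ hm0.ne', one_smul]
  refine H586.cm_Rs hμ hE hPK _ (hAP j) ?_
  have h4 : ∑ c, hh j c ^ 2 ≤ ∑ c ∈ Finset.univ.filter (fun c : Fin (K / l) × Fin (K / l) =>
      jb Q c = j), c0 ^ 2 := by
    rw [Finset.sum_filter]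
    refine Finset.sum_le_sum fun c _ => ?_
    rw [hhd]
    simp only
    by_cases h5 : jb Q c = j
    · rw [if_pos h5]
      split_ifs
      · exact le_rfl
      · rw [zero_pow two_ne_zero]
        positivity
    · rw [if_neg h5, if_neg fun h6 => h5 h6.1, zero_pow two_ne_zero]
  refine h4.trans ?_
  rw [Finset.sum_const, nsmul_eq_mul]
  refine (mul_le_mul_of_nonneg_right (card_jb hQ j) (sq_nonneg _)).trans ?_
  rw [hc0, div_pow, mul_pow X, Real.sq_sqrt ht.le, mul_div_assoc', div_le_iff₀ (by positivity)]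
  linarith

end rs

end Vale.Agent.P159.H358
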