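import Vale.Agent.P159.H358.Loc8d
import Vale.Agent.P159.TM.H705.BoxCv
import Vale.Agent.P159.TM.H41.InitQ

/-!
P159, row LOC8, part 5: two tori. A source is given by a function `j` on `ℕ × ℕ`, it sits in the
open box of side `n₀` of both tori. The normalised generating functions of the two tori differ by a
factor `exp (± eps)`, `eps = sqrt C * A * |I| * exp (72 A² |I|) * exp (- c n / 2 ξ)`.
-/

open Finset MeasureTheory
open scoped ENNReal

set_option linter.unusedSectionVars false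
set_option linter.unusedDecidableInType false

namespace Vale.Agent.P159.H358

open Vale.Agent.P159.TM.H459 (sn sd ball mem_ball)
open Vale.Agent.P159.TM.H705 (pt outB mem_outB ev mv ev_eq ev_out ev_mv mv_pin ratio_box pt_sub
  sn_pt_sub dB bx)
open Vale.Agent.P159.TM.H104 (EM Lg li)
open Vale.Agent.P159.TM.H265 (HA)
open Vale.Agent.P159.TM.Spec (V)
open Vale.Agent.P159.H37
open Vale.Agent.P159.H353 (wI wI_zero_pos)

/-- the source `j` in the open box of side `n` of the torus of side `N` -/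
noncomputable def src (N : ℕ) [NeZero N] (n : ℕ) (j : ℕ → ℕ → ℝ) (x : V N) : ℝ :=
  if 1 ≤ x.1.val ∧ x.1.val < n ∧ 1 ≤ x.2.val ∧ x.2.val < n then j x.1.val x.2.val else 0

theorem sum_torus {N : ℕ} [NeZero N] (f : V N → ℝ) :
    ∑ x : V N, f x = ∑ p ∈ range N ×ˢ range N, f ((p.1 : ZMod N), (p.2 : ZMod N)) := by
  symm
  refine Finset.sum_bij (fun p _ => ((p.1 : ZMod N), (p.2 : ZMod N))) (fun _ _ => mem_univ _) ?_ ?_
    (fun _ _ => rfl)
  · intro p hp q hq h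
    simp only [mem_product, mem_range] at hp hq
    simp only [Prod.mk.injEq] at h
    have h1 := congrArg ZMod.val h.1
    have h2 := congrArg ZMod.val h.2
    rw [ZMod.val_cast_of_lt hp.1, ZMod.val_cast_of_lt hq.1] at h1
    rw [ZMod.val_cast_of_lt hp.2, ZMod.val_cast_of_lt hq.2] at h2
    exact Prod.ext h1 h2
  · intro x _
    refine ⟨(x.1.val, x.2.val), ?_, ?_⟩
    · simp only [mem_product, mem_range]
      exact ⟨ZMod.val_lt _, ZMod.val_lt _⟩
    · simp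

theorem li_src {N n : ℕ} [NeZero N] (hn : n ≤ N) (j : ℕ → ℕ → ℝ) (h : V N → ℤ) :
    li (src N n j) h = ∑ p ∈ bx n, j p.1 p.2 * (ev n h p.1 p.2 : ℝ) := by
  unfold li
  rw [sum_torus]
  have hsub : bx n ⊆ range N ×ˢ range N := by
    intro p hp
    unfold bx at hp
    rw [mem_product, mem_Ico, mem_Ico] at hp
    rw [mem_product, mem_range, mem_range]
    omega
  rw [← Finset.sum_subset hsub]
  · refine Finset.sum_congr rfl fun p hp => ?_
    unfold bx at hp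
    rw [mem_product, mem_Ico, mem_Ico] at hp
    have h1 : ((p.1 : ZMod N)).val = p.1 := ZMod.val_cast_of_lt (by omega)
    have h2 : ((p.2 : ZMod N)).val = p.2 := ZMod.val_cast_of_lt (by omega)
    unfold src ev
    simp only [h1, h2]
    rw [if_pos (by omega), if_pos (by omega)]
  · intro p hp hp'
    rw [mem_product, mem_range, mem_range] at hp
    have h1 : ((p.1 : ZMod N)).val = p.1 := ZMod.val_cast_of_lt (by omega)
    have h2 : ((p.2 : ZMod N)).val = p.2 := ZMod.val_cast_of_lt (by omega)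
    unfold src
    simp only [h1, h2]
    unfold bx at hp'
    rw [mem_product, mem_Ico, mem_Ico] at hp'
    rw [if_neg (by omega), zero_mul]

theorem li_src_mv {N M n : ℕ} [NeZero N] [NeZero M] (hn : n ≤ N) (hm : n ≤ M)
    (j : ℕ → ℕ → ℝ) (h : V N → ℤ) :
    li (src M n j) (mv M n h) = li (src N n j) h := by
  rw [li_src hn, li_src hm]
  refine Finset.sum_congr rfl fun p _ => ?_
  rw [ev_mv hm]

/-- the weight is the torus weight of `H705` -/
theorem wt_eq_tw {N : ℕ} [NeZero N] (b ξ : ℝ) (h : V N → ℤ) :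
    wt N b (1 / ξ ^ 2) h =
      TM.H705.tw (wI b) (fun k => Real.exp (-((1 / ξ ^ 2) * (k : ℝ) ^ 2) / 2)) h := by
  have h1 := TM.H705.spec_wt (N := N) b (1 / ξ ^ 2) ∅ h
  simp only [Finset.notMem_empty, false_implies, implies_true, if_true, one_mul] at h1
  rw [← h1, TM.H41.wt_gr]
  unfold wt wM
  congr 1
  rw [qf_smul_one]
  unfold TM.H870.gr TM.SpecC.ms re
  congr 1
  rw [Finset.mul_sum, Finset.sum_div]
  rw [← Finset.sum_neg_distrib]
  simp only [Pi.zero_apply, sub_zero]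
  rw [← Finset.sum_neg_distrib]
  refine Finset.sum_congr rfl fun x _ => ?_
  ring

/-- the pinned generating function does not depend on the torus -/
theorem pin_two {N M n : ℕ} [NeZero N] [NeZero M] (hn : n ≤ N) (hm : n ≤ M) {b : ℝ} (hb : 0 ≤ b)
    (ξ : ℝ) (j : ℕ → ℕ → ℝ) :
    Zs (pin (outB N n) (wt N b (1 / ξ ^ 2))) (src N n j) /
        Zs (pin (outB N n) (wt N b (1 / ξ ^ 2))) 0 =
      Zs (pin (outB M n) (wt M b (1 / ξ ^ 2))) (src M n j) /
        Zs (pin (outB M n) (wt M b (1 / ξ ^ 2))) 0 := by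
  classical
  have h := ratio_box hn hm (wI b)
    (fun k => Real.exp (-((1 / ξ ^ 2) * (k : ℝ) ^ 2) / 2)) (wI_zero_pos hb).ne'
    (Real.exp_pos _).ne' (fun h => Real.exp (li (src N n j) h))
    (fun h => Real.exp (li (src M n j) h)) fun h _ => by rw [li_src_mv hn hm]
  have key : ∀ (K : ℕ) [NeZero K] (J : V K → ℝ), Zs (pin (outB K n) (wt K b (1 / ξ ^ 2))) J =
      ∑' h : V K → ℤ, (if ∀ x ∈ outB K n, h x = 0 then 1 else 0) *
        (TM.H705.tw (wI b) (fun k => Real.exp (-((1 / ξ ^ 2) * (k : ℝ) ^ 2) / 2)) h *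
          Real.exp (li J h)) := by
    intro K _ J
    unfold Zs TM.H104.T
    refine tsum_congr fun h => ?_
    unfold pin
    rw [wt_eq_tw]
    by_cases hh : ∀ x ∈ outB K n, h x = 0
    · rw [if_pos hh, if_pos hh, one_mul, one_mul]
    · rw [if_neg hh, if_neg hh]; ring
  have key0 : ∀ (K : ℕ) [NeZero K], Zs (pin (outB K n) (wt K b (1 / ξ ^ 2))) 0 =
      ∑' h : V K → ℤ, (if ∀ x ∈ outB K n, h x = 0 then 1 else 0) *
        TM.H705.tw (wI b) (fun k => Real.exp (-((1 / ξ ^ 2) * (k : ℝ) ^ 2) / 2)) h := by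
    intro K _
    rw [key K 0]
    refine tsum_congr fun h => ?_
    rw [TM.H104.li, Finset.sum_eq_zero (fun x _ => by simp), Real.exp_zero, mul_one]
  rw [key, key0, key, key0]
  exact h

theorem pin_Zs_pos {N : ℕ} [NeZero N] {b : ℝ} (hb : 0 ≤ b) {ξ : ℝ} (hξ : 0 < ξ)
    (P : Finset (V N)) (J : V N → ℝ) : 0 < Zs (pin P (wt N b (1 / ξ ^ 2))) J := by
  have hm := TM.H41.ms_pos (N := N) hξ
  rw [Zs_pin, ss_exp (fun _ => hb) hm]
  have h1 := TM.H708.SS_one_pos (TM.H265.DT N) (J := fun _ => b) (fun _ => hb) hm (P : Set (V N))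
  refine lt_of_lt_of_le h1 ?_
  unfold TM.H708.SS
  have s1 : Summable fun h =>
      TM.H708.bw (TM.H265.DT N) (fun _ => b) (TM.SpecC.ms ξ) (P : Set (V N)) h * 1 :=
    (TM.H708.bw_summable (fun _ => hb) hm (TM.H708.Gr.one (V := V N))).of_abs
  have s2 : Summable fun h =>
      TM.H708.bw (TM.H265.DT N) (fun _ => b) (TM.SpecC.ms ξ) (P : Set (V N)) h *
      Real.cosh (TM.H708.lf J h) := (TM.H708.bw_summable (fun _ => hb) hm
        (TM.H708.gr_cosh J)).of_abs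
  exact s1.tsum_le_tsum (fun h => mul_le_mul_of_nonneg_left (Real.one_le_cosh _)
    (TM.H708.bw_nonneg (fun _ => hb) h)) s2

theorem Lg_pin_two {N M n : ℕ} [NeZero N] [NeZero M] (hn : n ≤ N) (hm : n ≤ M) {b : ℝ}
    (hb : 0 ≤ b) {ξ : ℝ} (hξ : 0 < ξ) (j : ℕ → ℕ → ℝ) :
    Lg (pin (outB N n) (wt N b (1 / ξ ^ 2))) (src N n j) -
        Lg (pin (outB N n) (wt N b (1 / ξ ^ 2))) 0 =
      Lg (pin (outB M n) (wt M b (1 / ξ ^ 2))) (src M n j) -
        Lg (pin (outB M n) (wt M b (1 / ξ ^ 2))) 0 := by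
  have h := congrArg Real.log (pin_two hn hm hb ξ j)
  rw [Real.log_div (pin_Zs_pos hb hξ _ _).ne' (pin_Zs_pos hb hξ _ _).ne',
    Real.log_div (pin_Zs_pos hb hξ _ _).ne' (pin_Zs_pos hb hξ _ _).ne'] at h
  exact h

theorem val_shift {N n : ℕ} [NeZero N] {z : ZMod N} {p r : ℕ} (hp : r < p) (hp' : p + r < n)
    (hn : n ≤ N) (hz : (z - (p : ZMod N)).valMinAbs.natAbs ≤ r) : 1 ≤ z.val ∧ z.val < n := by
  set d := (z - (p : ZMod N)).valMinAbs with hd
  obtain ⟨t, ht⟩ : ∃ t : ℕ, (t : ℤ) = (p : ℤ) + d := by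
    refine ⟨((p : ℤ) + d).toNat, ?_⟩
    omega
  have h1 : z = ((t : ℕ) : ZMod N) := by
    have e : (((t : ℕ) : ℤ) : ZMod N) = (((p : ℤ) + d : ℤ) : ZMod N) := by rw [ht]
    rw [Int.cast_natCast] at e
    rw [e, Int.cast_add, Int.cast_natCast, hd, ZMod.coe_valMinAbs]
    ring
  have h3 : t < n := by omega
  rw [h1, ZMod.val_cast_of_lt (by omega)]
  omega

theorem disj_ball {N n : ℕ} [NeZero N] {p : ℕ × ℕ} {r : ℕ} (h1 : r < p.1) (h1' : p.1 + r < n)
    (h2 : r < p.2) (h2' : p.2 + r < n) (hn : n ≤ N) :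
    Disjoint (outB N n) (ball (pt N p) r) := by
  rw [Finset.disjoint_left]
  intro z hz hb
  rw [mem_ball] at hb
  unfold sd sn at hb
  rw [max_le_iff] at hb
  have h3 := val_shift h1 h1' hn hb.1
  have h4 := val_shift h2 h2' hn hb.2
  rw [mem_outB] at hz
  omega

/-- **LOC8, one torus, source on `ℕ × ℕ`.** -/
theorem loc8_src {N : ℕ} [NeZero N] {b : ℝ} (hb : 0 ≤ b) {ξ : ℕ} (hξ : 0 < ξ) {y c C : ℝ}
    (hC : 0 < C) (hT : HA N b ξ hb y c C) {I : Finset (ℕ × ℕ)} {r n : ℕ} (hr : ξ + 1 ≤ r)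
    (hny : (r : ℝ) * y ≤ c * ξ) (hI : ∀ p ∈ I, (r < p.1 ∧ p.1 + r < n) ∧ r < p.2 ∧ p.2 + r < n)
    (hn : n ≤ N) {j : ℕ → ℕ → ℝ} {A : ℝ} (hA : 0 ≤ A) (hj : ∀ i k, |j i k| ≤ A / (ξ : ℝ) ^ 2)
    (hs : ∀ i k, j i k ≠ 0 → ∃ p ∈ I, dB p (i, k) ≤ ξ) :
    0 ≤ dLg (wt N b (1 / (ξ : ℝ) ^ 2)) (outB N n) (src N n j) ∧
      dLg (wt N b (1 / (ξ : ℝ) ^ 2)) (outB N n) (src N n j) ≤
        Real.sqrt C * A * I.card * Real.exp (72 * A ^ 2 * I.card) *
          Real.exp (-(c * r / (2 * ξ))) := by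
  classical
  have h1 := loc8 hb hξ hC hT (I := I.image (pt N)) (n := r) (by omega) hny (P := outB N n)
    (by
      intro x hx
      obtain ⟨p, hp, rfl⟩ := Finset.mem_image.1 hx
      have := hI p hp
      exact disj_ball this.1.1 this.1.2 this.2.1 this.2.2 hn)
    (J := src N n j) hA
    (by
      intro v
      unfold src
      split_ifs
      · exact hj _ _
      · rw [abs_zero]; positivity)
    (by
      intro v hv
      unfold src at hv
      split_ifs at hv with h2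
      · obtain ⟨p, hp, hd⟩ := hs _ _ hv
        refine ⟨pt N p, Finset.mem_image_of_mem _ hp, ?_⟩
        rw [mem_ball]
        have e1 : v = pt N (v.1.val, v.2.val) := by
          unfold pt
          simp
        unfold sd
        rw [e1, sn_pt_sub (r := ξ) ?_ hd]
        · exact hd
        · have := hI p hp
          omega
      · exact absurd rfl hv)
  refine ⟨h1.1, h1.2.trans ?_⟩
  have h2 : (((I.image (pt N)).card : ℕ) : ℝ) ≤ (I.card : ℝ) := by
    exact_mod_cast Finset.card_image_le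
  have h3 : (0 : ℝ) ≤ (((I.image (pt N)).card : ℕ) : ℝ) := Nat.cast_nonneg _
  have h4 : Real.exp (72 * A ^ 2 * (((I.image (pt N)).card : ℕ) : ℝ)) ≤
      Real.exp (72 * A ^ 2 * (I.card : ℝ)) :=
    Real.exp_le_exp.2 (mul_le_mul_of_nonneg_left h2 (by positivity))
  gcongr

/-- **LOC8, two tori**: the error `eps8` -/
noncomputable def eps8 (C c A : ℝ) (k r ξ : ℕ) : ℝ :=
  Real.sqrt C * A * k * Real.exp (72 * A ^ 2 * k) * Real.exp (-(c * r / (2 * ξ)))

theorem loc8_two {N M : ℕ} [NeZero N] [NeZero M] {b : ℝ} (hb : 0 ≤ b) {ξ : ℕ} (hξ : 0 < ξ)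
    {y y' c C : ℝ} (hC : 0 < C) (hT : HA N b ξ hb y c C) (hT' : HA M b ξ hb y' c C)
    {I : Finset (ℕ × ℕ)} {r n : ℕ} (hr : ξ + 1 ≤ r)
    (hny : (r : ℝ) * y ≤ c * ξ) (hny' : (r : ℝ) * y' ≤ c * ξ)
    (hI : ∀ p ∈ I, (r < p.1 ∧ p.1 + r < n) ∧ r < p.2 ∧ p.2 + r < n)
    (hn : n ≤ N) (hn' : n ≤ M) {j : ℕ → ℕ → ℝ} {A : ℝ} (hA : 0 ≤ A)
    (hj : ∀ i k, |j i k| ≤ A / (ξ : ℝ) ^ 2)
    (hs : ∀ i k, j i k ≠ 0 → ∃ p ∈ I, dB p (i, k) ≤ ξ) :
    |(Lg (wt N b (1 / (ξ : ℝ) ^ 2)) (src N n j) - Lg (wt N b (1 / (ξ : ℝ) ^ 2)) 0) -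
      (Lg (wt M b (1 / (ξ : ℝ) ^ 2)) (src M n j) - Lg (wt M b (1 / (ξ : ℝ) ^ 2)) 0)| ≤
      eps8 C c A I.card r ξ := by
  have hξ' : (0 : ℝ) < ξ := by exact_mod_cast hξ
  have h1 := loc8_src hb hξ hC hT hr hny hI hn hA hj hs
  have h2 := loc8_src hb hξ hC hT' hr hny' hI hn' hA hj hs
  have h3 := Lg_pin_two hn hn' hb hξ' j
  unfold dLg at h1 h2
  unfold eps8
  rw [abs_le]
  constructor <;> linarith [h1.1, h1.2, h2.1, h2.2]

end Vale.Agent.P159.H358
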