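import Vale.Agent.P159.H316.St0
import Vale.Agent.P159.H889.Vasm4

/-!
P159, START of V: the input `GS` of helper316's contract (`H316/St0`) from helper889's general step
`StepH`.
-/

set_option linter.unusedSectionVars false

open Filter Topology

namespace Vale.Agent.P159.H358

open Vale.Agent.P159.H972 (Par tn)
open Vale.Agent.P159.H801 (Ev FLC)
open Vale.Agent.P159.H889 (EvC StepH Cx CxF Cy Nm ZE DV WX tA tA_pos)
open Vale.Agent.P159.H316 (V1 GS G0)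

/-- **(GS)** from the general step -/
theorem gs_of {b b1 b2 pf K A1 : ℝ} {Q : ℕ} (h : EvC b1 b2 pf Q K (StepH b A1)) :
    EvC b1 b2 pf Q K fun P c1 C1 => ∀ a : ℕ → ℝ, FLC P b a →
      Tendsto a atTop (𝓝 (Real.pi / 2)) → ∀ᶠ N0 in atTop, GS P b a C1 c1 A1 N0 := by
  refine h.mono ?_
  rintro P c1 C1 - - - - ⟨hC24, hS⟩ a hFL hlim
  have hpi := Real.pi_gt_three
  have hpi2 := Real.pi_lt_d2
  have h1 := hlim.eventually (Ici_mem_nhds (show (1 : ℝ) < Real.pi / 2 by linarith))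
  have h2 := hlim.eventually (Iic_mem_nhds (show Real.pi / 2 < (8 / 5 : ℝ) by linarith))
  obtain ⟨N1, hN1⟩ := eventually_atTop.1 (h1.and h2)
  filter_upwards [eventually_ge_atTop N1] with N0 hN0
  intro n m s e e' y g ζ Δ E hn hC hW hg0 hg1 hch hζ hζ1 hΔ hE hV
  obtain ⟨a1, a2⟩ := hN1 n (hN0.trans hn)
  have F : CxF P b (a n) C1 c1 n s e y :=
    ⟨hC, a1, a2, fun r hr => hFL n e hC.e0 hC.es hC.G e le_rfl hC.es r hr⟩
  obtain ⟨hNm, -, -, -, hst⟩ := hS (a n) n m s e e' y g F hW hg0 hg1 hch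
  obtain ⟨ζ', k1, k2⟩ := hst ζ Δ E hζ hζ1 hΔ hE hV
  have hQ20 := hNm.Q20
  have htA := tA_pos n s
  have hM := H889.Mw_pos n m
  refine ⟨ζ', k1.trans ?_, fun s' y' hC' hy1 hy2 hss => k2 s' y' ⟨hC', hy1, hy2, hss⟩⟩
  unfold H889.ZE H889.WX H316.G0
  have hτ : 7 * (H889.QP P e ^ 2 * tA n s) ≤ (e * y) ^ 2 := by
    have h3 : H889.QP P e ^ 2 ≤ H889.QP P e ^ 6 :=
      pow_le_pow_right₀ (by linarith) (by norm_num)
    have h4 := mul_le_mul_of_nonneg_right h3 htA.le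
    have h5 : 0 ≤ H889.QP P e ^ 6 * tA n s := by positivity
    linarith [hNm.Qτ]
  have h6 : 0 ≤ H889.Mw n m ^ (1 / 10 : ℝ) := (Real.rpow_pos_of_pos hM _).le
  have h7 := mul_le_mul_of_nonneg_left
    (add_le_add_right hτ (2 * Δ + 8 * (‖ζ‖ * H889.hS e))) h6
  linarith

end Vale.Agent.P159.H358
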