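import Vale.Agent.P159.H358.Ini2
import Vale.Agent.P159.H316.St1
import Vale.Agent.P159.H889.Vpd

/-!
P159, START of V: input (D) `INI` of helper316's contract (`H316/St1`), every `N0`.
-/

set_option linter.unusedSectionVars false

namespace Vale.Agent.P159.H358

open Vale.Agent.P159.H972 (Par)
open Vale.Agent.P159.H801 (Ev)
open Vale.Agent.P159.H889 (EvC)
open Vale.Agent.P159.H316 (INI)

/-- **(INI)** in the order of constants -/
theorem ini_evC {b1 b2 b : ℝ} (hb1 : 0 < b1) (hb : b1 ≤ b) (hb2 : 0 < b2) :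
    ∃ A00 : ℝ, 1 ≤ A00 ∧ ∀ A1 : ℝ, A00 ≤ A1 → ∀ (K : ℝ) (Q : ℕ),
      EvC b1 b2 (9 / 10) Q K fun P c1 C1 => ∀ N0 : ℕ, INI P b C1 c1 A1 N0 := by
  obtain ⟨A00, hA, h⟩ := ini_ev (b := b) hb1 hb hb2
  refine ⟨A00, hA, fun A1 hA1 K Q => (h A1 hA1 K Q).mono ?_⟩
  intro P c1 _ h C1 hC1 hC0 hCK N0 n s r e y Y ζ _ hcx hr _ hY hY4 _
  exact h C1 hC1 hC0 hCK n s e y hcx r hr Y hY (by rw [← mul_assoc]; exact hY4) ζ

end Vale.Agent.P159.H358
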