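import Vale.Agent.P159.H316.St1

/-!
P159, START of V, first part: the two uses of CRK and LKU (level `n + w` and level `m20`).
-/

set_option linter.unusedSectionVars false

open Filter Topology

namespace Vale.Agent.P159.H358

open Vale.Agent.P159.H864 (yt yt_nonneg)
open Vale.Agent.P159.H972 (Par Good tn tn_pos TT_base)
open Vale.Agent.P159.H889 (Cx Cw QP Mw hS)
open Vale.Agent.P159.H316 (V1 CRK LKU COR DX0 Nmd y0 y0_nonneg y0_good Yn)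

noncomputable section

variable {P : Par} {b C1 c1 A1 κ : ℝ} {N0 : ℕ}

/-- **(A)** CRK and LKU: the base number of the level `m` from the state at the level `n2` -/
theorem crk_w (hCR : CRK P b C1 c1 κ N0) (hLK : LKU P b C1 c1 A1 κ N0)
    {n m n2 s s2 : ℕ} {e y y2 Y Y2 Δ E : ℝ} {ζ : ℂ}
    (hn : N0 ≤ n) (hC : Cx P b C1 c1 n s e y) (hG : Good P b m e) (hn2 : n ≤ n2)
    (w1 : 20 * n + P.w e ≤ 20 * m) (w2 : m ≤ n + 4 * P.w e)
    (i1 : m ≤ n + 10 * (n2 - n + P.kE e) + 9) (i2 : n + 8 * (n2 - n + P.kE e) ≤ m)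
    (hY : ∀ r, P.TT n e r → yt (2 ^ r) b (4 * tn n) ≤ Y)
    (hC2 : Cx P b C1 c1 n2 s2 e y2) (hY2 : yt (2 ^ (n2 + P.kE e)) b (4 * tn n2) ≤ Y2)
    (hY3 : 4 * ((2 : ℝ) ^ P.kE e) ^ 2 * Y2 ≤ 1)
    (hV : V1 P b A1 n2 s2 e (n2 + P.kE e) ζ Δ E) :
    y0 P b m e ≤ e ^ (-(2 * (κ * P.th))) *
        (‖ζ‖ + 4 ^ P.kE e * Δ + E + e ^ (10 * P.thp) * Y2)
      + (2 : ℝ) ^ (-(((m : ℝ) - n) / 20)) * e ^ (-(κ * P.th)) * Y + e ^ (1 / 2 : ℝ) * y := by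
  have he := hC.e0
  have he1 : e ≤ 1 := hC.es.trans (P.es1.trans (by norm_num))
  have h4 : (4 : ℝ) ^ (n2 + P.kE e) / 4 ^ n2 = 4 ^ P.kE e := by
    rw [pow_add]
    field_simp
  have k1 := hLK n2 s2 (n2 + P.kE e) e y2 Y2 ζ Δ E (hn.trans hn2) hC2 (TT_base P n2 e)
    (Nat.le_add_right _ _) hY2 (by rw [Nat.add_sub_cancel_left]; exact hY3) hV
  rw [h4] at k1
  have hcw : Cw P n m e e :=
    ⟨by linarith, by
      have := Real.rpow_le_rpow_of_exponent_ge he he1 (show (19 / 20 : ℝ) ≤ 1 by norm_num)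
      rwa [Real.rpow_one] at this, hC.es, w1, w2⟩
  have k2 := hCR n m s (n2 + P.kE e) e e y Y hn hC hcw hG (by omega) (by omega) (by omega) hY
  have hp : 0 ≤ e ^ (-(κ * P.th)) := (Real.rpow_pos_of_pos he _).le
  have k3 := mul_le_mul_of_nonneg_left k1 hp
  have k4 : e ^ (-(κ * P.th)) * (e ^ (-(κ * P.th)) *
      (‖ζ‖ + 4 ^ P.kE e * Δ + E + e ^ (10 * P.thp) * Y2)) = e ^ (-(2 * (κ * P.th))) *
      (‖ζ‖ + 4 ^ P.kE e * Δ + E + e ^ (10 * P.thp) * Y2) := by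
    rw [← mul_assoc, ← Real.rpow_add he]
    congr 2
    ring
  rw [k4] at k3
  unfold y0
  linarith

/-- **(B1)** NORMAL and COR: the base number of the level `n + w` does not drop -/
theorem nmd_low (hb : 0 < b) (hCO : COR P b c1 N0) (hDX : DX0 P b C1 N0) (hc1 : 0 < c1)
    {n : ℕ} {e : ℝ} (hn : N0 ≤ n) (hn1 : 1 ≤ n) (he : 0 < e) (hes : e ≤ P.es)
    (hG0 : Good P b n e) (hG : Good P b (n + P.w e) e) (hN : Nmd P b (1 / 200) n e)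
    (hy : 0 < y0 P b n e)
    (hL : P.th * Real.log (1 / e) + P.w e / 200 + Real.log (1 / y0 P b n e) ≤ 2 * e ^ (-c1)) :
    e ^ P.th * Real.exp (-(P.w e / 200)) * y0 P b n e ≤ y0 P b (n + P.w e) e := by
  have he1 : e ≤ 1 := hes.trans (P.es1.trans (by norm_num))
  have hth := P.th0
  -- positivity of the new number
  have hkE : P.kE e ≤ P.kE (e / 2) := H972.lg_anti hth.le (by positivity) (by linarith)
  by_contra hcon
  rw [not_le] at hcon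
  set X := e ^ P.th * Real.exp (-(P.w e / 200)) * y0 P b n e with hX
  have hX0 : 0 < X := by positivity
  have hX1 : X ≤ y0 P b n e := by
    have h1 : e ^ P.th ≤ 1 := Real.rpow_le_one he.le he1 hth.le
    have h2 : Real.exp (-(P.w e / 200)) ≤ 1 := Real.exp_le_one_iff.2 (by
      have : (0 : ℝ) ≤ P.w e := Nat.cast_nonneg _
      linarith)
    have h3 : e ^ P.th * Real.exp (-(P.w e / 200)) ≤ 1 :=
      mul_le_one₀ h1 (Real.exp_pos _).le h2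
    calc X ≤ 1 * y0 P b n e := mul_le_mul_of_nonneg_right h3 hy.le
      _ = _ := one_mul _
  have hX2 : X ≤ 4 * e ^ (1 / 4 : ℝ) := by
    have h1 := y0_good hn1 hes hG0
    have h2 : 0 < e ^ (1 / 4 : ℝ) := Real.rpow_pos_of_pos he _
    linarith
  have hlogX : Real.log (1 / X) ≤ 2 * e ^ (-c1) := by
    have h1 : Real.log (1 / X) = P.th * Real.log (1 / e) + P.w e / 200 +
        Real.log (1 / y0 P b n e) := by
      rw [hX, one_div, Real.log_inv, Real.log_mul (by positivity) hy.ne',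
        Real.log_mul (by positivity) (by positivity), Real.log_exp, Real.log_rpow he,
        one_div, Real.log_inv, one_div, Real.log_inv]
      ring
    rw [h1]
    exact hL
  have k1 := hCO (n + P.w e) e X (by omega) he hes hG hX0 hX2 hlogX hcon.le
    (n + P.w e + P.kE (e / 2)) (by omega)
  have k2 : y0 P b (n + P.w e) (e / 2) ≤ e ^ (-P.th) * X := k1
  have hpos : 0 < y0 P b (n + P.w e) (e / 2) := by
    by_contra h0
    have h1 := y0_nonneg (P := P) hb (n + P.w e) (e / 2)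
    have h2 : y0 P b (n + P.w e) (e / 2) = 0 := le_antisymm (not_lt.1 h0) h1
    have h3 := (hDX (n + P.w e) (e / 2) (by omega) (by positivity) (by linarith) (by
      rw [h2, Real.zero_rpow (by norm_num)]
      positivity)).1
    exact h0 h3
  have k3 : e ^ (-P.th) * X = Real.exp (-(P.w e / 200)) * y0 P b n e := by
    rw [hX, ← mul_assoc, ← mul_assoc, ← Real.rpow_add he, neg_add_cancel, Real.rpow_zero,
      one_mul]
  rw [k3] at k2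
  have k4 := Real.log_le_log hpos k2
  rw [Real.log_mul (Real.exp_pos _).ne' hy.ne', Real.log_exp] at k4
  unfold Nmd at hN
  rw [one_div, one_div, Real.log_inv, Real.log_inv] at hN
  linarith

/-- **(B)** the lower bound of the activity after two windows -/
theorem low_two (hb : 0 < b) (hCR : CRK P b C1 c1 κ N0) (hLK : LKU P b C1 c1 A1 κ N0)
    (hCO : COR P b c1 N0) (hDX : DX0 P b C1 N0) (hc1 : 0 < c1)
    {n n2 s s2 : ℕ} {e y y2 Y Y2 Δ E : ℝ} {ζ : ℂ}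
    (hn : N0 ≤ n) (hn1 : 1 ≤ n) (hC : Cx P b C1 c1 n s e y) (hG : Good P b (n + P.w e) e)
    (hn2 : n ≤ n2) (i1 : P.w e ≤ 10 * (n2 - n + P.kE e) + 9)
    (i2 : 8 * (n2 - n + P.kE e) ≤ P.w e)
    (hY : ∀ r, P.TT n e r → yt (2 ^ r) b (4 * tn n) ≤ Y)
    (hC2 : Cx P b C1 c1 n2 s2 e y2) (hY2 : yt (2 ^ (n2 + P.kE e)) b (4 * tn n2) ≤ Y2)
    (hY3 : 4 * ((2 : ℝ) ^ P.kE e) ^ 2 * Y2 ≤ 1)
    (hV : V1 P b A1 n2 s2 e (n2 + P.kE e) ζ Δ E) (hN : Nmd P b (1 / 200) n e)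
    (hL : P.th * Real.log (1 / e) + P.w e / 200 + Real.log (1 / y0 P b n e) ≤ 2 * e ^ (-c1))
    (n1 : e ^ (-(2 * (κ * P.th))) * (4 ^ P.kE e * Δ + E + e ^ (10 * P.thp) * Y2)
      + (2 : ℝ) ^ (-((P.w e : ℝ) / 20)) * e ^ (-(κ * P.th)) * Y + e ^ (1 / 2 : ℝ) * y
      ≤ 1 / 2 * (e ^ P.th * Real.exp (-(P.w e / 200)) * y0 P b n e)) :
    1 / 2 * (e ^ (2 * (κ * P.th)) * (e ^ P.th * Real.exp (-(P.w e / 200)) * y0 P b n e))
      ≤ ‖ζ‖ := by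
  have he := hC.e0
  rcases (y0_nonneg (P := P) hb n e).eq_or_lt with h0 | hy
  · rw [← h0]
    simp
  have k1 := nmd_low hb hCO hDX hc1 hn hn1 he hC.es hC.G hG hN hy hL
  have k2 := crk_w hCR hLK (m := n + P.w e) hn hC hG hn2 (by omega) (by omega) (by omega)
    (by omega) hY hC2 hY2 hY3 hV
  have h3 : (((n + P.w e : ℕ) : ℝ) - n) / 20 = (P.w e : ℝ) / 20 := by
    push_cast
    ring
  rw [h3] at k2
  have hp : 0 < e ^ (2 * (κ * P.th)) := Real.rpow_pos_of_pos he _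
  have k3 : 1 / 2 * (e ^ P.th * Real.exp (-(P.w e / 200)) * y0 P b n e) ≤
      e ^ (-(2 * (κ * P.th))) * ‖ζ‖ := by
    have e1 : e ^ (-(2 * (κ * P.th))) * (‖ζ‖ + 4 ^ P.kE e * Δ + E + e ^ (10 * P.thp) * Y2) =
        e ^ (-(2 * (κ * P.th))) * ‖ζ‖ +
        e ^ (-(2 * (κ * P.th))) * (4 ^ P.kE e * Δ + E + e ^ (10 * P.thp) * Y2) := by ring
    rw [e1] at k2
    linarith
  have k4 := mul_le_mul_of_nonneg_left k3 hp.le
  have e2 : e ^ (2 * (κ * P.th)) * (e ^ (-(2 * (κ * P.th))) * ‖ζ‖) = ‖ζ‖ := by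
    rw [← mul_assoc, ← Real.rpow_add he, add_neg_cancel, Real.rpow_zero, one_mul]
  rw [e2] at k4
  linarith

/-- **(C)** the base number of the last level against the activity -/
theorem top_20 (hCR : CRK P b C1 c1 κ N0) (hLK : LKU P b C1 c1 A1 κ N0)
    {n m n2 s s2 : ℕ} {e y y2 Y Y2 Δ E z : ℝ} {ζ : ℂ}
    (hn : N0 ≤ n) (hC : Cx P b C1 c1 n s e y) (hG : Good P b m e) (hn2 : n ≤ n2)
    (w1 : 20 * n + P.w e ≤ 20 * m) (w2 : m ≤ n + 4 * P.w e)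
    (i1 : m ≤ n + 10 * (n2 - n + P.kE e) + 9) (i2 : n + 8 * (n2 - n + P.kE e) ≤ m)
    (hY : ∀ r, P.TT n e r → yt (2 ^ r) b (4 * tn n) ≤ Y)
    (hC2 : Cx P b C1 c1 n2 s2 e y2) (hY2 : yt (2 ^ (n2 + P.kE e)) b (4 * tn n2) ≤ Y2)
    (hY3 : 4 * ((2 : ℝ) ^ P.kE e) ^ 2 * Y2 ≤ 1)
    (hV : V1 P b A1 n2 s2 e (n2 + P.kE e) ζ Δ E)
    (n1 : 4 ^ P.kE e * Δ + E + e ^ (10 * P.thp) * Y2 ≤ ‖ζ‖)
    (n2' : (2 : ℝ) ^ (-(((m : ℝ) - n) / 20)) * e ^ (-(κ * P.th)) * Y ≤ ‖ζ‖)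
    (n3 : e ^ (1 / 2 : ℝ) * y ≤ ‖ζ‖) (hz : ‖ζ‖ ≤ (2 : ℝ) ^ ((P.w e : ℝ) / 10 ^ 5) * z)
    (hz0 : 0 ≤ z)
    (n4 : (2 * e ^ (-(2 * (κ * P.th))) + 2) * (2 : ℝ) ^ ((P.w e : ℝ) / 10 ^ 5) ≤
      e ^ (-(P.thp / 500))) :
    y0 P b m e ≤ e ^ (-(P.thp / 500)) * z := by
  have he := hC.e0
  have k2 := crk_w hCR hLK hn hC hG hn2 w1 w2 i1 i2 hY hC2 hY2 hY3 hV
  have hp : 0 < e ^ (-(2 * (κ * P.th))) := Real.rpow_pos_of_pos he _
  have k3 : e ^ (-(2 * (κ * P.th))) * (‖ζ‖ + 4 ^ P.kE e * Δ + E + e ^ (10 * P.thp) * Y2) ≤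
      e ^ (-(2 * (κ * P.th))) * (2 * ‖ζ‖) :=
    mul_le_mul_of_nonneg_left (by linarith) hp.le
  have k4 : y0 P b m e ≤ (2 * e ^ (-(2 * (κ * P.th))) + 2) * ‖ζ‖ := by
    have : e ^ (-(2 * (κ * P.th))) * (2 * ‖ζ‖) = 2 * e ^ (-(2 * (κ * P.th))) * ‖ζ‖ := by ring
    linarith
  calc y0 P b m e ≤ (2 * e ^ (-(2 * (κ * P.th))) + 2) * ‖ζ‖ := k4
    _ ≤ (2 * e ^ (-(2 * (κ * P.th))) + 2) * ((2 : ℝ) ^ ((P.w e : ℝ) / 10 ^ 5) * z) :=
        mul_le_mul_of_nonneg_left hz (by positivity)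
    _ = (2 * e ^ (-(2 * (κ * P.th))) + 2) * (2 : ℝ) ^ ((P.w e : ℝ) / 10 ^ 5) * z := by ring
    _ ≤ _ := mul_le_mul_of_nonneg_right n4 hz0

end

end Vale.Agent.P159.H358
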