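import Vale.Agent.P159.H358.Ck1
import Vale.Agent.P159.H889.Vcx

/-!
P159, START of V, first part: the lower bound LOW of the activity after two windows, Ev form
(text of helper363).
-/

set_option linter.unusedSectionVars false

open Filter Topology

namespace Vale.Agent.P159.H358

open Vale.Agent.P159.H864 (yt yt_nonneg)
open Vale.Agent.P159.H972 (Par Good tn tn_pos TT_base lg)
open Vale.Agent.P159.H801 (Ev)
open Vale.Agent.P159.H889 (Cx Cw QP Mw hS)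
open Vale.Agent.P159.H316 (V1 CRK LKU COR DX0 Nmd y0 y0_nonneg y0_good Yn)

noncomputable section

/-- `log2 (1/e)` -/
abbrev l2 (e : ℝ) : ℝ := Real.logb 2 (1 / e)

lemma e_pow {e : ℝ} (he : 0 < e) (c : ℝ) : e ^ c = (2 : ℝ) ^ (-(c * l2 e)) := by
  unfold l2
  rw [one_div, Real.logb_inv, mul_neg, neg_neg, mul_comm, Real.rpow_mul two_pos.le,
    Real.rpow_logb two_pos (by norm_num) he]

lemma lg_bds {c e : ℝ} (hc : 0 ≤ c) (he : 0 < e) (he1 : e ≤ 1) :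
    c * l2 e ≤ lg c e ∧ (lg c e : ℝ) ≤ c * l2 e + 1 := by
  refine ⟨Nat.le_ceil _, (Nat.ceil_lt_add_one ?_).le⟩
  exact mul_nonneg hc (H972.logb_nonneg' he he1)

lemma exp_two {x : ℝ} (hx : 0 ≤ x) : (2 : ℝ) ^ (-(x / 138)) ≤ Real.exp (-(x / 200)) := by
  rw [Real.rpow_def_of_pos two_pos]
  apply Real.exp_le_exp.2
  have h := Real.log_two_gt_d9
  nlinarith

lemma two_le {x y : ℝ} (h : x ≤ y) : (2 : ℝ) ^ x ≤ 2 ^ y :=
  Real.rpow_le_rpow_of_exponent_le one_le_two h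

/-- the numbers of LOW -/
structure NL (P : Par) (κ e : ℝ) : Prop where
  a1 : e ^ (-(2 * (κ * P.th))) * (4 ^ P.kE e * (2 : ℝ) ^ (-((P.w e : ℝ) / 42))) ≤
    1 / 16 * (e ^ P.th * Real.exp (-(P.w e / 200)))
  a2 : e ^ (-(2 * (κ * P.th))) * e ^ (1 / 3 : ℝ) ≤
    1 / 16 * (e ^ P.th * Real.exp (-(P.w e / 200)))
  a3 : ∀ L : ℕ, 20 * L ≤ P.w e + 19 → e ^ (-(2 * (κ * P.th))) *
    (e ^ (10 * P.thp) * (4 ^ (2 * L) * e ^ (-P.th))) ≤
    1 / 16 * (e ^ P.th * Real.exp (-(P.w e / 200)))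
  a4 : (2 : ℝ) ^ (-((P.w e : ℝ) / 20)) * e ^ (-(κ * P.th)) * e ^ (-P.th) ≤
    1 / 16 * (e ^ P.th * Real.exp (-(P.w e / 200)))
  a5 : e ^ (1 / 2 : ℝ) * e ^ (-P.thp) ≤ 1 / 16 * (e ^ P.th * Real.exp (-(P.w e / 200)))
  b : (2 : ℝ) ^ (-((P.w e : ℝ) / 130)) ≤
    1 / 2 * (e ^ (2 * (κ * P.th)) * (e ^ P.th * Real.exp (-(P.w e / 200))))
  i2 : ∀ L : ℕ, 20 * L ≤ P.w e + 19 → 8 * (2 * L + P.kE e) ≤ P.w e
  y3 : ∀ L : ℕ, 20 * L ≤ P.w e + 19 →
    4 * ((2 : ℝ) ^ P.kE e) ^ 2 * (4 ^ (2 * L) * (e ^ (-P.th) * e ^ (1 / 2 : ℝ))) ≤ 1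

/-- the numbers hold for small `e` -/
theorem nl_of {P : Par} {κ e : ℝ} (hκ : 0 ≤ κ) (he : 0 < e) (he1 : e ≤ 1)
    (hp4 : P.thp ≤ 1 / 4) (hth : (2 * κ + 3) * P.th ≤ P.thp / 10 ^ 4)
    (hl : 10 ^ 4 ≤ P.thp * l2 e) : NL P κ e := by
  have hl0 : 0 ≤ l2 e := H972.logb_nonneg' he he1
  obtain ⟨w1, w2⟩ : P.thp * l2 e ≤ P.w e ∧ (P.w e : ℝ) ≤ P.thp * l2 e + 1 :=
    lg_bds P.thp0.le he he1
  obtain ⟨k1, k2⟩ : P.th * l2 e ≤ P.kE e ∧ (P.kE e : ℝ) ≤ P.th * l2 e + 1 :=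
    lg_bds P.th0.le he he1
  set l := l2 e with hldef
  set w : ℕ := P.w e with hw
  set k : ℕ := P.kE e with hk
  obtain ⟨p, hp⟩ : ∃ p, p = P.thp * l := ⟨_, rfl⟩
  obtain ⟨a, ha⟩ : ∃ a, a = P.th * l := ⟨_, rfl⟩
  obtain ⟨q, hq⟩ : ∃ q, q = κ * P.th * l := ⟨_, rfl⟩
  have hq0 : 0 ≤ q := by rw [hq]; exact mul_nonneg (mul_nonneg hκ P.th0.le) hl0
  have ha0 : 0 ≤ a := by rw [ha]; exact mul_nonneg P.th0.le hl0
  have hqa : 2 * q + 3 * a ≤ p / 10 ^ 4 := by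
    have := mul_le_mul_of_nonneg_right hth hl0
    rw [hq, ha, hp]
    linarith
  have hpl : 4 * p ≤ l := by
    have := mul_le_mul_of_nonneg_right hp4 hl0
    rw [hp]
    linarith
  rw [← hp] at hl w1 w2
  rw [← ha] at k1 k2
  -- the right side
  have hR : (2 : ℝ) ^ (-a - (w : ℝ) / 138) ≤ e ^ P.th * Real.exp (-(w / 200)) := by
    have h1 := exp_two (x := (w : ℝ)) (Nat.cast_nonneg _)
    rw [e_pow he, ← hldef, ← ha, sub_eq_add_neg, Real.rpow_add two_pos]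
    exact mul_le_mul_of_nonneg_left h1 (Real.rpow_pos_of_pos two_pos _).le
  have hR16 : (2 : ℝ) ^ (-4 - a - (w : ℝ) / 138) ≤
      1 / 16 * (e ^ P.th * Real.exp (-(w / 200))) := by
    have h2 : (2 : ℝ) ^ (-4 - a - (w : ℝ) / 138) = 1 / 16 * (2 : ℝ) ^ (-a - (w : ℝ) / 138) := by
      rw [show -4 - a - (w : ℝ) / 138 = (-4 : ℝ) + (-a - (w : ℝ) / 138) by ring,
        Real.rpow_add two_pos]
      congr 1
      rw [Real.rpow_neg two_pos.le]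
      norm_num
    rw [h2]
    exact mul_le_mul_of_nonneg_left hR (by norm_num)
  have e2 : e ^ (-(2 * (κ * P.th))) = (2 : ℝ) ^ (2 * q) := by
    rw [e_pow he, ← hldef, hq]
    congr 1
    ring
  have e1 : e ^ (-(κ * P.th)) = (2 : ℝ) ^ q := by
    rw [e_pow he, ← hldef, hq]
    congr 1
    ring
  have e2' : e ^ (2 * (κ * P.th)) = (2 : ℝ) ^ (-(2 * q)) := by
    rw [e_pow he, ← hldef, hq]
    congr 1
    ring
  have e3 : e ^ (-P.th) = (2 : ℝ) ^ a := by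
    rw [e_pow he, ← hldef, ha]
    congr 1
    ring
  have e4 : (4 : ℝ) ^ k = (2 : ℝ) ^ (2 * (k : ℝ)) := by
    rw [Real.rpow_mul two_pos.le, Real.rpow_natCast, Real.rpow_two]
    norm_num
  have e4' : ((2 : ℝ) ^ k) ^ 2 = (2 : ℝ) ^ (2 * (k : ℝ)) := by
    rw [← e4, ← pow_mul, mul_comm, pow_mul]
    norm_num
  have e5 : ∀ L : ℕ, (4 : ℝ) ^ (2 * L) = (2 : ℝ) ^ (4 * (L : ℝ)) := by
    intro L
    rw [show (4 : ℝ) * L = 2 * ((2 * L : ℕ) : ℝ) by push_cast; ring, Real.rpow_mul two_pos.le,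
      Real.rpow_natCast, Real.rpow_two]
    norm_num
  have hLr : ∀ L : ℕ, 20 * L ≤ w + 19 → 20 * (L : ℝ) ≤ w + 19 := by
    intro L hL
    exact_mod_cast hL
  refine ⟨?_, ?_, ?_, ?_, ?_, ?_, ?_, ?_⟩
  · refine le_trans ?_ hR16
    rw [e2, e4, ← Real.rpow_add two_pos, ← Real.rpow_add two_pos]
    apply two_le
    linarith
  · refine le_trans ?_ hR16
    rw [e2, e_pow he, ← hldef, ← Real.rpow_add two_pos]
    apply two_le
    linarith
  · intro L hL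
    have h1 := hLr L hL
    refine le_trans ?_ hR16
    rw [e2, e3, e5, e_pow he (10 * P.thp), ← hldef, ← Real.rpow_add two_pos,
      ← Real.rpow_add two_pos, ← Real.rpow_add two_pos]
    apply two_le
    have h2 : 10 * P.thp * l = 10 * p := by rw [hp]; ring
    rw [h2]
    linarith
  · refine le_trans ?_ hR16
    rw [e1, e3, ← Real.rpow_add two_pos, ← Real.rpow_add two_pos]
    apply two_le
    linarith
  · refine le_trans ?_ hR16
    have h2 : e ^ (-P.thp) = (2 : ℝ) ^ p := by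
      rw [e_pow he, ← hldef, hp]
      congr 1
      ring
    rw [h2, e_pow he, ← hldef, ← Real.rpow_add two_pos]
    apply two_le
    linarith
  · have h2 : (2 : ℝ) ^ (-1 - 2 * q + (-a - (w : ℝ) / 138)) ≤
        1 / 2 * (e ^ (2 * (κ * P.th)) * (e ^ P.th * Real.exp (-(w / 200)))) := by
      rw [Real.rpow_add two_pos, show (-1 : ℝ) - 2 * q = -1 + -(2 * q) by ring,
        Real.rpow_add two_pos, e2', mul_assoc]
      have h3 : (2 : ℝ) ^ (-1 : ℝ) = 1 / 2 := by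
        rw [Real.rpow_neg two_pos.le, Real.rpow_one]
        norm_num
      rw [h3]
      exact mul_le_mul_of_nonneg_left
        (mul_le_mul_of_nonneg_left hR (Real.rpow_pos_of_pos two_pos _).le) (by norm_num)
    refine le_trans (two_le ?_) h2
    linarith
  · intro L hL
    have h1 := hLr L hL
    have h2 : (8 * (2 * L + k : ℕ) : ℝ) ≤ w := by
      push_cast
      linarith
    exact_mod_cast h2
  · intro L hL
    have h1 := hLr L hL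
    rw [e4', e5, e3, e_pow he (1 / 2), ← hldef, show (4 : ℝ) = (2 : ℝ) ^ (2 : ℝ) by
      rw [Real.rpow_two]; norm_num, ← Real.rpow_add two_pos, ← Real.rpow_add two_pos,
      ← Real.rpow_add two_pos, ← Real.rpow_add two_pos]
    refine (two_le (y := 0) ?_).trans (by rw [Real.rpow_zero])
    norm_num
    linarith

/-- a small base number -/
lemma v_le {v e : ℝ} (hv : 0 ≤ v) (he : 0 < e) (he1 : e ≤ 1) (h : v ^ (47 / 25 : ℝ) ≤ e) :
    v ≤ e ^ (1 / 2 : ℝ) := by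
  have h1 := Real.rpow_le_rpow (Real.rpow_nonneg hv _) h (show (0 : ℝ) ≤ 25 / 47 by norm_num)
  rw [← Real.rpow_mul hv, show (47 / 25 * (25 / 47) : ℝ) = 1 by norm_num, Real.rpow_one] at h1
  exact h1.trans (Real.rpow_le_rpow_of_exponent_ge he he1 (by norm_num))

/-- the length condition -/
lemma len_num {P : Par} {κ e c1 v : ℝ} (hκ : 0 ≤ κ) (he : 0 < e) (he1 : e ≤ 1) (hc1 : 0 < c1)
    (hp4 : P.thp ≤ 1 / 4) (hthκ : (2 * κ + 3) * P.th ≤ P.thp / 10 ^ 4)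
    (hB' : (4 * (2 / c1) + 2) * e ^ (c1 / 2) ≤ 1)
    (hvl : Real.log (1 / v) ≤ e ^ (-(c1 / 2))) :
    P.th * Real.log (1 / e) + P.w e / 200 + Real.log (1 / v) ≤ 2 * e ^ (-c1) := by
  have hl0 : 0 ≤ l2 e := H972.logb_nonneg' he he1
  have hth0 := P.th0
  have h1 := H889.log_le_rpow (c := c1 / 2) (half_pos hc1) he
  have h2 : l2 e = Real.log (1 / e) / Real.log 2 := rfl
  have h3 : 0 ≤ Real.log (1 / e) := Real.log_nonneg (by rw [le_div_iff₀ he]; linarith)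
  have h4 : l2 e ≤ 2 * Real.log (1 / e) := by
    rw [h2, div_le_iff₀ (Real.log_pos one_lt_two)]
    have := Real.log_two_gt_d9
    nlinarith
  obtain ⟨-, w2⟩ : P.thp * l2 e ≤ P.w e ∧ (P.w e : ℝ) ≤ P.thp * l2 e + 1 :=
    lg_bds P.thp0.le he he1
  have h5 : P.thp * l2 e ≤ 1 / 4 * l2 e := mul_le_mul_of_nonneg_right hp4 hl0
  have hth11 : P.th ≤ 1 := by
    have h6 : (2 * κ + 3) * P.th ≤ 1 / 4 := hthκ.trans (by
      have : P.thp / 10 ^ 4 ≤ P.thp := div_le_self P.thp0.le (by norm_num)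
      linarith)
    nlinarith [mul_nonneg hκ hth0.le]
  have h6 : P.th * Real.log (1 / e) ≤ Real.log (1 / e) := by
    have := mul_le_mul_of_nonneg_right hth11 h3
    linarith
  have h8 : 1 ≤ e ^ (-(c1 / 2)) :=
    Real.one_le_rpow_of_pos_of_le_one_of_nonpos he he1 (by linarith)
  have h10 : e ^ (-c1) * e ^ (c1 / 2) = e ^ (-(c1 / 2)) := by
    rw [← Real.rpow_add he]
    congr 1
    ring
  -- `(4 (2/c1) + 2) e^(-c1/2) ≤ e^(-c1)`
  have h11 : (4 * (2 / c1) + 2) * e ^ (-(c1 / 2)) ≤ e ^ (-c1) := by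
    have h12 := mul_le_mul_of_nonneg_right hB' (Real.rpow_pos_of_pos he (-c1)).le
    have h13 : (4 * (2 / c1) + 2) * e ^ (c1 / 2) * e ^ (-c1) =
        (4 * (2 / c1) + 2) * e ^ (-(c1 / 2)) := by
      rw [← h10]
      ring
    rw [h13, one_mul] at h12
    exact h12
  have h14 : Real.log (1 / e) ≤ 2 / c1 * e ^ (-(c1 / 2)) := by
    refine h1.trans (le_of_eq ?_)
    field_simp
  have h15 : e ^ (-(c1 / 2)) ≤ e ^ (-c1) :=
    Real.rpow_le_rpow_of_exponent_ge he he1 (by linarith)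
  have h16 : 0 ≤ 2 / c1 * e ^ (-(c1 / 2)) := by positivity
  linarith

/-- the sum of the errors -/
lemma n1_num {P : Par} {κ e v Δ2 E2 y : ℝ} {L : ℕ} (NLe : NL P κ e) (hv0 : 0 ≤ v)
    (hΔ2 : Δ2 ≤ (2 : ℝ) ^ (-((P.w e : ℝ) / 42)) * v) (hE2 : E2 ≤ e ^ (1 / 3 : ℝ) * v)
    (hy : y ≤ e ^ (-P.thp) * v) (he : 0 < e) (hL2 : 20 * L ≤ P.w e + 19) :
    e ^ (-(2 * (κ * P.th))) * (4 ^ P.kE e * Δ2 + E2 +
        e ^ (10 * P.thp) * (4 ^ (2 * L) * (e ^ (-P.th) * v)))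
      + (2 : ℝ) ^ (-((P.w e : ℝ) / 20)) * e ^ (-(κ * P.th)) * (e ^ (-P.th) * v)
      + e ^ (1 / 2 : ℝ) * y ≤ 1 / 2 * (e ^ P.th * Real.exp (-(P.w e / 200)) * v) := by
  have g2 : 0 < e ^ (-(2 * (κ * P.th))) := Real.rpow_pos_of_pos he _
  obtain ⟨R, hR⟩ : ∃ R, R = e ^ P.th * Real.exp (-((P.w e : ℝ) / 200)) := ⟨_, rfl⟩
  have hR0 : 0 ≤ R := by rw [hR]; positivity
  have n1 := NLe.a1
  have n2 := NLe.a2
  have n3 := NLe.a3 L hL2
  have n4 := NLe.a4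
  have n5 := NLe.a5
  rw [← hR] at n1 n2 n3 n4 n5 ⊢
  have t1 : e ^ (-(2 * (κ * P.th))) * (4 ^ P.kE e * Δ2) ≤ 1 / 16 * R * v := by
    have h1 : e ^ (-(2 * (κ * P.th))) * (4 ^ P.kE e * Δ2) ≤
        e ^ (-(2 * (κ * P.th))) * (4 ^ P.kE e * ((2 : ℝ) ^ (-((P.w e : ℝ) / 42)) * v)) :=
      mul_le_mul_of_nonneg_left (mul_le_mul_of_nonneg_left hΔ2 (by positivity)) g2.le
    have h2 := mul_le_mul_of_nonneg_right n1 hv0
    refine h1.trans (le_trans (le_of_eq ?_) h2)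
    ring
  have t2 : e ^ (-(2 * (κ * P.th))) * E2 ≤ 1 / 16 * R * v := by
    have h1 := mul_le_mul_of_nonneg_left hE2 g2.le
    have h2 := mul_le_mul_of_nonneg_right n2 hv0
    refine h1.trans (le_trans (le_of_eq ?_) h2)
    ring
  have t3 : e ^ (-(2 * (κ * P.th))) *
      (e ^ (10 * P.thp) * (4 ^ (2 * L) * (e ^ (-P.th) * v))) ≤ 1 / 16 * R * v := by
    have h2 := mul_le_mul_of_nonneg_right n3 hv0
    refine le_trans (le_of_eq ?_) h2
    ring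
  have t4 : (2 : ℝ) ^ (-((P.w e : ℝ) / 20)) * e ^ (-(κ * P.th)) * (e ^ (-P.th) * v) ≤
      1 / 16 * R * v := by
    have h2 := mul_le_mul_of_nonneg_right n4 hv0
    refine le_trans (le_of_eq ?_) h2
    ring
  have t5 : e ^ (1 / 2 : ℝ) * y ≤ 1 / 16 * R * v := by
    have h1 := mul_le_mul_of_nonneg_left hy (Real.rpow_pos_of_pos he (1 / 2 : ℝ)).le
    have h2 := mul_le_mul_of_nonneg_right n5 hv0
    refine h1.trans (le_trans (le_of_eq ?_) h2)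
    ring
  have hRv : 0 ≤ R * v := mul_nonneg hR0 hv0
  have h0 : e ^ (-(2 * (κ * P.th))) * (4 ^ P.kE e * Δ2 + E2 +
      e ^ (10 * P.thp) * (4 ^ (2 * L) * (e ^ (-P.th) * v))) =
      e ^ (-(2 * (κ * P.th))) * (4 ^ P.kE e * Δ2) + e ^ (-(2 * (κ * P.th))) * E2 +
      e ^ (-(2 * (κ * P.th))) *
        (e ^ (10 * P.thp) * (4 ^ (2 * L) * (e ^ (-P.th) * v))) := by ring
  rw [h0]
  linarith

/-- the level `n + 2 L` -/
lemma y2_num {b e v : ℝ} (hb : 0 < b) {P : Par} {n L : ℕ}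
    (hY : ∀ r, n + P.kE e ≤ r → yt (2 ^ r) b (4 * tn n) ≤ e ^ (-P.th) * v) :
    yt (2 ^ (n + 2 * L + P.kE e)) b (4 * tn (n + 2 * L)) ≤ 4 ^ (2 * L) * (e ^ (-P.th) * v) := by
  have h1 := hY (n + 2 * L + P.kE e) (by omega)
  have ht : tn n = 4 ^ (2 * L) * tn (n + 2 * L) := by
    unfold H972.tn
    rw [pow_add]
    field_simp
  have h0 := tn_pos (n + 2 * L)
  have h4 : (1 : ℝ) ≤ 4 ^ (2 * L) := one_le_pow₀ (by norm_num)
  have h2 := H972.yt_mass (N := 2 ^ (n + 2 * L + P.kE e)) hb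
    (show 0 < 4 * tn (n + 2 * L) by positivity)
    (show 4 * tn (n + 2 * L) ≤ 4 * tn n by rw [ht]; nlinarith)
  have h3 : 4 * tn n / (4 * tn (n + 2 * L)) = 4 ^ (2 * L) := by
    rw [ht]
    field_simp
  rw [h3] at h2
  exact h2.trans (mul_le_mul_of_nonneg_left h1 (by positivity))

/-- **(LOW)** -/
theorem low_ev {b1 b2 pf κ : ℝ} (hκ : 0 ≤ κ) (Q : ℕ) : Ev b1 b2 pf Q fun P c1 =>
    ∀ C1, 24 ≤ C1 → ∀ (b A1 : ℝ) (N0 : ℕ), 0 < b → 16 ≤ N0 → LKU P b C1 c1 A1 κ N0 →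
      CRK P b C1 c1 κ N0 → COR P b c1 N0 → DX0 P b C1 N0 →
      ∀ (n s s2 L : ℕ) (e y y2 : ℝ) (ζ2 : ℂ) (Δ2 E2 : ℝ), N0 ≤ n → 0 < e → e ≤ P.es →
        P.w e ≤ 20 * L → 20 * L ≤ P.w e + 19 → Good P b (n + P.w e) e →
        y0 P b n e ^ (47 / 25 : ℝ) ≤ e → Real.log (1 / y0 P b n e) ≤ e ^ (-(c1 / 2)) →
        Nmd P b (1 / 200) n e →
        (∀ r, n + P.kE e ≤ r → yt (2 ^ r) b (4 * tn n) ≤ e ^ (-P.th) * y0 P b n e) →
        Cx P b C1 c1 n s e y → y ≤ e ^ (-P.thp) * y0 P b n e →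
        Cx P b C1 c1 (n + 2 * L) s2 e y2 →
        V1 P b A1 (n + 2 * L) s2 e (n + 2 * L + P.kE e) ζ2 Δ2 E2 → 0 ≤ Δ2 → 0 ≤ E2 →
        Δ2 ≤ (2 : ℝ) ^ (-((P.w e : ℝ) / 42)) * y0 P b n e →
        E2 ≤ e ^ (1 / 3 : ℝ) * y0 P b n e →
        (2 : ℝ) ^ (-((P.w e : ℝ) / 130)) * y0 P b n e ≤ ‖ζ2‖ := by
  apply Ev.of
  refine ⟨0, fun _ _ => ⟨1, one_pos, fun _ _ _ => ⟨0, fun _ _ => ⟨1, one_pos, fun _ _ _ =>
    ⟨1 / 4, by norm_num, fun thp hthp hthp4 => ⟨thp / (10 ^ 4 * (2 * κ + 3)), by positivity,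
    fun th hth hth1 => ⟨0, fun C0 _ => ⟨1, one_pos, fun c1 hc1 hc11 => ?_⟩⟩⟩⟩⟩⟩⟩⟩
  obtain ⟨ea, hea, hA⟩ := H640.sm_rpow (s := 1) (A := (2 : ℝ) ^ (10 ^ 4 / thp)) one_pos one_pos
  obtain ⟨eb, heb, hB⟩ := H640.sm_rpow (s := c1 / 2) (A := 4 * (2 / c1) + 2) (half_pos hc1) one_pos
  refine ⟨min ea (min eb 1), by positivity, fun P hP => ?_⟩
  intro C1 hC1 b A1 N0 hb hN16 hLK hCR hCO hDX n s s2 L e y y2 ζ2 Δ2 E2 hn he hes hL1 hL2 hG hv
    hvl hN hY hC hy hC2 hV hΔ hE hΔ2 hE2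
  have heE : e ≤ min ea (min eb 1) := hes.trans hP.ees
  have he1 : e ≤ 1 := heE.trans ((min_le_right _ _).trans (min_le_right _ _))
  have hA' := hA e he (heE.trans (min_le_left _ _))
  have hB' := hB e he (heE.trans ((min_le_right _ _).trans (min_le_left _ _)))
  have hthp' : P.thp = thp := hP.ethp
  have hth' : P.th = th := hP.eth
  have hl0 : 0 ≤ l2 e := H972.logb_nonneg' he he1
  have hl : 10 ^ 4 ≤ P.thp * l2 e := by
    rw [hthp']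
    have h1 : (10 : ℝ) ^ 4 / thp ≤ l2 e := by
      unfold l2
      rw [Real.le_logb_iff_rpow_le one_lt_two (by positivity), le_div_iff₀ he]
      rw [Real.rpow_one] at hA'
      exact hA'
    have h2 := mul_le_mul_of_nonneg_left h1 hthp.le
    have h3 : thp * (10 ^ 4 / thp) = 10 ^ 4 := by field_simp
    linarith
  have hthκ : (2 * κ + 3) * P.th ≤ P.thp / 10 ^ 4 := by
    rw [hth', hthp']
    have h3 : 0 < 2 * κ + 3 := by linarith
    have h1 := mul_le_mul_of_nonneg_left hth1 h3.le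
    have h2 : (2 * κ + 3) * (thp / (10 ^ 4 * (2 * κ + 3))) = thp / 10 ^ 4 := by field_simp
    linarith
  have NLe : NL P κ e := nl_of hκ he he1 (by rw [hthp']; exact hthp4) hthκ hl
  have hv0 : 0 ≤ y0 P b n e := y0_nonneg hb n e
  set v := y0 P b n e with hvdef
  have hv12 : v ≤ e ^ (1 / 2 : ℝ) := v_le hv0 he he1 hv
  have hth0 := P.th0
  have hlog : P.th * Real.log (1 / e) + P.w e / 200 + Real.log (1 / v) ≤ 2 * e ^ (-c1) :=
    len_num hκ he he1 hc1 (by rw [hthp']; exact hthp4) hthκ hB' hvl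
  have hn1 : 1 ≤ n := by omega
  have hY2 := y2_num (L := L) hb hY
  have e0 : 0 < e ^ (-P.th) := Real.rpow_pos_of_pos he _
  have hY3 : 4 * ((2 : ℝ) ^ P.kE e) ^ 2 * (4 ^ (2 * L) * (e ^ (-P.th) * v)) ≤ 1 := by
    refine le_trans ?_ (NLe.y3 L hL2)
    exact mul_le_mul_of_nonneg_left (mul_le_mul_of_nonneg_left
      (mul_le_mul_of_nonneg_left hv12 e0.le) (by positivity)) (by positivity)
  have i2 := NLe.i2 L hL2
  have n1 := n1_num (L := L) NLe hv0 hΔ2 hE2 hy he hL2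
  have key := low_two hb hCR hLK hCO hDX hc1 (n2 := n + 2 * L) hn hn1 hC hG (by omega)
    (by omega) (by rw [Nat.add_sub_cancel_left]; exact i2) (fun r hr => hY r hr.1) hC2 hY2 hY3 hV
    hN hlog n1
  refine le_trans ?_ key
  have h1 := mul_le_mul_of_nonneg_right NLe.b hv0
  linarith

end

end Vale.Agent.P159.H358
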