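import Vale.Agent.P159.H358.Un7
import Vale.Agent.P159.H896.Rq2
import Vale.Agent.P159.H375.AclD

/-!
P159, module VTOR, numbers for fine cells, part 8: the full field. Typical sources (`TypE`, all prior
masses) give the tail of `Rn` in the typical law; change of law.
-/

open Finset MeasureTheory Filter Topology

set_option linter.unusedSectionVars false
set_option linter.unusedDecidableInType false

namespace Vale.Agent.P159.H358

open Vale.Agent.P159.TM.Spec (V)
open Vale.Agent.P159.TM.SpecC (wT)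
open Vale.Agent.P159.H37 (gau Rs)
open Vale.Agent.P159.H552 (lft)
open Vale.Agent.P159.H864 (cl MC)
open Vale.Agent.P159.H462 (Dom)
open Vale.Agent.P159.H363 (acl Nf rel lf)
open Vale.Agent.P159.H963 (nwt ntr nMC obsN)
open Vale.Agent.P159.H239 (TypE rs_ray)
open Vale.Agent.P159.H896 (srcF srcM srcF_eq pinK rl_cell typ_gauss damp_eq damp_lim aof aof_pos
  kap_aof measurable_srcF)
open Matrix

section src

variable {N l : ℕ} [NeZero N] [NeZero (N / l)] {b T : ℝ}

/-- `Rn` of a cell field is `R` of its source -/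
theorem Rn_srcF (F : V (N / l) → ℝ) :
    Rn N b T (lft (cl : V N → V (N / l)) F) = Rs (nwt N b T 0) ((2 : ℝ) • srcF N l T T F) := by
  unfold Rn H896.srcF
  rw [H864.MC_self]
  rfl

theorem nf_aclT (hb : 0 < b) (hl : l ∣ N) (hT : 0 < T) : Nf (acl N l b T T) :=
  Nf.of_dom (H375.dom_acl hb hl hT le_rfl)

/-- **typical sources in the typical law**: all prior masses -/
theorem gau_typ (hb : 0 < b) (hl : l ∣ N) (hT : 0 < T) {Y ρ p : ℝ} (hY : 1 ≤ Y) (hρ : ρ ≤ 1)
    (hp : p ≤ 1 / 2) (h : ∀ a, 0 < a → a < T → TypE N l b T a Y ρ p) :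
    (gau (V (N / l))).real {g | ρ < Rs (nwt N b T 0)
      (Y • srcF N l T T (H363.pin (acl N l b T T) *ᵥ g))} ≤ 6 * p := by
  have hA := nf_aclT (N := N) (l := l) hb hl hT
  set A := acl N l b T T with hAd
  have hmR : Measurable fun J : V N → ℝ => Rs (nwt N b T 0) J := H239.rs_meas hb.le hT
  have hms := measurable_srcF N l T T
  set B : Set (V (N / l) → ℝ) := {F | ρ < Rs (nwt N b T 0) (Y • srcF N l T T F)} with hB
  have mB : MeasurableSet B :=
    measurableSet_lt measurable_const (hmR.comp (hms.const_smul Y))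
  set f : (V (N / l) → ℝ) → ℝ := B.indicator fun _ => (1 : ℝ) with hf
  have mf : Measurable f := measurable_const.indicator mB
  have hf0 : ∀ F, 0 ≤ f F := fun F => Set.indicator_nonneg (fun _ _ => zero_le_one) _
  have hf1 : ∀ F, f F ≤ 1 := fun F => Set.indicator_le_self' (fun _ _ => zero_le_one) F
  have hint : ∀ M : Matrix (V (N / l)) (V (N / l)) ℝ,
      ∫ g, f (M *ᵥ g) ∂(gau (V (N / l))) = (gau (V (N / l))).real {g | M *ᵥ g ∈ B} := by
    intro M
    have mS : MeasurableSet {g : V (N / l) → ℝ | M *ᵥ g ∈ B} := (H363.measurable_mulVec M) mB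
    have e : (fun g : V (N / l) → ℝ => f (M *ᵥ g)) =
        {g : V (N / l) → ℝ | M *ᵥ g ∈ B}.indicator fun _ => (1 : ℝ) := by
      funext g
      by_cases hg : M *ᵥ g ∈ B
      · rw [hf, Set.indicator_of_mem hg, Set.indicator_of_mem (show g ∈ {g | M *ᵥ g ∈ B} from hg)]
      · rw [hf, Set.indicator_of_notMem hg,
          Set.indicator_of_notMem (show g ∉ {g | M *ᵥ g ∈ B} from hg)]
    rw [e, integral_indicator mS, setIntegral_const, smul_eq_mul, mul_one]
  have hi : Integrable (fun g => f (H363.pin A *ᵥ g)) (gau (V (N / l))) := by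
    refine Integrable.of_bound (C := 1)
      (mf.comp (H363.measurable_mulVec _)).aestronglyMeasurable (Eventually.of_forall fun g => ?_)
    rw [Real.norm_eq_abs, abs_of_nonneg (hf0 _)]
    exact hf1 _
  have hlim := damp_lim (A := A) mf hi
  rw [hint] at hlim
  have hgoal : (gau (V (N / l))).real {g | ρ < Rs (nwt N b T 0)
      (Y • srcF N l T T (H363.pin A *ᵥ g))} = (gau (V (N / l))).real {g | H363.pin A *ᵥ g ∈ B} := rfl
  rw [hgoal]
  refine le_of_tendsto hlim ?_
  filter_upwards [self_mem_nhdsWithin] with κ hκ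
  have hκ' : (0 : ℝ) < κ := hκ
  obtain ⟨p1, p2⟩ := aof_pos hl hT hκ'
  obtain ⟨c, hc, hdamp⟩ := damp_eq hA hκ'.le
  rw [hdamp f mf, hint]
  -- the normalization
  have hc1 : c ≤ 1 := by
    have h1 := hdamp (fun _ => 1) measurable_const
    simp only [mul_one, integral_const, probReal_univ, smul_eq_mul] at h1
    rw [← h1]
    have h2 : ∀ g : V (N / l) → ℝ, Real.exp (-(κ * (∑ x, (H363.pin A *ᵥ g) x ^ 2) / 2)) ≤ 1 := by
      intro g
      rw [Real.exp_le_one_iff]
      have : 0 ≤ κ * ∑ x, (H363.pin A *ᵥ g) x ^ 2 :=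
        mul_nonneg hκ'.le (Finset.sum_nonneg fun _ _ => sq_nonneg _)
      linarith
    have hmp : Measurable fun u : V (N / l) → ℝ => H363.pin A *ᵥ u := H363.measurable_mulVec _
    have h3 : Integrable (fun g : V (N / l) → ℝ =>
        Real.exp (-(κ * (∑ x, (H363.pin A *ᵥ g) x ^ 2) / 2))) (gau (V (N / l))) := by
      refine Integrable.of_bound (C := 1) ?_ (Eventually.of_forall fun g => ?_)
      · apply Measurable.aestronglyMeasurable
        refine Real.measurable_exp.comp (Measurable.neg (Measurable.div_const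
          (Measurable.const_mul ?_ _) _))
        exact Finset.measurable_fun_sum _ fun x _ => ((measurable_pi_apply x).comp hmp).pow_const 2
      · rw [Real.norm_eq_abs, abs_of_pos (Real.exp_pos _)]
        exact h2 g
    have h4 := integral_mono h3 (integrable_const (1 : ℝ)) h2
    simpa using h4
  have hX := rl_cell (t := T) hb.le hl p1 p2 le_rfl hA
  rw [kap_aof hl hT hκ'] at hX
  have h5 := typ_gauss hb.le hl p1 p2 hX (h _ p1 p2) hY hρ hp
  have e5 : {g : V (N / l) → ℝ | pinK A κ *ᵥ g ∈ B} =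
      {g | ρ < Rs (nwt N b T 0) (Y • ((srcM N l T * pinK A κ) *ᵥ g))} := by
    ext g
    simp only [hB, Set.mem_setOf_eq]
    rw [srcF_eq hl hT le_rfl, mulVec_mulVec]
  rw [e5]
  calc c * _ ≤ 1 * _ := mul_le_mul_of_nonneg_right hc1 measureReal_nonneg
    _ ≤ _ := by
      rw [one_mul]
      exact h5

/-- **the tail of `Rn` in the typical law** -/
theorem rn_typ (hb : 0 < b) (hl : l ∣ N) (hT : 0 < T) {Y p : ℝ} (hY : 2 ≤ Y)
    (hp : p ≤ 1 / 2) (h : ∀ a, 0 < a → a < T → TypE N l b T a Y 1 p) :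
    (gau (V (N / l))).real {g | 8 < Rn N b T (lft (cl : V N → V (N / l))
      (H363.pin (acl N l b T T) *ᵥ g))} ≤ 6 * p := by
  refine (measureReal_mono (fun g hg => ?_) (measure_ne_top _ _)).trans
    (gau_typ hb hl hT (by linarith) le_rfl hp h)
  simp only [Set.mem_setOf_eq] at hg ⊢
  rw [Rn_srcF] at hg
  have h1 := rs_ray hb.le hT (srcF N l T T (H363.pin (acl N l b T T) *ᵥ g)) (x := 2) (y := Y)
    (by norm_num) hY
  linarith

theorem measurable_Rn (hb : 0 < b) (hl : l ∣ N) (hT : 0 < T) :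
    Measurable fun F : V (N / l) → ℝ => Rn N b T (lft (cl : V N → V (N / l)) F) := by
  have hmR : Measurable fun J : V N → ℝ => Rs (nwt N b T 0) J := H239.rs_meas hb.le hT
  have h := hmR.comp ((measurable_srcF N l T T).const_smul (2 : ℝ))
  have e : (fun F : V (N / l) → ℝ => Rn N b T (lft (cl : V N → V (N / l)) F)) =
      (fun J : V N → ℝ => Rs (nwt N b T 0) J) ∘ ((2 : ℝ) • srcF N l T T) := by
    funext F
    exact Rn_srcF F
  rw [e]
  exact h

end src

section law

variable {n : ℕ} [NeZero n] {A₁ A₂ : Matrix (V n) (V n) ℝ}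

/-- **change of law, events** -/
theorem law_set (h₁ : Nf A₁) (h₂ : Nf A₂) {η : ℝ} (hη : 0 < η) (hη2 : η ≤ 1 / 2)
    (hHS : ∑ k, rel A₁ A₂ k ^ 2 ≤ η ^ 2) {B : Set (V n → ℝ)} (hB : MeasurableSet B) :
    (gau (V n)).real {g | H363.pin A₂ *ᵥ g ∈ B} ≤
      4 * (gau (V n)).real {g | H363.pin A₁ *ᵥ g ∈ B} + 2 * (4 : ℝ) ^ (-(1 / (2 * η))) := by
  have hint : ∀ M : Matrix (V n) (V n) ℝ,
      ∫ g, B.indicator (fun _ => (1 : ℝ)) (M *ᵥ g) ∂(gau (V n)) =
        (gau (V n)).real {g | M *ᵥ g ∈ B} := by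
    intro M
    have mS : MeasurableSet {g : V n → ℝ | M *ᵥ g ∈ B} := (H363.measurable_mulVec M) hB
    have e : (fun g : V n → ℝ => B.indicator (fun _ => (1 : ℝ)) (M *ᵥ g)) =
        {g : V n → ℝ | M *ᵥ g ∈ B}.indicator fun _ => (1 : ℝ) := by
      funext g
      by_cases hg : M *ᵥ g ∈ B
      · rw [Set.indicator_of_mem hg, Set.indicator_of_mem (show g ∈ {g | M *ᵥ g ∈ B} from hg)]
      · rw [Set.indicator_of_notMem hg,
          Set.indicator_of_notMem (show g ∉ {g | M *ᵥ g ∈ B} from hg)]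
    rw [e, integral_indicator mS, setIntegral_const, smul_eq_mul, mul_one]
  have h := H363.typ_change h₁ h₂ hη hη2 (κ := 4) (by norm_num) hHS
    (f := B.indicator fun _ => (1 : ℝ)) (B := 1) (measurable_const.indicator hB)
    (fun F => Set.indicator_nonneg (fun _ _ => zero_le_one) _)
    (fun F => Set.indicator_le_self' (fun _ _ => zero_le_one) F)
  rw [hint, hint] at h
  linarith

end law

/-! ### numbers of the change of law -/

/-- small numbers of the change of law -/
structure Sq (th e : ℝ) : Prop where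
  b1 : 4 * e ^ (th / 80) ≤ 1
  b2 : 16 * e ^ (th / 16) ≤ 1
  b3 : e ^ (22 / 25 : ℝ) ≤ 1 / 2
  b4 : 2 * e ^ (1 / 8 : ℝ) ≤ 1
  b5 : 72 * e ^ (49 / 100 * th - th / 4) ≤ 1
  b6 : 6 * e ^ (49 / 100 * th) ≤ 1

theorem sq_ex {th : ℝ} (hth : 0 < th) : ∃ E, 0 < E ∧ ∀ e : ℝ, 0 < e → e ≤ E → Sq th e := by
  obtain ⟨e1, h1, n1⟩ := H640.sm_rpow (s := th / 80) (A := 4) (by linarith) one_pos
  obtain ⟨e2, h2, n2⟩ := H640.sm_rpow (s := th / 16) (A := 16) (by linarith) one_pos
  obtain ⟨e3, h3, n3⟩ := H640.sm_rpow (s := (22 / 25 : ℝ)) (A := 1) (by norm_num)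
    (show (0 : ℝ) < 1 / 2 by norm_num)
  obtain ⟨e4, h4, n4⟩ := H640.sm_rpow (s := (1 / 8 : ℝ)) (A := 2) (by norm_num) one_pos
  obtain ⟨e5, h5, n5⟩ := H640.sm_rpow (s := 49 / 100 * th - th / 4) (A := 72) (by linarith) one_pos
  obtain ⟨e6, h6, n6⟩ := H640.sm_rpow (s := 49 / 100 * th) (A := 6) (by positivity) one_pos
  refine ⟨min e1 (min e2 (min e3 (min e4 (min e5 e6)))), by positivity, ?_⟩
  intro e he hle
  simp only [le_min_iff] at hle
  obtain ⟨g1, g2, g3, g4, g5, g6⟩ := hle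
  have k3 := n3 e he g3
  rw [one_mul] at k3
  exact ⟨n1 e he g1, n2 e he g2, k3, n4 e he g4, n5 e he g5, n6 e he g6⟩

/-- the probability after the change of law -/
theorem Sq.prob {th e : ℝ} (S : Sq th e) (he : 0 < e) (he1 : e ≤ 1) (hth1 : th ≤ 1)
    {x : ℝ} (hx : x ≤ 6 * Real.exp (-(e ^ (-(th / 16))))) :
    4 * x + 2 * (4 : ℝ) ^ (-(1 / (2 * e ^ (22 / 25 : ℝ)))) ≤
      Real.exp (-(e ^ (-(th / 20)))) := by
  set u : ℝ := e ^ (-(th / 16)) with hu
  have hu0 : 0 < u := Real.rpow_pos_of_pos he _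
  -- `u` is large
  have h16 : 16 ≤ u := by
    have h1 := S.b2
    have h2 : e ^ (th / 16) * u = 1 := by
      rw [hu, ← Real.rpow_add he, add_neg_cancel, Real.rpow_zero]
    have h3 := mul_le_mul_of_nonneg_right h1 hu0.le
    rw [mul_assoc, h2] at h3
    linarith
  have h20 : e ^ (-(th / 20)) ≤ u / 4 := by
    have h1 := S.b1
    have h2 : e ^ (-(th / 20)) = e ^ (th / 80) * u := by
      rw [hu, ← Real.rpow_add he]
      congr 1
      ring
    rw [h2]
    have h3 := mul_le_mul_of_nonneg_right h1 hu0.le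
    linarith
  have hη : (4 : ℝ) ^ (-(1 / (2 * e ^ (22 / 25 : ℝ)))) ≤ Real.exp (-(u / 2)) := by
    have h1 : u ≤ 1 / e ^ (22 / 25 : ℝ) := by
      rw [hu, one_div, ← Real.rpow_neg he.le]
      exact Real.rpow_le_rpow_of_exponent_ge he he1 (by linarith)
    rw [Real.rpow_def_of_pos (by norm_num : (0 : ℝ) < 4)]
    refine Real.exp_le_exp.2 ?_
    have h4 : Real.log 4 = 2 * Real.log 2 := by
      rw [show (4 : ℝ) = 2 ^ 2 by norm_num, Real.log_pow]
      norm_num
    have h5 : (1 / 2 : ℝ) ≤ Real.log 2 := by linarith [Real.log_two_gt_d9]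
    have h6 : 1 / (2 * e ^ (22 / 25 : ℝ)) = 1 / 2 * (1 / e ^ (22 / 25 : ℝ)) := by
      rw [one_div_mul_one_div]
    rw [h4, h6]
    have h7 : 0 < 1 / e ^ (22 / 25 : ℝ) := by
      have := Real.rpow_pos_of_pos he (22 / 25 : ℝ)
      positivity
    nlinarith
  have h2 : Real.exp (-u) ≤ Real.exp (-(u / 2)) := Real.exp_le_exp.2 (by linarith)
  have h3 : Real.exp (-(u / 2)) * 26 ≤ Real.exp (-(u / 4)) := by
    have h4 : (26 : ℝ) ≤ Real.exp (u / 4) := by
      have k1 : (2.7 : ℝ) ≤ Real.exp 1 := by linarith [Real.exp_one_gt_d9]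
      have k2 := pow_le_pow_left₀ (by norm_num) k1 4
      rw [← Real.exp_nat_mul] at k2
      norm_num at k2
      have k3 : Real.exp 4 ≤ Real.exp (u / 4) := Real.exp_le_exp.2 (by linarith)
      linarith
    calc Real.exp (-(u / 2)) * 26 ≤ Real.exp (-(u / 2)) * Real.exp (u / 4) :=
          mul_le_mul_of_nonneg_left h4 (Real.exp_pos _).le
      _ = Real.exp (-(u / 4)) := by
          rw [← Real.exp_add]
          congr 1
          ring
  have h4 : Real.exp (-(u / 4)) ≤ Real.exp (-(e ^ (-(th / 20)))) :=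
    Real.exp_le_exp.2 (by linarith)
  linarith

end Vale.Agent.P159.H358
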