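import Vale.Agent.P159.H552.In5c
import Vale.Agent.P159.H552.GauHS2
import Vale.Agent.P159.H363.L2

/-!
P159, module VTOR (row VB5 of helper316's list, item (4) of helper889's row 2930), abstract part 1:
the charge-one functional `Ψ_x(f) = ∑_y ah(x,y) E u_y(ah f + A g)` on two tori with a common window.
Window fields `φ : B → ℝ`, injections `ι₁ : B → Λ₁`, `ι₂ : B → Λ₂`; `exw ι S y φ` is `φ` on `ι S`
and the constant `φ y` elsewhere. The functional evaluated at extended window fields is the same on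
the two tori up to an explicit error.
-/

namespace Vale.Agent.P159.H358

open MeasureTheory ProbabilityTheory Finset Matrix
open Vale.Agent.P159.H37 (gau)
open Vale.Agent.P159.H363 (Ch Loc mainf ee norm_ee measurable_mainf norm_mainf_le
  measurable_mulVec n2 n2_le n2_sq n2_nonneg n2_add_le n2_sub_le memLp_bdd n2_const_mul n2_congr)
open Vale.Agent.P159.H552 (Ps cutB hs_l2 hs_le norm_Ps_le measurable_Ps ch_Ps meas_mulVec ch_mainf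
  norm_mainf_le_one norm_ee_sub_le)
open scoped Real

noncomputable section

set_option linter.unusedSectionVars false

variable {B Λ : Type*} [Fintype B] [Fintype Λ] [DecidableEq B] [DecidableEq Λ]

/-- extension of a window field: its values on `S`, the value at `y` elsewhere -/
def exw (ι : B → Λ) (S : Finset B) (y : B) (φ : B → ℝ) (v : Λ) : ℝ :=
  if h : ∃ b ∈ S, ι b = v then φ h.choose else φ y

theorem exw_comp (ι : B → Λ) (S : Finset B) (y : B) (F : Λ → ℝ) :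
    exw ι S y (fun b => F (ι b)) = cutB (S.image ι) (ι y) F := by
  funext v
  unfold exw cutB
  by_cases h : ∃ b ∈ S, ι b = v
  · rw [dif_pos h, if_pos (Finset.mem_image.2 h)]
    show F (ι h.choose) = F v
    rw [h.choose_spec.2]
  · rw [dif_neg h, if_neg (fun h' => h (Finset.mem_image.1 h'))]

theorem exw_app {ι : B → Λ} (hι : Function.Injective ι) {S : Finset B} {b : B} (hb : b ∈ S) (y : B)
    (φ : B → ℝ) : exw ι S y φ (ι b) = φ b := by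
  unfold exw
  have h : ∃ b' ∈ S, ι b' = ι b := ⟨b, hb, rfl⟩
  rw [dif_pos h]
  exact congrArg φ (hι h.choose_spec.2)

theorem exw_add (ι : B → Λ) (S : Finset B) (y : B) (φ : B → ℝ) (c : ℝ) :
    exw ι S y (fun b => φ b + c) = fun v => exw ι S y φ v + c := by
  funext v
  unfold exw
  split_ifs <;> rfl

theorem exw_lip (ι : B → Λ) (S : Finset B) (y : B) {φ φ' : B → ℝ} {k : ℝ}
    (h : ∀ b ∈ S, |φ b - φ' b| ≤ k) (hy : |φ y - φ' y| ≤ k) (v : Λ) :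
    |exw ι S y φ v - exw ι S y φ' v| ≤ k := by
  unfold exw
  split_ifs with h1
  · exact h _ h1.choose_spec.1
  · exact hy

theorem measurable_exw (ι : B → Λ) (S : Finset B) (y : B) : Measurable (exw ι S y) := by
  refine measurable_pi_iff.2 fun v => ?_
  unfold exw
  split_ifs with h
  · exact measurable_pi_apply _
  · exact measurable_pi_apply _

/-- the restriction to the window -/
def rsw (ι : B → Λ) (F : Λ → ℝ) (b : B) : ℝ := F (ι b)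

theorem measurable_rsw (ι : B → Λ) : Measurable (rsw ι) :=
  measurable_pi_iff.2 fun b => measurable_pi_apply (ι b)

/-- the data of one torus -/
structure TD {I : Type*} [Fintype I] (ι : B → Λ) (ah : Matrix Λ Λ ℝ) (A : Matrix Λ I ℝ)
    (u : Λ → (Λ → ℝ) → ℂ) (K : ℝ) : Prop where
  inj : Function.Injective ι
  h0 : ∀ x y, 0 ≤ ah x y
  h1 : ∀ x, ∑ y, ah x y = 1
  hm : ∀ y, Measurable (u y)
  hK : ∀ y F, ‖u y F‖ ≤ K
  ch : ∀ y, Ch (u y)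

section gaussian

variable {I I' J : Type*} [Fintype I] [Fintype I'] [Fintype J]

/-- change of a nearby Gaussian law for bounded complex functions -/
theorem hs_cplx [DecidableEq I] {B₁ : Matrix J I ℝ} {B₂ : Matrix J I' ℝ} {H : Matrix I I ℝ}
    (hH : Hᵀ = H) (h : B₂ * B₂ᵀ = B₁ * (1 + H) * B₁ᵀ) {η : ℝ} (hη : 0 ≤ η) (hη2 : η ≤ 1 / 2)
    (hHS : ∑ x, ∑ y, H x y ^ 2 ≤ η ^ 2) {f : (J → ℝ) → ℂ} (hf : Measurable f) {K : ℝ}
    (hK : ∀ v, ‖f v‖ ≤ K) :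
    ‖(∫ g, f (B₂ *ᵥ g) ∂(gau I')) - ∫ g, f (B₁ *ᵥ g) ∂(gau I)‖ ≤ 4 * η * K := by
  have hK0 : 0 ≤ K := (norm_nonneg _).trans (hK 0)
  have key : ∀ q : (J → ℝ) → ℝ, Measurable q → (∀ v, |q v| ≤ K) →
      |(∫ g, q (B₂ *ᵥ g) ∂(gau I')) - ∫ g, q (B₁ *ᵥ g) ∂(gau I)| ≤ 2 * η * K := by
    intro q hq hqK
    have hi : Integrable (fun g => q (B₁ *ᵥ g) ^ 2) (gau I) := by
      refine Integrable.of_bound (C := K ^ 2)
        ((hq.comp (meas_mulVec B₁)).pow_const 2).aestronglyMeasurable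
        (Filter.Eventually.of_forall fun g => ?_)
      rw [Real.norm_eq_abs, abs_of_nonneg (sq_nonneg _), ← sq_abs]
      exact pow_le_pow_left₀ (abs_nonneg _) (hqK _) 2
    have h1 := (hs_l2 hH h hη hη2 hHS hq hi).2
    have h2 : ∫ g, q (B₁ *ᵥ g) ^ 2 ∂(gau I) ≤ K ^ 2 := by
      calc ∫ g, q (B₁ *ᵥ g) ^ 2 ∂(gau I) ≤ ∫ _, K ^ 2 ∂(gau I) := by
            refine integral_mono hi (integrable_const _) fun g => ?_
            rw [← sq_abs]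
            exact pow_le_pow_left₀ (abs_nonneg _) (hqK _) 2
        _ = K ^ 2 := by simp
    have h3 : ((∫ g, q (B₂ *ᵥ g) ∂(gau I')) - ∫ g, q (B₁ *ᵥ g) ∂(gau I)) ^ 2 ≤
        (2 * η * K) ^ 2 := by
      refine h1.trans ?_
      have : (2 * η * K) ^ 2 = 4 * η ^ 2 * K ^ 2 := by ring
      rw [this]
      exact mul_le_mul_of_nonneg_left h2 (by positivity)
    exact abs_le_of_sq_le_sq h3 (by positivity)
  have i1 : Integrable (fun g => f (B₁ *ᵥ g)) (gau I) :=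
    Integrable.of_bound (C := K) (hf.comp (meas_mulVec B₁)).aestronglyMeasurable
      (Filter.Eventually.of_forall fun g => hK _)
  have i2 : Integrable (fun g => f (B₂ *ᵥ g)) (gau I') :=
    Integrable.of_bound (C := K) (hf.comp (meas_mulVec B₂)).aestronglyMeasurable
      (Filter.Eventually.of_forall fun g => hK _)
  have hre := key (fun v => (f v).re) (Complex.measurable_re.comp hf)
    fun v => (Complex.abs_re_le_norm _).trans (hK v)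
  have him := key (fun v => (f v).im) (Complex.measurable_im.comp hf)
    fun v => (Complex.abs_im_le_norm _).trans (hK v)
  set z := (∫ g, f (B₂ *ᵥ g) ∂(gau I')) - ∫ g, f (B₁ *ᵥ g) ∂(gau I) with hz
  have e1 : z.re = (∫ g, (f (B₂ *ᵥ g)).re ∂(gau I')) - ∫ g, (f (B₁ *ᵥ g)).re ∂(gau I) := by
    rw [hz, Complex.sub_re]
    congr 1
    · exact (integral_re i2).symm
    · exact (integral_re i1).symm
  have e2 : z.im = (∫ g, (f (B₂ *ᵥ g)).im ∂(gau I')) - ∫ g, (f (B₁ *ᵥ g)).im ∂(gau I) := by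
    rw [hz, Complex.sub_im]
    congr 1
    · exact (integral_im i2).symm
    · exact (integral_im i1).symm
  rw [← e1] at hre
  rw [← e2] at him
  have h3 := Complex.norm_le_abs_re_add_abs_im z
  linarith

end gaussian

section stepB

variable {I₁ I₂ Λ₁ Λ₂ : Type*} [Fintype I₁] [Fintype I₂] [Fintype Λ₁] [Fintype Λ₂]
  [DecidableEq Λ₁] [DecidableEq Λ₂]

theorem int_bad {I : Type*} [Fintype I] {f f' : (I → ℝ) → ℂ} (hf : Measurable f)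
    (hf' : Measurable f') {K r p : ℝ} (hK : ∀ g, ‖f g‖ ≤ K) (hK' : ∀ g, ‖f' g‖ ≤ K) (hr : 0 ≤ r)
    {S : Set (I → ℝ)} (hS : MeasurableSet S) (hp : (gau I).real S ≤ p)
    (h : ∀ g, g ∉ S → ‖f g - f' g‖ ≤ r) :
    ‖(∫ g, f g ∂(gau I)) - ∫ g, f' g ∂(gau I)‖ ≤ r + 2 * K * p := by
  have hK0 : 0 ≤ K := (norm_nonneg _).trans (hK 0)
  have i1 : Integrable f (gau I) := Integrable.of_bound (C := K) hf.aestronglyMeasurable
    (Filter.Eventually.of_forall hK)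
  have i2 : Integrable f' (gau I) := Integrable.of_bound (C := K) hf'.aestronglyMeasurable
    (Filter.Eventually.of_forall hK')
  rw [← integral_sub i1 i2]
  refine (norm_integral_le_integral_norm _).trans ?_
  have hi : Integrable (fun g => r + S.indicator (fun _ => 2 * K) g) (gau I) :=
    (integrable_const _).add ((integrable_const _).indicator hS)
  have hpt : ∀ g, ‖f g - f' g‖ ≤ r + S.indicator (fun _ => 2 * K) g := by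
    intro g
    by_cases hg : g ∈ S
    · rw [Set.indicator_of_mem hg]
      refine (norm_sub_le _ _).trans ?_
      linarith [hK g, hK' g]
    · rw [Set.indicator_of_notMem hg, add_zero]
      exact h g hg
  refine (integral_mono (i1.sub i2).norm hi hpt).trans ?_
  have e : ∫ g, (r + S.indicator (fun _ => 2 * K) g) ∂(gau I) = r + (gau I).real S * (2 * K) := by
    have q1 := integral_add (integrable_const (μ := gau I) r)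
      ((integrable_const (μ := gau I) (2 * K)).indicator hS)
    rw [q1, integral_indicator_const _ hS]
    simp only [integral_const, probReal_univ, smul_eq_mul, one_mul]
  rw [e]
  nlinarith

/-- **Step B of VTOR**: the functionals of the two tori agree on (extended) window fields. -/
theorem step_two {ι₁ : B → Λ₁} {ι₂ : B → Λ₂} {ah₁ : Matrix Λ₁ Λ₁ ℝ} {ah₂ : Matrix Λ₂ Λ₂ ℝ}
    {A₁ : Matrix Λ₁ I₁ ℝ} {A₂ : Matrix Λ₂ I₂ ℝ} {u₁ : Λ₁ → (Λ₁ → ℝ) → ℂ}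
    {u₂ : Λ₂ → (Λ₂ → ℝ) → ℂ} {K : ℝ} (T₁ : TD ι₁ ah₁ A₁ u₁ K) (T₂ : TD ι₂ ah₂ A₂ u₂ K)
    (b0 : B) (Nx : Finset B) (B' : B → Finset B) {e1 e2 r p L κ η : ℝ} (hr : 0 ≤ r) (hp : 0 ≤ p)
    (hκ0 : 0 ≤ κ) (hL : 0 ≤ L)
    (ht₁ : ∑ y ∈ (Nx.image ι₁)ᶜ, ah₁ (ι₁ b0) y ≤ e1)
    (ht₂ : ∑ y ∈ (Nx.image ι₂)ᶜ, ah₂ (ι₂ b0) y ≤ e1)
    (he2 : ∑ y ∈ Nx, |ah₂ (ι₂ b0) (ι₂ y) - ah₁ (ι₁ b0) (ι₁ y)| ≤ e2)
    (hB' : ∀ y ∈ Nx, y ∈ B' y)
    (G₁ : B → Set (Λ₁ → ℝ)) (G₂ : B → Set (Λ₂ → ℝ)) (hG₁ : ∀ y, MeasurableSet (G₁ y))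
    (hG₂ : ∀ y, MeasurableSet (G₂ y))
    (loc₁ : ∀ y ∈ Nx, ∀ F ∈ G₁ y, ‖u₁ (ι₁ y) F - u₁ (ι₁ y) (exw ι₁ (B' y) y (rsw ι₁ F))‖ ≤ r)
    (loc₂ : ∀ y ∈ Nx, ∀ F ∈ G₂ y, ‖u₂ (ι₂ y) F - u₂ (ι₂ y) (exw ι₂ (B' y) y (rsw ι₂ F))‖ ≤ r)
    (two : ∀ y ∈ Nx, ∀ F ∈ G₂ y, ‖u₂ (ι₂ y) (exw ι₂ (B' y) y (rsw ι₂ F)) -
      u₁ (ι₁ y) (exw ι₁ (B' y) y (rsw ι₂ F))‖ ≤ r)
    (lip : ∀ y (F F' : Λ₁ → ℝ) (k : ℝ), (∀ v, |F v - F' v| ≤ k) → ‖u₁ y F - u₁ y F'‖ ≤ L * k)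
    {f₁ : Λ₁ → ℝ} {f₂ : Λ₂ → ℝ}
    (hp₁ : ∀ y ∈ Nx, (gau I₁).real {g | ah₁ *ᵥ f₁ + A₁ *ᵥ g ∉ G₁ y} ≤ p)
    (hp₂ : ∀ y ∈ Nx, (gau I₂).real {g | ah₂ *ᵥ f₂ + A₂ *ᵥ g ∉ G₂ y} ≤ p)
    (hκ : ∀ y ∈ Nx, ∀ v ∈ B' y, |(ah₂ *ᵥ f₂) (ι₂ v) - (ah₁ *ᵥ f₁) (ι₁ v)| ≤ κ)
    [DecidableEq I₁] {H : Matrix I₁ I₁ ℝ} (hH : Hᵀ = H)
    (hcov : (A₂.submatrix ι₂ id) * (A₂.submatrix ι₂ id)ᵀ =
      (A₁.submatrix ι₁ id) * (1 + H) * (A₁.submatrix ι₁ id)ᵀ) (hη : 0 ≤ η) (hη2 : η ≤ 1 / 2)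
    (hHS : ∑ x, ∑ y, H x y ^ 2 ≤ η ^ 2) :
    ‖Ps ah₂ A₂ u₂ (ι₂ b0) f₂ - Ps ah₁ A₁ u₁ (ι₁ b0) f₁‖ ≤
      2 * K * e1 + K * e2 + (3 * r + 6 * K * p + L * κ + 4 * η * K) := by
  have hK0 : 0 ≤ K := (norm_nonneg _).trans (T₁.hK (ι₁ b0) 0)
  set a₁ : Λ₁ → ℂ := fun y => ∫ g, u₁ y (ah₁ *ᵥ f₁ + A₁ *ᵥ g) ∂(gau I₁) with ha₁
  set a₂ : Λ₂ → ℂ := fun y => ∫ g, u₂ y (ah₂ *ᵥ f₂ + A₂ *ᵥ g) ∂(gau I₂) with ha₂
  have hb₁ : ∀ y, ‖a₁ y‖ ≤ K := by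
    intro y
    have := norm_integral_le_of_norm_le_const (μ := gau I₁)
      (f := fun g => u₁ y (ah₁ *ᵥ f₁ + A₁ *ᵥ g)) (C := K)
      (Filter.Eventually.of_forall fun g => T₁.hK y _)
    simpa using this
  have hb₂ : ∀ y, ‖a₂ y‖ ≤ K := by
    intro y
    have := norm_integral_le_of_norm_le_const (μ := gau I₂)
      (f := fun g => u₂ y (ah₂ *ᵥ f₂ + A₂ *ᵥ g)) (C := K)
      (Filter.Eventually.of_forall fun g => T₂.hK y _)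
    simpa using this
  -- one cell
  have cell : ∀ y ∈ Nx, ‖a₂ (ι₂ y) - a₁ (ι₁ y)‖ ≤ 3 * r + 6 * K * p + L * κ + 4 * η * K := by
    intro y hy
    have mE₁ := measurable_exw ι₁ (B' y) y
    have mE₂ := measurable_exw ι₂ (B' y) y
    have mr₁ := measurable_rsw ι₁
    have mr₂ := measurable_rsw ι₂
    have mF₁ : Measurable fun g : I₁ → ℝ => ah₁ *ᵥ f₁ + A₁ *ᵥ g :=
      measurable_const.add (measurable_mulVec A₁)
    have mF₂ : Measurable fun g : I₂ → ℝ => ah₂ *ᵥ f₂ + A₂ *ᵥ g :=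
      measurable_const.add (measurable_mulVec A₂)
    -- the four intermediate integrals
    set c1 : ℂ := ∫ g, u₂ (ι₂ y) (exw ι₂ (B' y) y (rsw ι₂ (ah₂ *ᵥ f₂ + A₂ *ᵥ g))) ∂(gau I₂)
      with hc1
    set c2 : ℂ := ∫ g, u₁ (ι₁ y) (exw ι₁ (B' y) y (rsw ι₂ (ah₂ *ᵥ f₂ + A₂ *ᵥ g))) ∂(gau I₂)
      with hc2
    set c3 : ℂ := ∫ g, u₁ (ι₁ y) (exw ι₁ (B' y) y
      (fun b => (ah₁ *ᵥ f₁) (ι₁ b) + ((A₂.submatrix ι₂ id) *ᵥ g) b)) ∂(gau I₂) with hc3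
    set c4 : ℂ := ∫ g, u₁ (ι₁ y) (exw ι₁ (B' y) y
      (fun b => (ah₁ *ᵥ f₁) (ι₁ b) + ((A₁.submatrix ι₁ id) *ᵥ g) b)) ∂(gau I₁) with hc4
    have s1 : ‖a₂ (ι₂ y) - c1‖ ≤ r + 2 * K * p := by
      refine int_bad ((T₂.hm _).comp mF₂) ((T₂.hm _).comp (mE₂.comp (mr₂.comp mF₂)))
        (fun g => T₂.hK _ _) (fun g => T₂.hK _ _) hr
        (S := {g | ah₂ *ᵥ f₂ + A₂ *ᵥ g ∉ G₂ y}) ((hG₂ y).compl.preimage mF₂) (hp₂ y hy) ?_
      intro g hg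
      refine loc₂ y hy _ ?_
      by_contra h
      exact hg h
    have s2 : ‖c1 - c2‖ ≤ r + 2 * K * p := by
      refine int_bad ((T₂.hm _).comp (mE₂.comp (mr₂.comp mF₂)))
        ((T₁.hm _).comp (mE₁.comp (mr₂.comp mF₂)))
        (fun g => T₂.hK _ _) (fun g => T₁.hK _ _) hr
        (S := {g | ah₂ *ᵥ f₂ + A₂ *ᵥ g ∉ G₂ y}) ((hG₂ y).compl.preimage mF₂) (hp₂ y hy) ?_
      intro g hg
      refine two y hy _ ?_
      by_contra h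
      exact hg h
    have m3 : Measurable fun g : I₂ → ℝ => exw ι₁ (B' y) y
        (fun b => (ah₁ *ᵥ f₁) (ι₁ b) + ((A₂.submatrix ι₂ id) *ᵥ g) b) := by
      refine mE₁.comp (measurable_pi_iff.2 fun b => ?_)
      exact measurable_const.add ((measurable_pi_apply b).comp (meas_mulVec _))
    have s3 : ‖c2 - c3‖ ≤ L * κ := by
      have h := int_bad (K := K) (p := 0) (S := ∅) (f := fun g => u₁ (ι₁ y) (exw ι₁ (B' y) y
        (rsw ι₂ (ah₂ *ᵥ f₂ + A₂ *ᵥ g)))) (f' := fun g => u₁ (ι₁ y) (exw ι₁ (B' y) y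
        (fun b => (ah₁ *ᵥ f₁) (ι₁ b) + ((A₂.submatrix ι₂ id) *ᵥ g) b)))
        ((T₁.hm _).comp (mE₁.comp (mr₂.comp mF₂))) ((T₁.hm _).comp m3)
        (fun g => T₁.hK _ _) (fun g => T₁.hK _ _) (mul_nonneg hL hκ0) MeasurableSet.empty
        (by simp) ?_
      · simpa using h
      · intro g _
        refine lip _ _ _ _ (exw_lip ι₁ (B' y) y ?_ ?_)
        · intro b hb
          have e : rsw ι₂ (ah₂ *ᵥ f₂ + A₂ *ᵥ g) b -
              ((ah₁ *ᵥ f₁) (ι₁ b) + ((A₂.submatrix ι₂ id) *ᵥ g) b) =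
              (ah₂ *ᵥ f₂) (ι₂ b) - (ah₁ *ᵥ f₁) (ι₁ b) := by
            have : ((A₂.submatrix ι₂ id) *ᵥ g) b = (A₂ *ᵥ g) (ι₂ b) := rfl
            rw [this]
            unfold rsw
            rw [Pi.add_apply]
            ring
          rw [e]
          exact hκ y hy b hb
        · have e : rsw ι₂ (ah₂ *ᵥ f₂ + A₂ *ᵥ g) y -
              ((ah₁ *ᵥ f₁) (ι₁ y) + ((A₂.submatrix ι₂ id) *ᵥ g) y) =
              (ah₂ *ᵥ f₂) (ι₂ y) - (ah₁ *ᵥ f₁) (ι₁ y) := by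
            have : ((A₂.submatrix ι₂ id) *ᵥ g) y = (A₂ *ᵥ g) (ι₂ y) := rfl
            rw [this]
            unfold rsw
            rw [Pi.add_apply]
            ring
          rw [e]
          exact hκ y hy y (hB' y hy)
    have s4 : ‖c3 - c4‖ ≤ 4 * η * K := by
      refine hs_cplx hH hcov hη hη2 hHS (f := fun v => u₁ (ι₁ y) (exw ι₁ (B' y) y
        (fun b => (ah₁ *ᵥ f₁) (ι₁ b) + v b))) ?_ fun v => T₁.hK _ _
      refine (T₁.hm _).comp (mE₁.comp (measurable_pi_iff.2 fun b => ?_))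
      exact measurable_const.add (measurable_pi_apply b)
    have s5 : ‖c4 - a₁ (ι₁ y)‖ ≤ r + 2 * K * p := by
      have e : ∀ g : I₁ → ℝ, (fun b => (ah₁ *ᵥ f₁) (ι₁ b) + ((A₁.submatrix ι₁ id) *ᵥ g) b) =
          rsw ι₁ (ah₁ *ᵥ f₁ + A₁ *ᵥ g) := fun g => rfl
      have e2 : c4 = ∫ g, u₁ (ι₁ y) (exw ι₁ (B' y) y (rsw ι₁ (ah₁ *ᵥ f₁ + A₁ *ᵥ g)))
          ∂(gau I₁) := by
        rw [hc4]
        simp only [e]
      rw [norm_sub_rev, e2]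
      refine int_bad ((T₁.hm _).comp mF₁) ((T₁.hm _).comp (mE₁.comp (mr₁.comp mF₁)))
        (fun g => T₁.hK _ _) (fun g => T₁.hK _ _) hr
        (S := {g | ah₁ *ᵥ f₁ + A₁ *ᵥ g ∉ G₁ y}) ((hG₁ y).compl.preimage mF₁) (hp₁ y hy) ?_
      intro g hg
      refine loc₁ y hy _ ?_
      by_contra h
      exact hg h
    have e : a₂ (ι₂ y) - a₁ (ι₁ y) = (a₂ (ι₂ y) - c1) + (c1 - c2) + (c2 - c3) + (c3 - c4) +
        (c4 - a₁ (ι₁ y)) := by ring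
    rw [e]
    have t1 := norm_add_le ((a₂ (ι₂ y) - c1) + (c1 - c2) + (c2 - c3) + (c3 - c4))
      (c4 - a₁ (ι₁ y))
    have t2 := norm_add_le ((a₂ (ι₂ y) - c1) + (c1 - c2) + (c2 - c3)) (c3 - c4)
    have t3 := norm_add_le ((a₂ (ι₂ y) - c1) + (c1 - c2)) (c2 - c3)
    have t4 := norm_add_le (a₂ (ι₂ y) - c1) (c1 - c2)
    linarith
  -- the sum
  have e₁ : Ps ah₁ A₁ u₁ (ι₁ b0) f₁ = ∑ y ∈ (Nx.image ι₁)ᶜ, (ah₁ (ι₁ b0) y : ℂ) * a₁ y +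
      ∑ y ∈ Nx, (ah₁ (ι₁ b0) (ι₁ y) : ℂ) * a₁ (ι₁ y) := by
    unfold Ps
    rw [← Finset.sum_add_sum_compl (Nx.image ι₁), Finset.sum_image fun x _ z _ h => T₁.inj h,
      add_comm]
  have e₂ : Ps ah₂ A₂ u₂ (ι₂ b0) f₂ = ∑ y ∈ (Nx.image ι₂)ᶜ, (ah₂ (ι₂ b0) y : ℂ) * a₂ y +
      ∑ y ∈ Nx, (ah₂ (ι₂ b0) (ι₂ y) : ℂ) * a₂ (ι₂ y) := by
    unfold Ps
    rw [← Finset.sum_add_sum_compl (Nx.image ι₂), Finset.sum_image fun x _ z _ h => T₂.inj h,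
      add_comm]
  have tl₁ : ‖∑ y ∈ (Nx.image ι₁)ᶜ, (ah₁ (ι₁ b0) y : ℂ) * a₁ y‖ ≤ K * e1 := by
    refine (norm_sum_le _ _).trans ?_
    calc ∑ y ∈ (Nx.image ι₁)ᶜ, ‖(ah₁ (ι₁ b0) y : ℂ) * a₁ y‖
        ≤ ∑ y ∈ (Nx.image ι₁)ᶜ, ah₁ (ι₁ b0) y * K := by
          refine Finset.sum_le_sum fun y _ => ?_
          rw [norm_mul, Complex.norm_real, Real.norm_eq_abs, abs_of_nonneg (T₁.h0 _ _)]
          exact mul_le_mul_of_nonneg_left (hb₁ y) (T₁.h0 _ _)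
      _ = K * ∑ y ∈ (Nx.image ι₁)ᶜ, ah₁ (ι₁ b0) y := by rw [← Finset.sum_mul, mul_comm]
      _ ≤ _ := mul_le_mul_of_nonneg_left ht₁ hK0
  have tl₂ : ‖∑ y ∈ (Nx.image ι₂)ᶜ, (ah₂ (ι₂ b0) y : ℂ) * a₂ y‖ ≤ K * e1 := by
    refine (norm_sum_le _ _).trans ?_
    calc ∑ y ∈ (Nx.image ι₂)ᶜ, ‖(ah₂ (ι₂ b0) y : ℂ) * a₂ y‖
        ≤ ∑ y ∈ (Nx.image ι₂)ᶜ, ah₂ (ι₂ b0) y * K := by
          refine Finset.sum_le_sum fun y _ => ?_
          rw [norm_mul, Complex.norm_real, Real.norm_eq_abs, abs_of_nonneg (T₂.h0 _ _)]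
          exact mul_le_mul_of_nonneg_left (hb₂ y) (T₂.h0 _ _)
      _ = K * ∑ y ∈ (Nx.image ι₂)ᶜ, ah₂ (ι₂ b0) y := by rw [← Finset.sum_mul, mul_comm]
      _ ≤ _ := mul_le_mul_of_nonneg_left ht₂ hK0
  set q := 3 * r + 6 * K * p + L * κ + 4 * η * K with hq
  have hq0 : 0 ≤ q := by positivity
  have hmid : ‖(∑ y ∈ Nx, (ah₂ (ι₂ b0) (ι₂ y) : ℂ) * a₂ (ι₂ y)) -
      ∑ y ∈ Nx, (ah₁ (ι₁ b0) (ι₁ y) : ℂ) * a₁ (ι₁ y)‖ ≤ K * e2 + q := by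
    have e : (∑ y ∈ Nx, (ah₂ (ι₂ b0) (ι₂ y) : ℂ) * a₂ (ι₂ y)) -
        ∑ y ∈ Nx, (ah₁ (ι₁ b0) (ι₁ y) : ℂ) * a₁ (ι₁ y) =
        (∑ y ∈ Nx, ((ah₂ (ι₂ b0) (ι₂ y) - ah₁ (ι₁ b0) (ι₁ y) : ℝ) : ℂ) * a₂ (ι₂ y)) +
        ∑ y ∈ Nx, (ah₁ (ι₁ b0) (ι₁ y) : ℂ) * (a₂ (ι₂ y) - a₁ (ι₁ y)) := by
      rw [← Finset.sum_sub_distrib, ← Finset.sum_add_distrib]
      refine Finset.sum_congr rfl fun y _ => ?_
      push_cast
      ring
    rw [e]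
    refine (norm_add_le _ _).trans (add_le_add ?_ ?_)
    · refine (norm_sum_le _ _).trans ?_
      calc ∑ y ∈ Nx, ‖((ah₂ (ι₂ b0) (ι₂ y) - ah₁ (ι₁ b0) (ι₁ y) : ℝ) : ℂ) * a₂ (ι₂ y)‖
          ≤ ∑ y ∈ Nx, |ah₂ (ι₂ b0) (ι₂ y) - ah₁ (ι₁ b0) (ι₁ y)| * K := by
            refine Finset.sum_le_sum fun y _ => ?_
            rw [norm_mul, Complex.norm_real, Real.norm_eq_abs]
            exact mul_le_mul_of_nonneg_left (hb₂ _) (abs_nonneg _)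
        _ = K * ∑ y ∈ Nx, |ah₂ (ι₂ b0) (ι₂ y) - ah₁ (ι₁ b0) (ι₁ y)| := by
            rw [← Finset.sum_mul, mul_comm]
        _ ≤ _ := mul_le_mul_of_nonneg_left he2 hK0
    · refine (norm_sum_le _ _).trans ?_
      calc ∑ y ∈ Nx, ‖(ah₁ (ι₁ b0) (ι₁ y) : ℂ) * (a₂ (ι₂ y) - a₁ (ι₁ y))‖
          ≤ ∑ y ∈ Nx, ah₁ (ι₁ b0) (ι₁ y) * q := by
            refine Finset.sum_le_sum fun y hy => ?_
            rw [norm_mul, Complex.norm_real, Real.norm_eq_abs, abs_of_nonneg (T₁.h0 _ _)]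
            exact mul_le_mul_of_nonneg_left (cell y hy) (T₁.h0 _ _)
        _ = (∑ y ∈ Nx, ah₁ (ι₁ b0) (ι₁ y)) * q := by rw [← Finset.sum_mul]
        _ ≤ 1 * q := by
            refine mul_le_mul_of_nonneg_right ?_ hq0
            rw [← T₁.h1 (ι₁ b0)]
            have : ∑ y ∈ Nx, ah₁ (ι₁ b0) (ι₁ y) = ∑ y ∈ Nx.image ι₁, ah₁ (ι₁ b0) y := by
              rw [Finset.sum_image fun x _ z _ h => T₁.inj h]
            rw [this]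
            exact Finset.sum_le_sum_of_subset_of_nonneg (Finset.subset_univ _)
              fun y _ _ => T₁.h0 _ _
        _ = q := one_mul q
  rw [e₁, e₂]
  have e3 : ∀ a b c d : ℂ, (a + b) - (c + d) = (a - c) + (b - d) := fun a b c d => by ring
  rw [e3]
  have t1 := norm_add_le
    ((∑ y ∈ (Nx.image ι₂)ᶜ, (ah₂ (ι₂ b0) y : ℂ) * a₂ y) -
      ∑ y ∈ (Nx.image ι₁)ᶜ, (ah₁ (ι₁ b0) y : ℂ) * a₁ y)
    ((∑ y ∈ Nx, (ah₂ (ι₂ b0) (ι₂ y) : ℂ) * a₂ (ι₂ y)) -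
      ∑ y ∈ Nx, (ah₁ (ι₁ b0) (ι₁ y) : ℂ) * a₁ (ι₁ y))
  have t2 := norm_sub_le (∑ y ∈ (Nx.image ι₂)ᶜ, (ah₂ (ι₂ b0) y : ℂ) * a₂ y)
    (∑ y ∈ (Nx.image ι₁)ᶜ, (ah₁ (ι₁ b0) y : ℂ) * a₁ y)
  linarith

end stepB

end

end Vale.Agent.P159.H358
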