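import Vale.Agent.P159.H316.St1
import Vale.Agent.P159.H889.Vasm2
import Vale.Agent.P159.H358.Un8

/-!
P159, START of V: change of the coefficient of a state (one torus, all tori).
-/

set_option linter.unusedSectionVars false

namespace Vale.Agent.P159.H358

open Vale.Agent.P159.H972 (Par tn)
open Vale.Agent.P159.H889 (SV TV VB SB lam nu nu_pos)
open Vale.Agent.P159.H316 (V1)

variable {P : Par} {b A1 : ℝ} {n s r : ℕ} {e : ℝ} {ζ ζ' : ℂ} {Δ E δ : ℝ}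

/-- change of the coefficient, one torus -/
theorem V1.coef (hb : 0 < b) (hsr : s ≤ r) (h : V1 P b A1 n s e r ζ Δ E) (hz : ‖ζ - ζ'‖ ≤ δ) :
    V1 P b A1 n s e r ζ' (Δ + δ) E := by
  intro _
  obtain ⟨Lp, hV⟩ := h
  have htn := H972.tn_pos n
  have hl : 2 ^ s ∣ 2 ^ r := pow_dvd_pow 2 hsr
  refine ⟨Lp, ?_⟩
  have hν := nu_pos n s
  have h1 : ‖ζ * (nu n s : ℂ) - ζ' * (nu n s : ℂ)‖ ≤ δ * nu n s := by
    rw [← sub_mul, norm_mul, Complex.norm_real, Real.norm_eq_abs, abs_of_pos hν]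
    exact mul_le_mul_of_nonneg_right hz hν.le
  have h2 := SB.coef (nf_aclT (N := 2 ^ r) (l := 2 ^ s) hb hl htn)
    (H889.pA_acl hb.le hl htn) hV h1
  exact SB.mono h2 (le_of_eq (by ring)) le_rfl le_rfl le_rfl le_rfl le_rfl le_rfl

/-- change of the coefficient, all tori -/
theorem SV.coef (hb : 0 < b) (hsn : s ≤ n) (h : SV P b A1 n s e ζ Δ E) (hz : ‖ζ - ζ'‖ ≤ δ) :
    SV P b A1 n s e ζ' (Δ + δ) E := by
  intro r hr
  exact V1.coef hb (hsn.trans ((Nat.le_add_right _ _).trans hr.1)) (H316.SV_V1 h hr) hz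

/-- a state has a nonzero coefficient, at the cost of a factor two -/
theorem SV.ne (hb : 0 < b) (hsn : s ≤ n) (h : SV P b A1 n s e ζ Δ E) (hΔ : 0 < Δ) :
    ∃ ζ' : ℂ, ζ' ≠ 0 ∧ ‖ζ - ζ'‖ ≤ Δ ∧ ‖ζ'‖ ≤ ‖ζ‖ + Δ ∧ SV P b A1 n s e ζ' (2 * Δ) E := by
  by_cases hz : ζ = 0
  · have hn : ‖((Δ : ℝ) : ℂ)‖ = Δ := by
      rw [Complex.norm_real, Real.norm_eq_abs, abs_of_pos hΔ]
    have h1 : ‖ζ - ((Δ : ℝ) : ℂ)‖ ≤ Δ := by
      rw [hz, zero_sub, norm_neg, hn]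
    refine ⟨(Δ : ℝ), ?_, h1, ?_, ?_⟩
    · exact_mod_cast hΔ.ne'
    · rw [hn]
      linarith [norm_nonneg ζ]
    · have h2 := SV.coef hb hsn h h1
      rwa [← two_mul] at h2
  · refine ⟨ζ, hz, by rw [sub_self, norm_zero]; exact hΔ.le, by linarith, ?_⟩
    exact H889.SV.mono h (by linarith) le_rfl

end Vale.Agent.P159.H358
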