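import Vale.Agent.P159.TM.H352.CvOne

/-!
P159, module HAT, part 1: one copy of the heights on the torus at the mass `1/x²`, `x` real:
exponential moments of block averages (blocks of side `l ≤ x`) and the two point function.
-/

open scoped ENNReal NNReal BigOperators
open Finset

set_option linter.unusedSectionVars false
set_option linter.unusedDecidableInType false

namespace Vale.Agent.P159.H358

open Vale.Agent.P159.TM Vale.Agent.P159.TM.H60 Vale.Agent.P159.TM.H459 Vale.Agent.P159.TM.H576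
  Vale.Agent.P159.TM.H352 Vale.Agent.P159.TM.H634
open Vale.Agent.P159.H353 (wI wI_nonneg wI_neg)
open Vale.Agent.P159.TM.Spec (kT aT aT_nonneg aT_even)

/-- one copy on the torus, background `0`, mass `1/x²` -/
noncomputable def sT (N : ℕ) [NeZero N] (b x : ℝ) (hb : 0 ≤ b) : Sys (TV N) (TE N) ℤ :=
  one tS tT (kT b) (fun _ n => wI_nonneg hb n) (fun _ n => wI_neg _ n)
    (fun _ => T1.H897.logC_wI hb) (aT x 0) (aT_nonneg x 0) (aT_even x)

theorem sT_nat (N : ℕ) [NeZero N] (b : ℝ) (ξ : ℕ) (hb : 0 ≤ b) :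
    sT N b (ξ : ℝ) hb = Spec.σ1 N b ξ hb := rfl

section
variable {N n : ℕ} [NeZero N] [NeZero n] {b x : ℝ}

theorem sT_one (hb : 0 ≤ b) : sT N b x hb =
    one tS tT (fun _ => wI b) (fun _ n => wI_nonneg hb n) (fun _ n => wI_neg _ n)
      (fun _ => T1.H897.logC_wI hb) (gaF (SpecC.ms x) fun _ => 0) (gaF_nonneg _ _)
      (gaF_even _) := by
  unfold sT
  refine H634.one_congr rfl ?_
  funext v k
  unfold Spec.aT gaF
  rw [neg_mul]
  rfl

theorem sT_S1 (hb : 0 ≤ b) :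
    sT N b x hb = H131.S1 tS tT (fun _ => hb) (fun _ => 1 / x ^ 2) := by
  unfold sT H131.S1
  refine H634.one_congr rfl ?_
  funext v n
  unfold Spec.aT H131.sw SpecC.ms
  congr 1
  simp only [Pi.zero_apply]
  ring

lemma ZZ_sT (hb : 0 ≤ b) (hx : 0 < x) : H352.ZZ (sT N b x hb) =
    ENNReal.ofReal (H871.Z (T1.H897.Wk (tS (N := N)) tT fun _ => wI b) (SpecC.ms x) 0) := by
  have hm : ∀ v : TV N, 0 < SpecC.ms x v := fun v => H41.ms_pos hx v
  unfold H352.ZZ
  rw [Ex_one_eq, sT_one]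
  have h := one_tilt (s := tS (N := N)) (t := tT) (fun _ n => wI_nonneg hb n)
    (fun _ n => wI_neg _ n) (fun _ => T1.H897.logC_wI hb)
    (H634.wt_b tS tT (b := fun _ => b) (fun _ => hb)) hm (fun _ => 0)
  simp only [zero_mul, Finset.sum_const_zero, Real.exp_zero, mul_one, Sys.pr] at h
  rw [h]
  rfl

lemma Z_sT_pos (hb : 0 ≤ b) (hx : 0 < x) :
    0 < H871.Z (T1.H897.Wk (tS (N := N)) tT fun _ => wI b) (SpecC.ms x) 0 :=
  (H634.wt_b tS tT (b := fun _ => b) (fun _ => hb)).Z_pos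
    (fun v => H41.ms_pos hx v) 0

lemma ZZ_sT_ne_zero (hb : 0 ≤ b) (hx : 0 < x) : H352.ZZ (sT N b x hb) ≠ 0 := by
  rw [ZZ_sT hb hx]
  exact (ENNReal.ofReal_pos.2 (Z_sT_pos hb hx)).ne'

lemma ZZ_sT_ne_top (hb : 0 ≤ b) (hx : 0 < x) : H352.ZZ (sT N b x hb) ≠ ∞ := by
  rw [ZZ_sT hb hx]
  exact ENNReal.ofReal_ne_top

lemma em_sT (hb : 0 ≤ b) (hx : 0 < x) (g : TV N → ℝ) {c : ℝ}
    (hg : ∑ v, g v ^ 2 / (2 * SpecC.ms x v) ≤ c) :
    ∑' y, ENNReal.ofReal ((sT N b x hb).tot y *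
      Real.exp ((sT N b x hb).pr g univ y)) ≤
      ENNReal.ofReal (Real.exp c) * H352.ZZ (sT N b x hb) := by
  have hm : ∀ v : TV N, 0 < SpecC.ms x v := fun v => H41.ms_pos hx v
  rw [ZZ_sT hb hx, ← ENNReal.ofReal_mul (Real.exp_pos _).le, sT_one]
  refine (one_mgf (s := tS (N := N)) (t := tT) (fun _ n => wI_nonneg hb n)
    (fun _ n => wI_neg _ n) (fun _ => T1.H897.logC_wI hb)
    (H634.wt_b tS tT (b := fun _ => b) (fun _ => hb)) hm
    (fun f => H41.Z_le_zero tS tT (fun _ => hb) hm f) g).trans ?_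
  refine ENNReal.ofReal_le_ofReal (mul_le_mul_of_nonneg_right (Real.exp_le_exp.2 hg)
    (Z_sT_pos hb hx).le)

/-- **exponential moments of the block averages** -/
theorem emb_sT (hb : 0 ≤ b) (hx : 0 < x) {l : ℕ} (hl : 0 < l) (hN : N = n * l)
    (hlx : (l : ℝ) ≤ x) {ε : ℝ≥0} (hε : (ε : ℝ) = 1 / x ^ 2) :
    EMB (sT N b x hb) n l ε (ENNReal.ofReal (Real.exp (1 / 2))) := by
  have hsq : ∀ β : ZMod n × ZMod n,
      ∑ v, (bf N n l (ε : ℝ) β v) ^ 2 / (2 * SpecC.ms x v) ≤ 1 / 2 := by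
    intro β
    have e1 : ∀ v : TV N, (bf N n l (ε : ℝ) β v) ^ 2 /
        (2 * SpecC.ms x v) = if bk n l v = β then 1 / (2 * x ^ 2) else 0 := by
      intro v
      unfold bf SpecC.ms
      rw [hε]
      split_ifs
      · field_simp
      · simp
    simp only [e1]
    rw [← Finset.sum_filter, Finset.sum_const, nsmul_eq_mul]
    have h1 : (((univ.filter fun v : TV N => bk n l v = β).card : ℕ) : ℝ) ≤ x ^ 2 := by
      have := card_blk_le (N := N) (n := n) hl hN β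
      unfold blk at this
      have h2 : (((univ.filter fun v : TV N => bk n l v = β).card : ℕ) : ℝ) ≤ (l : ℝ) ^ 2 := by
        exact_mod_cast this
      exact h2.trans (pow_le_pow_left₀ (Nat.cast_nonneg _) hlx 2)
    calc (((univ.filter fun v : TV N => bk n l v = β).card : ℕ) : ℝ) * (1 / (2 * x ^ 2))
        ≤ x ^ 2 * (1 / (2 * x ^ 2)) := by gcongr
      _ = 1 / 2 := by field_simp
  intro β
  refine ⟨em_sT hb hx _ (hsq β), em_sT hb hx _ ?_⟩
  simp only [neg_sq]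
  exact hsq β

open Classical in
/-- **two point function, one copy** -/
theorem cv_sT_eq (hb : 0 ≤ b) (hx : 0 < x) (u v : TV N) :
    Ex (sT N b x hb) (fun y om => (((sT N b x hb).d (y u)).natAbs : ℝ≥0∞) *
    (if v ∈ clus (sT N b x hb).s (sT N b x hb).t om u then
      (((sT N b x hb).d (y v)).natAbs : ℝ≥0∞) else 0)) =
      ENNReal.ofReal (1 * H41.G b N x (v - u)) * H352.ZZ (sT N b x hb) := by
  have hm : ∀ v : TV N, 0 < SpecC.ms x v := fun v => H41.ms_pos hx v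
  have hE : (sT N b x hb).ExpS := by
    rw [sT_one]
    exact one_ExpS (s := tS (N := N)) (t := tT) (fun _ n => wI_nonneg hb n)
      (fun _ n => wI_neg _ n) (fun _ => T1.H897.logC_wI hb)
      (H634.wt_b tS tT (b := fun _ => b) (fun _ => hb)) hm
  have hS : Summable fun y => (sT N b x hb).tot y *
      (|(sT N b x hb).D y u| * |(sT N b x hb).D y v|) := by
    refine (hE.F2 _ (fun _ => 0) u v).congr fun y => ?_
    unfold Sys.F2 Sys.pr
    simp [abs_mul]
  have h1 := Ex_two (σ := sT N b x hb) hS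
  refine h1.trans ?_
  rw [ZZ_sT hb hx, one_mul, ← ENNReal.ofReal_mul (p := H41.G b N x (v - u))
    (H41.G_nonneg hb hx _)]
  congr 1
  have h2 : H41.G b N x (v - u) = H104.Cf (SpecC.wT b N) (SpecC.ms x) 0
      (H104.co u) (H104.co v) := (H41.Cf_G b x u v).symm
  rw [h2]
  unfold H104.Cf
  rw [H41.Ex_co H41.even_wT, zero_mul, sub_zero]
  unfold H870.Ex
  have h3 : H870.Zr (SpecC.wT b N) (SpecC.ms x) 0 =
      H871.Z (T1.H897.Wk (tS (N := N)) tT fun _ => wI b) (SpecC.ms x) 0 := by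
    rw [← H41.wT_eq_Wk]; rfl
  rw [h3, div_mul_cancel₀ _ (Z_sT_pos hb hx).ne']
  refine tsum_congr fun y => ?_
  rw [sT_one, one_tot]
  rw [← H41.wT_eq_Wk]
  rfl

theorem cv_sT (hb : 0 ≤ b) (hx : 0 < x) : CV (sT N b x hb) 1 (H41.G b N x) :=
  fun u v => (cv_sT_eq hb hx u v).le

end

end Vale.Agent.P159.H358
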