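import Vale.Agent.P159.H358.Hr1
import Vale.Agent.P159.TM.H634.TiltT

/-!
P159, module HAT, part 2: the tilt inequality of the gas of blocks of side `l` at the mass `1/x²`,
`l ≤ x ≤ L`, `x, l, L` with `L ≤ 2 x`.
-/

open scoped ENNReal NNReal BigOperators
open Finset

set_option linter.unusedSectionVars false
set_option linter.unusedDecidableInType false

namespace Vale.Agent.P159.H358

open Vale.Agent.P159.TM Vale.Agent.P159.TM.H60 Vale.Agent.P159.TM.H459 Vale.Agent.P159.TM.H576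
  Vale.Agent.P159.TM.H352 Vale.Agent.P159.TM.H634 Vale.Agent.P159.TM.H131
open Vale.Agent.P159.H353 (wI wI_nonneg wI_neg wI_anti wI_zero_pos)
open Vale.Agent.P159.TM.H708 (SS lf bw iX)
open Vale.Agent.P159.T1.H934 (grd)
open Vale.Agent.P159.TM.H764 (lv lv_le_card lv_zsmul lv_add tl tl_le sum_min leave_eq sum_inv_sq
  card_line natAbs_add_one)

section lamb

variable {N : ℕ} [NeZero N]

theorem lamb_gen_r {L m : ℕ} {x : ℝ} (hx : 0 < x) (hxL : x ≤ L) (hLx : (L : ℝ) ≤ 2 * x)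
    {Λ : Finset (ZMod N × ZMod N)} (hl1 : lv Λ (1, 0) ≤ m)
    (hl2 : lv Λ (0, 1) ≤ m) (hc : Λ.card ≤ m ^ 2) (G : ZMod N × ZMod N → ℝ)
    (hG : ∀ w, 0 ≤ G w) (hs : ∀ w, G (w.2, w.1) = G w) {y A : ℝ} (hy0 : 0 ≤ y) (hA0 : 0 ≤ A)
    (hy : (1 - y) * x ^ 2 ≤ ∑ w, G w) (htot : ∑ w, G w ≤ x ^ 2)
    (hA : ∀ s : ℕ, L ≤ s → tl G s ≤ A * x ^ 2 * (y + x ^ 2 / (s : ℝ) ^ 2)) :
    (Λ.card : ℝ) * x ^ 2 - ∑ z ∈ Λ, ∑ z' ∈ Λ, G (z' - z) ≤
      (1 + 2 * A) * (y * x ^ 2 * m ^ 2) + 2 * (2 + A) * (m * x ^ 3) := by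
  have hL : 1 ≤ L := by
    have : (0 : ℝ) < L := hx.trans_le hxL
    exact_mod_cast this
  have hL0 : (0 : ℝ) < L := hx.trans_le hxL
  -- sum of the tails
  have h1 : ∑ s ∈ range m, tl G (s + 1) ≤ (2 + A) * x ^ 3 + A * x ^ 2 * y * m := by
    have h2 : ∀ s ∈ range m, tl G (s + 1) ≤ (if s < L then x ^ 2 else 0) +
        (A * x ^ 2 * y + A * x ^ 4 *
          (if L ≤ s then (1 : ℝ) / ((s : ℝ) + 1) ^ 2 else (0 : ℝ))) := by
      intro s _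
      by_cases h : s < L
      · have h' : ¬ L ≤ s := by omega
        rw [if_pos h, if_neg h']
        have := (tl_le G hG (s + 1)).trans htot
        have : 0 ≤ A * x ^ 2 * y := by positivity
        linarith
      · have h' : L ≤ s := by omega
        rw [if_neg h, if_pos h']
        have := hA (s + 1) (by omega)
        push_cast at this
        refine this.trans (le_of_eq ?_)
        field_simp
        ring
    refine (Finset.sum_le_sum h2).trans ?_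
    rw [Finset.sum_add_distrib, Finset.sum_add_distrib, ← Finset.mul_sum (a := A * x ^ 4)]
    have h3 : ∑ s ∈ range m, (if s < L then x ^ 2 else 0) ≤ 2 * x ^ 3 := by
      rw [← Finset.sum_filter, Finset.sum_const, nsmul_eq_mul]
      have : ((range m).filter fun s => s < L).card ≤ L := by
        have h4 : ((range m).filter fun s => s < L) ⊆ range L := by
          intro s hs
          rw [Finset.mem_filter] at hs
          exact Finset.mem_range.2 hs.2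
        simpa using Finset.card_le_card h4
      have h5 : (((range m).filter fun s => s < L).card : ℝ) ≤ L := by exact_mod_cast this
      calc _ ≤ (L : ℝ) * x ^ 2 := by gcongr
        _ ≤ (2 * x) * x ^ 2 := by gcongr
        _ = 2 * x ^ 3 := by ring
    have h6 := H764.sum_inv_sq L hL m
    have h7 : A * x ^ 4 * ∑ s ∈ range m, (if L ≤ s then (1 : ℝ) / ((s : ℝ) + 1) ^ 2 else (0 : ℝ))
        ≤ A * x ^ 3 := by
      calc _ ≤ A * x ^ 4 * (1 / L) := by gcongr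
        _ ≤ A * x ^ 4 * (1 / x) := by gcongr
        _ = A * x ^ 3 := by field_simp
    rw [Finset.sum_const, card_range, nsmul_eq_mul]
    linarith
  -- the leaving mass
  have h8 : ∑ w, G w * (lv Λ w : ℝ) ≤ 2 * (m : ℝ) * ∑ s ∈ range m, tl G (s + 1) := by
    have h9 : ∑ w, G w * (lv Λ w : ℝ) ≤
        ∑ w : ZMod N × ZMod N, G w * ((m : ℝ) * ((min w.1.valMinAbs.natAbs m : ℕ) +
          (min w.2.valMinAbs.natAbs m : ℕ))) := by
      refine Finset.sum_le_sum fun w _ => mul_le_mul_of_nonneg_left ?_ (hG w)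
      have := lv_gen hl1 hl2 hc w
      exact_mod_cast this
    refine h9.trans (le_of_eq ?_)
    have h10 : ∑ w : ZMod N × ZMod N, G w * ((min w.2.valMinAbs.natAbs m : ℕ) : ℝ) =
        ∑ w : ZMod N × ZMod N, G w * ((min w.1.valMinAbs.natAbs m : ℕ) : ℝ) := by
      rw [← Equiv.sum_comp (Equiv.prodComm _ _)]
      refine Finset.sum_congr rfl fun w _ => ?_
      simp only [Equiv.prodComm_apply, Prod.swap, hs w]
    rw [← sum_min]
    have h11 : ∑ w : ZMod N × ZMod N, G w * ((m : ℝ) * ((min w.1.valMinAbs.natAbs m : ℕ) +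
          (min w.2.valMinAbs.natAbs m : ℕ))) =
        (m : ℝ) * (∑ w : ZMod N × ZMod N, G w * ((min w.1.valMinAbs.natAbs m : ℕ) : ℝ) +
          ∑ w : ZMod N × ZMod N, G w * ((min w.2.valMinAbs.natAbs m : ℕ) : ℝ)) := by
      rw [← Finset.sum_add_distrib, Finset.mul_sum]
      exact Finset.sum_congr rfl fun w _ => by ring
    rw [h11, h10]
    ring
  have h12 := leave_eq G Λ
  have h13 : (Λ.card : ℝ) ≤ (m : ℝ) ^ 2 := by exact_mod_cast hc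
  have h14 : (Λ.card : ℝ) * x ^ 2 ≤
      (Λ.card : ℝ) * ∑ w, G w + y * x ^ 2 * (m : ℝ) ^ 2 := by
    have h15 : x ^ 2 ≤ ∑ w, G w + y * x ^ 2 := by linarith
    calc (Λ.card : ℝ) * x ^ 2
        ≤ (Λ.card : ℝ) * (∑ w, G w + y * x ^ 2) := by gcongr
      _ = (Λ.card : ℝ) * ∑ w, G w + (Λ.card : ℝ) * (y * x ^ 2) := by ring
      _ ≤ (Λ.card : ℝ) * ∑ w, G w + (m : ℝ) ^ 2 * (y * x ^ 2) := by gcongr
      _ = _ := by ring
  have h16 : 2 * (m : ℝ) * ∑ s ∈ range m, tl G (s + 1) ≤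
      2 * (m : ℝ) * ((2 + A) * x ^ 3 + A * x ^ 2 * y * m) := by gcongr
  nlinarith [h8, h12, h14, h16]

/-- **row LAMB for a ball of blocks of side `l ≤ x`** -/
theorem lamb_blk_r {n l L : ℕ} [NeZero n] {x : ℝ} (hl : 0 < l) (hN : N = n * l)
    (hlx : (l : ℝ) ≤ x) (hxL : x ≤ L) (hLx : (L : ℝ) ≤ 2 * x) (a : ZMod n × ZMod n)
    (R : ℕ) (G : ZMod N × ZMod N → ℝ)
    (hG : ∀ w, 0 ≤ G w) (hs : ∀ w, G (w.2, w.1) = G w) {y A : ℝ} (hy0 : 0 ≤ y) (hA0 : 0 ≤ A)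
    (hy : (1 - y) * x ^ 2 ≤ ∑ w, G w) (htot : ∑ w, G w ≤ x ^ 2)
    (hA : ∀ s : ℕ, L ≤ s → tl G s ≤ A * x ^ 2 * (y + x ^ 2 / (s : ℝ) ^ 2)) :
    ((bb N n l a R).card : ℝ) * x ^ 2 -
      ∑ z ∈ bb N n l a R, ∑ z' ∈ bb N n l a R, G (z' - z) ≤
      8 * (1 + 2 * A) * x ^ 4 * (y * ((R : ℝ) + 1) ^ 2 + ((R : ℝ) + 1)) := by
  have hl0 : (0 : ℝ) < l := by exact_mod_cast hl
  have hx0 : 0 < x := hl0.trans_le hlx
  have h := lamb_gen_r hx0 hxL hLx (lv_bb1 hl hN a R) (lv_bb2 hl hN a R)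
    (card_bb hl hN a R) G hG hs hy0 hA0 hy htot hA
  refine h.trans ?_
  have hm : (((2 * R + 1) * l : ℕ) : ℝ) ≤ 2 * ((R : ℝ) + 1) * x := by
    push_cast
    have : (2 * (R : ℝ) + 1) ≤ 2 * ((R : ℝ) + 1) := by linarith
    exact mul_le_mul this hlx hl0.le (by positivity)
  have hm0 : (0 : ℝ) ≤ (((2 * R + 1) * l : ℕ) : ℝ) := by positivity
  have h1 : (((2 * R + 1) * l : ℕ) : ℝ) ^ 2 ≤ (2 * ((R : ℝ) + 1) * x) ^ 2 := by gcongr
  calc (1 + 2 * A) * (y * x ^ 2 * (((2 * R + 1) * l : ℕ) : ℝ) ^ 2) +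
        2 * (2 + A) * ((((2 * R + 1) * l : ℕ) : ℝ) * x ^ 3)
      ≤ (1 + 2 * A) * (y * x ^ 2 * (2 * ((R : ℝ) + 1) * x) ^ 2) +
        2 * (2 + A) * ((2 * ((R : ℝ) + 1) * x) * x ^ 3) := by gcongr
    _ = 4 * (1 + 2 * A) * x ^ 4 * (y * ((R : ℝ) + 1) ^ 2) +
        4 * (2 + A) * x ^ 4 * ((R : ℝ) + 1) := by ring
    _ ≤ 8 * (1 + 2 * A) * x ^ 4 * (y * ((R : ℝ) + 1) ^ 2) +
        8 * (1 + 2 * A) * x ^ 4 * ((R : ℝ) + 1) := by
        gcongr ?_ * _ * _ + ?_ * _ * _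
        · nlinarith
        · nlinarith
    _ = _ := by ring

end lamb

section model

variable {N : ℕ} [NeZero N] {b : ℝ}

/-- the row (LAM) for the torus -/
theorem hLam_r (hb : 0 ≤ b) {x : ℝ} {n l L : ℕ} [NeZero n] (hl : 0 < l) (hN : N = n * l)
    (hlx : (l : ℝ) ≤ x) (hxL : x ≤ L) (hLx : (L : ℝ) ≤ 2 * x) {y A : ℝ} (hy : 0 ≤ y)
    (hA0 : 0 ≤ A)
    (hy' : (1 - y) * x ^ 2 ≤ ∑ w, H41.G b N x w)
    (hA : ∀ s : ℕ, L ≤ s → tl (H41.G b N x) s ≤ A * x ^ 2 * (y + x ^ 2 / (s : ℝ) ^ 2))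
    (c : ZMod n × ZMod n) (R : ℕ) :
    1 / x ^ 2 * nL (torGeo n) (bk (N := N) n l) c R -
      E0 tS tT (fun _ : TE N => b) (fun _ => 1 / x ^ 2) ∅
        (fun h => lf (fun v => 1 / x ^ 2 * lam (torGeo n) (bk (N := N) n l) c R v) h ^ 2) ≤
      8 * (1 + 2 * A) * (y * ((R : ℝ) + 1) ^ 2 + ((R : ℝ) + 1)) := by
  have hl0 : (0 : ℝ) < l := by exact_mod_cast hl
  have hx : 0 < x := hl0.trans_le hlx
  have hx4 : (0 : ℝ) < x ^ 4 := by positivity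
  have hG := H41.G_nonneg (N := N) hb hx
  have hsum : H764.Gh (H41.G b N x) 0 = ∑ w, H41.G b N x w := by
    rw [H764.Gh_zero]
  have htot : ∑ w, H41.G b N x w ≤ x ^ 2 := by
    rw [← hsum]; exact H41.Gh_le hb hx 0
  have key := lamb_blk_r hl hN hlx hxL hLx c R (H41.G b N x) hG (fun w => H41.G_swap b x w) hy
    hA0 hy' htot hA
  rw [E0_frm hb hx]
  have e1 : nL (torGeo n) (bk (N := N) n l) c R = ((bb N n l c R).card : ℝ) := by
    unfold nL lam bb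
    rw [Finset.card_filter]
    push_cast
    rfl
  have e2 : H764.frm (H41.G b N x) (lam (torGeo n) (bk (N := N) n l) c R) =
      ∑ z ∈ bb N n l c R, ∑ z' ∈ bb N n l c R, H41.G b N x (z' - z) := by
    unfold H764.frm bb
    rw [Finset.sum_filter]
    refine Finset.sum_congr rfl fun z _ => ?_
    have hd : ∀ z : ZMod N × ZMod N, lam (torGeo n) (bk (N := N) n l) c R z =
        if H459.sd c (bk n l z) ≤ R then 1 else 0 := fun z => rfl
    split_ifs with hz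
    · rw [Finset.sum_filter]
      refine Finset.sum_congr rfl fun z' _ => ?_
      rw [hd, hd, if_pos hz]
      split_ifs <;> simp
    · refine Finset.sum_eq_zero fun z' _ => ?_
      rw [hd, hd, if_neg hz]
      simp
  rw [e1, e2]
  have h5 : 1 / x ^ 2 * ((bb N n l c R).card : ℝ) - 1 / x ^ 4 *
      (∑ z ∈ bb N n l c R, ∑ z' ∈ bb N n l c R, H41.G b N x (z' - z)) =
      1 / x ^ 4 * (((bb N n l c R).card : ℝ) * x ^ 2 -
      ∑ z ∈ bb N n l c R, ∑ z' ∈ bb N n l c R, H41.G b N x (z' - z)) := by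
    field_simp
  rw [h5]
  calc 1 / x ^ 4 * (((bb N n l c R).card : ℝ) * x ^ 2 -
      ∑ z ∈ bb N n l c R, ∑ z' ∈ bb N n l c R, H41.G b N x (z' - z))
      ≤ 1 / x ^ 4 * (8 * (1 + 2 * A) * x ^ 4 *
        (y * ((R : ℝ) + 1) ^ 2 + ((R : ℝ) + 1))) :=
        mul_le_mul_of_nonneg_left key (by positivity)
    _ = _ := by
      field_simp

theorem tiltT_r_aux (hb : 0 ≤ b) {x : ℝ} {n l L : ℕ} [NeZero n] (hl : 0 < l) (hN : N = n * l)
    (hlx : (l : ℝ) ≤ x) (hxL : x ≤ L) (hLx : (L : ℝ) ≤ 2 * x)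
    {ε : ℝ≥0} (hε : (ε : ℝ) = 1 / x ^ 2) {y A : ℝ} (hy : 0 ≤ y)
    (hA0 : 0 ≤ A) (hQ : (1 - y) * x ^ 2 ≤ ∑ w, H41.G b N x w)
    (hA : ∀ s : ℕ, L ≤ s → tl (H41.G b N x) s ≤ A * x ^ 2 * (y + x ^ 2 / (s : ℝ) ^ 2))
    {c : ZMod n × ZMod n} {R : ℕ} {M : ℝ}
    (hM : 0 ≤ M) (σ : Sys (TV N) (TE N) ℤ)
    (hσ : σ = S1 tS tT (fun _ => hb) (fun _ => 1 / x ^ 2)) (hs : σ.s = tS) (ht : σ.t = tT)
    (hXi : ∀ β ∈ (torGeo n).ball c R,
      (H352.gas σ hs ht ε hl hN).Xi c R β ≤ ENNReal.ofReal M)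
    {K : ℝ} (hK1 : 4 * Real.exp 2 ≤ K) (hK2 : 80 ≤ K) (hK3 : 8 * (1 + 2 * A) ≤ K) :
    (H352.gas σ hs ht ε hl hN).Tilt K y c R M := by
  subst hσ
  have hl0 : (0 : ℝ) < l := by exact_mod_cast hl
  have hx : 0 < x := hl0.trans_le hlx
  have hε0 : (0 : ℝ) < 1 / x ^ 2 := by positivity
  have hm : ∀ v : ZMod N × ZMod N, 0 < (fun _ : ZMod N × ZMod N => 1 / x ^ 2) v :=
    fun _ => hε0
  have hsum : Summable fun y => (S1 (tS (N := N)) tT (fun _ => hb)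
      (fun _ => 1 / x ^ 2)).tot y := by
    have h : (S1 (tS (N := N)) tT (fun _ => hb) (fun _ => 1 / x ^ 2)).ExpS :=
      one_ExpS (fun e n => wI_nonneg hb n) (fun e n => wI_neg _ _)
        (fun e => T1.H897.logC_wI hb) (wt_b tS tT fun _ => hb) hm
    have h0 := h fun _ => 0
    simp only [Sys.pr, zero_mul, Finset.sum_const_zero, Real.exp_zero, mul_one] at h0
    exact h0
  have hZ : 0 < ∑' y, (S1 (tS (N := N)) tT (fun _ => hb) (fun _ => 1 / x ^ 2)).tot y := by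
    rw [S1_sum_tot]
    exact (wt_b tS tT fun _ => hb).Z_pos hm 0
  have hadj : ∀ e : TE N, (torGeo n).d (bk n l (tS e)) (bk n l (tT e)) ≤ 1 := adjT hl hN
  have e1 := gas_eq (S1 (tS (N := N)) tT (fun _ => hb) (fun _ => 1 / x ^ 2)) hs ht ε hl hN
    hsum hZ hadj
  rw [e1] at hXi ⊢
  rw [hε] at hXi ⊢
  have hK0 : 0 ≤ y * ((R : ℝ) + 1) ^ 2 + ((R : ℝ) + 1) := by positivity
  refine tilt_one (fun _ => hb) hε0 (lpv (fun _ => hb) hm) hadj ?_ hM hXi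
    ((hLam_r hb hl hN hlx hxL hLx hy hA0 hQ hA c R).trans
      (mul_le_mul_of_nonneg_right hK3 hK0)) hy hK1 hK2
  have h1 := card_block (N := N) hl hN c
  have h2 : (((univ : Finset (ZMod N × ZMod N)).filter fun v => bk n l v = c).card : ℝ) ≤
      x ^ 2 := by
    have h3 : (((univ : Finset (ZMod N × ZMod N)).filter fun v => bk n l v = c).card : ℝ) ≤
        (l : ℝ) ^ 2 := by exact_mod_cast h1
    exact h3.trans (pow_le_pow_left₀ hl0.le hlx 2)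
  calc 1 / x ^ 2 * _ ≤ 1 / x ^ 2 * x ^ 2 :=
        mul_le_mul_of_nonneg_left h2 hε0.le
    _ = 1 := by field_simp

/-- **TILT on the torus, one copy, real mass** -/
theorem tiltT_r (hb : 0 ≤ b) {x : ℝ} {n l L : ℕ} [NeZero n] (hl : 0 < l) (hN : N = n * l)
    (hlx : (l : ℝ) ≤ x) (hxL : x ≤ L) (hLx : (L : ℝ) ≤ 2 * x)
    {ε : ℝ≥0} (hε : (ε : ℝ) = 1 / x ^ 2) {y A : ℝ} (hy : 0 ≤ y)
    (hA0 : 0 ≤ A) (hQ : (1 - y) * x ^ 2 ≤ ∑ w, H41.G b N x w)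
    (hA : ∀ s : ℕ, L ≤ s → tl (H41.G b N x) s ≤ A * x ^ 2 * (y + x ^ 2 / (s : ℝ) ^ 2))
    {c : ZMod n × ZMod n} {R : ℕ} {M : ℝ} (hM : 0 ≤ M)
    (hXi : ∀ β ∈ (torGeo n).ball c R,
      (H352.gas (sT N b x hb) rfl rfl ε hl hN).Xi c R β ≤ ENNReal.ofReal M)
    {K : ℝ} (hK1 : 80 ≤ K) (hK2 : 8 * (1 + 2 * A) ≤ K) :
    (H352.gas (sT N b x hb) rfl rfl ε hl hN).Tilt K y c R M := by
  refine tiltT_r_aux hb hl hN hlx hxL hLx hε hy hA0 hQ hA hM _ (sT_S1 hb)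
    rfl rfl hXi ?_ hK1 hK2
  have h1 : Real.exp 1 < 2.7182818286 := Real.exp_one_lt_d9
  have h2 : Real.exp 2 = Real.exp 1 * Real.exp 1 := by rw [← Real.exp_add]; norm_num
  have h3 := Real.exp_pos 1
  rw [h2]
  nlinarith

end model

end Vale.Agent.P159.H358
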