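import Vale.Agent.P159.H358.Hr2
import Vale.Agent.P159.H612.LocTau
import Vale.Agent.P159.H864.Fou2
import Vale.Agent.P159.TM.H352.ThmA

/-!
P159, module HAT, part 3: the hypotheses of the gas of blocks of side `l` at the mass `1/x²`,
`l ≤ x ≤ 2 l`, from the one scale hypotheses at the masses `1/l²` and `1/(2l)²`.
-/

open scoped ENNReal NNReal BigOperators
open Finset

set_option linter.unusedSectionVars false
set_option linter.unusedDecidableInType false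

namespace Vale.Agent.P159.H358

open Vale.Agent.P159.TM Vale.Agent.P159.TM.H60 Vale.Agent.P159.TM.H459 Vale.Agent.P159.TM.H576
  Vale.Agent.P159.TM.H352 Vale.Agent.P159.TM.H634 Vale.Agent.P159.TM.H131
open Vale.Agent.P159.H353 (wI wI_nonneg wI_neg wI_anti wI_zero_pos)
open Vale.Agent.P159.TM.H764 (tl)

section ker

variable {N : ℕ} [NeZero N] {b : ℝ}

/-- the kernel increases with the length -/
theorem G_len_mono (hb : 0 ≤ b) {x x' : ℝ} (hx : 0 < x) (h : x ≤ x') (w : TV N) :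
    H41.G b N x w ≤ H41.G b N x' w := by
  have hx' : 0 < x' := hx.trans_le h
  rw [← H864.Gt_eq_G hx, ← H864.Gt_eq_G hx']
  refine H612.Gt_mass_mono hb (by positivity) ?_ w
  exact one_div_le_one_div_of_le (by positivity) (pow_le_pow_left₀ hx.le h 2)

theorem tl_len_mono (hb : 0 ≤ b) {x x' : ℝ} (hx : 0 < x) (h : x ≤ x') (s : ℕ) :
    tl (H41.G b N x) s ≤ tl (H41.G b N x') s :=
  Finset.sum_le_sum fun w _ => G_len_mono hb hx h w

/-- the transform increases with the length -/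
theorem Gh_len_mono (hb : 0 ≤ b) {x x' : ℝ} (hx : 0 < x) (h : x ≤ x') (k : TV N) :
    H764.Gh (H41.G b N x) k ≤ H764.Gh (H41.G b N x') k := by
  have hx' : 0 < x' := hx.trans_le h
  have h1 := H41.e7 (N := N) hb hx h k
  have h2 := H41.Gh_nonneg (N := N) hb hx k
  have h3 := H41.Gh_nonneg (N := N) hb hx' k
  have h4 : 0 ≤ 1 / x ^ 2 - 1 / x' ^ 2 :=
    sub_nonneg.2 (one_div_le_one_div_of_le (by positivity) (pow_le_pow_left₀ hx.le h 2))
  have h5 : 0 ≤ H764.Gh (H41.G b N x) k * ((1 / x ^ 2 - 1 / x' ^ 2) *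
      H764.Gh (H41.G b N x') k) := mul_nonneg h2 (mul_nonneg h4 h3)
  nlinarith [h1]

theorem H2_len (hb : 0 ≤ b) {l x : ℝ} (hl : 0 < l) (h : l ≤ x) {C2 W : ℝ} (hC : 0 ≤ C2)
    (h2 : H764.H2 C2 W l (H41.G b N l)) : H764.H2 C2 W l (H41.G b N x) := by
  intro k h3 h4
  refine (h2 k h3 h4).trans (mul_le_mul_of_nonneg_left (Gh_len_mono hb hl h k) ?_)
  positivity

/-- the total mass at length `x ∈ [l, 2 l]` from the one at length `l` -/
theorem sum_low (hb : 0 ≤ b) {l x : ℝ} (hl : 0 < l) (h : l ≤ x) (h' : x ≤ 2 * l) {y : ℝ}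
    (hy : 0 ≤ y) (hs : (1 - y) * l ^ 2 ≤ ∑ w, H41.G b N l w) :
    (1 - 4 * y) * x ^ 2 ≤ ∑ w, H41.G b N x w := by
  have hx : 0 < x := hl.trans_le h
  have h1 := H41.e7 (N := N) hb hl h 0
  rw [H764.Gh_zero, H764.Gh_zero] at h1
  set g := ∑ w, H41.G b N x w with hg
  set g0 := ∑ w, H41.G b N l w with hg0
  have hgn : 0 ≤ g := Finset.sum_nonneg fun w _ => H41.G_nonneg hb hx w
  set d := 1 / l ^ 2 - 1 / x ^ 2 with hd
  have hd0 : 0 ≤ d :=
    sub_nonneg.2 (one_div_le_one_div_of_le (by positivity) (pow_le_pow_left₀ hl.le h 2))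
  have e1 : (1 - y) * l ^ 2 * (1 + d * g) ≤ g :=
    (mul_le_mul_of_nonneg_right hs (by positivity)).trans h1
  -- `(1 - y) (l^2 + l^2 d g) ≤ g`, `l^2 d = 1 - l^2/x^2`
  have e2 : l ^ 2 * d = 1 - l ^ 2 / x ^ 2 := by
    rw [hd]; field_simp
  set q := l ^ 2 / x ^ 2 with hq
  have hq1 : 1 / 4 ≤ q := by
    rw [hq, div_le_div_iff₀ (by norm_num) (by positivity)]
    nlinarith
  have hq2 : q ≤ 1 := by
    rw [hq, div_le_one (by positivity)]
    exact pow_le_pow_left₀ hl.le h 2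
  have e3 : (1 - y) * l ^ 2 ≤ g * (1 - (1 - y) * (1 - q)) := by
    have : (1 - y) * l ^ 2 * (1 + d * g) = (1 - y) * l ^ 2 + (1 - y) * (l ^ 2 * d) * g := by ring
    rw [this, e2] at e1
    linarith
  have e4 : l ^ 2 = q * x ^ 2 := by
    rw [hq]; field_simp
  rw [e4] at e3
  -- `(1-y) q x^2 ≤ g (q + y (1-q))`
  have e5 : (1 - y) * (q * x ^ 2) ≤ g * (q * (1 + 3 * y)) := by
    refine e3.trans (mul_le_mul_of_nonneg_left ?_ hgn)
    nlinarith
  have hq0 : 0 < q := by linarith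
  have e6 : (1 - y) * x ^ 2 ≤ g * (1 + 3 * y) := by
    have : (1 - y) * (q * x ^ 2) = q * ((1 - y) * x ^ 2) := by ring
    rw [this] at e5
    have h6 : g * (q * (1 + 3 * y)) = q * (g * (1 + 3 * y)) := by ring
    rw [h6] at e5
    exact le_of_mul_le_mul_left e5 hq0
  have hgx : g ≤ x ^ 2 := by
    have h7 := H41.Gh_le (N := N) hb hx 0
    rw [H764.Gh_zero] at h7
    exact h7
  nlinarith

end ker

section wx
variable {N n : ℕ} [NeZero N] [NeZero n] {S : Type*}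
variable {σ : Sys (TV N) (TE N) S} {hs : σ.s = tS} {ht : σ.t = tT} {ε : ℝ≥0}
  {l : ℕ} {hl : 0 < l} {hN : N = n * l} {K : ℝ≥0} {D : ℕ} {y : ℝ}

lemma scale_back_le {a c : ℝ≥0∞} (hε : 1 ≤ 4 * (ε : ℝ) * (l : ℝ) ^ 2)
    (h : (ε : ℝ≥0∞) ^ 2 * a = c) : a ≤ 16 * (l : ℝ≥0∞) ^ 4 * c := by
  have h1 : (1 : ℝ≥0∞) ≤ 4 * (ε : ℝ≥0∞) * (l : ℝ≥0∞) ^ 2 := by
    have h2 : (1 : ℝ≥0) ≤ 4 * ε * (l : ℝ≥0) ^ 2 := by
      rw [← NNReal.coe_le_coe]
      push_cast
      exact hε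
    exact_mod_cast h2
  calc a = 1 ^ 2 * a := by simp
    _ ≤ (4 * (ε : ℝ≥0∞) * (l : ℝ≥0∞) ^ 2) ^ 2 * a := by gcongr
    _ = 16 * (l : ℝ≥0∞) ^ 4 * ((ε : ℝ≥0∞) ^ 2 * a) := by ring
    _ = _ := by rw [h]

lemma bk_ball_two (hl : 0 < l) (hN : N = n * l) {x0 u : TV N} (h : u ∈ ball x0 (2 * l)) :
    bk n l u ∈ ball (bk n l x0) 2 := by
  rw [mem_ball] at h ⊢
  have h1 := bk_le (n := n) hl hN x0 u
  by_contra h2
  push Not at h2
  have h3 : l * 3 ≤ l * sd (bk n l x0) (bk n l u) := Nat.mul_le_mul_left _ h2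
  omega

/-- pointwise bound of `WF`, ball of radius `2 l` -/
lemma WF_le2 (hl : 0 < l) (hN : N = n * l) (x0 : TV N) (m : ℕ) (x : TV N → S)
    (om : Finset (TE N)) :
    Spec.WF σ (ball x0 (2 * l)) (ball x0 m) x om ≤
      ∑ b ∈ ball (bk n l x0) 2, ∑ b' ∈ ball (bk n l x0) 2,
        pf σ n l b b' (fun v => v b ∧ ∃ c, v c ∧ m / l - 2 ≤ sd b c) x om := by
  classical
  unfold Spec.WF
  have h1 : ∀ u ∈ ball x0 (2 * l), ∀ v ∈ ball x0 (2 * l),
      ((mf σ x om u u * mf σ x om u v : ℕ) : ℝ≥0∞) *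
        H576.ind (∃ z, z ∉ ball x0 m ∧ mf σ x om u z ≠ 0) ≤
      ((mf σ x om u u * mf σ x om u v : ℕ) : ℝ≥0∞) *
        H352.ind ((fun v : ZMod n × ZMod n → Prop => v (bk n l u) ∧ ∃ c, v c ∧
          m / l - 2 ≤ sd (bk n l u) c) (vs n l (mf σ x om u))) := by
    intro u hu v _
    by_cases hm : mf σ x om u u = 0
    · rw [hm]; simp
    gcongr
    rw [← ind_eq]
    apply H352.ind_mono
    rintro ⟨z, hz, hmz⟩
    refine ⟨⟨u, rfl, hm⟩, bk n l z, ⟨z, rfl, hmz⟩, ?_⟩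
    have h2 := far_bk (n := n) hl hN hz
    have h3 := bk_ball_two (n := n) hl hN hu
    rw [mem_ball] at h3
    have h4 := sd_tri (bk n l x0) (bk n l u) (bk n l z)
    omega
  refine (Finset.sum_le_sum fun u hu => Finset.sum_le_sum fun v hv => h1 u hu v hv).trans ?_
  refine (sum_pair_le (ball (bk n l x0) 2) (ball x0 (2 * l))
    (fun u hu => bk_ball_two hl hN hu) _).trans (le_of_eq ?_)
  refine Finset.sum_congr rfl fun b _ => Finset.sum_congr rfl fun b' _ => ?_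
  unfold pf
  refine Finset.sum_congr rfl fun u hu => Finset.sum_congr rfl fun v _ => ?_
  rw [mem_blk] at hu
  rw [hu]

/-- pairs of near blocks -/
lemma pair_le4 {ι 𝔹 : Type*} [Fintype 𝔹] [DecidableEq 𝔹] {G : Geo 𝔹} {A : Gas ι 𝔹 G} {b b' : 𝔹}
    (hbb : G.d b b' ≤ 4) (R : ℕ) :
    H352.S A.p (fun i => H352.ind (b ∈ A.vis i ∧ ∃ c, c ∈ A.vis i ∧ R ≤ G.d b c) *
      (A.X i b * A.X i b')) ≤ A.W b (R - 4) + A.W b' (R - 4) := by
  unfold Gas.W
  rw [← S_add]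
  refine S_mono fun i => ?_
  by_cases h : b ∈ A.vis i ∧ ∃ c, c ∈ A.vis i ∧ R ≤ G.d b c
  · by_cases hb' : b' ∈ A.vis i
    · obtain ⟨hb, c, hc, hRc⟩ := h
      rw [H352.ind_true ⟨hb, c, hc, hRc⟩, one_mul, H352.ind_true (show A.J b (R - 4) i from
        ⟨hb, c, hc, by omega⟩), H352.ind_true (show A.J b' (R - 4) i from ⟨hb', c, hc, by
          have := G.d_tri b b' c
          omega⟩), one_mul, one_mul]
      exact mul_le_sq_add _ _
    · rw [A.X_vis i b' hb']; simp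
  · rw [H352.ind_false h, zero_mul]; exact bot_le

lemma ofReal_w2 {w : ℝ} (hw : 0 ≤ w) : ENNReal.ofReal (10000 * (l : ℝ) ^ 4 * (w + w)) =
    10000 * (l : ℝ≥0∞) ^ 4 * (ENNReal.ofReal w + ENNReal.ofReal w) := by
  have e2 : ENNReal.ofReal (10000 : ℝ) = 10000 := by
    rw [show (10000 : ℝ) = ((10000 : ℕ) : ℝ) by norm_num, ENNReal.ofReal_natCast]; norm_num
  rw [ENNReal.ofReal_mul (by positivity), ENNReal.ofReal_mul (by positivity),
    ENNReal.ofReal_add hw hw, ENNReal.ofReal_pow (by positivity), ENNReal.ofReal_natCast, e2]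

/-- the constant of `WF` -/
noncomputable def CWr (K : ℝ≥0) (D : ℕ) : ℝ :=
  20000 * (K * Real.exp (rate K D * (2 * D)) * Real.exp (6 * rate K D))

/-- **`WF` from the gas**, ball of radius `2 l`, weights `ε l² ≥ 1/4` -/
theorem WF_bound_r (h : (gas σ hs ht ε hl hN).Hyp K D y) (hε : 1 ≤ 4 * (ε : ℝ) * (l : ℝ) ^ 2)
    (h0 : H352.ZZ σ ≠ 0) (h1 : H352.ZZ σ ≠ ∞) (hy1 : y ≤ 1) (x0 : TV N) (m : ℕ)
    (hm : (m : ℝ) * y ≤ l) :
    Spec.Ele σ (Spec.WF σ (ball x0 (2 * l)) (ball x0 m))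
      (CWr K D * (l : ℝ) ^ 4 * Real.exp (-(rate K D * m / l))) := by
  classical
  have hr := (rate_pos h.one_le D).le
  have hlR : (0 : ℝ) < l := by exact_mod_cast hl
  unfold Spec.Ele
  set R' := m / l - 6 with hR'
  have hfl : (m : ℝ) / l - 1 ≤ ((m / l : ℕ) : ℝ) := by
    have h5 := Nat.div_add_mod m l
    have h6 := Nat.mod_lt m hl
    have h7 : m < l * (m / l + 1) := by
      calc m = l * (m / l) + m % l := h5.symm
        _ < l * (m / l) + l := by omega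
        _ = _ := by ring
    have h8 : (m : ℝ) < l * (((m / l : ℕ) : ℝ) + 1) := by exact_mod_cast h7
    rw [sub_le_iff_le_add, div_le_iff₀ hlR]
    linarith
  have hfl2 : ((m / l : ℕ) : ℝ) ≤ (m : ℝ) / l := Nat.cast_div_le
  have hyR : y * ((R' : ℝ) + 1) ≤ 1 := by
    rcases Nat.lt_or_ge (m / l) 6 with h2 | h2
    · have : R' = 0 := by omega
      rw [this]; simpa using hy1
    · have h3 : (R' : ℝ) + 1 ≤ (m : ℝ) / l := by
        have h4 : R' + 1 ≤ m / l := by omega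
        have h5 : ((R' : ℝ) + 1) ≤ ((m / l : ℕ) : ℝ) := by exact_mod_cast h4
        linarith
      calc y * ((R' : ℝ) + 1) ≤ y * ((m : ℝ) / l) := mul_le_mul_of_nonneg_left h3 h.y_nonneg
        _ = (m * y) / l := by ring
        _ ≤ 1 := by rw [div_le_one hlR]; exact hm
  set w : ℝ := K * Real.exp (rate K D * (2 * D)) * (Real.exp (6 * rate K D) *
      Real.exp (-(rate K D * m / l))) with hw
  have hw0 : 0 ≤ w := by positivity
  have hW : ∀ b, (gas σ hs ht ε hl hN).W b R' ≤ ENNReal.ofReal w := by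
    intro b
    refine (Gas.W_exp' h hyR b).trans (ENNReal.ofReal_le_ofReal ?_)
    rw [hw]
    gcongr
    rw [← Real.exp_add]
    apply Real.exp_le_exp.2
    have h3 : (m : ℝ) / l - 6 ≤ (R' : ℝ) + 1 := by
      have h4 : ((m / l : ℕ) : ℝ) ≤ (R' : ℝ) + 6 := by
        have : m / l ≤ R' + 6 := by omega
        exact_mod_cast this
      linarith
    have h5 := mul_le_mul_of_nonneg_left h3 hr
    have h6 : rate K D * m / l = rate K D * (m / l) := by ring
    rw [h6]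
    linarith
  have hpair : ∀ b ∈ ball (bk n l x0) 2, ∀ b' ∈ ball (bk n l x0) 2,
      Ex σ (pf σ n l b b' (fun v => v b ∧ ∃ c, v c ∧ m / l - 2 ≤ sd b c)) ≤
        16 * (l : ℝ≥0∞) ^ 4 * (H352.ZZ σ * (ENNReal.ofReal w + ENNReal.ofReal w)) := by
    intro b hb b' hb'
    refine (scale_back_le hε (Ex_pf (hs := hs) (ht := ht) (hl := hl) (hN := hN) h0 h1)).trans ?_
    gcongr
    rw [mem_ball] at hb hb'
    have h2 : (torGeo n).d b b' ≤ 4 := by
      have h3 := sd_tri b (bk n l x0) b'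
      have h4 := sd_symm b (bk n l x0)
      show sd b b' ≤ 4
      omega
    have h3 := pair_le4 (A := gas σ hs ht ε hl hN) h2 (m / l - 2)
    have h4 : m / l - 2 - 4 = R' := by omega
    rw [h4] at h3
    exact h3.trans (add_le_add (hW b) (hW b'))
  calc Ex σ (Spec.WF σ (ball x0 (2 * l)) (ball x0 m))
      ≤ Ex σ (fun x om => ∑ b ∈ ball (bk n l x0) 2, ∑ b' ∈ ball (bk n l x0) 2,
        pf σ n l b b' (fun v => v b ∧ ∃ c, v c ∧ m / l - 2 ≤ sd b c) x om) :=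
        Ex_mono fun x om _ => WF_le2 hl hN x0 m x om
    _ = ∑ b ∈ ball (bk n l x0) 2, ∑ b' ∈ ball (bk n l x0) 2,
        Ex σ (pf σ n l b b' (fun v => v b ∧ ∃ c, v c ∧ m / l - 2 ≤ sd b c)) := by
        rw [Ex_sum]
        refine Finset.sum_congr rfl fun b _ => ?_
        rw [Ex_sum]
    _ ≤ ∑ b ∈ ball (bk n l x0) 2, ∑ b' ∈ ball (bk n l x0) 2,
        16 * (l : ℝ≥0∞) ^ 4 * (H352.ZZ σ * (ENNReal.ofReal w + ENNReal.ofReal w)) :=
        Finset.sum_le_sum fun b hb => Finset.sum_le_sum fun b' hb' => hpair b hb b' hb'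
    _ = ((ball (bk n l x0) 2).card : ℝ≥0∞) ^ 2 *
        (16 * (l : ℝ≥0∞) ^ 4 * (H352.ZZ σ * (ENNReal.ofReal w + ENNReal.ofReal w))) := by
        rw [Finset.sum_const, Finset.sum_const, nsmul_eq_mul, nsmul_eq_mul]; ring
    _ ≤ (25 : ℝ≥0∞) ^ 2 *
        (16 * (l : ℝ≥0∞) ^ 4 * (H352.ZZ σ * (ENNReal.ofReal w + ENNReal.ofReal w))) := by
        gcongr
        have := card_ball_le (bk n l x0) 2
        have h9 : (ball (bk n l x0) 2).card ≤ 25 := by simpa using this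
        exact_mod_cast h9
    _ = ENNReal.ofReal (CWr K D * (l : ℝ) ^ 4 * Real.exp (-(rate K D * m / l))) *
        Ex σ (fun _ _ => 1) := by
        have e1 : CWr K D * (l : ℝ) ^ 4 * Real.exp (-(rate K D * m / l)) =
            (10000 * (l : ℝ) ^ 4) * (w + w) := by
          unfold CWr; rw [hw]; ring
        rw [e1, ofReal_w2 hw0]
        unfold H352.ZZ
        have e3 : (25 : ℝ≥0∞) ^ 2 * 16 = 10000 := by norm_num
        rw [← e3]
        ring

end wx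

end Vale.Agent.P159.H358
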