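import Vale.Agent.P159.H358.Hr3

/-!
P159, module HAT, part 4: the gas at the mass `1/x²`, `l ≤ x ≤ 2 l`, satisfies the hypotheses of
the decay theorem.
-/

open scoped ENNReal NNReal BigOperators
open Finset

set_option linter.unusedSectionVars false
set_option linter.unusedDecidableInType false

namespace Vale.Agent.P159.H358

open Vale.Agent.P159.TM Vale.Agent.P159.TM.H60 Vale.Agent.P159.TM.H459 Vale.Agent.P159.TM.H576
  Vale.Agent.P159.TM.H352 Vale.Agent.P159.TM.H634 Vale.Agent.P159.TM.H131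
open Vale.Agent.P159.H353 (wI wI_nonneg wI_neg wI_anti wI_zero_pos)
open Vale.Agent.P159.TM.H764 (tl)

variable {N n : ℕ} [NeZero N] [NeZero n] {b x : ℝ}

/-- **the hypotheses of the gas of one copy at real mass** -/
theorem hyp_r (hb : 0 ≤ b) {l : ℕ} (hl : 0 < l) (hN : N = n * l) (hlx : (l : ℝ) ≤ x)
    (hx2 : x ≤ 2 * l) {K Kf : ℝ≥0} {D : ℕ} {a y : ℝ}
    (hy : 0 ≤ y) (ha : 0 ≤ a) {ε : ℝ≥0} (hε : (ε : ℝ) = 1 / x ^ 2)
    (hs : (1 - y) * (l : ℝ) ^ 2 ≤ ∑ w, H41.G b N (l : ℝ) w)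
    (htl : ∀ s : ℕ, 1 ≤ s → tl (H41.G b N (2 * (l : ℝ))) s ≤
      (2 + 80 * a) * (2 * (l : ℝ)) ^ 2 * (y + (2 * (l : ℝ)) ^ 2 / (s : ℝ) ^ 2))
    (hF : FATH (sT N b x hb) n l ε Kf D)
    (hKf : Kf ≤ K) (hK20 : K20 ≤ K) (hK80 : 80 ≤ K)
    (hKa : 4 * (4 + 50 * (4 * (2 + 80 * a))) ≤ K)
    (hKt : 8 * (1 + 2 * (16 * (2 + 80 * a))) ≤ K) :
    (H352.gas (sT N b x hb) rfl rfl ε hl hN).Hyp K D (4 * y) := by
  have hlR : (0 : ℝ) < l := by exact_mod_cast hl
  have hx : 0 < x := hlR.trans_le hlx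
  have h0 := ZZ_sT_ne_zero (N := N) hb hx
  have h1 := ZZ_sT_ne_top (N := N) hb hx
  have hε0 : ε ≠ 0 := by
    intro h
    rw [h] at hε
    have : (0 : ℝ) < 1 / x ^ 2 := by positivity
    rw [← hε] at this
    simp at this
  have hεl : (ε : ℝ) * (l : ℝ) ^ 2 ≤ 1 := by
    rw [hε, one_div, inv_mul_le_one₀ (by positivity)]
    exact pow_le_pow_left₀ hlR.le hlx 2
  have hm2 : ∀ c, H352.S (H352.gas (sT N b x hb) rfl rfl ε hl hN).p
      (fun i => (H352.gas (sT N b x hb) rfl rfl ε hl hN).X i c ^ 2) ≤ K := by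
    intro c
    have := mom_gas (hs := rfl) (ht := rfl) (hl := hl) (hN := hN) (emb_sT hb hx hl hN hlx hε)
      h0 h1 c (m := 1) (by norm_num)
    refine this.trans ((mom_const (by norm_num)).trans ?_)
    exact_mod_cast hK20
  have hF' := hF.mono hKf
  have hG := H41.G_nonneg (N := N) hb hx
  -- tails
  have htx : ∀ s : ℕ, 1 ≤ s → tl (H41.G b N x) s ≤
      (2 + 80 * a) * (4 * (l : ℝ) ^ 2) * (y + 4 * (l : ℝ) ^ 2 / (s : ℝ) ^ 2) := by
    intro s hs1
    refine ((tl_len_mono hb hx hx2 s).trans (htl s hs1)).trans (le_of_eq ?_)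
    ring
  refine
    { one_le := ?_
      mom2 := hm2
      mom20 := ?_
      fat2 := ?_
      y_nonneg := by positivity
      cov := ?_
      fat1 := ?_
      tilt := ?_ }
  · refine le_trans ?_ hK20
    unfold K20
    have : (1 : ℝ≥0) ≤ (Nat.factorial 20 : ℕ) := by
      exact_mod_cast Nat.factorial_pos 20
    calc (1 : ℝ≥0) ≤ (Nat.factorial 20 : ℕ) := this
      _ ≤ 4 * (Nat.factorial 20 : ℕ) := le_mul_of_one_le_left (by positivity) (by norm_num)
  · intro c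
    have := mom_gas (hs := rfl) (ht := rfl) (hl := hl) (hN := hN) (emb_sT hb hx hl hN hlx hε)
      h0 h1 c (m := 10) (by norm_num)
    refine this.trans ((mom_const (by norm_num)).trans ?_)
    exact_mod_cast hK20
  · intro β c c'
    exact fat2_gas hF' hε0 h1 hm2 β c c'
  · intro β R hyR
    set G' : TV N → ℝ := fun w => H41.G b N x w / 4 with hG'
    have hCV : CV (sT N b x hb) 4 G' := by
      intro u v
      refine (cv_sT hb hx u v).trans (le_of_eq ?_)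
      congr 2
      rw [hG']
      ring
    have hG'0 : ∀ w, 0 ≤ G' w := fun w => by
      rw [hG']
      have := hG w
      positivity
    have hsw : ∀ w, G' (w.2, w.1) = G' w := fun w => by
      simp only [hG']
      rw [H41.G_swap b x w]
    have hsum : ∑ w, G' w ≤ (l : ℝ) ^ 2 := by
      simp only [hG']
      rw [← Finset.sum_div]
      have h2 : ∑ w, H41.G b N x w ≤ x ^ 2 := by
        have h3 := H41.Gh_le (N := N) hb hx 0
        rw [H764.Gh_zero] at h3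
        exact h3
      have h4 : x ^ 2 ≤ (2 * (l : ℝ)) ^ 2 := pow_le_pow_left₀ hx.le hx2 2
      nlinarith
    have htl' : ∀ s : ℕ, 1 ≤ s → tl G' s ≤
        (4 * (2 + 80 * a)) * (l : ℝ) ^ 2 * (4 * y + (l : ℝ) ^ 2 / (s : ℝ) ^ 2) := by
      intro s hs1
      have e : tl G' s = tl (H41.G b N x) s / 4 := by
        unfold tl
        rw [Finset.sum_div]
      rw [e]
      have h2 := htx s hs1
      have h3 : (2 + 80 * a) * (4 * (l : ℝ) ^ 2) * (y + 4 * (l : ℝ) ^ 2 / (s : ℝ) ^ 2) / 4 ≤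
          (4 * (2 + 80 * a)) * (l : ℝ) ^ 2 * (4 * y + (l : ℝ) ^ 2 / (s : ℝ) ^ 2) := by
        have e1 : (2 + 80 * a) * (4 * (l : ℝ) ^ 2) * (y + 4 * (l : ℝ) ^ 2 / (s : ℝ) ^ 2) / 4 =
            ((2 + 80 * a) * (l : ℝ) ^ 2) * (y + 4 * ((l : ℝ) ^ 2 / (s : ℝ) ^ 2)) := by ring
        have e2 : (4 * (2 + 80 * a)) * (l : ℝ) ^ 2 * (4 * y + (l : ℝ) ^ 2 / (s : ℝ) ^ 2) =
            ((2 + 80 * a) * (l : ℝ) ^ 2) * (16 * y + 4 * ((l : ℝ) ^ 2 / (s : ℝ) ^ 2)) := by ring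
        rw [e1, e2]
        refine mul_le_mul_of_nonneg_left ?_ (by positivity)
        linarith
      linarith
    have h2 := cov_gas (hs := rfl) (ht := rfl) (hl := hl) (hN := hN) (κ := 4)
      (A := 4 * (2 + 80 * a)) (by norm_num) hG'0 hsw hCV h0 h1 (by positivity)
      (by positivity : 0 ≤ 4 * y) hsum htl' hεl β R hyR
    refine h2.trans ?_
    gcongr
    rw [← ENNReal.ofReal_coe_nnreal]
    exact ENNReal.ofReal_le_ofReal hKa
  · intro c R β hR
    exact fat1_gas hF' hε0 h1 hm2 c R β hR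
  · intro c R M _ _ hM hXi
    refine tiltT_r (L := 2 * l) hb hl hN hlx (by push_cast; exact hx2) (by push_cast; linarith)
      hε (by positivity : 0 ≤ 4 * y) (by positivity : 0 ≤ 16 * (2 + 80 * a))
      (sum_low hb hlR hlx hx2 hy hs) ?_ (by linarith) hXi hK80 hKt
    intro s hs1
    have hs2 : 1 ≤ s := by omega
    refine (htx s hs2).trans ?_
    have hl2 : (l : ℝ) ^ 2 ≤ x ^ 2 := pow_le_pow_left₀ hlR.le hlx 2
    have e1 : (2 + 80 * a) * (4 * (l : ℝ) ^ 2) * (y + 4 * (l : ℝ) ^ 2 / (s : ℝ) ^ 2) ≤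
        (2 + 80 * a) * (4 * x ^ 2) * (y + 4 * x ^ 2 / (s : ℝ) ^ 2) := by gcongr
    refine e1.trans ?_
    have e2 : (2 + 80 * a) * (4 * x ^ 2) * (y + 4 * x ^ 2 / (s : ℝ) ^ 2) =
        ((2 + 80 * a) * x ^ 2) * (4 * y + 16 * (x ^ 2 / (s : ℝ) ^ 2)) := by ring
    have e3 : 16 * (2 + 80 * a) * x ^ 2 * (4 * y + x ^ 2 / (s : ℝ) ^ 2) =
        ((2 + 80 * a) * x ^ 2) * (64 * y + 16 * (x ^ 2 / (s : ℝ) ^ 2)) := by ring
    rw [e2, e3]
    refine mul_le_mul_of_nonneg_left ?_ (by positivity)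
    linarith

end Vale.Agent.P159.H358
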