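import Vale.Agent.P159.H358.Hr4
import Vale.Agent.P159.TM.H265.Dec

/-!
P159, module HAT, part 5: Theorem A (1) at every real mass `1/x²`, `l ≤ x ≤ 2 l`, from the fatness
of the clusters at this mass.
-/

open scoped ENNReal NNReal BigOperators
open Finset

set_option linter.unusedSectionVars false
set_option linter.unusedDecidableInType false

namespace Vale.Agent.P159.H358

open Vale.Agent.P159.TM Vale.Agent.P159.TM.H60 Vale.Agent.P159.TM.H459 Vale.Agent.P159.TM.H576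
  Vale.Agent.P159.TM.H352 Vale.Agent.P159.TM.H634 Vale.Agent.P159.TM.H131
open Vale.Agent.P159.H353 (wI wI_nonneg wI_neg wI_anti wI_zero_pos)
open Vale.Agent.P159.TM.H764 (tl)

/-- Theorem A (1) at the mass `1/x²` -/
def HAr (N : ℕ) [NeZero N] (b : ℝ) (ξ : ℕ) (x : ℝ) (hb : 0 ≤ b) (y c C : ℝ) : Prop :=
  ∀ (x0 : TV N) (n : ℕ), (n : ℝ) * y ≤ c * ξ →
    Spec.Ele (sT N b x hb) (Spec.WF (sT N b x hb) (ball x0 ξ) (ball x0 n))
      (C * (ξ : ℝ) ^ 4 * Real.exp (-(c * n / ξ)))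

theorem HAr_nat (N : ℕ) [NeZero N] (b : ℝ) (ξ : ℕ) (hb : 0 ≤ b) (y c C : ℝ) :
    HAr N b ξ (ξ : ℝ) hb y c C ↔ H265.HA N b ξ hb y c C := Iff.rfl

/-- fatness at real mass (statement) -/
def FathR (C2 bb : ℝ) : Prop :=
  ∃ W0 : ℝ, ∃ X0 : ℕ, ∃ K : ℝ≥0, 1 ≤ K ∧
    ∀ (N n : ℕ) [NeZero N] [NeZero n] (b : ℝ) (hb : 0 ≤ b), 0 < b → b ≤ bb →
    ∀ l : ℕ, X0 ≤ l → 0 < l → 2 ≤ n → N = n * l →
    ∀ τ : ℝ, 1 / (2 * (l : ℝ)) ^ 2 ≤ τ → τ ≤ 1 / (l : ℝ) ^ 2 →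
    ∀ W : ℝ, W0 ≤ W → H764.H2 C2 W (l : ℝ) (H37.Gt N b τ) → ∀ ε : ℝ≥0,
    1 ≤ 4 * (ε : ℝ) * (l : ℝ) ^ 2 →
    ∀ D, 4 ≤ D → FATH (S1 (tS (N := N)) tT (fun _ => hb) (fun _ => τ)) n l ε K D

/-- the tail of the kernel at length `2 l` -/
theorem tl_two (N : ℕ) [NeZero N] {b : ℝ} (hb : 0 ≤ b) {l : ℕ} (hl : 0 < l) {a y : ℝ}
    (hy : 0 ≤ y) (ha : 0 ≤ a)
    (h : H764.QU (((2 * l : ℕ) : ℝ)) (Spec.GT N b (2 * l)) y a) (s : ℕ) (hs : 1 ≤ s) :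
    tl (H41.G b N (2 * (l : ℝ))) s ≤
      (2 + 80 * a) * (2 * (l : ℝ)) ^ 2 * (y + (2 * (l : ℝ)) ^ 2 / (s : ℝ) ^ 2) := by
  have h1 := (kerOne N b (2 * l) hb (by omega)).tl a y h hy ha s hs
  have e : (((2 * l : ℕ) : ℝ)) = 2 * (l : ℝ) := by push_cast; ring
  rw [← e]
  exact h1

/-- **Theorem A (1) at real mass, from fatness** -/
theorem hat_of {b1 : ℝ} (hb1 : 0 < b1) (b2 a : ℝ) (hFR : FathR 10 (max b2 1)) :
    ∃ W₀ : ℝ, ∀ W : ℝ, W₀ ≤ W → ∃ c C ys : ℝ, ∃ X : ℕ, 0 < c ∧ 0 < C ∧ 0 < ys ∧ 1 ≤ X ∧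
    ∀ (N : ℕ) [NeZero N] (b : ℝ) (hb : 0 ≤ b) (l : ℕ) (y x : ℝ),
      Spec.Rng b1 b2 a W ys X N b l y → Spec.Rng b1 b2 a W ys X N b (2 * l) y →
      (l : ℝ) ≤ x → x ≤ 2 * l → HAr N b (2 * l) x hb y c C := by
  obtain ⟨W0, X0, Kf, hKf, hfath⟩ := hFR
  set a' : ℝ := max a 0 with ha'
  have ha0 : 0 ≤ a' := le_max_right _ _
  refine ⟨W0, fun W hW => ?_⟩
  set ka : ℝ := 4 * (4 + 50 * (4 * (2 + 80 * a'))) with hka
  set kt : ℝ := 8 * (1 + 2 * (16 * (2 + 80 * a'))) with hkt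
  have hka0 : 0 ≤ ka := by positivity
  have hkt0 : 0 ≤ kt := by positivity
  set K : ℝ≥0 := max (max Kf 80) (max K20 (max ⟨ka, hka0⟩ ⟨kt, hkt0⟩)) with hKdef
  have k1 : Kf ≤ K := (le_max_left _ _).trans (le_max_left _ _)
  have k2 : (80 : ℝ≥0) ≤ K := (le_max_right _ _).trans (le_max_left _ _)
  have k3 : K20 ≤ K := (le_max_left _ _).trans (le_max_right _ _)
  have k4 : ka ≤ (K : ℝ) := by
    have : (⟨ka, hka0⟩ : ℝ≥0) ≤ K :=
      ((le_max_left _ _).trans (le_max_right _ _)).trans (le_max_right _ _)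
    exact_mod_cast this
  have k5 : kt ≤ (K : ℝ) := by
    have : (⟨kt, hkt0⟩ : ℝ≥0) ≤ K :=
      ((le_max_right _ _).trans (le_max_right _ _)).trans (le_max_right _ _)
    exact_mod_cast this
  have k6 : (80 : ℝ) ≤ (K : ℝ) := by exact_mod_cast k2
  have kone : 1 ≤ K := hKf.trans k1
  have hr := rate_pos kone 4
  have hCW : 0 < CWr K 4 := by
    unfold CWr
    have : (0 : ℝ) < K := by exact_mod_cast (zero_lt_one.trans_le kone)
    positivity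
  refine ⟨min (rate K 4) (1 / 8), CWr K 4, 1 / 10, max X0 2,
    lt_min hr (by norm_num), hCW, by norm_num, ?_, ?_⟩
  · exact (by norm_num : 1 ≤ 2).trans (le_max_right _ _)
  intro N _ b hb l y x hR hR2 hlx hx2 x0 m hm
  have hX0 : X0 ≤ max X0 2 := le_max_left _ _
  have hX2 : 2 ≤ max X0 2 := le_max_right _ _
  have hl2 : 2 ≤ l := hX2.trans hR.hX
  have hl : 0 < l := by omega
  have hlR : (0 : ℝ) < l := by exact_mod_cast hl
  have hx : 0 < x := hlR.trans_le hlx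
  obtain ⟨n, hn⟩ := hR.hd
  have hN : N = n * l := by rw [hn, mul_comm]
  have hnX : max X0 2 ≤ n := by
    have h1 := hR.hK
    rw [hN] at h1
    exact Nat.le_of_mul_le_mul_right h1 hl
  have hn2 : 2 ≤ n := hX2.trans hnX
  have : NeZero n := ⟨by omega⟩
  have hb0 : 0 < b := hb1.trans_le hR.hb1
  have hy := hR.y0
  have hy1 : y ≤ 1 / 10 := hR.y1
  have hRa := Rng.mono hR (le_max_left a 0)
  have hRa2 := Rng.mono hR2 (le_max_left a 0)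
  rw [← ha'] at hRa hRa2
  -- the weight
  set ε : ℝ≥0 := ⟨1 / x ^ 2, by positivity⟩ with hεd
  have hε : (ε : ℝ) = 1 / x ^ 2 := rfl
  have hε4 : 1 ≤ 4 * (ε : ℝ) * (l : ℝ) ^ 2 := by
    rw [hε]
    have h1 : x ^ 2 ≤ (2 * (l : ℝ)) ^ 2 := pow_le_pow_left₀ hx.le hx2 2
    have h2 : 4 * (1 / x ^ 2) * (l : ℝ) ^ 2 = (2 * (l : ℝ)) ^ 2 / x ^ 2 := by ring
    rw [h2, one_le_div (by positivity)]
    exact h1
  -- fatness
  have hτ1 : 1 / (2 * (l : ℝ)) ^ 2 ≤ 1 / x ^ 2 :=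
    one_div_le_one_div_of_le (by positivity) (pow_le_pow_left₀ hx.le hx2 2)
  have hτ2 : 1 / x ^ 2 ≤ 1 / (l : ℝ) ^ 2 :=
    one_div_le_one_div_of_le (by positivity) (pow_le_pow_left₀ hlR.le hlx 2)
  have hH2 : H764.H2 10 W (l : ℝ) (H37.Gt N b (1 / x ^ 2)) := by
    have e : H37.Gt N b (1 / x ^ 2) = H41.G b N x := funext fun w => H864.Gt_eq_G hx w
    rw [e]
    exact H2_len hb hlR hlx (by norm_num) hRa.hyp.h2
  have hF := hfath N n b hb hb0 (hR.hb2.trans (le_max_left _ _)) l (hX0.trans hR.hX) hl hn2 hN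
    (1 / x ^ 2) hτ1 hτ2 W hW hH2 ε hε4 4 le_rfl
  have hF' : FATH (sT N b x hb) n l ε Kf 4 := by
    rw [sT_S1 hb]
    exact hF
  have hs : (1 - y) * (l : ℝ) ^ 2 ≤ ∑ w, H41.G b N (l : ℝ) w := by
    have h3 := hRa.hyp.qu.qk 0
    have h4 : H764.EE (0 : ZMod N × ZMod N) = 0 := by
      unfold H764.EE
      simp [H764.cN_zero]
    rw [h4, mul_zero, sub_zero, H764.Gh_zero] at h3
    exact h3
  have hyp := hyp_r (K := K) (D := 4) hb hl hN hlx hx2 hy ha0 hε hs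
    (tl_two N hb hl hy ha0 hRa2.hyp.qu) hF' k1 k3 k6 k4 k5
  have h0 := ZZ_sT_ne_zero (N := N) hb hx
  have h1 := ZZ_sT_ne_top (N := N) hb hx
  have hm' : (m : ℝ) * (4 * y) ≤ l := by
    have h2 : (m : ℝ) * y ≤ 1 / 8 * ((2 * l : ℕ) : ℝ) :=
      hm.trans (mul_le_mul_of_nonneg_right (min_le_right _ _) (Nat.cast_nonneg _))
    push_cast at h2
    linarith
  refine Ele.mono (WF_bound_r hyp hε4 h0 h1 (by linarith) x0 m hm') ?_
  push_cast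
  have e1 : Real.exp (-(rate K 4 * m / l)) ≤
      Real.exp (-(min (rate K 4) (1 / 8) * m / (2 * l))) := by
    apply Real.exp_le_exp.2
    have h2 : min (rate K 4) (1 / 8) * m / (2 * l) ≤ rate K 4 * m / l := by
      have h3 : (0 : ℝ) ≤ min (rate K 4) (1 / 8) * m := by positivity
      calc min (rate K 4) (1 / 8) * m / (2 * l) ≤ min (rate K 4) (1 / 8) * m / l := by
            gcongr
            linarith
        _ ≤ rate K 4 * m / l := by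
            gcongr
            exact min_le_left _ _
    linarith
  have e2 : (l : ℝ) ^ 4 ≤ (2 * (l : ℝ)) ^ 4 := pow_le_pow_left₀ hlR.le (by linarith) 4
  calc CWr K 4 * (l : ℝ) ^ 4 * Real.exp (-(rate K 4 * m / l))
      ≤ CWr K 4 * (2 * (l : ℝ)) ^ 4 * Real.exp (-(min (rate K 4) (1 / 8) * m / (2 * l))) := by
        gcongr
    _ = _ := rfl

end Vale.Agent.P159.H358
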