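import Vale.Agent.P159.H358.Loc8q

/-!
P159, row LOC8, energy form on the torus, letters of `H37/Spec0`:
`0 ≤ dLg ≤ 9 sqrt (sqrt C A k) exp Λ exp (- c n / 4 ξ)` as soon as `log Z(2J)/Z(0) ≤ Λ`,
`|J| ≤ A / ξ²` supported in the `k` blocks `ball x ξ`, `x ∈ I`, at distance `n` from `P`.
-/

open Finset MeasureTheory
open scoped ENNReal

set_option linter.unusedSectionVars false
set_option linter.unusedDecidableInType false

namespace Vale.Agent.P159.H358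

open Vale.Agent.P159.TM.H60 Vale.Agent.P159.TM.H682
  Vale.Agent.P159.T1.H934 Vale.Agent.P159.TM.H708
open Vale.Agent.P159.TM.Spec Vale.Agent.P159.TM.H459 Vale.Agent.P159.TM.SpecC
open Vale.Agent.P159.TM.H265 (DT one' HA s1_eq xi_le_wf ofReal_tsum_le tot_summable tot_tsum)
open Vale.Agent.P159.TM (H41.ms_pos H576.Ex)
open Vale.Agent.P159.TM.H104 (EM Lg)
open Vale.Agent.P159.TM.H705 (outB pt pt_sub sn_pt_sub dB)
open Vale.Agent.P159.H37

variable {N : ℕ} [NeZero N]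

theorem SS_exp_pos {b : ℝ} (hb : 0 ≤ b) {ξ : ℝ} (hξ : 0 < ξ) (X : Set (V N)) (J : V N → ℝ) :
    0 < SS (DT N) (fun _ => b) (ms ξ) X fun h => Real.exp (lf J h) := by
  have hm := TM.H41.ms_pos (N := N) hξ
  rw [ss_exp (fun _ => hb) hm]
  have h1 := SS_one_pos (DT N) (J := fun _ => b) (fun _ => hb) hm X
  refine lt_of_lt_of_le h1 ?_
  unfold SS
  have s1 : Summable fun h => bw (DT N) (fun _ => b) (ms ξ) X h * 1 :=
    (bw_summable (fun _ => hb) hm (Gr.one (V := V N))).of_abs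
  have s2 : Summable fun h => bw (DT N) (fun _ => b) (ms ξ) X h * Real.cosh (lf J h) :=
    (bw_summable (fun _ => hb) hm (gr_cosh J)).of_abs
  exact s1.tsum_le_tsum (fun h => mul_le_mul_of_nonneg_left (Real.one_le_cosh _)
    (bw_nonneg (fun _ => hb) h)) s2

/-- `log Z` never drops below its value at source zero -/
theorem Lg_zero_le {b : ℝ} (hb : 0 ≤ b) {ξ : ℝ} (hξ : 0 < ξ) (J : V N → ℝ) :
    Lg (wt N b (1 / ξ ^ 2)) 0 ≤ Lg (wt N b (1 / ξ ^ 2)) J := by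
  have hm := TM.H41.ms_pos (N := N) hξ
  have e1 : ∀ J : V N → ℝ, Lg (wt N b (1 / ξ ^ 2)) J =
      Real.log (SS (DT N) (fun _ => b) (ms ξ) ∅ fun h => Real.exp (lf J h)) := by
    intro J
    rw [← Zs_wt]
    rfl
  rw [e1, e1]
  refine Real.log_le_log (SS_exp_pos hb hξ _ _) ?_
  rw [ss_exp (fun _ => hb) hm, ss_exp (fun _ => hb) hm]
  unfold SS
  refine Summable.tsum_le_tsum (fun h => mul_le_mul_of_nonneg_left ?_ (bw_nonneg (fun _ => hb) h))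
    (bw_summable (fun _ => hb) hm (gr_cosh 0)).of_abs
    (bw_summable (fun _ => hb) hm (gr_cosh J)).of_abs
  have : lf (0 : V N → ℝ) h = 0 := by unfold lf; simp
  show Real.cosh (lf 0 h) ≤ Real.cosh (lf J h)
  rw [this, Real.cosh_zero]
  exact Real.one_le_cosh _

/-- **LOC8, energy form.** `HA` is Theorem A (1). -/
theorem loc8q {b : ℝ} (hb : 0 ≤ b) {ξ : ℕ} (hξ : 0 < ξ) {y c C : ℝ} (hC : 0 < C)
    (hT : HA N b ξ hb y c C) {I : Finset (V N)} {n : ℕ} (hn : ξ ≤ n)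
    (hny : (n : ℝ) * y ≤ c * ξ) {P : Finset (V N)} (hP : ∀ x ∈ I, Disjoint P (ball x n))
    {J : V N → ℝ} {A Λ : ℝ} (hA : 0 ≤ A) (hJ : ∀ v, |J v| ≤ A / (ξ : ℝ) ^ 2)
    (hs : ∀ v, J v ≠ 0 → ∃ x ∈ I, v ∈ ball x ξ)
    (hΛ : Lg (wt N b (1 / (ξ : ℝ) ^ 2)) ((2 : ℝ) • J) - Lg (wt N b (1 / (ξ : ℝ) ^ 2)) 0 ≤ Λ) :
    0 ≤ dLg (wt N b (1 / (ξ : ℝ) ^ 2)) P J ∧
      dLg (wt N b (1 / (ξ : ℝ) ^ 2)) P J ≤
        9 * Real.sqrt (Real.sqrt C * A * I.card) * Real.exp Λ *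
          Real.exp (-(c * n / (4 * ξ))) := by
  have hξ' : (0 : ℝ) < ξ := by exact_mod_cast hξ
  have hm := TM.H41.ms_pos (N := N) hξ'
  refine ⟨dLg_nonneg hb hξ' P J, ?_⟩
  have hL0 := Lg_zero_le (N := N) hb hξ' ((2 : ℝ) • J)
  have hΛ0 : 0 ≤ Λ := by linarith
  -- the trivial cases
  by_cases h0 : A = 0 ∨ I = ∅
  · have hJ0 : J = 0 := by
      funext v
      by_contra hv
      rcases h0 with h0 | h0
      · have h1 := hJ v
        rw [h0, zero_div] at h1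
        exact hv (abs_nonpos_iff.1 h1)
      · obtain ⟨x, hx, _⟩ := hs v hv
        rw [h0] at hx
        exact absurd hx (Finset.notMem_empty x)
    have : dLg (wt N b (1 / (ξ : ℝ) ^ 2)) P J = 0 := by
      unfold dLg
      rw [hJ0]
      ring
    rw [this]
    positivity
  push Not at h0
  obtain ⟨hA0, hI⟩ := h0
  have hA1 : 0 < A := lt_of_le_of_ne hA (Ne.symm hA0)
  have hI' : I.Nonempty := hI
  have hk : 0 < (I.card : ℝ) := by exact_mod_cast Finset.card_pos.2 hI'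
  set w := C * Real.exp (-(c * n / ξ)) with hw
  have hw0 : 0 < w := by positivity
  have hE : ∀ x ∈ I, Ele (σ1 N b ξ hb) (WF (σ1 N b ξ hb) (ball x ξ) (ball x n))
      (w * (ξ : ℝ) ^ 4) := by
    intro x _
    have h1 := hT x n hny
    have e : w * (ξ : ℝ) ^ 4 = C * (ξ : ℝ) ^ 4 * Real.exp (-(c * n / ξ)) := by
      rw [hw]; ring
    rw [e]
    exact h1
  set M := A / (ξ : ℝ) ^ 2 with hM
  have hM0 : 0 < M := by positivity
  have h1 := sq_blocks hb hξ I hn hP hM0.le hJ hs (by positivity : 0 ≤ w * (ξ : ℝ) ^ 4) hE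
  set a := Real.sqrt C * A * I.card with ha
  have hsC : 0 < Real.sqrt C := Real.sqrt_pos.2 hC
  have ha0 : 0 < a := by positivity
  set δ := Real.sqrt a * Real.exp (-(c * n / (4 * ξ))) with hδ
  have hδ0 : 0 < δ := mul_pos (Real.sqrt_pos.2 ha0) (Real.exp_pos _)
  have e1 : (I.card : ℝ) ^ 2 * M ^ 2 * (w * (ξ : ℝ) ^ 4) = δ ^ 4 := by
    have e2 : δ ^ 4 = a ^ 2 * Real.exp (-(c * n / ξ)) := by
      rw [hδ, mul_pow]
      have e3 : Real.sqrt a ^ 4 = a ^ 2 := by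
        have : Real.sqrt a ^ 4 = (Real.sqrt a ^ 2) ^ 2 := by ring
        rw [this, Real.sq_sqrt ha0.le]
      rw [e3, ← Real.exp_nat_mul]
      congr 2
      push_cast
      field_simp
    rw [e2, ha, hM, hw, mul_pow, mul_pow, Real.sq_sqrt hC.le]
    field_simp
  rw [e1] at h1
  have hX : SS (grd (tS (N := N)) tT) (fun _ => b) (ms (ξ : ℝ)) ∅
      (fun h => Real.exp (lf (fun v => 2 * J v) h)) ≤
      Real.exp Λ * SS (grd (tS (N := N)) tT) (fun _ => b) (ms (ξ : ℝ)) ∅ fun _ => 1 := by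
    have p1 := SS_exp_pos (N := N) hb hξ' ∅ ((2 : ℝ) • J)
    have p0 := SS_one_pos (DT N) (J := fun _ => b) (fun _ => hb) hm ∅
    have e2 : Lg (wt N b (1 / (ξ : ℝ) ^ 2)) ((2 : ℝ) • J) =
        Real.log (SS (DT N) (fun _ => b) (ms ξ) ∅ fun h => Real.exp (lf ((2 : ℝ) • J) h)) := by
      rw [← Zs_wt]
      rfl
    have e3 : Lg (wt N b (1 / (ξ : ℝ) ^ 2)) 0 =
        Real.log (SS (DT N) (fun _ => b) (ms ξ) ∅ fun _ => 1) := by
      rw [← SS_one_eq, ← Zs_wt]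
      rfl
    rw [e2, e3, ← Real.log_div p1.ne' p0.ne'] at hΛ
    have h2 := (Real.log_le_iff_le_exp (div_pos p1 p0)).1 hΛ
    rw [div_le_iff₀ p0] at h2
    exact h2
  have h3 := loc8q_mass (tS (N := N)) tT (J := fun _ => b) (fun _ => hb) hm P J hδ0
    (Real.one_le_exp hΛ0) hX h1
  rw [dLg_eq hb hξ']
  set R1 := SS (DT N) (fun _ => b) (ms (ξ : ℝ)) ∅ (fun h => Real.exp (lf J h)) /
        SS (DT N) (fun _ => b) (ms (ξ : ℝ)) ∅ (fun _ => 1) with hR1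
  set R2 := SS (DT N) (fun _ => b) (ms (ξ : ℝ)) (P : Set (V N)) (fun h => Real.exp (lf J h)) /
        SS (DT N) (fun _ => b) (ms (ξ : ℝ)) (P : Set (V N)) (fun _ => 1) with hR2
  have p1 : 0 < R1 := div_pos (SS_exp_pos hb hξ' _ _) (SS_one_pos (DT N) (fun _ => hb) hm _)
  have p2 : 0 < R2 := div_pos (SS_exp_pos hb hξ' _ _) (SS_one_pos (DT N) (fun _ => hb) hm _)
  set q := 9 * δ * Real.exp Λ with hq
  have hq0 : 0 ≤ q := by positivity
  have h4 : Real.log R1 ≤ Real.log R2 + q := by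
    have h5 := Real.log_le_log p1 h3
    rw [Real.log_mul p2.ne' (by positivity)] at h5
    have h6 : Real.log (1 + q) ≤ q := by
      have := Real.log_le_sub_one_of_pos (show 0 < 1 + q by positivity)
      linarith
    linarith
  have e4 : q = 9 * Real.sqrt a * Real.exp Λ * Real.exp (-(c * n / (4 * ξ))) := by
    rw [hq, hδ]
    ring
  rw [← e4]
  linarith

/-- **LOC8, energy form, one torus, source on `ℕ × ℕ`.** -/
theorem loc8q_src {b : ℝ} (hb : 0 ≤ b) {ξ : ℕ} (hξ : 0 < ξ) {y c C : ℝ}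
    (hC : 0 < C) (hT : HA N b ξ hb y c C) {I : Finset (ℕ × ℕ)} {r n : ℕ} (hr : ξ + 1 ≤ r)
    (hny : (r : ℝ) * y ≤ c * ξ) (hI : ∀ p ∈ I, (r < p.1 ∧ p.1 + r < n) ∧ r < p.2 ∧ p.2 + r < n)
    (hn : n ≤ N) {j : ℕ → ℕ → ℝ} {A Λ : ℝ} (hA : 0 ≤ A) (hj : ∀ i k, |j i k| ≤ A / (ξ : ℝ) ^ 2)
    (hs : ∀ i k, j i k ≠ 0 → ∃ p ∈ I, dB p (i, k) ≤ ξ)
    (hΛ : Lg (wt N b (1 / (ξ : ℝ) ^ 2)) ((2 : ℝ) • src N n j) -
      Lg (wt N b (1 / (ξ : ℝ) ^ 2)) 0 ≤ Λ) :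
    0 ≤ dLg (wt N b (1 / (ξ : ℝ) ^ 2)) (outB N n) (src N n j) ∧
      dLg (wt N b (1 / (ξ : ℝ) ^ 2)) (outB N n) (src N n j) ≤
        9 * Real.sqrt (Real.sqrt C * A * I.card) * Real.exp Λ *
          Real.exp (-(c * r / (4 * ξ))) := by
  classical
  have h1 := loc8q hb hξ hC hT (I := I.image (pt N)) (n := r) (by omega) hny (P := outB N n)
    (by
      intro x hx
      obtain ⟨p, hp, rfl⟩ := Finset.mem_image.1 hx
      have := hI p hp
      exact disj_ball this.1.1 this.1.2 this.2.1 this.2.2 hn)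
    (J := src N n j) (Λ := Λ) hA
    (by
      intro v
      unfold src
      split_ifs
      · exact hj _ _
      · rw [abs_zero]; positivity)
    (by
      intro v hv
      unfold src at hv
      split_ifs at hv with h2
      · obtain ⟨p, hp, hd⟩ := hs _ _ hv
        refine ⟨pt N p, Finset.mem_image_of_mem _ hp, ?_⟩
        rw [mem_ball]
        have e1 : v = pt N (v.1.val, v.2.val) := by
          unfold pt
          simp
        unfold sd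
        rw [e1, sn_pt_sub (r := ξ) ?_ hd]
        · exact hd
        · have := hI p hp
          omega
      · exact absurd rfl hv) hΛ
  refine ⟨h1.1, h1.2.trans ?_⟩
  have h2 : (((I.image (pt N)).card : ℕ) : ℝ) ≤ (I.card : ℝ) := by
    exact_mod_cast Finset.card_image_le
  have h3 : Real.sqrt (Real.sqrt C * A * (((I.image (pt N)).card : ℕ) : ℝ)) ≤
      Real.sqrt (Real.sqrt C * A * (I.card : ℝ)) :=
    Real.sqrt_le_sqrt (mul_le_mul_of_nonneg_left h2 (by positivity))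
  gcongr

/-- **LOC8, two tori, energy form**: the error -/
noncomputable def eps8q (C c A Λ : ℝ) (k r ξ : ℕ) : ℝ :=
  9 * Real.sqrt (Real.sqrt C * A * k) * Real.exp Λ * Real.exp (-(c * r / (4 * ξ)))

theorem loc8q_two {M : ℕ} [NeZero M] {b : ℝ} (hb : 0 ≤ b) {ξ : ℕ} (hξ : 0 < ξ)
    {y y' c C : ℝ} (hC : 0 < C) (hT : HA N b ξ hb y c C) (hT' : HA M b ξ hb y' c C)
    {I : Finset (ℕ × ℕ)} {r n : ℕ} (hr : ξ + 1 ≤ r)
    (hny : (r : ℝ) * y ≤ c * ξ) (hny' : (r : ℝ) * y' ≤ c * ξ)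
    (hI : ∀ p ∈ I, (r < p.1 ∧ p.1 + r < n) ∧ r < p.2 ∧ p.2 + r < n)
    (hn : n ≤ N) (hn' : n ≤ M) {j : ℕ → ℕ → ℝ} {A Λ : ℝ} (hA : 0 ≤ A)
    (hj : ∀ i k, |j i k| ≤ A / (ξ : ℝ) ^ 2)
    (hs : ∀ i k, j i k ≠ 0 → ∃ p ∈ I, dB p (i, k) ≤ ξ)
    (hΛ : Lg (wt N b (1 / (ξ : ℝ) ^ 2)) ((2 : ℝ) • src N n j) -
      Lg (wt N b (1 / (ξ : ℝ) ^ 2)) 0 ≤ Λ)
    (hΛ' : Lg (wt M b (1 / (ξ : ℝ) ^ 2)) ((2 : ℝ) • src M n j) -
      Lg (wt M b (1 / (ξ : ℝ) ^ 2)) 0 ≤ Λ) :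
    |(Lg (wt N b (1 / (ξ : ℝ) ^ 2)) (src N n j) - Lg (wt N b (1 / (ξ : ℝ) ^ 2)) 0) -
      (Lg (wt M b (1 / (ξ : ℝ) ^ 2)) (src M n j) - Lg (wt M b (1 / (ξ : ℝ) ^ 2)) 0)| ≤
      eps8q C c A Λ I.card r ξ := by
  have hξ' : (0 : ℝ) < ξ := by exact_mod_cast hξ
  have h1 := loc8q_src hb hξ hC hT hr hny hI hn hA hj hs hΛ
  have h2 := loc8q_src hb hξ hC hT' hr hny' hI hn' hA hj hs hΛ'
  have h3 := Lg_pin_two hn hn' hb hξ' j
  unfold dLg at h1 h2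
  unfold eps8q
  rw [abs_le]
  constructor <;> linarith [h1.1, h1.2, h2.1, h2.2]

end Vale.Agent.P159.H358
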