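import Vale.Agent.P159.H358.Hr5
import Vale.Agent.P159.H358.Loc8r

/-!
P159, module HAT, part 6: LOC8, energy form, at every real mass. `HAr` is Theorem A (1) at the mass
`1/ℓ²`, `HAt` the same in terms of the mass `τ`.
-/

open Finset MeasureTheory
open scoped ENNReal

set_option linter.unusedSectionVars false
set_option linter.unusedDecidableInType false

namespace Vale.Agent.P159.H358

open Vale.Agent.P159.TM.H60 Vale.Agent.P159.TM.H682
  Vale.Agent.P159.T1.H934 Vale.Agent.P159.TM.H708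
open Vale.Agent.P159.TM.Spec Vale.Agent.P159.TM.H459 Vale.Agent.P159.TM.SpecC
open Vale.Agent.P159.TM.H265 (DT one' HA s1_eq xi_le_wf ofReal_tsum_le tot_summable tot_tsum)
open Vale.Agent.P159.TM (H41.ms_pos H576.Ex)
open Vale.Agent.P159.TM.H104 (EM Lg)
open Vale.Agent.P159.TM.H705 (outB pt pt_sub sn_pt_sub dB)
open Vale.Agent.P159.H37

variable {N : ℕ} [NeZero N]

theorem sT_syM {b ℓ : ℝ} (hb : 0 ≤ b) :
    sT N b ℓ hb = syM (tS (N := N)) tT (fun _ => b) (ms ℓ) fun _ => hb := by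
  unfold sT syM sy
  exact TM.H634.one_congr rfl (TM.H265.aT_eq_gs (N := N) ℓ)

/-- the cluster functional bounds the mass in the clusters which meet `P` -/
theorem xi_sum_r {b : ℝ} (hb : 0 ≤ b) {ℓ : ℝ} (hl : 0 < ℓ) {B P Λ : Finset (V N)} (hB : B ⊆ Λ)
    (hP : Disjoint P Λ) {w : ℝ} (hw : 0 ≤ w) (hE : Ele (sT N b ℓ hb) (WF (sT N b ℓ hb) B Λ) w) :
    ∑ om : Finset (E N), ∑' u, ENNReal.ofReal
      ((syM (tS (N := N)) tT (fun _ => b) (ms ℓ) fun _ => hb).wt om u *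
        Xi (syM (tS (N := N)) tT (fun _ => b) (ms ℓ) fun _ => hb) (one' B) P om u) ≤
      ENNReal.ofReal (w * SS (DT N) (fun _ => b) (ms ℓ) ∅ fun _ => 1) := by
  rw [sT_syM hb] at hE
  set σ := syM (tS (N := N)) tT (fun _ => b) (ms ℓ) fun _ => hb with hσ
  unfold Ele at hE
  rw [TM.H576.Ex_one_real σ (tot_summable hb hl), tot_tsum hb, ← ENNReal.ofReal_mul hw] at hE
  refine le_trans ?_ hE
  rw [← Summable.tsum_finsetSum fun om _ => ENNReal.summable]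
  unfold TM.H576.Ex
  refine ENNReal.tsum_le_tsum fun x => Finset.sum_le_sum fun om _ => ?_
  rw [ENNReal.ofReal_mul (σ.wt_nonneg om x)]
  by_cases h0 : σ.wt om x = 0
  · rw [h0, ENNReal.ofReal_zero, zero_mul, zero_mul]
  · exact mul_le_mul' le_rfl (xi_le_wf σ hB hP h0)

/-- second moment for a source supported in blocks -/
theorem sq_blocks_r {b : ℝ} (hb : 0 ≤ b) {ℓ : ℝ} (hl : 0 < ℓ) {ξ : ℕ} (I : Finset (V N)) {n : ℕ}
    (hn : ξ ≤ n) {P : Finset (V N)} (hP : ∀ x ∈ I, Disjoint P (ball x n)) {g : V N → ℝ} {M : ℝ}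
    (hM : 0 ≤ M) (hg : ∀ v, |g v| ≤ M) (hs : ∀ v, g v ≠ 0 → ∃ x ∈ I, v ∈ ball x ξ) {w : ℝ}
    (hw : 0 ≤ w)
    (hE : ∀ x ∈ I, Ele (sT N b ℓ hb) (WF (sT N b ℓ hb) (ball x ξ) (ball x n)) w) :
    ∑ om : Finset (E N), ∑' u, ENNReal.ofReal
      ((syM (tS (N := N)) tT (fun _ => b) (ms ℓ) fun _ => hb).wt om u) *
        ENNReal.ofReal ((li (inG g (hull (tS (N := N)) tT om P)) u) ^ 2) ≤
      ENNReal.ofReal (((I.card : ℝ) ^ 2 * M ^ 2 * w) *
        SS (DT N) (fun _ => b) (ms ℓ) ∅ fun _ => 1) := by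
  classical
  have hm := TM.H41.ms_pos (N := N) hl
  set σ := syM (tS (N := N)) tT (fun _ => b) (ms ℓ) fun _ => hb with hσ
  set Z := SS (DT N) (fun _ => b) (ms ℓ) ∅ fun _ => 1 with hZ
  have hZ0 : 0 < Z := SS_one_pos (DT N) (fun _ => hb) hm ∅
  -- choice of a block
  set f : V N → V N := fun v => if h : g v ≠ 0 then (hs v h).choose else v with hf
  have hf1 : ∀ v, g v ≠ 0 → f v ∈ I ∧ v ∈ ball (f v) ξ := by
    intro v hv
    simp only [hf]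
    rw [dif_pos hv]
    exact (hs v hv).choose_spec
  set gi : V N → V N → ℝ := fun x v => if g v ≠ 0 ∧ f v = x then g v else 0 with hgi
  have hsum : ∀ v, g v = ∑ x ∈ I, gi x v := by
    intro v
    by_cases hv : g v = 0
    · rw [hv]
      symm
      refine Finset.sum_eq_zero fun x _ => ?_
      simp only [hgi]
      rw [if_neg (fun h => h.1 hv)]
    · rw [Finset.sum_eq_single (f v)]
      · show g v = if g v ≠ 0 ∧ f v = f v then g v else 0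
        rw [if_pos ⟨hv, rfl⟩]
      · intro x _ hx
        simp only [hgi]
        rw [if_neg (fun h => hx h.2.symm)]
      · intro h
        exact absurd (hf1 v hv).1 h
  have hli : ∀ K u, li (inG g K) u = ∑ x ∈ I, li (inG (gi x) K) u := by
    intro K u
    unfold li
    rw [Finset.sum_comm]
    refine Finset.sum_congr rfl fun v _ => ?_
    rw [← Finset.sum_mul]
    congr 1
    unfold inG
    split_ifs with hv
    · exact hsum v
    · rw [Finset.sum_const_zero]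
  have hgb : ∀ x v, |gi x v| ≤ if v ∈ ball x ξ then M else 0 := by
    intro x v
    simp only [hgi]
    by_cases h1 : g v ≠ 0 ∧ f v = x
    · rw [if_pos h1, if_pos (by rw [← h1.2]; exact (hf1 v h1.1).2)]
      exact hg v
    · rw [if_neg h1, abs_zero]
      split_ifs
      · exact hM
      · exact le_rfl
  have h1 : ∀ x ∈ I, ∑ om : Finset (E N), ∑' u, ENNReal.ofReal (σ.wt om u) *
        ENNReal.ofReal ((li (inG (gi x) (hull (tS (N := N)) tT om P)) u) ^ 2) ≤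
      ENNReal.ofReal (M ^ 2 * (w * Z)) := by
    intro x hx
    have h2 := sq_hull (tS (N := N)) tT (J := fun _ => b) (fun _ => hb) hm (A := P)
      (B := ball x ξ) hM (hgb x)
    refine h2.trans ?_
    have h3 := xi_sum_r hb hl (B := ball x ξ) (P := P) (Λ := ball x n) (ball_mono hn) (hP x hx)
      hw (hE x hx)
    have e1 : (fun v => if v ∈ ball x ξ then (1 : ℝ) else 0) = one' (ball x ξ) := rfl
    rw [e1, ENNReal.ofReal_mul (p := M ^ 2) (by positivity)]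
    exact mul_le_mul' le_rfl h3
  calc ∑ om : Finset (E N), ∑' u, ENNReal.ofReal (σ.wt om u) *
        ENNReal.ofReal ((li (inG g (hull (tS (N := N)) tT om P)) u) ^ 2)
      ≤ ∑ om : Finset (E N), ∑' u, ENNReal.ofReal (I.card : ℝ) * ∑ x ∈ I,
        (ENNReal.ofReal (σ.wt om u) *
        ENNReal.ofReal ((li (inG (gi x) (hull (tS (N := N)) tT om P)) u) ^ 2)) := by
        refine Finset.sum_le_sum fun om _ => ENNReal.tsum_le_tsum fun u => ?_
        rw [← Finset.mul_sum, ← mul_assoc, mul_comm (ENNReal.ofReal (I.card : ℝ)), mul_assoc]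
        refine mul_le_mul' le_rfl ?_
        rw [← ENNReal.ofReal_sum_of_nonneg fun x _ => sq_nonneg _,
          ← ENNReal.ofReal_mul (p := (I.card : ℝ)) (Nat.cast_nonneg _)]
        refine ENNReal.ofReal_le_ofReal ?_
        rw [hli]
        exact sq_sum_le_card_mul_sum_sq
    _ = ENNReal.ofReal (I.card : ℝ) * ∑ x ∈ I, ∑ om : Finset (E N), ∑' u,
        ENNReal.ofReal (σ.wt om u) *
        ENNReal.ofReal ((li (inG (gi x) (hull (tS (N := N)) tT om P)) u) ^ 2) := by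
        simp only [ENNReal.tsum_mul_left]
        rw [← Finset.mul_sum, Finset.sum_comm]
        congr 1
        refine Finset.sum_congr rfl fun om _ => ?_
        rw [Summable.tsum_finsetSum fun _ _ => ENNReal.summable]
    _ ≤ ENNReal.ofReal (I.card : ℝ) * ∑ x ∈ I, ENNReal.ofReal (M ^ 2 * (w * Z)) :=
        mul_le_mul' le_rfl (Finset.sum_le_sum h1)
    _ = _ := by
        rw [Finset.sum_const, nsmul_eq_mul, ← ENNReal.ofReal_natCast,
          ← ENNReal.ofReal_mul (p := (I.card : ℝ)) (Nat.cast_nonneg _),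
          ← ENNReal.ofReal_mul (p := (I.card : ℝ)) (Nat.cast_nonneg _)]
        congr 1
        ring

/-- **LOC8, energy form.** `HA` is Theorem A (1). -/
theorem loc8q_r {b : ℝ} (hb : 0 ≤ b) {ξ : ℕ} (hξ : 0 < ξ)
    {ℓ : ℝ} (hl : 0 < ℓ) {y c C : ℝ} (hC : 0 < C)
    (hT : HAr N b ξ ℓ hb y c C) {I : Finset (V N)} {n : ℕ} (hn : ξ ≤ n)
    (hny : (n : ℝ) * y ≤ c * ξ) {P : Finset (V N)} (hP : ∀ x ∈ I, Disjoint P (ball x n))
    {J : V N → ℝ} {A Λ : ℝ} (hA : 0 ≤ A) (hJ : ∀ v, |J v| ≤ A / (ξ : ℝ) ^ 2)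
    (hs : ∀ v, J v ≠ 0 → ∃ x ∈ I, v ∈ ball x ξ)
    (hΛ : Lg (wt N b (1 / ℓ ^ 2)) ((2 : ℝ) • J) - Lg (wt N b (1 / ℓ ^ 2)) 0 ≤ Λ) :
    0 ≤ dLg (wt N b (1 / ℓ ^ 2)) P J ∧
      dLg (wt N b (1 / ℓ ^ 2)) P J ≤
        9 * Real.sqrt (Real.sqrt C * A * I.card) * Real.exp Λ *
          Real.exp (-(c * n / (4 * ξ))) := by
  have hξ' : (0 : ℝ) < ξ := by exact_mod_cast hξ
  have hm := TM.H41.ms_pos (N := N) hl
  refine ⟨dLg_nonneg hb hl P J, ?_⟩
  have hL0 := Lg_zero_le (N := N) hb hl ((2 : ℝ) • J)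
  have hΛ0 : 0 ≤ Λ := by linarith
  -- the trivial cases
  by_cases h0 : A = 0 ∨ I = ∅
  · have hJ0 : J = 0 := by
      funext v
      by_contra hv
      rcases h0 with h0 | h0
      · have h1 := hJ v
        rw [h0, zero_div] at h1
        exact hv (abs_nonpos_iff.1 h1)
      · obtain ⟨x, hx, _⟩ := hs v hv
        rw [h0] at hx
        exact absurd hx (Finset.notMem_empty x)
    have : dLg (wt N b (1 / ℓ ^ 2)) P J = 0 := by
      unfold dLg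
      rw [hJ0]
      ring
    rw [this]
    positivity
  push Not at h0
  obtain ⟨hA0, hI⟩ := h0
  have hA1 : 0 < A := lt_of_le_of_ne hA (Ne.symm hA0)
  have hI' : I.Nonempty := hI
  have hk : 0 < (I.card : ℝ) := by exact_mod_cast Finset.card_pos.2 hI'
  set w := C * Real.exp (-(c * n / ξ)) with hw
  have hw0 : 0 < w := by positivity
  have hE : ∀ x ∈ I, Ele (sT N b ℓ hb) (WF (sT N b ℓ hb) (ball x ξ) (ball x n))
      (w * (ξ : ℝ) ^ 4) := by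
    intro x _
    have h1 := hT x n hny
    have e : w * (ξ : ℝ) ^ 4 = C * (ξ : ℝ) ^ 4 * Real.exp (-(c * n / ξ)) := by
      rw [hw]; ring
    rw [e]
    exact h1
  set M := A / (ξ : ℝ) ^ 2 with hM
  have hM0 : 0 < M := by positivity
  have h1 := sq_blocks_r hb hl I hn hP hM0.le hJ hs (by positivity : 0 ≤ w * (ξ : ℝ) ^ 4) hE
  set a := Real.sqrt C * A * I.card with ha
  have hsC : 0 < Real.sqrt C := Real.sqrt_pos.2 hC
  have ha0 : 0 < a := by positivity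
  set δ := Real.sqrt a * Real.exp (-(c * n / (4 * ξ))) with hδ
  have hδ0 : 0 < δ := mul_pos (Real.sqrt_pos.2 ha0) (Real.exp_pos _)
  have e1 : (I.card : ℝ) ^ 2 * M ^ 2 * (w * (ξ : ℝ) ^ 4) = δ ^ 4 := by
    have e2 : δ ^ 4 = a ^ 2 * Real.exp (-(c * n / ξ)) := by
      rw [hδ, mul_pow]
      have e3 : Real.sqrt a ^ 4 = a ^ 2 := by
        have : Real.sqrt a ^ 4 = (Real.sqrt a ^ 2) ^ 2 := by ring
        rw [this, Real.sq_sqrt ha0.le]
      rw [e3, ← Real.exp_nat_mul]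
      congr 2
      push_cast
      field_simp
    rw [e2, ha, hM, hw, mul_pow, mul_pow, Real.sq_sqrt hC.le]
    field_simp
  rw [e1] at h1
  have hX : SS (grd (tS (N := N)) tT) (fun _ => b) (ms ℓ) ∅
      (fun h => Real.exp (lf (fun v => 2 * J v) h)) ≤
      Real.exp Λ * SS (grd (tS (N := N)) tT) (fun _ => b) (ms ℓ) ∅ fun _ => 1 := by
    have p1 := SS_exp_pos (N := N) hb hl ∅ ((2 : ℝ) • J)
    have p0 := SS_one_pos (DT N) (J := fun _ => b) (fun _ => hb) hm ∅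
    have e2 : Lg (wt N b (1 / ℓ ^ 2)) ((2 : ℝ) • J) =
        Real.log (SS (DT N) (fun _ => b) (ms ℓ) ∅ fun h => Real.exp (lf ((2 : ℝ) • J) h)) := by
      rw [← Zs_wt]
      rfl
    have e3 : Lg (wt N b (1 / ℓ ^ 2)) 0 =
        Real.log (SS (DT N) (fun _ => b) (ms ℓ) ∅ fun _ => 1) := by
      rw [← SS_one_eq, ← Zs_wt]
      rfl
    rw [e2, e3, ← Real.log_div p1.ne' p0.ne'] at hΛ
    have h2 := (Real.log_le_iff_le_exp (div_pos p1 p0)).1 hΛ
    rw [div_le_iff₀ p0] at h2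
    exact h2
  have h3 := loc8q_mass (tS (N := N)) tT (J := fun _ => b) (fun _ => hb) hm P J hδ0
    (Real.one_le_exp hΛ0) hX h1
  rw [dLg_eq hb hl]
  set R1 := SS (DT N) (fun _ => b) (ms ℓ) ∅ (fun h => Real.exp (lf J h)) /
        SS (DT N) (fun _ => b) (ms ℓ) ∅ (fun _ => 1) with hR1
  set R2 := SS (DT N) (fun _ => b) (ms ℓ) (P : Set (V N)) (fun h => Real.exp (lf J h)) /
        SS (DT N) (fun _ => b) (ms ℓ) (P : Set (V N)) (fun _ => 1) with hR2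
  have p1 : 0 < R1 := div_pos (SS_exp_pos hb hl _ _) (SS_one_pos (DT N) (fun _ => hb) hm _)
  have p2 : 0 < R2 := div_pos (SS_exp_pos hb hl _ _) (SS_one_pos (DT N) (fun _ => hb) hm _)
  set q := 9 * δ * Real.exp Λ with hq
  have hq0 : 0 ≤ q := by positivity
  have h4 : Real.log R1 ≤ Real.log R2 + q := by
    have h5 := Real.log_le_log p1 h3
    rw [Real.log_mul p2.ne' (by positivity)] at h5
    have h6 : Real.log (1 + q) ≤ q := by
      have := Real.log_le_sub_one_of_pos (show 0 < 1 + q by positivity)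
      linarith
    linarith
  have e4 : q = 9 * Real.sqrt a * Real.exp Λ * Real.exp (-(c * n / (4 * ξ))) := by
    rw [hq, hδ]
    ring
  rw [← e4]
  linarith

/-- **LOC8, energy form, one torus, source on `ℕ × ℕ`.** -/
theorem loc8q_src_r {b : ℝ} (hb : 0 ≤ b) {ξ : ℕ} (hξ : 0 < ξ) {ℓ : ℝ} (hl : 0 < ℓ) {y c C : ℝ}
    (hC : 0 < C) (hT : HAr N b ξ ℓ hb y c C) {I : Finset (ℕ × ℕ)} {r n : ℕ} (hr : ξ + 1 ≤ r)
    (hny : (r : ℝ) * y ≤ c * ξ) (hI : ∀ p ∈ I, (r < p.1 ∧ p.1 + r < n) ∧ r < p.2 ∧ p.2 + r < n)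
    (hn : n ≤ N) {j : ℕ → ℕ → ℝ} {A Λ : ℝ} (hA : 0 ≤ A) (hj : ∀ i k, |j i k| ≤ A / (ξ : ℝ) ^ 2)
    (hs : ∀ i k, j i k ≠ 0 → ∃ p ∈ I, dB p (i, k) ≤ ξ)
    (hΛ : Lg (wt N b (1 / ℓ ^ 2)) ((2 : ℝ) • src N n j) -
      Lg (wt N b (1 / ℓ ^ 2)) 0 ≤ Λ) :
    0 ≤ dLg (wt N b (1 / ℓ ^ 2)) (outB N n) (src N n j) ∧
      dLg (wt N b (1 / ℓ ^ 2)) (outB N n) (src N n j) ≤
        9 * Real.sqrt (Real.sqrt C * A * I.card) * Real.exp Λ *
          Real.exp (-(c * r / (4 * ξ))) := by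
  classical
  have h1 := loc8q_r hb hξ hl hC hT (I := I.image (pt N)) (n := r) (by omega) hny (P := outB N n)
    (by
      intro x hx
      obtain ⟨p, hp, rfl⟩ := Finset.mem_image.1 hx
      have := hI p hp
      exact disj_ball this.1.1 this.1.2 this.2.1 this.2.2 hn)
    (J := src N n j) (Λ := Λ) hA
    (by
      intro v
      unfold src
      split_ifs
      · exact hj _ _
      · rw [abs_zero]; positivity)
    (by
      intro v hv
      unfold src at hv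
      split_ifs at hv with h2
      · obtain ⟨p, hp, hd⟩ := hs _ _ hv
        refine ⟨pt N p, Finset.mem_image_of_mem _ hp, ?_⟩
        rw [mem_ball]
        have e1 : v = pt N (v.1.val, v.2.val) := by
          unfold pt
          simp
        unfold sd
        rw [e1, sn_pt_sub (r := ξ) ?_ hd]
        · exact hd
        · have := hI p hp
          omega
      · exact absurd rfl hv) hΛ
  refine ⟨h1.1, h1.2.trans ?_⟩
  have h2 : (((I.image (pt N)).card : ℕ) : ℝ) ≤ (I.card : ℝ) := by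
    exact_mod_cast Finset.card_image_le
  have h3 : Real.sqrt (Real.sqrt C * A * (((I.image (pt N)).card : ℕ) : ℝ)) ≤
      Real.sqrt (Real.sqrt C * A * (I.card : ℝ)) :=
    Real.sqrt_le_sqrt (mul_le_mul_of_nonneg_left h2 (by positivity))
  gcongr

theorem loc8q_two_r {M : ℕ} [NeZero M] {b : ℝ} (hb : 0 ≤ b) {ξ : ℕ} (hξ : 0 < ξ) {ℓ : ℝ} (hl : 0 < ℓ)
    {y y' c C : ℝ} (hC : 0 < C) (hT : HAr N b ξ ℓ hb y c C) (hT' : HAr M b ξ ℓ hb y' c C)
    {I : Finset (ℕ × ℕ)} {r n : ℕ} (hr : ξ + 1 ≤ r)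
    (hny : (r : ℝ) * y ≤ c * ξ) (hny' : (r : ℝ) * y' ≤ c * ξ)
    (hI : ∀ p ∈ I, (r < p.1 ∧ p.1 + r < n) ∧ r < p.2 ∧ p.2 + r < n)
    (hn : n ≤ N) (hn' : n ≤ M) {j : ℕ → ℕ → ℝ} {A Λ : ℝ} (hA : 0 ≤ A)
    (hj : ∀ i k, |j i k| ≤ A / (ξ : ℝ) ^ 2)
    (hs : ∀ i k, j i k ≠ 0 → ∃ p ∈ I, dB p (i, k) ≤ ξ)
    (hΛ : Lg (wt N b (1 / ℓ ^ 2)) ((2 : ℝ) • src N n j) -
      Lg (wt N b (1 / ℓ ^ 2)) 0 ≤ Λ)
    (hΛ' : Lg (wt M b (1 / ℓ ^ 2)) ((2 : ℝ) • src M n j) -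
      Lg (wt M b (1 / ℓ ^ 2)) 0 ≤ Λ) :
    |(Lg (wt N b (1 / ℓ ^ 2)) (src N n j) - Lg (wt N b (1 / ℓ ^ 2)) 0) -
      (Lg (wt M b (1 / ℓ ^ 2)) (src M n j) - Lg (wt M b (1 / ℓ ^ 2)) 0)| ≤
      eps8q C c A Λ I.card r ξ := by
  have h1 := loc8q_src_r hb hξ hl hC hT hr hny hI hn hA hj hs hΛ
  have h2 := loc8q_src_r hb hξ hl hC hT' hr hny' hI hn' hA hj hs hΛ'
  have h3 := Lg_pin_two hn hn' hb hl j
  unfold dLg at h1 h2
  unfold eps8q
  rw [abs_le]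
  constructor <;> linarith [h1.1, h1.2, h2.1, h2.2]

/-! ### in terms of the mass -/

/-- Theorem A (1) at the mass `τ` -/
def HAt (N : ℕ) [NeZero N] (b : ℝ) (ξ : ℕ) (τ : ℝ) (hb : 0 ≤ b) (y c C : ℝ) : Prop :=
  HAr N b ξ (1 / Real.sqrt τ) hb y c C

theorem sqrt_mass {τ : ℝ} (hτ : 0 < τ) : 1 / (1 / Real.sqrt τ) ^ 2 = τ := by
  rw [div_pow, one_pow, Real.sq_sqrt hτ.le, one_div_one_div]

/-- **LOC8, energy form, real mass.** -/
theorem loc8q_t {b : ℝ} (hb : 0 ≤ b) {ξ : ℕ} (hξ : 0 < ξ) {τ : ℝ} (hτ : 0 < τ)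
    {y c C : ℝ} (hC : 0 < C)
    (hT : HAt N b ξ τ hb y c C) {I : Finset (V N)} {n : ℕ} (hn : ξ ≤ n)
    (hny : (n : ℝ) * y ≤ c * ξ) {P : Finset (V N)} (hP : ∀ x ∈ I, Disjoint P (ball x n))
    {J : V N → ℝ} {A Λ : ℝ} (hA : 0 ≤ A) (hJ : ∀ v, |J v| ≤ A / (ξ : ℝ) ^ 2)
    (hs : ∀ v, J v ≠ 0 → ∃ x ∈ I, v ∈ ball x ξ)
    (hΛ : Lg (wt N b τ) ((2 : ℝ) • J) - Lg (wt N b τ) 0 ≤ Λ) :
    0 ≤ dLg (wt N b τ) P J ∧
      dLg (wt N b τ) P J ≤
        9 * Real.sqrt (Real.sqrt C * A * I.card) * Real.exp Λ *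
          Real.exp (-(c * n / (4 * ξ))) := by
  have e := sqrt_mass hτ
  have h := loc8q_r hb hξ (ℓ := 1 / Real.sqrt τ) (by positivity) hC hT hn hny hP hA hJ hs
    (Λ := Λ) (by rw [e]; exact hΛ)
  rw [e] at h
  exact h

/-- **LOC8, energy form, two tori, real mass.** -/
theorem loc8q_two_t {M : ℕ} [NeZero M] {b : ℝ} (hb : 0 ≤ b) {ξ : ℕ} (hξ : 0 < ξ)
    {τ : ℝ} (hτ : 0 < τ)
    {y y' c C : ℝ} (hC : 0 < C) (hT : HAt N b ξ τ hb y c C) (hT' : HAt M b ξ τ hb y' c C)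
    {I : Finset (ℕ × ℕ)} {r n : ℕ} (hr : ξ + 1 ≤ r)
    (hny : (r : ℝ) * y ≤ c * ξ) (hny' : (r : ℝ) * y' ≤ c * ξ)
    (hI : ∀ p ∈ I, (r < p.1 ∧ p.1 + r < n) ∧ r < p.2 ∧ p.2 + r < n)
    (hn : n ≤ N) (hn' : n ≤ M) {j : ℕ → ℕ → ℝ} {A Λ : ℝ} (hA : 0 ≤ A)
    (hj : ∀ i k, |j i k| ≤ A / (ξ : ℝ) ^ 2)
    (hs : ∀ i k, j i k ≠ 0 → ∃ p ∈ I, dB p (i, k) ≤ ξ)
    (hΛ : Lg (wt N b τ) ((2 : ℝ) • src N n j) - Lg (wt N b τ) 0 ≤ Λ)
    (hΛ' : Lg (wt M b τ) ((2 : ℝ) • src M n j) - Lg (wt M b τ) 0 ≤ Λ) :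
    |(Lg (wt N b τ) (src N n j) - Lg (wt N b τ) 0) -
      (Lg (wt M b τ) (src M n j) - Lg (wt M b τ) 0)| ≤
      eps8q C c A Λ I.card r ξ := by
  have e := sqrt_mass hτ
  have h := loc8q_two_r hb hξ (ℓ := 1 / Real.sqrt τ) (by positivity) hC hT hT' hr hny hny' hI
    hn hn' hA hj hs (Λ := Λ) (by rw [e]; exact hΛ) (by rw [e]; exact hΛ')
  rw [e] at h
  exact h

end Vale.Agent.P159.H358
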