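import Vale.Agent.P159.H358.Hr6
import Vale.Agent.P159.H358.Loc9q

/-!
P159, module HAT, part 7: LOC9 (means and covariances of local linear functionals in arbitrary
local backgrounds on two tori, energy form) at every real mass.
-/

open Finset MeasureTheory

set_option linter.unusedSectionVars false
set_option linter.unusedDecidableInType false

namespace Vale.Agent.P159.H358

open Vale.Agent.P159.TM.H104
open Vale.Agent.P159.H37 (Zs Ev qf wt)
open Vale.Agent.P159.TM.Spec (V)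
open Vale.Agent.P159.TM.H265 (HA DT)
open Vale.Agent.P159.TM.H705 (dB)

variable {N : ℕ} [NeZero N] {M : ℕ} [NeZero M] {b : ℝ} {hb : 0 ≤ b} {ξ : ℕ} {τ y y' c C : ℝ}
  {I : Finset (ℕ × ℕ)} {r n : ℕ}

theorem Lg_zero_t (hb : 0 ≤ b) (hτ : 0 < τ) (J : V N → ℝ) :
    Lg (wt N b τ) 0 ≤ Lg (wt N b τ) J := by
  have h := Lg_zero_le (N := N) hb (ξ := 1 / Real.sqrt τ) (by positivity) J
  rw [sqrt_mass hτ] at h
  exact h

/-- two tori, real mass `τ`, local geometry -/
structure TwoT (N M : ℕ) [NeZero N] [NeZero M] (b : ℝ) (hb : 0 ≤ b) (ξ : ℕ) (τ y y' c C : ℝ)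
    (I : Finset (ℕ × ℕ)) (r n : ℕ) : Prop where
  hξ : 0 < ξ
  hτ : 0 < τ
  hC : 0 < C
  hT : HAt N b ξ τ hb y c C
  hT' : HAt M b ξ τ hb y' c C
  hr : ξ + 1 ≤ r
  hny : (r : ℝ) * y ≤ c * ξ
  hny' : (r : ℝ) * y' ≤ c * ξ
  hI : ∀ p ∈ I, (r < p.1 ∧ p.1 + r < n) ∧ r < p.2 ∧ p.2 + r < n
  hn : n ≤ N
  hn' : n ≤ M

/-- **LOC9, diagonal form, energy form.** -/
theorem loc9q_diag_t (H : TwoT N M b hb ξ τ y y' c C I r n) {j u : ℕ → ℕ → ℝ} {A Λ : ℝ} (hA : 0 ≤ A)
    (hj : Wd ξ I A j) (hu : Wd ξ I A u)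
    (hN : ∀ s : ℝ, |s| ≤ 2 → Lg (wt N b τ)
      ((2 : ℝ) • (src N n j + s • src N n u)) - Lg (wt N b τ) 0 ≤ Λ)
    (hM : ∀ s : ℝ, |s| ≤ 2 → Lg (wt M b τ)
      ((2 : ℝ) • (src M n j + s • src M n u)) - Lg (wt M b τ) 0 ≤ Λ) :
    |Ex (wt N b τ) (src N n j) (li (src N n u)) -
      Ex (wt M b τ) (src M n j) (li (src M n u))| ≤
        err9q C c A Λ I.card r ξ ∧
    |Cv (wt N b τ) (src N n j) (li (src N n u)) (li (src N n u)) -
      Cv (wt M b τ) (src M n j) (li (src M n u)) (li (src M n u))| ≤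
      err9q C c A Λ I.card r ξ := by
  have hξ' : (0 : ℝ) < ξ := by exact_mod_cast H.hξ
  set k : ℝ := (I.card : ℝ) with hk
  have hk0 : 0 ≤ k := Nat.cast_nonneg _
  set μN := wt N b τ with hμN
  set μM := wt M b τ with hμM
  have bN : LL μN (src N n j) (src N n u) Λ := ⟨H789.em_wt hb H.hτ, Lg_zero_t hb H.hτ, hN⟩
  have bM : LL μM (src M n j) (src M n u) Λ := ⟨H789.em_wt hb H.hτ, Lg_zero_t hb H.hτ, hM⟩
  have hΛ0 := bN.nonneg
  have hs0 : 0 ≤ Real.sqrt C := Real.sqrt_nonneg _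
  set z := 2 * Real.sqrt C * A * k with hz
  have hz0 : 0 ≤ z := by positivity
  set δ := 3 * (1 + z) * Real.exp (Λ / 3) * Real.exp (-(c * r / (12 * ξ))) with hδ
  have hδ0 : 0 < δ := by positivity
  set φ : ℝ → ℝ := fun s => (Lg μN (src N n j + s • src N n u) - Lg μN 0) -
    (Lg μM (src M n j + s • src M n u) - Lg μM 0) with hφ
  set φ1 : ℝ → ℝ := fun s => Ex μN (src N n j + s • src N n u) (li (src N n u)) -
    Ex μM (src M n j + s • src M n u) (li (src M n u)) with hφ1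
  set φ2 : ℝ → ℝ := fun s =>
    Cv μN (src N n j + s • src N n u) (li (src N n u)) (li (src N n u)) -
    Cv μM (src M n j + s • src M n u) (li (src M n u)) (li (src M n u)) with hφ2
  set φ3 : ℝ → ℝ := fun s =>
    K3 μN (src N n j + s • src N n u) (li (src N n u)) (li (src N n u)) (li (src N n u)) -
    K3 μM (src M n j + s • src M n u) (li (src M n u)) (li (src M n u)) (li (src M n u)) with hφ3
  have d1 : ∀ s, HasDerivAt φ (φ1 s) s := fun s =>
    ((hasDerivAt_Lg bN.em _ _ s).sub_const _).sub ((hasDerivAt_Lg bM.em _ _ s).sub_const _)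
  have d2 : ∀ s, HasDerivAt φ1 (φ2 s) s := fun s =>
    (hasDerivAt_Ex bN.em (Gr.li _) _ _ s).sub (hasDerivAt_Ex bM.em (Gr.li _) _ _ s)
  have d3 : ∀ s, HasDerivAt φ2 (φ3 s) s := fun s =>
    (hasDerivAt_Cv bN.em (Gr.li _) (Gr.li _) _ _ s).sub
      (hasDerivAt_Cv bM.em (Gr.li _) (Gr.li _) _ _ s)
  have hw : ∀ s : ℝ, |s| ≤ 1 → Wd ξ I (A + A) (fun i k => j i k + s * u i k) := fun s hs =>
    hj.add hu hs
  -- LOC8
  have hφb : ∀ s, |s| ≤ 1 → |φ s| ≤ δ ^ 3 := by
    intro s hs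
    have h1 := loc8q_two_t hb H.hξ H.hτ H.hC H.hT H.hT' H.hr H.hny H.hny' H.hI H.hn H.hn'
      (A := A + A) (Λ := Λ) (by positivity) (hw s hs).bd (hw s hs).sp
      (by rw [src_add]; exact hN s (by linarith)) (by rw [src_add]; exact hM s (by linarith))
    rw [src_add, src_add] at h1
    refine h1.trans ?_
    unfold eps8q
    rw [← hk]
    have e1 : δ ^ 3 = 27 * (1 + z) ^ 3 * Real.exp Λ * Real.exp (-(c * r / (4 * ξ))) := by
      have q1 : Real.exp (Λ / 3) ^ 3 = Real.exp Λ := by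
        rw [← Real.exp_nat_mul]
        congr 1
        push_cast
        ring
      have q2 : Real.exp (-(c * r / (12 * ξ))) ^ 3 = Real.exp (-(c * r / (4 * ξ))) := by
        rw [← Real.exp_nat_mul]
        congr 1
        push_cast
        field_simp
        ring
      rw [hδ, mul_pow, mul_pow, mul_pow, q1, q2]
      norm_num
    rw [e1]
    have h3 : Real.sqrt C * (A + A) * k = z := by rw [hz]; ring
    rw [h3]
    refine mul_le_mul_of_nonneg_right (mul_le_mul_of_nonneg_right ?_ (Real.exp_pos _).le)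
      (Real.exp_pos _).le
    have h4 : Real.sqrt z ≤ 1 + z := by
      rw [Real.sqrt_le_left (by positivity)]
      nlinarith
    have h5 : 1 + z ≤ (1 + z) ^ 3 := by nlinarith [pow_nonneg hz0 2, pow_nonneg hz0 3]
    linarith
  have hB1 : |φ1 0| ≤ 2 * Λ := by
    have h1 := bN.mean_le
    have h2 := bM.mean_le
    have h3 : |φ1 0| ≤ |Ex μN (src N n j + (0 : ℝ) • src N n u) (li (src N n u))| +
        |Ex μM (src M n j + (0 : ℝ) • src M n u) (li (src M n u))| := abs_sub _ _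
    simp only [zero_smul, add_zero] at h1 h2 h3
    linarith
  set X := Real.exp (2 * Λ) with hX
  have hX0 : 0 < X := Real.exp_pos _
  have hB2 : ∀ s, |s| ≤ 1 → |φ2 s| ≤ 8 * X := by
    intro s hs
    have h1 := bN.cv_le hs
    have h2 := bM.cv_le hs
    refine (abs_sub _ _).trans ?_
    linarith
  have hB3 : ∀ s, |s| ≤ 1 → |φ3 s| ≤ 24 * X := by
    intro s hs
    have h1 := bN.k3_le hs
    have h2 := bM.k3_le hs
    refine (abs_sub _ _).trans ?_
    linarith
  have hlk := lk3 d1 d2 d3 hδ0 hφb hB1 hB2 hB3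
  have hX1 : 1 + 2 * Λ ≤ X := by
    have := Real.add_one_le_exp (2 * Λ)
    linarith
  have herr : δ * (20 * X) ≤ err9q C c A Λ I.card r ξ := by
    have e1 : err9q C c A Λ I.card r ξ =
        60 * (1 + z) * Real.exp (3 * Λ) * Real.exp (-(c * r / (12 * ξ))) := by
      unfold err9q
      rw [← hk, hz]
    have e2 : δ * (20 * X) =
        60 * (1 + z) * (Real.exp (Λ / 3) * X) * Real.exp (-(c * r / (12 * ξ))) := by
      rw [hδ]; ring
    rw [e1, e2, hX, ← Real.exp_add]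
    have e3 : Real.exp (Λ / 3 + 2 * Λ) ≤ Real.exp (3 * Λ) := Real.exp_le_exp.2 (by linarith)
    gcongr
  have hX2 : 1 ≤ X := by linarith
  constructor
  · have h1 := hlk.1
    simp only [hφ1, zero_smul, add_zero] at h1
    refine (h1.trans ?_).trans herr
    refine mul_le_mul_of_nonneg_left ?_ hδ0.le
    linarith
  · have h1 := hlk.2
    simp only [hφ2, zero_smul, add_zero] at h1
    refine (h1.trans ?_).trans herr
    refine mul_le_mul_of_nonneg_left ?_ hδ0.le
    linarith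

/-- **LOC9, means, energy form.** -/
theorem loc9q_mean_t (H : TwoT N M b hb ξ τ y y' c C I r n) {j u : ℕ → ℕ → ℝ} {A Λ : ℝ} (hA : 0 ≤ A)
    (hj : Wd ξ I A j) (hu : Wd ξ I A u)
    (hN : ∀ s : ℝ, |s| ≤ 2 → Lg (wt N b τ)
      ((2 : ℝ) • (src N n j + s • src N n u)) - Lg (wt N b τ) 0 ≤ Λ)
    (hM : ∀ s : ℝ, |s| ≤ 2 → Lg (wt M b τ)
      ((2 : ℝ) • (src M n j + s • src M n u)) - Lg (wt M b τ) 0 ≤ Λ) :
    |Ex (wt N b τ) (src N n j) (li (src N n u)) -
      Ex (wt M b τ) (src M n j) (li (src M n u))| ≤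
        err9q C c A Λ I.card r ξ :=
  (loc9q_diag_t H hA hj hu hN hM).1

/-- **LOC9, covariances, energy form.** -/
theorem loc9q_cv_t (H : TwoT N M b hb ξ τ y y' c C I r n) {j u v : ℕ → ℕ → ℝ} {A Λ : ℝ} (hA : 0 ≤ A)
    (hj : Wd ξ I A j) (hu : Wd ξ I A u) (hv : Wd ξ I A v)
    (hN : ∀ s e : ℝ, |s| ≤ 2 → |e| = 1 → Lg (wt N b τ)
      ((2 : ℝ) • (src N n j + s • (src N n u + e • src N n v))) -
      Lg (wt N b τ) 0 ≤ Λ)
    (hM : ∀ s e : ℝ, |s| ≤ 2 → |e| = 1 → Lg (wt M b τ)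
      ((2 : ℝ) • (src M n j + s • (src M n u + e • src M n v))) -
      Lg (wt M b τ) 0 ≤ Λ) :
    |Cv (wt N b τ) (src N n j) (li (src N n u)) (li (src N n v)) -
      Cv (wt M b τ) (src M n j) (li (src M n u)) (li (src M n v))| ≤
      err9q C c (2 * A) Λ I.card r ξ := by
  have hξ' : (0 : ℝ) < ξ := by exact_mod_cast H.hξ
  have eN : EM (wt N b τ) := H789.em_wt hb H.hτ
  have eM : EM (wt M b τ) := H789.em_wt hb H.hτ
  have hj2 : Wd ξ I (2 * A) j := hj.mono (by linarith)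
  have hp : Wd ξ I (2 * A) (fun i k => u i k + 1 * v i k) := by
    have := hu.add hv (s := 1) (by simp)
    exact this.mono (by linarith)
  have hm : Wd ξ I (2 * A) (fun i k => u i k + (-1) * v i k) := by
    have := hu.add hv (s := -1) (by simp)
    exact this.mono (by linarith)
  have h1 := (loc9q_diag_t H (Λ := Λ) (by linarith : 0 ≤ 2 * A) hj2 hp
    (fun s hs => by rw [src_add]; exact hN s 1 hs (by simp))
    (fun s hs => by rw [src_add]; exact hM s 1 hs (by simp))).2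
  have h2 := (loc9q_diag_t H (Λ := Λ) (by linarith : 0 ≤ 2 * A) hj2 hm
    (fun s hs => by rw [src_add]; exact hN s (-1) hs (by simp))
    (fun s hs => by rw [src_add]; exact hM s (-1) hs (by simp))).2
  rw [src_add, src_add, one_smul, one_smul] at h1
  rw [src_add, src_add, neg_one_smul, neg_one_smul, ← sub_eq_add_neg, ← sub_eq_add_neg] at h2
  rw [Cv_polar eN, Cv_polar eM]
  rw [abs_le] at h1 h2 ⊢
  have h0 := err9q_nonneg C c (by linarith : 0 ≤ 2 * A) Λ I.card r ξ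
  constructor <;> linarith [h1.1, h1.2, h2.1, h2.2]

end Vale.Agent.P159.H358
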