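import Vale.Agent.P159.H358.Hr7
import Vale.Agent.P159.H730.FathR3

/-!
P159, module HAT, part 8: Theorem A (1) at every real mass, without hypotheses (helper730's fatness at
real mass inserted), and the energy forms LOC8q / LOC9q with it.
-/

open scoped ENNReal NNReal BigOperators
open Finset

set_option linter.unusedSectionVars false
set_option linter.unusedDecidableInType false

namespace Vale.Agent.P159.H358

open Vale.Agent.P159.TM Vale.Agent.P159.TM.H60 Vale.Agent.P159.TM.H459 Vale.Agent.P159.TM.H576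
  Vale.Agent.P159.TM.H352 Vale.Agent.P159.TM.H634 Vale.Agent.P159.TM.H131

/-- 730's fatness in the form used here -/
theorem fathR_all {C2 bb : ℝ} (hC : 0 < C2) (hbb : 0 < bb) : FathR C2 bb := by
  obtain ⟨W0, X0, K, hK, h⟩ := H730.FR.fathR hC hbb
  refine ⟨W0, X0, K, hK, ?_⟩
  intro N n _ _ b hb hb0 hbb l hl hl0 hn hN τ hτ _ W hW h2 ε hε D hD
  exact h N n b hb hb0 hbb l hl hl0 hn hN τ hτ W hW h2 ε (by linarith) D hD

/-- **Theorem A (1) at every real mass `1/x²`, `l ≤ x ≤ 2 l`** -/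
theorem hat_r {b1 : ℝ} (hb1 : 0 < b1) (b2 a : ℝ) :
    ∃ W₀ : ℝ, ∀ W : ℝ, W₀ ≤ W → ∃ c C ys : ℝ, ∃ X : ℕ, 0 < c ∧ 0 < C ∧ 0 < ys ∧ 1 ≤ X ∧
    ∀ (N : ℕ) [NeZero N] (b : ℝ) (hb : 0 ≤ b) (l : ℕ) (y x : ℝ),
      Spec.Rng b1 b2 a W ys X N b l y → Spec.Rng b1 b2 a W ys X N b (2 * l) y →
      (l : ℝ) ≤ x → x ≤ 2 * l → HAr N b (2 * l) x hb y c C :=
  hat_of hb1 b2 a (fathR_all (by norm_num) (lt_max_of_lt_right one_pos))

/-- **Theorem A (1) at every real mass `τ ∈ [1/ξ², 4/ξ²]`, `ξ = 2 l`** -/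
theorem hat_t {b1 : ℝ} (hb1 : 0 < b1) (b2 a : ℝ) :
    ∃ W₀ : ℝ, ∀ W : ℝ, W₀ ≤ W → ∃ c C ys : ℝ, ∃ X : ℕ, 0 < c ∧ 0 < C ∧ 0 < ys ∧ 1 ≤ X ∧
    ∀ (N : ℕ) [NeZero N] (b : ℝ) (hb : 0 ≤ b) (l : ℕ) (y τ : ℝ),
      Spec.Rng b1 b2 a W ys X N b l y → Spec.Rng b1 b2 a W ys X N b (2 * l) y →
      1 / ((2 * l : ℕ) : ℝ) ^ 2 ≤ τ → τ ≤ 4 / ((2 * l : ℕ) : ℝ) ^ 2 →
      HAt N b (2 * l) τ hb y c C := by
  obtain ⟨W₀, h⟩ := hat_r hb1 b2 a
  refine ⟨W₀, fun W hW => ?_⟩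
  obtain ⟨c, C, ys, X, hc, hC, hys, hX, h⟩ := h W hW
  refine ⟨c, C, ys, X, hc, hC, hys, hX, ?_⟩
  intro N _ b hb l y τ hR hR2 h1 h2
  have hl : 0 < l := hX.trans hR.hX
  have hlR : (0 : ℝ) < l := by exact_mod_cast hl
  push_cast at h1 h2
  have h1' : ((1 : ℝ) / (2 * l)) ^ 2 ≤ τ := by rw [div_pow, one_pow]; exact h1
  have h2' : τ ≤ ((1 : ℝ) / l) ^ 2 := by
    refine h2.trans (le_of_eq ?_)
    rw [div_pow, one_pow]
    field_simp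
    ring
  have hτ : 0 < τ := lt_of_lt_of_le (by positivity) h1
  have s1 : (1 : ℝ) / (2 * l) ≤ Real.sqrt τ := Real.le_sqrt_of_sq_le h1'
  have s2 : Real.sqrt τ ≤ 1 / (l : ℝ) := by
    rw [Real.sqrt_le_left (by positivity)]
    exact h2'
  have s0 : 0 < Real.sqrt τ := Real.sqrt_pos.2 hτ
  refine h N b hb l y (1 / Real.sqrt τ) hR hR2 ?_ ?_
  · rw [le_div_iff₀ s0]
    rw [le_div_iff₀ hlR] at s2
    linarith
  · rw [div_le_iff₀ s0]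
    rw [div_le_iff₀ (by positivity)] at s1
    linarith

end Vale.Agent.P159.H358
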