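import Vale.Agent.P159.H358.Un11
import Vale.Agent.P159.H316.Ini1
import Vale.Agent.P159.H316.St0
import Vale.Agent.P159.H889.Vasm2

/-!
P159, START of V (helper316): the initial state `V1` on one torus from the numbers of the level
alone. Local approximants of the real densities in the typical law itself.
-/

open Finset MeasureTheory Filter Topology

set_option linter.unusedSectionVars false
set_option linter.unusedDecidableInType false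

namespace Vale.Agent.P159.H358

open Vale.Agent.P159.TM.Spec (V)
open Vale.Agent.P159.TM.SpecC (wT)
open Vale.Agent.P159.H37 (gau)
open Vale.Agent.P159.H864 (yt)
open Vale.Agent.P159.H363 (acl Nf rel Below below_pin)
open Vale.Agent.P159.H972 (Par tn Good)
open Vale.Agent.P159.H801 (Ev PS)
open Vale.Agent.P159.H889 (uc norm_uc_le Lcl Cx Lg lam nu Dc QP lam_pos lam_exp nu_eq SB VB)
open Vale.Agent.P159.H767 (Lv Sm1 sm1_ev)
open Vale.Agent.P159.H316 (V1)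
open Matrix

/-- numbers of the initial state -/
theorem ev_ini {b1 b2 pf : ℝ} (Q : ℕ) : Ev b1 b2 pf Q fun P _ =>
    ∀ e, 0 < e → e ≤ P.es → 2 ^ (1 + 4 * P.q0) ≤ QP P e ∧ 1 ≤ QP P e := by
  refine Ev.of ⟨0, fun W _ => ⟨1, one_pos, fun ys _ _ => ⟨0, fun X0 hX0 => ⟨1, one_pos,
    fun x1 _ _ => ⟨1, one_pos, fun thp hthp _ => ⟨1, one_pos, fun th hth _ => ⟨0, fun C0 _ =>
    ⟨1, one_pos, fun c1 _ _ => ?_⟩⟩⟩⟩⟩⟩⟩⟩
  have hρ : 0 < th + 4 * ((Q + ⌈x1 / thp⌉₊ + 2 : ℕ) : ℝ) * thp := by positivity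
  obtain ⟨E, hE, h⟩ := H640.sm_rpow
    (s := th + 4 * ((Q + ⌈x1 / thp⌉₊ + 2 : ℕ) : ℝ) * thp)
    (A := 2 ^ (1 + 4 * (Q + ⌈x1 / thp⌉₊ + 2))) hρ one_pos
  refine ⟨E, hE, fun P hP e he hle => ?_⟩
  have h1 := h e he (hle.trans hP.ees)
  have h2 : (2 : ℝ) ^ (1 + 4 * P.q0) ≤ QP P e := by
    unfold H889.QP
    rw [hP.eth, hP.ethp, hP.eq0]
    have h4 := mul_le_mul_of_nonneg_right h1 (Real.rpow_nonneg he.le
      (-(th + 4 * ((Q + ⌈x1 / thp⌉₊ + 2 : ℕ) : ℝ) * thp)))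
    rwa [mul_assoc, ← Real.rpow_add he, add_neg_cancel, Real.rpow_zero, mul_one, one_mul] at h4
  exact ⟨h2, (one_le_pow₀ one_le_two).trans h2⟩

/-- `(N / ξ) ^ 2 ≤ Q ^ 4` -/
theorem QP_four {P : Par} {e : ℝ} {n r : ℕ} (he : 0 < e) (he1 : e ≤ 1) (hr : P.TT n e r)
    (h : 2 ^ (1 + 4 * P.q0) ≤ QP P e) : ((2 : ℝ) ^ (r - n)) ^ 2 ≤ QP P e ^ 4 := by
  have h1 := H640.TT_pow he he1 hr
  have hnr : n ≤ r := (Nat.le_add_right _ _).trans hr.1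
  have h2 : (2 : ℝ) ^ r / 2 ^ n = 2 ^ (r - n) := by
    rw [div_eq_iff (by positivity), ← pow_add, Nat.sub_add_cancel hnr]
  rw [h2] at h1
  have hQ0 : 0 < QP P e := Real.rpow_pos_of_pos he _
  have h3 : (2 : ℝ) ^ (r - n) ≤ QP P e ^ 2 := by
    refine h1.trans ?_
    calc (2 : ℝ) ^ (1 + 4 * P.q0) * e ^ (-(P.th + 4 * P.q0 * P.thp)) ≤ QP P e * QP P e :=
          mul_le_mul_of_nonneg_right h hQ0.le
      _ = _ := by ring
  calc ((2 : ℝ) ^ (r - n)) ^ 2 ≤ (QP P e ^ 2) ^ 2 := pow_le_pow_left₀ (by positivity) h3 2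
    _ = _ := by ring

/-- **the initial state of START**: every coefficient `ζ`, every torus `TT n e` -/
theorem ini_ev {b1 b2 b : ℝ} (hb1 : 0 < b1) (hb : b1 ≤ b) (hb2 : 0 < b2) :
    ∃ A00 : ℝ, 1 ≤ A00 ∧ ∀ A1 : ℝ, A00 ≤ A1 → ∀ (K : ℝ) (Q : ℕ),
      Ev b1 b2 (9 / 10) Q fun P c1 => ∀ C1 : ℝ, 1 ≤ C1 → P.C0 ≤ C1 → C1 ≤ K * P.C0 →
        ∀ (n s : ℕ) (e y : ℝ), Cx P b C1 c1 n s e y → ∀ r, P.TT n e r →
        ∀ Y : ℝ, yt (2 ^ r) b (4 * tn n) ≤ Y → 4 * ((2 ^ (r - n)) ^ 2 * Y) ≤ 1 → ∀ ζ : ℂ,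
        V1 P b A1 n s e r ζ (4 * (2 ^ (r - n) * Y) + ‖ζ‖) (56 * ((2 ^ (r - n)) ^ 2 * Y) ^ 2) := by
  have hb0 : 0 < b := hb1.trans_le hb
  obtain ⟨A00, hA00, hnr⟩ := nr_ev (c0 := 1 / b2) (β := 3) hb1 hb hb2 (by positivity)
    (by norm_num)
  refine ⟨2 * A00, by linarith, fun A1 hA1 K Q => ?_⟩
  refine ((((hnr (A1 / 2) (by linarith) (9 / 10) (by norm_num) Q).and
    (sm1_ev (b1 := b1) (b2 := b2) K Q)).and (ev_sq (b1 := b1) (b2 := b2) (pf := 9 / 10) Q)).and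
    (ev_ini (b1 := b1) (b2 := b2) (pf := 9 / 10) Q)).mono ?_
  rintro P c1 hA ⟨⟨⟨hnr, hc1', hpf, hPb1, hPb2, hsm⟩, hX12, hth1, hsq⟩, hqp⟩
  intro C1 hC1 hC0 hCK n s e y cx r hr Y hY hY4 ζ _
  have he := cx.e0
  have L : Lv P C1 c1 n s e y := ⟨cx.e0, cx.es, cx.y0, cx.y1, cx.yL, cx.s1, cx.s2⟩
  have hs := hsm C1 hC1 hCK e cx.e0 cx.es
  have hsn := L.sn hs hC1
  have hns := L.ns hs hC1 hc1'
  have hlam := L.lam hs hC1
  have hyy := L.yy hs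
  have hsE := L.sE hs hC1 hC0 P.C00.le
  have he4 := hs.a6
  have he1 : e ≤ 1 := by linarith
  have htn := H972.tn_pos n
  have lv : Lvl P b c1 n s e (tn n) :=
    ⟨cx.e0, cx.es, cx.G, le_rfl, by linarith, hsn, cx.ns, hns, hlam⟩
  have hsr : s ≤ r := hsn.trans ((Nat.le_add_right _ _).trans hr.1)
  have hnr' : n ≤ r := (Nat.le_add_right _ _).trans hr.1
  have hR : LvR P b c1 n s e (tn n) (e ^ (-(P.thp / 20)) * y) r r :=
    ⟨lv, hsE, hr, hr, cx.vy r hr, cx.vy r hr, hyy⟩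
  have hl : 2 ^ s ∣ 2 ^ r := pow_dvd_pow 2 hsr
  have hnf := nf_aclT (N := 2 ^ r) (l := 2 ^ s) hb0 hl htn
  -- the window
  have hLL := Lg_Ls hsn
  have hLs1 : 1 ≤ Ls n s := lv.L1 he4
  have hl0 := lam_pos n s
  have hl1 : lam n s ≤ 1 := by
    have : lam n s ≤ e := hlam
    linarith
  have h2 : 2 ≤ A1 * Lg n s / lam n s := by
    rw [le_div_iff₀ hl0, hLL]
    nlinarith
  have hD1 := D0_lo hsn h2
  have hD2 := D0_up hsn h2
  obtain ⟨N1, -⟩ := hnr n s e (tn n) (e ^ (-(P.thp / 20)) * y) r r hR _ hD1 hD2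
  have hb2' : b ≤ b2 := by
    rw [← hPb2]
    exact cx.b2
  have k1 := N1 (A := acl (2 ^ r) (2 ^ s) b (tn n) (tn n))
    (H375.dom_acl hb0 hl htn le_rfl) (one_div_le_one_div_of_le hb0 hb2') hnf
    (by
      simp only [rel_self hnf, ne_eq, OfNat.ofNat_ne_zero, not_false_eq_true, zero_pow,
        Finset.sum_const_zero]
      positivity) (below_pin _)
  rw [← hLL] at k1
  have k2 := lcl_ucm hb0.le htn hl k1
  -- the error of the approximants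
  have hη : Real.exp (-(3 * Lg n s)) ≤ lam n s ^ (1 / 8 : ℝ) * nu n s := by
    have e1 : Real.exp (-(3 * Lg n s)) = lam n s ^ (3 : ℝ) := by
      rw [lam_exp, ← Real.exp_mul]
      congr 1
      ring
    rw [e1, nu_eq, ← Real.rpow_natCast (lam n s) 2, ← Real.rpow_add hl0]
    exact Real.rpow_le_rpow_of_exponent_ge hl0 hl1 (by norm_num)
  have hDD : ⌊A1 * Lg n s / lam n s⌋₊ ≤ Dc A1 n s := Nat.floor_le_ceil _
  have k3 := k2.mono hDD hη le_rfl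
  have hq := hqp e he cx.es
  have hQ1 := hq.2
  have hν0 : 0 < tn n * ((2 ^ s : ℕ) : ℝ) ^ 2 := by positivity
  have hπ := Real.pi_gt_three
  have hπ1 : (2 * Real.pi)⁻¹ ≤ 1 := inv_le_one_of_one_le₀ (by linarith)
  have hK : (2 * Real.pi)⁻¹ * (tn n * ((2 ^ s : ℕ) : ℝ) ^ 2) ≤ QP P e ^ 2 * nu n s := by
    unfold H889.nu
    refine mul_le_mul_of_nonneg_right (hπ1.trans ?_) hν0.le
    exact one_le_pow₀ hQ1
  have hV := H316.ini_tor hb0 hnr' hsr hY hY4 hnf (H889.pA_acl hb0.le hl htn) k3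
    (fun x F => (norm_uc_le hb0.le htn hl x _).trans hK) hK (QP_four he he1 hr hq.1)
    (ζ * (nu n s : ℂ))
  refine ⟨_, SB.mono hV (le_of_eq ?_) le_rfl le_rfl le_rfl le_rfl le_rfl le_rfl⟩
  rw [norm_mul, Complex.norm_real, Real.norm_eq_abs, abs_of_pos (H889.nu_pos n s)]
  unfold H889.nu
  ring

end Vale.Agent.P159.H358
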