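import Vale.Agent.P159.TM.H682.Bind

/-!
P159, row LOC8 of the LOCALITY list (helper145, board 2086), part 1: one copy, no background.
For every functional `F` of the heights which satisfies the monotonicity in the couplings and in
the pinned sites (`MonoF`), the functional of the heights outside the open clusters which meet `A`
is bounded by its value in the model pinned on `A` (generating function version of
`TM/H682/E3.lean`).
-/

open Finset MeasureTheory
open scoped ENNReal

set_option linter.unusedSectionVars false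
set_option linter.unusedDecidableInType false

namespace Vale.Agent.P159.H358

open Vale.Agent.P159.TM.H60 Vale.Agent.P159.TM.H131 Vale.Agent.P159.H353 Vale.Agent.P159.TM.H682

variable {V E : Type*} [Fintype V] [DecidableEq V] [Fintype E] [DecidableEq E]
variable {s t : E → V} {a : V → ℤ → ℝ} {J : E → ℝ}

/-- monotonicity of the functional `F`: couplings are lowered and vertices are pinned -/
def MonoF (s t : E → V) (a : V → ℤ → ℝ) (J : E → ℝ) (A : Finset V) (F : (V → ℤ) → ℝ≥0∞)
    (R : ℝ≥0∞) : Prop :=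
  ∀ K : Finset V, A ⊆ K → ∀ J' : E → ℝ, (∀ e, 0 ≤ J' e) → (∀ e, J' e ≤ J e) →
    ∑' u : V → ℤ, (if ∀ v ∈ K, u v = 0 then ENNReal.ofReal (Wm s t a J' u) * F u else 0) ≤
      R * ∑' u : V → ℤ, (if ∀ v ∈ K, u v = 0 then ENNReal.ofReal (Wm s t a J' u) else 0)

/-- the core inequality with fixed pins -/
theorem coreF (hJ : ∀ e, 0 ≤ J e) (ha : ∀ v n, 0 ≤ a v n) (ha0 : ∀ v, 0 < a v 0)
    {A : Finset V} {F : (V → ℤ) → ℝ≥0∞} {R : ℝ≥0∞} (hm : MonoF s t a J A F R) {K : Finset V}
    (hK : A ⊆ K) {c : E → ℝ} (hc0 : ∀ e, 0 ≤ c e) (hc1 : ∀ e, c e ≤ J e) :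
    ∑' y, (outW s t a J K (gl K 0 y) * F (gl K 0 y)) *
        ∏ e ∈ bdE s t K, ENNReal.ofReal (wI (c e) (ov s t K (gl K 0 y) e)) ≤
      ∑' y, (R * outW s t a J K (gl K 0 y)) *
        ∏ e ∈ bdE s t K, ENNReal.ofReal (wI (c e) (ov s t K (gl K 0 y) e)) := by
  classical
  set J' : E → ℝ := fun e => if e ∈ bdE s t K then c e else J e with hJ'd
  have hJ' : ∀ e, 0 ≤ J' e := by
    intro e
    simp only [hJ'd]
    split_ifs
    · exact hc0 e
    · exact hJ e
  have hJ'le : ∀ e, J' e ≤ J e := by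
    intro e
    simp only [hJ'd]
    split_ifs
    · exact hc1 e
    · exact le_rfl
  have hJJ : ∀ e, e ∉ bdE s t K → J' e = J e := fun e he => by simp only [hJ'd, if_neg he]
  have h1 := hm K hK J' hJ' hJ'le
  rw [tsum_gl_zero K (fun u => ENNReal.ofReal (Wm s t a J' u) * F u),
    tsum_gl_zero K (fun u => ENNReal.ofReal (Wm s t a J' u))] at h1
  have hbd : ∀ y : {v // v ∉ K} → ℤ,
      ∏ e ∈ bdE s t K, ENNReal.ofReal (wI (J' e) (ov s t K (gl K 0 y) e)) =
      ∏ e ∈ bdE s t K, ENNReal.ofReal (wI (c e) (ov s t K (gl K 0 y) e)) := by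
    intro y
    refine Finset.prod_congr rfl fun e he => ?_
    simp only [hJ'd, if_pos he]
  have e1 : ∀ y : {v // v ∉ K} → ℤ,
      ENNReal.ofReal (Wm s t a J' (gl K 0 y)) * F (gl K 0 y) =
      cin s t a J K * ((outW s t a J K (gl K 0 y) * F (gl K 0 y)) *
        ∏ e ∈ bdE s t K, ENNReal.ofReal (wI (c e) (ov s t K (gl K 0 y) e))) := by
    intro y
    rw [Wm_zero ha hJ' K hJJ, hbd]
    ring
  have e2 : ∀ y : {v // v ∉ K} → ℤ, ENNReal.ofReal (Wm s t a J' (gl K 0 y)) =
      cin s t a J K * (outW s t a J K (gl K 0 y) *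
        ∏ e ∈ bdE s t K, ENNReal.ofReal (wI (c e) (ov s t K (gl K 0 y) e))) := by
    intro y
    rw [Wm_zero ha hJ' K hJJ, hbd]
  rw [tsum_congr e1, tsum_congr e2, ENNReal.tsum_mul_left, ENNReal.tsum_mul_left,
    ← mul_assoc, mul_comm R, mul_assoc] at h1
  have h2 := (ENNReal.mul_le_mul_iff_right (cin_ne_zero hJ ha0 K) (cin_ne_top K)).1 h1
  refine h2.trans (le_of_eq ?_)
  rw [← ENNReal.tsum_mul_left]
  refine tsum_congr fun y => ?_
  ring

/-- **The outside for given heights inside.** -/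
theorem out_fixF (hJ : ∀ e, 0 ≤ J e) (ha : ∀ v n, 0 ≤ a v n) (ha0 : ∀ v, 0 < a v 0)
    {A : Finset V} {F : (V → ℤ) → ℝ≥0∞} {R : ℝ≥0∞} (hm : MonoF s t a J A F R) {K : Finset V}
    (hK : A ⊆ K) (x : {v // v ∈ K} → ℤ) :
    ∑' y, (outW s t a J K (gl K 0 y) * F (gl K 0 y)) *
        ∏ e ∈ bdE s t K, ENNReal.ofReal (min
          (wI (J e) (ov s t K (gl K x y) e - iv s t K (gl K x y) e))
          (wI (J e) (ov s t K (gl K x y) e + iv s t K (gl K x y) e))) ≤
      ∑' y, (R * outW s t a J K (gl K 0 y)) *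
        ∏ e ∈ bdE s t K, ENNReal.ofReal (min
          (wI (J e) (ov s t K (gl K x y) e - iv s t K (gl K x y) e))
          (wI (J e) (ov s t K (gl K x y) e + iv s t K (gl K x y) e))) := by
  classical
  set Y := {v // v ∉ K} → ℤ
  set I : E → ℤ := fun e => iv s t K (gl K x 0) e with hI
  set O : E → Y → ℤ := fun e y => ov s t K (gl K 0 y) e with hO
  have hi : ∀ y : Y, ∀ e ∈ bdE s t K, iv s t K (gl K x y) e = I e := by
    intro y e he
    have h3 := mem_bdE.1 he
    simp only [hI, iv]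
    by_cases hs : s e ∈ K
    · rw [if_pos hs, if_pos hs, gl_mem hs, gl_mem hs]
    · have ht : t e ∈ K := by
        by_contra h
        exact h3 ⟨fun h4 => absurd h4 hs, fun h4 => absurd h4 h⟩
      rw [if_neg hs, if_neg hs, gl_mem ht, gl_mem ht]
  have ho : ∀ y : Y, ∀ e ∈ bdE s t K, ov s t K (gl K x y) e = O e y := by
    intro y e he
    have h3 := mem_bdE.1 he
    simp only [hO, ov]
    by_cases hs : s e ∈ K
    · have ht : t e ∉ K := fun h => h3 ⟨fun _ => h, fun _ => hs⟩
      rw [if_pos hs, if_pos hs, gl_not_mem ht, gl_not_mem ht]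
    · rw [if_neg hs, if_neg hs, gl_not_mem hs, gl_not_mem hs]
  have hbd : ∀ y : Y, ∏ e ∈ bdE s t K, ENNReal.ofReal (min
          (wI (J e) (ov s t K (gl K x y) e - iv s t K (gl K x y) e))
          (wI (J e) (ov s t K (gl K x y) e + iv s t K (gl K x y) e))) =
        ∏ e ∈ bdE s t K, ∫⁻ r, pG (J e) (I e) (O e y) r := by
    intro y
    refine Finset.prod_congr rfl fun e he => ?_
    rw [hi y e he, ho y e he, lint_pG (hJ e)]
  simp only [hbd]
  have := mix (bdE s t K) (fun _ => (volume : Measure ℝ))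
    (fun e r (y : Y) => pG (J e) (I e) (O e y) r)
    (fun e y => meas_pG (J e) (I e) (O e y))
    (fun y => outW s t a J K (gl K 0 y) * F (gl K 0 y))
    (fun y => R * outW s t a J K (gl K 0 y)) 1 (fun _ => 0) ?_
  · rw [one_mul] at this
    exact this
  intro ω
  rw [one_mul]
  by_cases hω : ∀ e ∈ bdE s t K, ω e ∈ Set.Icc (0 : ℝ) 1
  · set c : E → ℝ := fun e => if e ∈ bdE s t K then pc (J e) (I e) (ω e) else J e with hcd
    have hc0 : ∀ e, 0 ≤ c e := by
      intro e
      simp only [hcd]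
      split_ifs with h
      · exact pc_nonneg (hJ e) _ (hω e h)
      · exact hJ e
    have hc1 : ∀ e, c e ≤ J e := by
      intro e
      simp only [hcd]
      split_ifs with h
      · exact pc_le (hJ e) _ (hω e h)
      · exact le_rfl
    have hp : ∀ y : Y, ∏ e ∈ bdE s t K, pG (J e) (I e) (O e y) (ω e) =
        (∏ e ∈ bdE s t K, pk (J e) (I e) (ω e)) *
          ∏ e ∈ bdE s t K, ENNReal.ofReal (wI (c e) (ov s t K (gl K 0 y) e)) := by
      intro y
      rw [← Finset.prod_mul_distrib]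
      refine Finset.prod_congr rfl fun e he => ?_
      rw [pG_eq (hJ e) _ _ (hω e he)]
      simp only [hcd, if_pos he, hO]
    simp only [hp]
    have h1 := coreF hJ ha ha0 hm hK hc0 hc1
    have h2 := mul_le_mul_right h1 (∏ e ∈ bdE s t K, pk (J e) (I e) (ω e))
    rw [← ENNReal.tsum_mul_left, ← ENNReal.tsum_mul_left] at h2
    refine le_trans (le_of_eq (tsum_congr fun y => ?_)) (h2.trans (le_of_eq (tsum_congr
      fun y => ?_)))
    · ring
    · ring
  · push Not at hω
    obtain ⟨e, he, hne⟩ := hω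
    have hz : ∀ y : Y, ∏ e ∈ bdE s t K, pG (J e) (I e) (O e y) (ω e) = 0 := by
      intro y
      refine Finset.prod_eq_zero he ?_
      unfold pG
      rw [if_neg hne]
    simp [hz]

/-- `u` set to zero on `K` -/
def cut0 (K : Finset V) (u : V → ℤ) : V → ℤ := fun v => if v ∈ K then 0 else u v

theorem cut0_gl (K : Finset V) (x : {v // v ∈ K} → ℤ) (y : {v // v ∉ K} → ℤ) :
    cut0 K (gl K x y) = gl K 0 y := by
  funext v
  unfold cut0
  by_cases hv : v ∈ K
  · rw [if_pos hv, gl_mem hv]; rfl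
  · rw [if_neg hv, gl_not_mem hv, gl_not_mem hv]

section main
variable (hJ : ∀ e, 0 ≤ J e) (ha : ∀ v n, 0 ≤ a v n) (hae : ∀ v n, a v (-n) = a v n)

/-- the inequality for a given hull; `G` depends only on the heights inside -/
theorem hull_ineqF (ha0 : ∀ v, 0 < a v 0) {A : Finset V} {F : (V → ℤ) → ℝ≥0∞} {R : ℝ≥0∞}
    (hm : MonoF s t a J A F R) (K : Finset V) (G : (V → ℤ) → ℝ≥0∞)
    (hG : ∀ x y, G (gl K x y) = G (gl K x 0)) :
    ∑' u, ENNReal.ofReal (wK (sy s t a J hJ ha hae) A K u) * G u * F (cut0 K u) ≤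
      R * ∑' u, ENNReal.ofReal (wK (sy s t a J hJ ha hae) A K u) * G u := by
  by_cases hK : A ⊆ K
  swap
  · have h0 : ∀ u, wK (sy s t a J hJ ha hae) A K u = 0 := by
      intro u
      unfold wK
      rw [insH_eq_zero _ _ _ _ hK]
      ring
    simp [h0]
  rw [tsum_gl K, tsum_gl K (fun u => ENNReal.ofReal (wK (sy s t a J hJ ha hae) A K u) * G u),
    ← ENNReal.tsum_mul_left]
  refine ENNReal.tsum_le_tsum fun x => ?_
  have h1 := out_fixF hJ ha ha0 hm hK x
  have h2 := mul_le_mul_right h1 (inW (sy s t a J hJ ha hae) A K (gl K x 0) * G (gl K x 0))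
  rw [← ENNReal.tsum_mul_left, ← ENNReal.tsum_mul_left] at h2
  rw [← ENNReal.tsum_mul_left]
  refine le_trans (le_of_eq (tsum_congr fun y => ?_)) (h2.trans (le_of_eq (tsum_congr
      fun y => ?_)))
  · rw [ofReal_wK, cut0_gl, hG x y]
    ring
  · rw [ofReal_wK, hG x y]
    ring

/-- the sum over the open sets in terms of the hull, in `[0, ∞]` -/
theorem sum_hull (A : Finset V) (Φ : Finset V → (V → ℤ) → ℝ≥0∞) :
    ∑ om : Finset E, ∑' u, ENNReal.ofReal ((sy s t a J hJ ha hae).wt om u) *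
        Φ (hull s t om A) u =
      ∑ K : Finset V, ∑' u, ENNReal.ofReal (wK (sy s t a J hJ ha hae) A K u) * Φ K u := by
  set σ := sy s t a J hJ ha hae with hσ
  rw [← Summable.tsum_finsetSum fun _ _ => ENNReal.summable,
    ← Summable.tsum_finsetSum fun _ _ => ENNReal.summable]
  refine tsum_congr fun u => ?_
  -- compare the coefficient of each `K`
  have h1 : ∀ K : Finset V, ENNReal.ofReal (wK σ A K u) =
      ∑ om : Finset E, if hull s t om A = K then ENNReal.ofReal (σ.wt om u) else 0 := by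
    intro K
    have h2 := sum_wt_hull σ A u fun K' => if K' = K then 1 else 0
    have h3 : ∑ K' : Finset V, wK σ A K' u * (if K' = K then 1 else 0) = wK σ A K u := by
      simp
    rw [h3] at h2
    rw [← h2, ENNReal.ofReal_sum_of_nonneg]
    · refine Finset.sum_congr rfl fun om _ => ?_
      have : hull σ.s σ.t om A = hull s t om A := rfl
      rw [this]
      by_cases h4 : hull s t om A = K
      · rw [if_pos h4, if_pos h4, mul_one]
      · rw [if_neg h4, if_neg h4, mul_zero, ENNReal.ofReal_zero]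
    · intro om _
      refine mul_nonneg (σ.wt_nonneg om u) ?_
      split_ifs <;> norm_num
  have h5 : ∀ K : Finset V, ENNReal.ofReal (wK σ A K u) * Φ K u =
      ∑ om : Finset E, if hull s t om A = K then ENNReal.ofReal (σ.wt om u) * Φ K u else 0 := by
    intro K
    rw [h1, Finset.sum_mul]
    refine Finset.sum_congr rfl fun om _ => ?_
    rw [ite_mul, zero_mul]
  rw [Finset.sum_congr rfl fun K _ => h5 K, Finset.sum_comm]
  refine Finset.sum_congr rfl fun om _ => ?_
  rw [Finset.sum_ite_eq]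
  simp

/-- **LOC8, cluster inequality**: `Φ` a functional of the hull and of the heights in the hull, `F`
a monotone functional of the heights outside. -/
theorem rest_leF (ha0 : ∀ v, 0 < a v 0) {A : Finset V} {F : (V → ℤ) → ℝ≥0∞} {R : ℝ≥0∞}
    (hm : MonoF s t a J A F R) (G : Finset V → (V → ℤ) → ℝ≥0∞)
    (hG : ∀ K x y, G K (gl K x y) = G K (gl K x 0)) :
    ∑ om : Finset E, ∑' u, ENNReal.ofReal ((sy s t a J hJ ha hae).wt om u) *
        (G (hull s t om A) u * F (cut0 (hull s t om A) u)) ≤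
      R * ∑ om : Finset E, ∑' u, ENNReal.ofReal ((sy s t a J hJ ha hae).wt om u) *
        G (hull s t om A) u := by
  rw [sum_hull hJ ha hae A fun K u => G K u * F (cut0 K u),
    sum_hull hJ ha hae A fun K u => G K u, Finset.mul_sum]
  refine Finset.sum_le_sum fun K _ => ?_
  have := hull_ineqF hJ ha hae ha0 hm K (G K) (hG K)
  simpa only [mul_assoc] using this

end main

end Vale.Agent.P159.H358
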