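import Vale.Agent.P159.H358.Loc8a

/-!
P159, row LOC8, part 2: generating functions. For a source `g`,
`sum W e^{<g,u>} <= R * E cosh <g 1_hull(A), u>`, and the last factor is `1 + small` as soon as the
second moment of `<g 1_hull(A), u>` is small.
-/

open Finset MeasureTheory
open scoped ENNReal

set_option linter.unusedSectionVars false
set_option linter.unusedDecidableInType false

namespace Vale.Agent.P159.H358

open Vale.Agent.P159.TM.H60 Vale.Agent.P159.TM.H131 Vale.Agent.P159.H353 Vale.Agent.P159.TM.H682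

variable {V E : Type*} [Fintype V] [DecidableEq V] [Fintype E] [DecidableEq E]
variable {s t : E → V} {a : V → ℤ → ℝ} {J : E → ℝ}

/-- the source restricted to `K` -/
noncomputable def inG (g : V → ℝ) (K : Finset V) (v : V) : ℝ := if v ∈ K then g v else 0

theorem li_split (g : V → ℝ) (K : Finset V) (u : V → ℤ) :
    li g u = li (inG g K) u + li (cutG g K) u := by
  unfold li inG cutG
  rw [← Finset.sum_add_distrib]
  refine Finset.sum_congr rfl fun v _ => ?_
  split_ifs <;> ring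

theorem li_cut0 (g : V → ℝ) (K : Finset V) (u : V → ℤ) :
    li g (cut0 K u) = li (cutG g K) u := by
  unfold li cut0 cutG
  refine Finset.sum_congr rfl fun v _ => ?_
  split_ifs <;> simp

theorem li_inG_gl (g : V → ℝ) (K : Finset V) (x : {v // v ∈ K} → ℤ) (y : {v // v ∉ K} → ℤ) :
    li (inG g K) (gl K x y) = li (inG g K) (gl K x 0) := by
  unfold li inG
  refine Finset.sum_congr rfl fun v _ => ?_
  by_cases hv : v ∈ K
  · rw [gl_mem hv, gl_mem hv]
  · rw [if_neg hv]; ring

theorem bdE_compl (K : Finset V) : bdE s t Kᶜ = bdE s t K := by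
  ext e
  rw [mem_bdE, mem_bdE]
  simp only [Finset.mem_compl]
  tauto

section main
variable (hJ : ∀ e, 0 ≤ J e) (ha : ∀ v n, 0 ≤ a v n) (hae : ∀ v n, a v (-n) = a v n)

theorem flip_in (g : V → ℝ) (K : Finset V) (u : V → ℤ) :
    li (inG g K) ((sy s t a J hJ ha hae).flip K u) = -li (inG g K) u := by
  unfold li inG
  rw [← Finset.sum_neg_distrib]
  refine Finset.sum_congr rfl fun v _ => ?_
  by_cases hv : v ∈ K
  · rw [if_pos hv, Sys.flip_mem _ hv]
    show g v * ((-u v : ℤ) : ℝ) = _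
    push_cast
    ring
  · rw [if_neg hv]; ring

theorem flip_out (g : V → ℝ) (K : Finset V) (u : V → ℤ) :
    li (cutG g K) ((sy s t a J hJ ha hae).flip K u) = li (cutG g K) u := by
  unfold li cutG
  refine Finset.sum_congr rfl fun v _ => ?_
  by_cases hv : v ∈ K
  · rw [if_pos hv]; ring
  · rw [if_neg hv, Sys.flip_not_mem _ hv]

theorem flip_in' (g : V → ℝ) (K : Finset V) (u : V → ℤ) :
    li (inG g K) ((sy s t a J hJ ha hae).flip Kᶜ u) = li (inG g K) u := by
  unfold li inG
  refine Finset.sum_congr rfl fun v _ => ?_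
  by_cases hv : v ∈ K
  · rw [if_pos hv, Sys.flip_not_mem _ (by simpa using hv)]
  · rw [if_neg hv]; ring

theorem flip_out' (g : V → ℝ) (K : Finset V) (u : V → ℤ) :
    li (cutG g K) ((sy s t a J hJ ha hae).flip Kᶜ u) = -li (cutG g K) u := by
  unfold li cutG
  rw [← Finset.sum_neg_distrib]
  refine Finset.sum_congr rfl fun v _ => ?_
  by_cases hv : v ∈ K
  · rw [if_pos hv]; ring
  · rw [if_neg hv, Sys.flip_mem _ (by simpa using hv)]
    show g v * ((-u v : ℤ) : ℝ) = _
    push_cast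
    ring

/-- sign average on the hull, in `[0, ∞]` -/
theorem avg_in (om : Finset E) (A : Finset V) (g : V → ℝ) (φ : ℝ → ℝ) (hφ : ∀ x, 0 ≤ φ x)
    (ψ : ℝ → ℝ) (hψ : ∀ x, 0 ≤ ψ x) :
    ∑' u, ENNReal.ofReal ((sy s t a J hJ ha hae).wt om u) *
        ENNReal.ofReal (φ (li (inG g (hull s t om A)) u) * ψ (li (cutG g (hull s t om A)) u)) =
      ∑' u, ENNReal.ofReal ((sy s t a J hJ ha hae).wt om u) *
        ENNReal.ofReal ((φ (li (inG g (hull s t om A)) u) + φ (-li (inG g (hull s t om A)) u)) / 2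
          * ψ (li (cutG g (hull s t om A)) u)) := by
  set σ := sy s t a J hJ ha hae with hσ
  set K := hull s t om A with hK
  have hd : Disjoint om (bdE σ.s σ.t K) := hull_no_bd (a := s) (b := t) (A := A) rfl
  set f : (V → ℤ) → ℝ≥0∞ := fun u => ENNReal.ofReal (σ.wt om u) *
    ENNReal.ofReal (φ (li (inG g K) u) * ψ (li (cutG g K) u)) with hf
  have h1 : ∑' u, f u = ∑' u, f (σ.flip K u) := (Equiv.tsum_eq (σ.flipE K) f).symm
  have h2 : ∀ u, f (σ.flip K u) = ENNReal.ofReal (σ.wt om u) *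
      ENNReal.ofReal (φ (-li (inG g K) u) * ψ (li (cutG g K) u)) := by
    intro u
    simp only [hf]
    rw [σ.wt_flip hd, hσ, flip_in, flip_out]
  have h3 : ∀ u, ENNReal.ofReal (σ.wt om u) * ENNReal.ofReal
      ((φ (li (inG g K) u) + φ (-li (inG g K) u)) / 2 * ψ (li (cutG g K) u)) =
      2⁻¹ * f u + 2⁻¹ * f (σ.flip K u) := by
    intro u
    rw [h2 u, hf]
    have e : (φ (li (inG g K) u) + φ (-li (inG g K) u)) / 2 * ψ (li (cutG g K) u) =
        2⁻¹ * (φ (li (inG g K) u) * ψ (li (cutG g K) u)) +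
        2⁻¹ * (φ (-li (inG g K) u) * ψ (li (cutG g K) u)) := by ring
    have p1 := mul_nonneg (hφ (li (inG g K) u)) (hψ (li (cutG g K) u))
    have p2 := mul_nonneg (hφ (-li (inG g K) u)) (hψ (li (cutG g K) u))
    rw [e, ENNReal.ofReal_add (by positivity) (by positivity),
      ENNReal.ofReal_mul (p := 2⁻¹) (by norm_num), ENNReal.ofReal_mul (p := 2⁻¹) (by norm_num),
      ENNReal.ofReal_inv_of_pos two_pos]
    simp only [ENNReal.ofReal_ofNat]
    ring
  rw [tsum_congr h3, ENNReal.tsum_add, ENNReal.tsum_mul_left, ENNReal.tsum_mul_left, ← h1,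
    ← add_mul, ENNReal.inv_two_add_inv_two, one_mul]

/-- sign average outside the hull, in `[0, ∞]` -/
theorem avg_out (om : Finset E) (A : Finset V) (g : V → ℝ) (φ : ℝ → ℝ) (hφ : ∀ x, 0 ≤ φ x)
    (ψ : ℝ → ℝ) (hψ : ∀ x, 0 ≤ ψ x) :
    ∑' u, ENNReal.ofReal ((sy s t a J hJ ha hae).wt om u) *
        ENNReal.ofReal (φ (li (inG g (hull s t om A)) u) * ψ (li (cutG g (hull s t om A)) u)) =
      ∑' u, ENNReal.ofReal ((sy s t a J hJ ha hae).wt om u) *
        ENNReal.ofReal (φ (li (inG g (hull s t om A)) u) *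
          ((ψ (li (cutG g (hull s t om A)) u) + ψ (-li (cutG g (hull s t om A)) u)) / 2)) := by
  set σ := sy s t a J hJ ha hae with hσ
  set K := hull s t om A with hK
  have hd : Disjoint om (bdE σ.s σ.t Kᶜ) := by
    have h0 : Disjoint om (bdE s t K) := hull_no_bd (a := s) (b := t) (A := A) rfl
    have h1 : bdE σ.s σ.t Kᶜ = bdE s t K := bdE_compl K
    rw [h1]
    exact h0
  set f : (V → ℤ) → ℝ≥0∞ := fun u => ENNReal.ofReal (σ.wt om u) *
    ENNReal.ofReal (φ (li (inG g K) u) * ψ (li (cutG g K) u)) with hf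
  have h1 : ∑' u, f u = ∑' u, f (σ.flip Kᶜ u) := (Equiv.tsum_eq (σ.flipE Kᶜ) f).symm
  have h2 : ∀ u, f (σ.flip Kᶜ u) = ENNReal.ofReal (σ.wt om u) *
      ENNReal.ofReal (φ (li (inG g K) u) * ψ (-li (cutG g K) u)) := by
    intro u
    simp only [hf]
    rw [σ.wt_flip hd, hσ, flip_in', flip_out']
  have h3 : ∀ u, ENNReal.ofReal (σ.wt om u) * ENNReal.ofReal
      (φ (li (inG g K) u) * ((ψ (li (cutG g K) u) + ψ (-li (cutG g K) u)) / 2)) =
      2⁻¹ * f u + 2⁻¹ * f (σ.flip Kᶜ u) := by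
    intro u
    rw [h2 u, hf]
    have e : φ (li (inG g K) u) * ((ψ (li (cutG g K) u) + ψ (-li (cutG g K) u)) / 2) =
        2⁻¹ * (φ (li (inG g K) u) * ψ (li (cutG g K) u)) +
        2⁻¹ * (φ (li (inG g K) u) * ψ (-li (cutG g K) u)) := by ring
    have p1 := mul_nonneg (hφ (li (inG g K) u)) (hψ (li (cutG g K) u))
    have p2 := mul_nonneg (hφ (li (inG g K) u)) (hψ (-li (cutG g K) u))
    rw [e, ENNReal.ofReal_add (by positivity) (by positivity),
      ENNReal.ofReal_mul (p := 2⁻¹) (by norm_num), ENNReal.ofReal_mul (p := 2⁻¹) (by norm_num),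
      ENNReal.ofReal_inv_of_pos two_pos]
    simp only [ENNReal.ofReal_ofNat]
    ring
  rw [tsum_congr h3, ENNReal.tsum_add, ENNReal.tsum_mul_left, ENNReal.tsum_mul_left, ← h1,
    ← add_mul, ENNReal.inv_two_add_inv_two, one_mul]

/-- the generating function as a sum over the open sets -/
theorem gen_eq (A : Finset V) (g : V → ℝ) :
    ∑' u, ENNReal.ofReal (Wm s t a J u * Real.exp (li g u)) =
      ∑ om : Finset E, ∑' u, ENNReal.ofReal ((sy s t a J hJ ha hae).wt om u) *
        (ENNReal.ofReal (Real.cosh (li (inG g (hull s t om A)) u)) *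
          ENNReal.ofReal (Real.exp (li g (cut0 (hull s t om A) u)))) := by
  set σ := sy s t a J hJ ha hae with hσ
  have h1 : ∀ om : Finset E, ∑' u, ENNReal.ofReal (σ.wt om u) *
        (ENNReal.ofReal (Real.cosh (li (inG g (hull s t om A)) u)) *
          ENNReal.ofReal (Real.exp (li g (cut0 (hull s t om A) u)))) =
      ∑' u, ENNReal.ofReal (σ.wt om u * Real.exp (li g u)) := by
    intro om
    have h2 := avg_in (s := s) (t := t) hJ ha hae om A g Real.exp (fun x => (Real.exp_pos x).le) Real.exp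
      (fun x => (Real.exp_pos x).le)
    rw [← hσ] at h2
    refine Eq.trans ?_ (h2.symm.trans ?_)
    · refine tsum_congr fun u => ?_
      rw [← ENNReal.ofReal_mul (Real.cosh_pos _).le, li_cut0, Real.cosh_eq]
    · refine tsum_congr fun u => ?_
      rw [← Real.exp_add, ← li_split, ENNReal.ofReal_mul (σ.wt_nonneg om u)]
  rw [Finset.sum_congr rfl fun om _ => h1 om,
    ← Summable.tsum_finsetSum fun _ _ => ENNReal.summable]
  refine tsum_congr fun u => ?_
  rw [← ENNReal.ofReal_sum_of_nonneg fun om _ =>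
    mul_nonneg (σ.wt_nonneg om u) (Real.exp_pos _).le, ← Finset.sum_mul, σ.sum_wt]
  rfl

/-- **generating function version of E3, in `[0, ∞]`** -/
theorem gen_le (ha0 : ∀ v, 0 < a v 0) {A : Finset V} {g : V → ℝ} {R : ℝ≥0∞}
    (hm : MonoF s t a J A (fun u => ENNReal.ofReal (Real.exp (li g u))) R) :
    ∑' u, ENNReal.ofReal (Wm s t a J u * Real.exp (li g u)) ≤
      R * ∑ om : Finset E, ∑' u, ENNReal.ofReal ((sy s t a J hJ ha hae).wt om u) *
        ENNReal.ofReal (Real.cosh (li (inG g (hull s t om A)) u)) := by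
  rw [gen_eq hJ ha hae A g]
  exact rest_leF hJ ha hae ha0 hm
    (fun K u => ENNReal.ofReal (Real.cosh (li (inG g K) u)))
    (fun K x y => by rw [li_inG_gl])

/-- the generating function of the part in the hull is at most the whole one -/
theorem cosh_in_le (A : Finset V) (g : V → ℝ) :
    ∑ om : Finset E, ∑' u, ENNReal.ofReal ((sy s t a J hJ ha hae).wt om u) *
        ENNReal.ofReal (Real.cosh (li (inG g (hull s t om A)) u)) ≤
      ∑' u, ENNReal.ofReal (Wm s t a J u * Real.exp (li g u)) := by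
  rw [gen_eq hJ ha hae A g]
  set σ := sy s t a J hJ ha hae with hσ
  refine Finset.sum_le_sum fun om _ => ?_
  have h2 := avg_out (s := s) (t := t) hJ ha hae om A g Real.cosh (fun x => (Real.cosh_pos x).le) Real.exp
      (fun x => (Real.exp_pos x).le)
  rw [← hσ] at h2
  have h3 : ∑' u, ENNReal.ofReal (σ.wt om u) *
        (ENNReal.ofReal (Real.cosh (li (inG g (hull s t om A)) u)) *
          ENNReal.ofReal (Real.exp (li g (cut0 (hull s t om A) u)))) =
      ∑' u, ENNReal.ofReal (σ.wt om u) *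
        ENNReal.ofReal (Real.cosh (li (inG g (hull s t om A)) u) *
          Real.exp (li (cutG g (hull s t om A)) u)) := by
    refine tsum_congr fun u => ?_
    rw [← ENNReal.ofReal_mul (Real.cosh_pos _).le, li_cut0]
  rw [h3, h2]
  refine ENNReal.tsum_le_tsum fun u => mul_le_mul' le_rfl (ENNReal.ofReal_le_ofReal ?_)
  have h4 := Real.one_le_cosh (li (cutG g (hull s t om A)) u)
  rw [Real.cosh_eq (li (cutG g (hull s t om A)) u)] at h4
  exact le_mul_of_one_le_right (Real.cosh_pos _).le h4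

/-- pointwise inequality -/
theorem cosh_pt {ε : ℝ} (hε : 0 < ε) (x : ℝ) :
    Real.cosh x ≤ 1 + x ^ 2 / (4 * ε) + ε / 16 * Real.cosh (4 * x) := by
  have hc := Real.one_le_cosh x
  have hc2 := Real.one_le_cosh (2 * x)
  have e2 : Real.cosh (2 * x) = 2 * Real.cosh x ^ 2 - 1 := by
    rw [Real.cosh_two_mul, Real.sinh_sq]
    ring
  have e4 : Real.cosh (4 * x) = 2 * Real.cosh (2 * x) ^ 2 - 1 := by
    have : 4 * x = 2 * (2 * x) := by ring
    rw [this, Real.cosh_two_mul, Real.sinh_sq]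
    ring
  -- `cosh x - 1 <= (x^2/2) cosh x`
  have h1 : Real.cosh x - 1 ≤ x ^ 2 / 2 * Real.cosh x := by
    -- `cosh x - 1 = 2 sinh^2 (x/2)`, `sinh y <= y cosh y`
    have h2 : ∀ y : ℝ, 0 ≤ y → Real.sinh y ≤ y * Real.cosh y := by
      intro y hy
      have h3 : MonotoneOn (fun z : ℝ => z * Real.cosh z - Real.sinh z) (Set.Ici 0) := by
        apply monotoneOn_of_deriv_nonneg (convex_Ici 0)
        · fun_prop
        · fun_prop
        · intro z hz
          rw [interior_Ici] at hz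
          have h5 : HasDerivAt (fun z : ℝ => z * Real.cosh z - Real.sinh z)
              (1 * Real.cosh z + z * Real.sinh z - Real.cosh z) z :=
            ((hasDerivAt_id z).mul (Real.hasDerivAt_cosh z)).sub (Real.hasDerivAt_sinh z)
          rw [h5.deriv]
          have h6 : 0 ≤ Real.sinh z := Real.sinh_nonneg_iff.2 (le_of_lt hz)
          have h7 : 0 ≤ z * Real.sinh z := mul_nonneg (le_of_lt hz) h6
          linarith
      have h4 := h3 (Set.mem_Ici.2 le_rfl) (Set.mem_Ici.2 hy) hy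
      simp only [zero_mul, Real.sinh_zero, sub_zero] at h4
      linarith
    have key : ∀ z : ℝ, 0 ≤ z → Real.cosh z - 1 ≤ z ^ 2 / 2 * Real.cosh z := by
      intro z hz
      have h3 := h2 (z / 2) (by linarith)
      have h4 : 0 ≤ Real.sinh (z / 2) := Real.sinh_nonneg_iff.2 (by linarith)
      have h5 : Real.cosh z = 2 * Real.cosh (z / 2) ^ 2 - 1 := by
        have e : z = 2 * (z / 2) := by ring
        rw [e, Real.cosh_two_mul, Real.sinh_sq]
        ring_nf
      have h6 : Real.cosh z = 2 * Real.sinh (z / 2) ^ 2 + 1 := by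
        rw [h5, Real.cosh_sq]; ring
      have h7 : Real.sinh (z / 2) ^ 2 ≤ (z / 2) ^ 2 * Real.cosh (z / 2) ^ 2 := by
        rw [← mul_pow]
        exact pow_le_pow_left₀ h4 h3 2
      have h8 : Real.cosh (z / 2) ^ 2 ≤ Real.cosh z := by
        rw [h5]
        nlinarith [Real.one_le_cosh (z / 2)]
      have h9 : (z / 2) ^ 2 * Real.cosh (z / 2) ^ 2 ≤ (z / 2) ^ 2 * Real.cosh z :=
        mul_le_mul_of_nonneg_left h8 (sq_nonneg _)
      nlinarith
    rcases le_total 0 x with h | h
    · exact key x h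
    · have := key (-x) (by linarith)
      rw [Real.cosh_neg] at this
      nlinarith
  -- `x^2 cosh^2 x <= cosh (4x) / 4`
  have h2 : x ^ 2 * Real.cosh x ^ 2 ≤ Real.cosh (4 * x) / 4 := by
    have h3 : x ^ 2 ≤ Real.sinh x ^ 2 := by
      rw [sq_le_sq, Real.abs_sinh]
      exact Real.self_le_sinh_iff.2 (abs_nonneg x)
    have h4 : Real.sinh x ^ 2 * Real.cosh x ^ 2 = (Real.cosh (2 * x) ^ 2 - 1) / 4 := by
      have h5 : Real.sinh (2 * x) ^ 2 = Real.cosh (2 * x) ^ 2 - 1 := by
        rw [Real.sinh_sq]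
      rw [Real.sinh_two_mul] at h5
      linarith
    have h5 : x ^ 2 * Real.cosh x ^ 2 ≤ Real.sinh x ^ 2 * Real.cosh x ^ 2 :=
      mul_le_mul_of_nonneg_right h3 (sq_nonneg _)
    rw [h4] at h5
    rw [e4]
    nlinarith [sq_nonneg (Real.cosh (2 * x))]
  -- AM-GM
  have h3 : x ^ 2 / 2 * Real.cosh x ≤ x ^ 2 / (4 * ε) + ε / 4 * (x ^ 2 * Real.cosh x ^ 2) := by
    have h4 : 0 ≤ (x / (2 * ε) - x * Real.cosh x / 2) ^ 2 := sq_nonneg _
    have h5 : ε * (x / (2 * ε) - x * Real.cosh x / 2) ^ 2 =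
        x ^ 2 / (4 * ε) + ε / 4 * (x ^ 2 * Real.cosh x ^ 2) - x ^ 2 / 2 * Real.cosh x := by
      field_simp
      ring
    have h6 : 0 ≤ ε * (x / (2 * ε) - x * Real.cosh x / 2) ^ 2 := mul_nonneg hε.le h4
    linarith
  have h4 : ε / 4 * (x ^ 2 * Real.cosh x ^ 2) ≤ ε / 16 * Real.cosh (4 * x) := by
    have := mul_le_mul_of_nonneg_left h2 (by positivity : (0 : ℝ) ≤ ε / 4)
    linarith
  linarith

end main

end Vale.Agent.P159.H358
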