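import Vale.Agent.P159.H358.Loc8b
import Vale.Agent.P159.TM.H77.PosF
import Vale.Agent.P159.TM.H265.Entry

/-!
P159, row LOC8, part 3: the massive Bessel model. `Z(g)/Z(0)` is at most the pinned ratio times
`1 + sqrt w e^{8 sum g^2/m}`, where `w` bounds the second moment of the part of `<g,u>` in the
clusters which meet the pinned set.
-/

open Finset MeasureTheory
open scoped ENNReal

set_option linter.unusedSectionVars false
set_option linter.unusedDecidableInType false

namespace Vale.Agent.P159.H358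

open Vale.Agent.P159.TM.H60 Vale.Agent.P159.TM.H131 Vale.Agent.P159.TM.H682
  Vale.Agent.P159.T1.H934 Vale.Agent.P159.TM.H708
open Vale.Agent.P159.H353 (wI wI_neg wI_nonneg)

variable {V E E' : Type} [Fintype V] [DecidableEq V] [Fintype E] [DecidableEq E] [Fintype E']

lemma bw_neg (D : (V → ℤ) →+ (E' → ℤ)) (J : E' → ℝ) (m : V → ℝ) (X : Set V) (h : V → ℤ) :
    bw D J m X (-h) = bw D J m X h := by
  unfold bw
  rw [TM.H265.iX_even, TM.H265.ga_even]
  congr 1
  unfold W
  refine Finset.prod_congr rfl fun e _ => ?_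
  rw [map_neg, Pi.neg_apply, wI_neg]

/-- the exponential generating function is the hyperbolic cosine one -/
lemma ss_exp {D : (V → ℤ) →+ (E' → ℤ)} {J : E' → ℝ} (hJ : ∀ e, 0 ≤ J e)
    {m : V → ℝ} (hm : ∀ x, 0 < m x) (X : Set V) (g : V → ℝ) :
    SS D J m X (fun h => Real.exp (lf g h)) = SS D J m X fun h => Real.cosh (lf g h) := by
  have h1 : SS D J m X (fun h => Real.exp (lf g h)) =
      SS D J m X fun h => Real.exp (-lf g h) := by
    unfold SS
    rw [← (Equiv.neg (V → ℤ)).tsum_eq]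
    refine tsum_congr fun h => ?_
    simp only
    rw [Equiv.neg_apply, bw_neg, lf_neg]
  have s1 : Summable fun h => bw D J m X h * Real.exp (lf g h) :=
    (bw_summable hJ hm (gr_exp g)).of_abs
  have s2 : Summable fun h => bw D J m X h * Real.exp (-lf g h) := by
    have := (bw_summable (D := D) (X := X) hJ hm (gr_exp (-g))).of_abs
    refine this.congr fun h => ?_
    congr 2
    unfold lf
    rw [← Finset.sum_neg_distrib]
    exact Finset.sum_congr rfl fun x _ => by rw [Pi.neg_apply]; ring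
  have h2 : SS D J m X (fun h => Real.cosh (lf g h)) =
      2⁻¹ * SS D J m X (fun h => Real.exp (lf g h)) +
        2⁻¹ * SS D J m X fun h => Real.exp (-lf g h) := by
    unfold SS
    rw [← tsum_mul_left, ← tsum_mul_left, ← (s1.mul_left _).tsum_add (s2.mul_left _)]
    refine tsum_congr fun h => ?_
    simp only
    rw [Real.cosh_eq]
    ring
  rw [h2, ← h1]
  ring

/-- **MONO for the exponential.** -/
theorem monoF_gen {s t : E → V} {a : V → ℤ → ℝ} {J : E → ℝ} (D : (V → ℤ) →+ (E' → ℤ))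
    {φ : (E → ℝ) → E' → ℝ} {m : V → ℝ} (hm : ∀ x, 0 < m x) (X : Set V)
    (hφ0 : ∀ J' : E → ℝ, (∀ e, 0 ≤ J' e) → ∀ e, 0 ≤ φ J' e)
    (hφm : ∀ J' : E → ℝ, (∀ e, J' e ≤ J e) → ∀ e, φ J' e ≤ φ J e)
    (hW : ∀ J' : E → ℝ, ∀ h, Wm s t a J' h = bw D (φ J') m X h) (A : Finset V)
    (g : V → ℝ) :
    MonoF s t a J A (fun u => ENNReal.ofReal (Real.exp (li g u)))
      (ENNReal.ofReal (SS D (φ J) m (X ∪ (A : Set V)) (fun h => Real.cosh (lf g h)) /
      SS D (φ J) m (X ∪ (A : Set V)) (fun _ => 1))) := by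
  classical
  intro K hK J' hJ' hJJ
  have key : ∀ F : (V → ℤ) → ℝ, (∀ u, 0 ≤ F u) → ∀ u : V → ℤ,
      (if ∀ v ∈ K, u v = 0 then ENNReal.ofReal (Wm s t a J' u) * ENNReal.ofReal (F u) else 0) =
      ENNReal.ofReal (bw D (φ J') m (X ∪ (K : Set V)) u * F u) := by
    intro F hF u
    have hb : 0 ≤ bw D (φ J') m X u := bw_nonneg (hφ0 J' hJ') u
    rw [hW, ← ENNReal.ofReal_mul hb, bw_union]
    unfold iX
    by_cases h1 : ∀ v ∈ K, u v = 0
    · rw [if_pos h1, if_pos (by simpa using h1), mul_one]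
    · rw [if_neg h1, if_neg (by simpa using h1)]
      simp
  have k1 := key (fun h => Real.exp (li g h)) fun _ => (Real.exp_pos _).le
  have k2 : ∀ u : V → ℤ, (if ∀ v ∈ K, u v = 0 then ENNReal.ofReal (Wm s t a J' u) else 0) =
      ENNReal.ofReal (bw D (φ J') m (X ∪ (K : Set V)) u * 1) := by
    intro u
    rw [← key (fun _ => 1) (fun _ => zero_le_one) u]
    simp
  rw [tsum_congr k1, tsum_congr k2]
  have hF : Inc fun h : V → ℤ => Real.cosh (lf g h) := inc_cosh g
  have e1 : ∑' u, ENNReal.ofReal (bw D (φ J') m (X ∪ (K : Set V)) u * Real.exp (li g u)) =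
      ENNReal.ofReal (SS D (φ J') m (X ∪ (K : Set V)) fun h => Real.cosh (lf g h)) := by
    rw [← ss_exp (hφ0 J' hJ') hm]
    exact tsum_ofReal_bw (hφ0 J' hJ') hm _ (F := fun h => Real.exp (lf g h)) (gr_exp g)
      fun _ => (Real.exp_pos _).le
  rw [e1, tsum_ofReal_bw (hφ0 J' hJ') hm _ (F := fun _ => (1 : ℝ)) (TM.H708.Gr.one)
      fun _ => zero_le_one, ← ENNReal.ofReal_mul]
  · refine ENNReal.ofReal_le_ofReal ?_
    exact mono_two D (hφ0 J' hJ') (hφm J' hJJ) hm X (by exact_mod_cast hK) hF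
      fun _ => (Real.cosh_pos _).le
  · have hφJ : ∀ e, 0 ≤ φ J e := fun e => (hφ0 J' hJ' e).trans (hφm J' hJJ e)
    refine div_nonneg (tsum_nonneg fun h => mul_nonneg (bw_nonneg hφJ h) (Real.cosh_pos _).le) ?_
    exact (SS_one_pos D hφJ hm _).le

/-- bare bound for the generating function -/
theorem ss_bare (s t : E → V) {J : E → ℝ} (hJ : ∀ e, 0 ≤ J e) {m : V → ℝ} (hm : ∀ x, 0 < m x)
    (g : V → ℝ) :
    SS (grd s t) J m ∅ (fun h => Real.exp (lf g h)) ≤
      Real.exp (∑ x, g x ^ 2 / (2 * m x)) * SS (grd s t) J m ∅ fun _ => 1 := by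
  have h := (TM.H77.bare_le s t hJ ∅ (m := m) (fun x _ => hm x) (fun _ => 0) g).2
  simp only [Real.cosh_zero, sub_self, mul_zero, Finset.sum_const_zero, zero_mul, zero_add,
    Finset.compl_empty] at h
  have e2 : ∀ h : V → ℤ, ∏ x, TM.H77.sA ∅ m x (h x) = ga m h * iX (∅ : Set V) h := by
    intro h
    have h1 : iX (∅ : Set V) h = 1 := by
      unfold iX
      rw [if_pos]
      intro x hx
      exact absurd hx (Set.notMem_empty x)
    rw [h1, mul_one]
    unfold ga
    rw [← Finset.sum_neg_distrib, Real.exp_sum]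
    refine Finset.prod_congr rfl fun x _ => ?_
    unfold TM.H77.sA
    rw [if_neg (Finset.notMem_empty x)]
    congr 1
    ring
  simp only [e2] at h
  have e3 : ∀ h : V → ℤ, (∏ e, wI (J e) (h (t e) - h (s e))) * (ga m h * iX (∅ : Set V) h) =
      bw (grd s t) J m ∅ h := fun h => rfl
  simp only [e3] at h
  unfold SS
  simp only [mul_one]
  exact h

section mass
variable (s t : E → V) {J : E → ℝ} (hJ : ∀ e, 0 ≤ J e) {m : V → ℝ} (hm : ∀ x, 0 < m x)
include hJ hm

/-- the expectation of `cosh` of the part in the hull -/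
theorem cosh_hull (A : Finset V) (g : V → ℝ) {w : ℝ} (hw : 0 < w)
    (h2 : ∑ om : Finset E, ∑' u, ENNReal.ofReal ((syM s t J m hJ).wt om u) *
        ENNReal.ofReal ((li (inG g (hull s t om A)) u) ^ 2) ≤
      ENNReal.ofReal (w * SS (grd s t) J m ∅ fun _ => 1)) :
    ∑ om : Finset E, ∑' u, ENNReal.ofReal ((syM s t J m hJ).wt om u) *
        ENNReal.ofReal (Real.cosh (li (inG g (hull s t om A)) u)) ≤
      ENNReal.ofReal ((1 + Real.sqrt w * Real.exp (∑ x, (4 * g x) ^ 2 / (2 * m x))) *
        SS (grd s t) J m ∅ fun _ => 1) := by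
  set σ := syM s t J m hJ with hσ
  set Z := SS (grd s t) J m ∅ fun _ => 1 with hZ
  have hZ0 : 0 < Z := SS_one_pos (grd s t) hJ hm ∅
  set X := Real.exp (∑ x, (4 * g x) ^ 2 / (2 * m x)) with hX
  have hX1 : 1 ≤ X := by
    refine Real.one_le_exp (Finset.sum_nonneg fun x _ => ?_)
    have := (hm x).le
    positivity
  set ε := Real.sqrt w with hε
  have hε0 : 0 < ε := Real.sqrt_pos.2 hw
  have hεw : ε * ε = w := Real.mul_self_sqrt hw.le
  -- the three terms
  have t1 : ∑ om : Finset E, ∑' u, ENNReal.ofReal (σ.wt om u) = ENNReal.ofReal Z := by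
    rw [← Summable.tsum_finsetSum fun _ _ => ENNReal.summable]
    have h1 : ∀ u, ∑ om : Finset E, ENNReal.ofReal (σ.wt om u) =
        ENNReal.ofReal (bw (grd s t) J m ∅ u * 1) := by
      intro u
      rw [← ENNReal.ofReal_sum_of_nonneg fun om _ => σ.wt_nonneg om u, σ.sum_wt, mul_one,
        ← Wm_gs]
      rfl
    rw [tsum_congr h1]
    exact tsum_ofReal_bw hJ hm ∅ (F := fun _ => (1 : ℝ)) TM.H708.Gr.one fun _ => zero_le_one
  have t3 : ∑ om : Finset E, ∑' u, ENNReal.ofReal (σ.wt om u) *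
        ENNReal.ofReal (Real.cosh (4 * li (inG g (hull s t om A)) u)) ≤
      ENNReal.ofReal (X * Z) := by
    have h1 := cosh_in_le (s := s) (t := t) hJ (fun v n => (gs_pos m v n).le) (gs_neg m) A
      fun v => 4 * g v
    have e1 : ∀ K u, li (inG (fun v => 4 * g v) K) u = 4 * li (inG g K) u := by
      intro K u
      unfold li inG
      rw [Finset.mul_sum]
      refine Finset.sum_congr rfl fun v _ => ?_
      split_ifs <;> ring
    simp only [e1] at h1
    refine h1.trans ?_
    have e2 : ∀ u, Wm s t (gs m) J u * Real.exp (li (fun v => 4 * g v) u) =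
        bw (grd s t) J m ∅ u * Real.exp (lf (fun v => 4 * g v) u) := by
      intro u
      rw [Wm_gs, li_eq_lf]
    simp only [e2]
    rw [tsum_ofReal_bw hJ hm ∅ (F := fun h => Real.exp (lf (fun v => 4 * g v) h))
      (gr_exp _) fun _ => (Real.exp_pos _).le]
    exact ENNReal.ofReal_le_ofReal (ss_bare s t hJ hm fun v => 4 * g v)
  have h3 : ∀ om u, ENNReal.ofReal (σ.wt om u) *
        ENNReal.ofReal (Real.cosh (li (inG g (hull s t om A)) u)) ≤
      ENNReal.ofReal (σ.wt om u) + (ENNReal.ofReal (1 / (4 * ε)) * (ENNReal.ofReal (σ.wt om u) *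
        ENNReal.ofReal ((li (inG g (hull s t om A)) u) ^ 2)) +
        ENNReal.ofReal (ε / 16) * (ENNReal.ofReal (σ.wt om u) *
        ENNReal.ofReal (Real.cosh (4 * li (inG g (hull s t om A)) u)))) := by
    intro om u
    set x := li (inG g (hull s t om A)) u with hx
    have h4 := cosh_pt hε0 x
    have e4 : (1 : ℝ) + x ^ 2 / (4 * ε) + ε / 16 * Real.cosh (4 * x) =
        1 + (1 / (4 * ε) * x ^ 2 + ε / 16 * Real.cosh (4 * x)) := by ring
    rw [e4] at h4
    have h5 := ENNReal.ofReal_le_ofReal h4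
    have hc := Real.cosh_pos (4 * x)
    rw [ENNReal.ofReal_add zero_le_one (by positivity),
      ENNReal.ofReal_add (by positivity) (by positivity), ENNReal.ofReal_one,
      ENNReal.ofReal_mul (by positivity), ENNReal.ofReal_mul (by positivity)] at h5
    refine (mul_le_mul' le_rfl h5).trans (le_of_eq ?_)
    ring
  calc ∑ om : Finset E, ∑' u, ENNReal.ofReal (σ.wt om u) *
        ENNReal.ofReal (Real.cosh (li (inG g (hull s t om A)) u))
      ≤ ∑ om : Finset E, ∑' u, (ENNReal.ofReal (σ.wt om u) +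
        (ENNReal.ofReal (1 / (4 * ε)) * (ENNReal.ofReal (σ.wt om u) *
        ENNReal.ofReal ((li (inG g (hull s t om A)) u) ^ 2)) +
        ENNReal.ofReal (ε / 16) * (ENNReal.ofReal (σ.wt om u) *
        ENNReal.ofReal (Real.cosh (4 * li (inG g (hull s t om A)) u))))) :=
        Finset.sum_le_sum fun om _ => ENNReal.tsum_le_tsum fun u => h3 om u
    _ = ENNReal.ofReal Z + (ENNReal.ofReal (1 / (4 * ε)) * ∑ om : Finset E, ∑' u,
        ENNReal.ofReal (σ.wt om u) * ENNReal.ofReal ((li (inG g (hull s t om A)) u) ^ 2) +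
        ENNReal.ofReal (ε / 16) * ∑ om : Finset E, ∑' u, ENNReal.ofReal (σ.wt om u) *
        ENNReal.ofReal (Real.cosh (4 * li (inG g (hull s t om A)) u))) := by
        simp only [ENNReal.tsum_add, ENNReal.tsum_mul_left, Finset.sum_add_distrib,
          ← Finset.mul_sum]
        rw [t1]
    _ ≤ ENNReal.ofReal Z + (ENNReal.ofReal (1 / (4 * ε)) * ENNReal.ofReal (w * Z) +
        ENNReal.ofReal (ε / 16) * ENNReal.ofReal (X * Z)) := by
        gcongr
    _ ≤ _ := by
        rw [← ENNReal.ofReal_mul (by positivity), ← ENNReal.ofReal_mul (by positivity),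
          ← ENNReal.ofReal_add (by positivity) (by positivity),
          ← ENNReal.ofReal_add hZ0.le (by positivity)]
        refine ENNReal.ofReal_le_ofReal ?_
        have e5 : 1 / (4 * ε) * (w * Z) = ε / 4 * Z := by
          rw [← hεw]
          field_simp
        rw [e5]
        have h6 : ε * 1 ≤ ε * X := mul_le_mul_of_nonneg_left hX1 hε0.le
        have h7 : Z + (ε / 4 * Z + ε / 16 * (X * Z)) = (1 + (ε / 4 + ε * X / 16)) * Z := by ring
        rw [h7]
        refine mul_le_mul_of_nonneg_right ?_ hZ0.le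
        have h8 : 0 < ε * X := by positivity
        linarith

/-- **LOC8, abstract form.** -/
theorem loc8_mass (A : Finset V) (g : V → ℝ) {w : ℝ} (hw : 0 < w)
    (h2 : ∑ om : Finset E, ∑' u, ENNReal.ofReal ((syM s t J m hJ).wt om u) *
        ENNReal.ofReal ((li (inG g (hull s t om A)) u) ^ 2) ≤
      ENNReal.ofReal (w * SS (grd s t) J m ∅ fun _ => 1)) :
    SS (grd s t) J m ∅ (fun h => Real.exp (lf g h)) / SS (grd s t) J m ∅ (fun _ => 1) ≤
      SS (grd s t) J m (A : Set V) (fun h => Real.exp (lf g h)) /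
        SS (grd s t) J m (A : Set V) (fun _ => 1) *
        (1 + Real.sqrt w * Real.exp (∑ x, (4 * g x) ^ 2 / (2 * m x))) := by
  set R := SS (grd s t) J m (A : Set V) (fun h => Real.exp (lf g h)) /
        SS (grd s t) J m (A : Set V) (fun _ => 1) with hR
  have hR0 : 0 ≤ R := div_nonneg (tsum_nonneg fun h => mul_nonneg (bw_nonneg hJ h)
    (Real.exp_pos _).le) (SS_one_pos (grd s t) hJ hm _).le
  have hmon := monoF_gen (E' := E) (s := s) (t := t) (a := gs m) (J := J) (grd s t)
    (φ := fun J' => J') hm ∅ (fun _ h => h) (fun _ h => h) (fun J' h => Wm_gs s t m J' h) A g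
  rw [Set.empty_union, ← ss_exp hJ hm, ← hR] at hmon
  have h3 := gen_le (s := s) (t := t) hJ (fun v n => (gs_pos m v n).le) (gs_neg m)
    (fun v => gs_pos m v 0) hmon
  have h4 := cosh_hull s t hJ hm A g hw h2
  have h5 := h3.trans (mul_le_mul' le_rfl h4)
  set Z := SS (grd s t) J m ∅ fun _ => 1 with hZ
  have hZ0 : 0 < Z := SS_one_pos (grd s t) hJ hm ∅
  have e1 : ∑' u, ENNReal.ofReal (Wm s t (gs m) J u * Real.exp (li g u)) =
      ENNReal.ofReal (SS (grd s t) J m ∅ fun h => Real.exp (lf g h)) := by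
    have e2 : ∀ u, Wm s t (gs m) J u * Real.exp (li g u) =
        bw (grd s t) J m ∅ u * Real.exp (lf g u) := by
      intro u
      rw [Wm_gs, li_eq_lf]
    simp only [e2]
    exact tsum_ofReal_bw hJ hm ∅ (F := fun h => Real.exp (lf g h)) (gr_exp _)
      fun _ => (Real.exp_pos _).le
  rw [e1, ← ENNReal.ofReal_mul hR0] at h5
  have h6 := (ENNReal.ofReal_le_ofReal_iff (by positivity)).1 h5
  rw [div_le_iff₀ hZ0]
  calc _ ≤ _ := h6
    _ = _ := by ring

/-- the other half: pinning lowers the generating function -/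
theorem loc8_lower (A : Finset V) (g : V → ℝ) :
    SS (grd s t) J m (A : Set V) (fun h => Real.exp (lf g h)) /
        SS (grd s t) J m (A : Set V) (fun _ => 1) ≤
      SS (grd s t) J m ∅ (fun h => Real.exp (lf g h)) / SS (grd s t) J m ∅ (fun _ => 1) := by
  rw [ss_exp hJ hm, ss_exp hJ hm]
  have h2 := mono_pd (grd s t) hJ hm ∅ (inc_cosh g) (PD.iX (V := V) (A : Set V))
  have hb : ∀ h, bw (grd s t) J m ∅ h * iX (A : Set V) h = bw (grd s t) J m (A : Set V) h := by
    intro h
    have := bw_union (grd s t) J m ∅ (A : Set V) h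
    rw [Set.empty_union] at this
    exact this.symm
  have e1 : SS (grd s t) J m ∅ (fun h => Real.cosh (lf g h) * iX (A : Set V) h) =
      SS (grd s t) J m (A : Set V) (fun h => Real.cosh (lf g h)) := by
    unfold SS
    refine tsum_congr fun h => ?_
    rw [← hb]
    ring
  have e2 : SS (grd s t) J m ∅ (iX (A : Set V)) = SS (grd s t) J m (A : Set V) fun _ => 1 := by
    unfold SS
    refine tsum_congr fun h => ?_
    rw [← hb, mul_one]
  rw [e1, e2] at h2
  rw [div_le_div_iff₀ (SS_one_pos (grd s t) hJ hm _) (SS_one_pos (grd s t) hJ hm ∅)]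
  exact h2

/-- the second moment in the hull, source supported in `B`, `|g| ≤ M` -/
theorem sq_hull {A B : Finset V} {g : V → ℝ} {M : ℝ} (hM : 0 ≤ M)
    (hg : ∀ v, |g v| ≤ if v ∈ B then M else 0) :
    ∑ om : Finset E, ∑' u, ENNReal.ofReal ((syM s t J m hJ).wt om u) *
        ENNReal.ofReal ((li (inG g (hull s t om A)) u) ^ 2) ≤
      ENNReal.ofReal (M ^ 2) * ∑ om : Finset E, ∑' u, ENNReal.ofReal ((syM s t J m hJ).wt om u *
        Xi (syM s t J m hJ) (fun v => if v ∈ B then (1 : ℝ) else 0) A om u) := by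
  classical
  set σ := syM s t J m hJ with hσ
  have hs : Mom σ := mom_gen hJ (fun v n => (gs_pos m v n).le) (gs_neg m) (grd s t) hJ hm ∅
    (fun h => Wm_gs s t m J h)
  set o : V → ℝ := fun v => if v ∈ B then (1 : ℝ) else 0 with ho
  have ho0 : ∀ v, 0 ≤ o v := by
    intro v
    simp only [ho]
    split_ifs <;> norm_num
  rw [Finset.mul_sum]
  refine Finset.sum_le_sum fun om _ => ?_
  set K := hull s t om A with hK
  set g' := inG g K with hg'
  have hX0 : ∀ u, 0 ≤ σ.wt om u * Xi σ o A om u := fun u =>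
    mul_nonneg (σ.wt_nonneg om u) (Xi_nonneg σ ho0 A om u)
  -- the real inequality
  have h1 : ∑' u, σ.wt om u * (li g' u) ^ 2 ≤ M ^ 2 * ∑' u, σ.wt om u * Xi σ o A om u := by
    have e1 : ∑' u, σ.wt om u * (li g' u) ^ 2 = ∑' x, σ.wt om x * (lin σ g' x) ^ 2 := rfl
    rw [e1, tsum_split hs om g' A]
    have e2 : cutG g' (hull σ.s σ.t om A) = 0 := by
      funext v
      unfold cutG
      rw [hg']
      unfold inG
      have : hull σ.s σ.t om A = K := rfl
      rw [this]
      by_cases hv : v ∈ K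
      · rw [if_pos hv]; rfl
      · rw [if_neg hv, if_neg hv]; rfl
    have e3 : ∀ x : V → ℤ, lin σ (cutG g' (hull σ.s σ.t om A)) x = 0 := by
      intro x
      rw [e2]
      unfold lin
      simp
    simp only [e3]
    rw [← tsum_mul_left]
    have e4 : (∑' x : V → ℤ, σ.wt om x * (0 : ℝ) ^ 2) = 0 := by simp
    rw [e4, add_zero]
    refine (hs.Xi g' A om).tsum_le_tsum (fun u => ?_) ((hs.Xi o A om).mul_left _)
    have h3 : Xi σ g' A om u ≤ M ^ 2 * Xi σ o A om u := by
      unfold Xi
      rw [Finset.mul_sum]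
      refine Finset.sum_le_sum fun x _ => ?_
      rw [Finset.mul_sum, Finset.mul_sum, Finset.mul_sum]
      refine Finset.sum_le_sum fun y _ => ?_
      have hb : ∀ v, |g' v| ≤ M * o v := by
        intro v
        have h4 := hg v
        simp only [hg', ho]
        unfold inG
        by_cases hv : v ∈ B
        · rw [if_pos hv] at h4 ⊢
          split_ifs
          · linarith
          · rw [abs_zero]; linarith
        · rw [if_neg hv] at h4 ⊢
          split_ifs
          · linarith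
          · rw [abs_zero]; linarith
      have h5 : g' x * g' y ≤ (M * o x) * (M * o y) := by
        refine (le_abs_self _).trans ?_
        rw [abs_mul]
        exact mul_le_mul (hb x) (hb y) (abs_nonneg _) (mul_nonneg hM (ho0 x))
      have h6 : 0 ≤ |(σ.d (u x) : ℝ)| * |(σ.d (u y) : ℝ)| := by positivity
      calc g' x * |(σ.d (u x) : ℝ)| * (g' y * |(σ.d (u y) : ℝ)|)
          = (g' x * g' y) * (|(σ.d (u x) : ℝ)| * |(σ.d (u y) : ℝ)|) := by ring
        _ ≤ ((M * o x) * (M * o y)) * (|(σ.d (u x) : ℝ)| * |(σ.d (u y) : ℝ)|) :=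
            mul_le_mul_of_nonneg_right h5 h6
        _ = _ := by ring
    have h7 := mul_le_mul_of_nonneg_left h3 (σ.wt_nonneg om u)
    linarith
  have s1 : Summable fun u => σ.wt om u * (li g' u) ^ 2 := hs.lin_sq g' om
  have s2 : Summable fun u => σ.wt om u * Xi σ o A om u := hs.Xi o A om
  calc ∑' u, ENNReal.ofReal (σ.wt om u) * ENNReal.ofReal ((li g' u) ^ 2)
      = ∑' u, ENNReal.ofReal (σ.wt om u * (li g' u) ^ 2) :=
        tsum_congr fun u => (ENNReal.ofReal_mul (σ.wt_nonneg om u)).symm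
    _ = ENNReal.ofReal (∑' u, σ.wt om u * (li g' u) ^ 2) :=
        (ENNReal.ofReal_tsum_of_nonneg (fun u => mul_nonneg (σ.wt_nonneg om u) (sq_nonneg _))
          s1).symm
    _ ≤ ENNReal.ofReal (M ^ 2 * ∑' u, σ.wt om u * Xi σ o A om u) :=
        ENNReal.ofReal_le_ofReal h1
    _ = _ := by
        rw [ENNReal.ofReal_mul (by positivity), ENNReal.ofReal_tsum_of_nonneg hX0 s2]

end mass

end Vale.Agent.P159.H358
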