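import Vale.Agent.P159.H358.Loc8c
import Vale.Agent.P159.TM.H265.Dec
import Vale.Agent.P159.H37.Spec0L

/-!
P159, row LOC8, part 4: the torus, letters of `H37/Spec0`. Source `J` supported in blocks
`ball x ξ`, `x ∈ I`, of size `|J| ≤ A t`; `P` a set of pinned sites at distance `n` from them:
`0 ≤ [log Z(J)/Z(0)] - [log Z_P(J)/Z_P(0)] ≤ sqrt C * A * |I| * exp (72 A^2 |I|) * exp (- c n / 2 ξ)`
with the constants `c C` of Theorem A (1) (`H265.HA`).
-/

open Finset MeasureTheory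
open scoped ENNReal

set_option linter.unusedSectionVars false
set_option linter.unusedDecidableInType false

namespace Vale.Agent.P159.H358

open Vale.Agent.P159.TM.H60 Vale.Agent.P159.TM.H682
  Vale.Agent.P159.T1.H934 Vale.Agent.P159.TM.H708
open Vale.Agent.P159.TM.Spec Vale.Agent.P159.TM.H459 Vale.Agent.P159.TM.SpecC
open Vale.Agent.P159.TM.H265 (DT one' HA s1_eq xi_le_wf ofReal_tsum_le tot_summable tot_tsum)
open Vale.Agent.P159.TM (H41.ms_pos H576.Ex)
open Vale.Agent.P159.TM.H104 (EM Lg)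
open Vale.Agent.P159.H37

variable {N : ℕ} [NeZero N]

/-- the cluster functional bounds the mass in the clusters which meet `P` -/
theorem xi_sum_le {b : ℝ} (hb : 0 ≤ b) {ξ : ℕ} (hξ : 0 < ξ) {B P Λ : Finset (V N)} (hB : B ⊆ Λ)
    (hP : Disjoint P Λ) {w : ℝ} (hw : 0 ≤ w) (hE : Ele (σ1 N b ξ hb) (WF (σ1 N b ξ hb) B Λ) w) :
    ∑ om : Finset (E N), ∑' u, ENNReal.ofReal
      ((syM (tS (N := N)) tT (fun _ => b) (ms (ξ : ℝ)) fun _ => hb).wt om u *
        Xi (syM (tS (N := N)) tT (fun _ => b) (ms (ξ : ℝ)) fun _ => hb) (one' B) P om u) ≤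
      ENNReal.ofReal (w * SS (DT N) (fun _ => b) (ms (ξ : ℝ)) ∅ fun _ => 1) := by
  have hξ' : (0 : ℝ) < ξ := by exact_mod_cast hξ
  rw [s1_eq (N := N) b ξ hb] at hE
  set σ := syM (tS (N := N)) tT (fun _ => b) (ms (ξ : ℝ)) fun _ => hb with hσ
  unfold Ele at hE
  rw [TM.H576.Ex_one_real σ (tot_summable hb hξ'), tot_tsum hb, ← ENNReal.ofReal_mul hw] at hE
  refine le_trans ?_ hE
  rw [← Summable.tsum_finsetSum fun om _ => ENNReal.summable]
  unfold TM.H576.Ex
  refine ENNReal.tsum_le_tsum fun x => Finset.sum_le_sum fun om _ => ?_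
  rw [ENNReal.ofReal_mul (σ.wt_nonneg om x)]
  by_cases h0 : σ.wt om x = 0
  · rw [h0, ENNReal.ofReal_zero, zero_mul, zero_mul]
  · exact mul_le_mul' le_rfl (xi_le_wf σ hB hP h0)

/-- second moment for a source supported in blocks -/
theorem sq_blocks {b : ℝ} (hb : 0 ≤ b) {ξ : ℕ} (hξ : 0 < ξ) (I : Finset (V N)) {n : ℕ}
    (hn : ξ ≤ n) {P : Finset (V N)} (hP : ∀ x ∈ I, Disjoint P (ball x n)) {g : V N → ℝ} {M : ℝ}
    (hM : 0 ≤ M) (hg : ∀ v, |g v| ≤ M) (hs : ∀ v, g v ≠ 0 → ∃ x ∈ I, v ∈ ball x ξ) {w : ℝ}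
    (hw : 0 ≤ w)
    (hE : ∀ x ∈ I, Ele (σ1 N b ξ hb) (WF (σ1 N b ξ hb) (ball x ξ) (ball x n)) w) :
    ∑ om : Finset (E N), ∑' u, ENNReal.ofReal
      ((syM (tS (N := N)) tT (fun _ => b) (ms (ξ : ℝ)) fun _ => hb).wt om u) *
        ENNReal.ofReal ((li (inG g (hull (tS (N := N)) tT om P)) u) ^ 2) ≤
      ENNReal.ofReal (((I.card : ℝ) ^ 2 * M ^ 2 * w) *
        SS (DT N) (fun _ => b) (ms (ξ : ℝ)) ∅ fun _ => 1) := by
  classical
  have hξ' : (0 : ℝ) < ξ := by exact_mod_cast hξ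
  have hm := TM.H41.ms_pos (N := N) hξ'
  set σ := syM (tS (N := N)) tT (fun _ => b) (ms (ξ : ℝ)) fun _ => hb with hσ
  set Z := SS (DT N) (fun _ => b) (ms (ξ : ℝ)) ∅ fun _ => 1 with hZ
  have hZ0 : 0 < Z := SS_one_pos (DT N) (fun _ => hb) hm ∅
  -- choice of a block
  set f : V N → V N := fun v => if h : g v ≠ 0 then (hs v h).choose else v with hf
  have hf1 : ∀ v, g v ≠ 0 → f v ∈ I ∧ v ∈ ball (f v) ξ := by
    intro v hv
    simp only [hf]
    rw [dif_pos hv]
    exact (hs v hv).choose_spec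
  set gi : V N → V N → ℝ := fun x v => if g v ≠ 0 ∧ f v = x then g v else 0 with hgi
  have hsum : ∀ v, g v = ∑ x ∈ I, gi x v := by
    intro v
    by_cases hv : g v = 0
    · rw [hv]
      symm
      refine Finset.sum_eq_zero fun x _ => ?_
      simp only [hgi]
      rw [if_neg (fun h => h.1 hv)]
    · rw [Finset.sum_eq_single (f v)]
      · show g v = if g v ≠ 0 ∧ f v = f v then g v else 0
        rw [if_pos ⟨hv, rfl⟩]
      · intro x _ hx
        simp only [hgi]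
        rw [if_neg (fun h => hx h.2.symm)]
      · intro h
        exact absurd (hf1 v hv).1 h
  have hli : ∀ K u, li (inG g K) u = ∑ x ∈ I, li (inG (gi x) K) u := by
    intro K u
    unfold li
    rw [Finset.sum_comm]
    refine Finset.sum_congr rfl fun v _ => ?_
    rw [← Finset.sum_mul]
    congr 1
    unfold inG
    split_ifs with hv
    · exact hsum v
    · rw [Finset.sum_const_zero]
  have hgb : ∀ x v, |gi x v| ≤ if v ∈ ball x ξ then M else 0 := by
    intro x v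
    simp only [hgi]
    by_cases h1 : g v ≠ 0 ∧ f v = x
    · rw [if_pos h1, if_pos (by rw [← h1.2]; exact (hf1 v h1.1).2)]
      exact hg v
    · rw [if_neg h1, abs_zero]
      split_ifs
      · exact hM
      · exact le_rfl
  have h1 : ∀ x ∈ I, ∑ om : Finset (E N), ∑' u, ENNReal.ofReal (σ.wt om u) *
        ENNReal.ofReal ((li (inG (gi x) (hull (tS (N := N)) tT om P)) u) ^ 2) ≤
      ENNReal.ofReal (M ^ 2 * (w * Z)) := by
    intro x hx
    have h2 := sq_hull (tS (N := N)) tT (J := fun _ => b) (fun _ => hb) hm (A := P)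
      (B := ball x ξ) hM (hgb x)
    refine h2.trans ?_
    have h3 := xi_sum_le hb hξ (B := ball x ξ) (P := P) (Λ := ball x n) (ball_mono hn) (hP x hx)
      hw (hE x hx)
    have e1 : (fun v => if v ∈ ball x ξ then (1 : ℝ) else 0) = one' (ball x ξ) := rfl
    rw [e1, ENNReal.ofReal_mul (p := M ^ 2) (by positivity)]
    exact mul_le_mul' le_rfl h3
  calc ∑ om : Finset (E N), ∑' u, ENNReal.ofReal (σ.wt om u) *
        ENNReal.ofReal ((li (inG g (hull (tS (N := N)) tT om P)) u) ^ 2)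
      ≤ ∑ om : Finset (E N), ∑' u, ENNReal.ofReal (I.card : ℝ) * ∑ x ∈ I,
        (ENNReal.ofReal (σ.wt om u) *
        ENNReal.ofReal ((li (inG (gi x) (hull (tS (N := N)) tT om P)) u) ^ 2)) := by
        refine Finset.sum_le_sum fun om _ => ENNReal.tsum_le_tsum fun u => ?_
        rw [← Finset.mul_sum, ← mul_assoc, mul_comm (ENNReal.ofReal (I.card : ℝ)), mul_assoc]
        refine mul_le_mul' le_rfl ?_
        rw [← ENNReal.ofReal_sum_of_nonneg fun x _ => sq_nonneg _,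
          ← ENNReal.ofReal_mul (p := (I.card : ℝ)) (Nat.cast_nonneg _)]
        refine ENNReal.ofReal_le_ofReal ?_
        rw [hli]
        exact sq_sum_le_card_mul_sum_sq
    _ = ENNReal.ofReal (I.card : ℝ) * ∑ x ∈ I, ∑ om : Finset (E N), ∑' u,
        ENNReal.ofReal (σ.wt om u) *
        ENNReal.ofReal ((li (inG (gi x) (hull (tS (N := N)) tT om P)) u) ^ 2) := by
        simp only [ENNReal.tsum_mul_left]
        rw [← Finset.mul_sum, Finset.sum_comm]
        congr 1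
        refine Finset.sum_congr rfl fun om _ => ?_
        rw [Summable.tsum_finsetSum fun _ _ => ENNReal.summable]
    _ ≤ ENNReal.ofReal (I.card : ℝ) * ∑ x ∈ I, ENNReal.ofReal (M ^ 2 * (w * Z)) :=
        mul_le_mul' le_rfl (Finset.sum_le_sum h1)
    _ = _ := by
        rw [Finset.sum_const, nsmul_eq_mul, ← ENNReal.ofReal_natCast,
          ← ENNReal.ofReal_mul (p := (I.card : ℝ)) (Nat.cast_nonneg _),
          ← ENNReal.ofReal_mul (p := (I.card : ℝ)) (Nat.cast_nonneg _)]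
        congr 1
        ring

/-- **LOC8 in the letters of `SS`.** -/
theorem loc8_ss {b : ℝ} (hb : 0 ≤ b) {ξ : ℕ} (hξ : 0 < ξ) {I : Finset (V N)} (hI : I.Nonempty)
    {n : ℕ} (hn : ξ ≤ n) {P : Finset (V N)} (hP : ∀ x ∈ I, Disjoint P (ball x n))
    {g : V N → ℝ} {A : ℝ} (hA : 0 < A) (hg : ∀ v, |g v| ≤ A / (ξ : ℝ) ^ 2)
    (hs : ∀ v, g v ≠ 0 → ∃ x ∈ I, v ∈ ball x ξ) {w : ℝ} (hw : 0 < w)
    (hE : ∀ x ∈ I, Ele (σ1 N b ξ hb) (WF (σ1 N b ξ hb) (ball x ξ) (ball x n))
      (w * (ξ : ℝ) ^ 4)) :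
    SS (DT N) (fun _ => b) (ms (ξ : ℝ)) ∅ (fun h => Real.exp (lf g h)) /
        SS (DT N) (fun _ => b) (ms (ξ : ℝ)) ∅ (fun _ => 1) ≤
      SS (DT N) (fun _ => b) (ms (ξ : ℝ)) (P : Set (V N)) (fun h => Real.exp (lf g h)) /
        SS (DT N) (fun _ => b) (ms (ξ : ℝ)) (P : Set (V N)) (fun _ => 1) *
        (1 + I.card * A * Real.sqrt w * Real.exp (72 * A ^ 2 * I.card)) := by
  have hξ' : (0 : ℝ) < ξ := by exact_mod_cast hξ
  have hm := TM.H41.ms_pos (N := N) hξ'
  have hk : 0 < (I.card : ℝ) := by exact_mod_cast Finset.card_pos.2 hI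
  set M := A / (ξ : ℝ) ^ 2 with hM
  have hM0 : 0 < M := by positivity
  have h1 := sq_blocks hb hξ I hn hP hM0.le hg hs (by positivity : 0 ≤ w * (ξ : ℝ) ^ 4) hE
  set w' := (I.card : ℝ) ^ 2 * M ^ 2 * (w * (ξ : ℝ) ^ 4) with hw'
  have hw'0 : 0 < w' := by positivity
  have e1 : w' = ((I.card : ℝ) * A * Real.sqrt w) ^ 2 := by
    rw [hw', hM, mul_pow, mul_pow, Real.sq_sqrt hw.le]
    field_simp
  have e2 : Real.sqrt w' = I.card * A * Real.sqrt w := by
    rw [e1, Real.sqrt_sq (by positivity)]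
  have h2 := loc8_mass (tS (N := N)) tT (J := fun _ => b) (fun _ => hb) hm P g hw'0 h1
  refine h2.trans (mul_le_mul_of_nonneg_left ?_ ?_)
  · rw [e2]
    have h3 : ∑ x, (4 * g x) ^ 2 / (2 * ms (ξ : ℝ) x) ≤ 72 * A ^ 2 * I.card := by
      classical
      have h4 : ∀ x : V N, (4 * g x) ^ 2 / (2 * ms (ξ : ℝ) x) ≤
          if x ∈ I.biUnion (fun y => ball y ξ) then 8 * A ^ 2 / (ξ : ℝ) ^ 2 else 0 := by
        intro x
        unfold ms
        by_cases hx : g x = 0
        · rw [hx]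
          have : (0 : ℝ) ≤ 8 * A ^ 2 / (ξ : ℝ) ^ 2 := by positivity
          simp only [mul_zero, ne_eq, OfNat.ofNat_ne_zero, not_false_eq_true, zero_pow, zero_div]
          split_ifs
          · exact this
          · exact le_rfl
        · obtain ⟨y, hy, hxy⟩ := hs x hx
          rw [if_pos (Finset.mem_biUnion.2 ⟨y, hy, hxy⟩)]
          have h5 : g x ^ 2 ≤ (A / (ξ : ℝ) ^ 2) ^ 2 := by
            rw [← sq_abs]
            exact pow_le_pow_left₀ (abs_nonneg _) (hg x) 2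
          calc (4 * g x) ^ 2 / (2 * (1 / (ξ : ℝ) ^ 2)) = 8 * (ξ : ℝ) ^ 2 * g x ^ 2 := by
                field_simp
                ring
            _ ≤ 8 * (ξ : ℝ) ^ 2 * (A / (ξ : ℝ) ^ 2) ^ 2 :=
                mul_le_mul_of_nonneg_left h5 (by positivity)
            _ = _ := by field_simp
      refine (Finset.sum_le_sum fun x _ => h4 x).trans ?_
      rw [Finset.sum_ite_mem, Finset.univ_inter, Finset.sum_const, nsmul_eq_mul]
      have h6 : ((I.biUnion fun y => ball y ξ).card : ℝ) ≤ I.card * (9 * (ξ : ℝ) ^ 2) := by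
        have h7 : (I.biUnion fun y => ball y ξ).card ≤ I.card * (2 * ξ + 1) ^ 2 :=
          Finset.card_biUnion_le_card_mul _ _ _ fun y _ => card_ball_le y ξ
        have h8 : ((I.biUnion fun y => ball y ξ).card : ℝ) ≤ I.card * (2 * ξ + 1) ^ 2 := by
          exact_mod_cast h7
        have h9 : (1 : ℝ) ≤ ξ := by exact_mod_cast hξ
        refine h8.trans (mul_le_mul_of_nonneg_left ?_ hk.le)
        nlinarith
      calc ((I.biUnion fun y => ball y ξ).card : ℝ) * (8 * A ^ 2 / (ξ : ℝ) ^ 2)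
          ≤ (I.card * (9 * (ξ : ℝ) ^ 2)) * (8 * A ^ 2 / (ξ : ℝ) ^ 2) :=
            mul_le_mul_of_nonneg_right h6 (by positivity)
        _ = _ := by field_simp; ring
    have h4 := Real.exp_le_exp.2 h3
    have h5 : 0 ≤ (I.card : ℝ) * A * Real.sqrt w := by positivity
    have := mul_le_mul_of_nonneg_left h4 h5
    linarith
  · exact div_nonneg (tsum_nonneg fun h => mul_nonneg (bw_nonneg (fun _ => hb) h)
      (Real.exp_pos _).le) (SS_one_pos (DT N) (fun _ => hb) hm _).le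

/-! ### letters of `Spec0` -/

open Classical in
/-- the weight `μ` with the sites of `P` pinned at `0` -/
noncomputable def pin {V : Type*} (P : Finset V) (μ : (V → ℤ) → ℝ) (h : V → ℤ) : ℝ :=
  if ∀ x ∈ P, h x = 0 then μ h else 0

theorem wt_eq_bw (b : ℝ) (ξ : ℝ) (h : V N → ℤ) :
    wt N b (1 / ξ ^ 2) h = bw (DT N) (fun _ => b) (ms ξ) ∅ h := by
  unfold wt wM bw
  rw [TM.H41.wT_eq_W]
  congr 1
  have h1 : iX (∅ : Set (V N)) h = 1 := by
    unfold iX
    rw [if_pos]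
    intro x hx
    exact absurd hx (Set.notMem_empty x)
  rw [h1, mul_one, qf_smul_one]
  unfold ga ms re
  congr 2
  rw [Finset.mul_sum, Finset.sum_div]
  refine Finset.sum_congr rfl fun x _ => ?_
  ring

theorem pin_wt_eq_bw (P : Finset (V N)) (b : ℝ) (ξ : ℝ) (h : V N → ℤ) :
    pin P (wt N b (1 / ξ ^ 2)) h = bw (DT N) (fun _ => b) (ms ξ) (P : Set (V N)) h := by
  unfold pin
  rw [wt_eq_bw]
  unfold bw iX
  simp only [Finset.mem_coe, Set.mem_empty_iff_false, false_imp_iff, implies_true, if_true]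
  split_ifs <;> ring

theorem Zs_wt (b ξ : ℝ) (J : V N → ℝ) :
    Zs (wt N b (1 / ξ ^ 2)) J =
      SS (DT N) (fun _ => b) (ms ξ) ∅ fun h => Real.exp (lf J h) := by
  unfold Zs TM.H104.T SS
  refine tsum_congr fun h => ?_
  rw [one_mul, wt_eq_bw]
  rfl

theorem Zs_pin (P : Finset (V N)) (b ξ : ℝ) (J : V N → ℝ) :
    Zs (pin P (wt N b (1 / ξ ^ 2))) J =
      SS (DT N) (fun _ => b) (ms ξ) (P : Set (V N)) fun h => Real.exp (lf J h) := by
  unfold Zs TM.H104.T SS
  refine tsum_congr fun h => ?_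
  rw [one_mul, pin_wt_eq_bw]
  rfl

theorem SS_one_eq (X : Set (V N)) (b ξ : ℝ) :
    SS (DT N) (fun _ => b) (ms ξ) X (fun h => Real.exp (lf (0 : V N → ℝ) h)) =
      SS (DT N) (fun _ => b) (ms ξ) X fun _ => 1 := by
  unfold SS
  refine tsum_congr fun h => ?_
  have : lf (0 : V N → ℝ) h = 0 := by unfold lf; simp
  simp only [this, Real.exp_zero]

/-- the loss of the logarithm of the generating function if `P` is pinned -/
noncomputable def dLg {V : Type*} [Fintype V] (μ : (V → ℤ) → ℝ) (P : Finset V) (J : V → ℝ) : ℝ :=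
  (Lg μ J - Lg μ 0) - (Lg (pin P μ) J - Lg (pin P μ) 0)

theorem dLg_eq {b : ℝ} (hb : 0 ≤ b) {ξ : ℝ} (hξ : 0 < ξ) (P : Finset (V N)) (J : V N → ℝ) :
    dLg (wt N b (1 / ξ ^ 2)) P J =
      Real.log (SS (DT N) (fun _ => b) (ms ξ) ∅ (fun h => Real.exp (lf J h)) /
        SS (DT N) (fun _ => b) (ms ξ) ∅ (fun _ => 1)) -
      Real.log (SS (DT N) (fun _ => b) (ms ξ) (P : Set (V N)) (fun h => Real.exp (lf J h)) /
        SS (DT N) (fun _ => b) (ms ξ) (P : Set (V N)) (fun _ => 1)) := by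
  have hm := TM.H41.ms_pos (N := N) hξ
  have hp : ∀ (X : Set (V N)) (J : V N → ℝ),
      0 < SS (DT N) (fun _ => b) (ms ξ) X fun h => Real.exp (lf J h) := by
    intro X J
    rw [ss_exp (fun _ => hb) hm]
    have h1 := SS_one_pos (DT N) (J := fun _ => b) (fun _ => hb) hm X
    refine lt_of_lt_of_le h1 ?_
    unfold SS
    have s1 : Summable fun h => bw (DT N) (fun _ => b) (ms ξ) X h * 1 :=
      (bw_summable (fun _ => hb) hm (Gr.one (V := V N))).of_abs
    have s2 : Summable fun h => bw (DT N) (fun _ => b) (ms ξ) X h * Real.cosh (lf J h) :=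
      (bw_summable (fun _ => hb) hm (gr_cosh J)).of_abs
    exact s1.tsum_le_tsum (fun h => mul_le_mul_of_nonneg_left (Real.one_le_cosh _)
      (bw_nonneg (fun _ => hb) h)) s2
  have e1 : ∀ J : V N → ℝ, Lg (wt N b (1 / ξ ^ 2)) J =
      Real.log (SS (DT N) (fun _ => b) (ms ξ) ∅ fun h => Real.exp (lf J h)) := by
    intro J
    rw [← Zs_wt]
    rfl
  have e2 : ∀ J : V N → ℝ, Lg (pin P (wt N b (1 / ξ ^ 2))) J =
      Real.log (SS (DT N) (fun _ => b) (ms ξ) (P : Set (V N)) fun h => Real.exp (lf J h)) := by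
    intro J
    rw [← Zs_pin]
    rfl
  unfold dLg
  rw [e1, e1, e2, e2, SS_one_eq, SS_one_eq,
    Real.log_div (hp _ _).ne' (SS_one_pos (DT N) (fun _ => hb) hm _).ne',
    Real.log_div (hp _ _).ne' (SS_one_pos (DT N) (fun _ => hb) hm _).ne']

/-- **LOC8, lower half**: pinning lowers the normalised generating function -/
theorem dLg_nonneg {b : ℝ} (hb : 0 ≤ b) {ξ : ℝ} (hξ : 0 < ξ) (P : Finset (V N)) (J : V N → ℝ) :
    0 ≤ dLg (wt N b (1 / ξ ^ 2)) P J := by
  have hm := TM.H41.ms_pos (N := N) hξ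
  rw [dLg_eq hb hξ, sub_nonneg]
  refine Real.log_le_log ?_ ?_
  · refine div_pos ?_ (SS_one_pos (DT N) (fun _ => hb) hm _)
    have e2 : 0 < Zs (pin P (wt N b (1 / ξ ^ 2))) J := by
      rw [Zs_pin, ss_exp (fun _ => hb) hm]
      have h1 := SS_one_pos (DT N) (J := fun _ => b) (fun _ => hb) hm (P : Set (V N))
      refine lt_of_lt_of_le h1 ?_
      unfold SS
      have s1 : Summable fun h => bw (DT N) (fun _ => b) (ms ξ) (P : Set (V N)) h * 1 :=
        (bw_summable (fun _ => hb) hm (Gr.one (V := V N))).of_abs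
      have s2 : Summable fun h => bw (DT N) (fun _ => b) (ms ξ) (P : Set (V N)) h *
          Real.cosh (lf J h) := (bw_summable (fun _ => hb) hm (gr_cosh J)).of_abs
      exact s1.tsum_le_tsum (fun h => mul_le_mul_of_nonneg_left (Real.one_le_cosh _)
        (bw_nonneg (fun _ => hb) h)) s2
    rw [Zs_pin] at e2
    exact e2
  · exact loc8_lower (tS (N := N)) tT (J := fun _ => b) (fun _ => hb) hm P J

/-- **LOC8.** `HA` is Theorem A (1). -/
theorem loc8 {b : ℝ} (hb : 0 ≤ b) {ξ : ℕ} (hξ : 0 < ξ) {y c C : ℝ} (hC : 0 < C)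
    (hT : HA N b ξ hb y c C) {I : Finset (V N)} {n : ℕ} (hn : ξ ≤ n)
    (hny : (n : ℝ) * y ≤ c * ξ) {P : Finset (V N)} (hP : ∀ x ∈ I, Disjoint P (ball x n))
    {J : V N → ℝ} {A : ℝ} (hA : 0 ≤ A) (hJ : ∀ v, |J v| ≤ A / (ξ : ℝ) ^ 2)
    (hs : ∀ v, J v ≠ 0 → ∃ x ∈ I, v ∈ ball x ξ) :
    0 ≤ dLg (wt N b (1 / (ξ : ℝ) ^ 2)) P J ∧
      dLg (wt N b (1 / (ξ : ℝ) ^ 2)) P J ≤
        Real.sqrt C * A * I.card * Real.exp (72 * A ^ 2 * I.card) *
          Real.exp (-(c * n / (2 * ξ))) := by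
  have hξ' : (0 : ℝ) < ξ := by exact_mod_cast hξ
  have hm := TM.H41.ms_pos (N := N) hξ'
  refine ⟨dLg_nonneg hb hξ' P J, ?_⟩
  -- the trivial cases
  by_cases h0 : A = 0 ∨ I = ∅
  · have hJ0 : J = 0 := by
      funext v
      by_contra hv
      rcases h0 with h0 | h0
      · have h1 := hJ v
        rw [h0, zero_div] at h1
        exact hv (abs_nonpos_iff.1 h1)
      · obtain ⟨x, hx, _⟩ := hs v hv
        rw [h0] at hx
        exact absurd hx (Finset.notMem_empty x)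
    have : dLg (wt N b (1 / (ξ : ℝ) ^ 2)) P J = 0 := by
      unfold dLg
      rw [hJ0]
      ring
    rw [this]
    positivity
  push Not at h0
  obtain ⟨hA0, hI⟩ := h0
  have hA1 : 0 < A := lt_of_le_of_ne hA (Ne.symm hA0)
  have hI' : I.Nonempty := hI
  set w := C * Real.exp (-(c * n / ξ)) with hw
  have hw0 : 0 < w := by positivity
  have hE : ∀ x ∈ I, Ele (σ1 N b ξ hb) (WF (σ1 N b ξ hb) (ball x ξ) (ball x n))
      (w * (ξ : ℝ) ^ 4) := by
    intro x _
    have h1 := hT x n hny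
    have e : w * (ξ : ℝ) ^ 4 = C * (ξ : ℝ) ^ 4 * Real.exp (-(c * n / ξ)) := by
      rw [hw]; ring
    rw [e]
    exact h1
  have h1 := loc8_ss hb hξ hI' hn hP hA1 hJ hs hw0 hE
  rw [dLg_eq hb hξ']
  set R1 := SS (DT N) (fun _ => b) (ms (ξ : ℝ)) ∅ (fun h => Real.exp (lf J h)) /
        SS (DT N) (fun _ => b) (ms (ξ : ℝ)) ∅ (fun _ => 1) with hR1
  set R2 := SS (DT N) (fun _ => b) (ms (ξ : ℝ)) (P : Set (V N)) (fun h => Real.exp (lf J h)) /
        SS (DT N) (fun _ => b) (ms (ξ : ℝ)) (P : Set (V N)) (fun _ => 1) with hR2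
  have hpos : ∀ (X : Set (V N)),
      0 < SS (DT N) (fun _ => b) (ms (ξ : ℝ)) X fun h => Real.exp (lf J h) := by
    intro X
    rw [ss_exp (fun _ => hb) hm]
    have h1 := SS_one_pos (DT N) (J := fun _ => b) (fun _ => hb) hm X
    refine lt_of_lt_of_le h1 ?_
    unfold SS
    have s1 : Summable fun h => bw (DT N) (fun _ => b) (ms (ξ : ℝ)) X h * 1 :=
      (bw_summable (fun _ => hb) hm (Gr.one (V := V N))).of_abs
    have s2 : Summable fun h => bw (DT N) (fun _ => b) (ms (ξ : ℝ)) X h * Real.cosh (lf J h) :=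
      (bw_summable (fun _ => hb) hm (gr_cosh J)).of_abs
    exact s1.tsum_le_tsum (fun h => mul_le_mul_of_nonneg_left (Real.one_le_cosh _)
      (bw_nonneg (fun _ => hb) h)) s2
  have p1 : 0 < R1 := div_pos (hpos _) (SS_one_pos (DT N) (fun _ => hb) hm _)
  have p2 : 0 < R2 := div_pos (hpos _) (SS_one_pos (DT N) (fun _ => hb) hm _)
  set q := I.card * A * Real.sqrt w * Real.exp (72 * A ^ 2 * I.card) with hq
  have hq0 : 0 ≤ q := by positivity
  have h2 : Real.log R1 ≤ Real.log R2 + q := by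
    have h3 := Real.log_le_log p1 h1
    rw [Real.log_mul p2.ne' (by positivity)] at h3
    have h4 : Real.log (1 + q) ≤ q := by
      have := Real.log_le_sub_one_of_pos (show 0 < 1 + q by positivity)
      linarith
    linarith
  have e3 : Real.sqrt w = Real.sqrt C * Real.exp (-(c * n / (2 * ξ))) := by
    rw [hw, Real.sqrt_mul hC.le, ← Real.exp_half]
    congr 2
    field_simp
  have e4 : q = Real.sqrt C * A * I.card * Real.exp (72 * A ^ 2 * I.card) *
          Real.exp (-(c * n / (2 * ξ))) := by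
    rw [hq, e3]
    ring
  rw [← e4]
  linarith

end Vale.Agent.P159.H358
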