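import Vale.Agent.P159.H358.Loc8e

/-!
P159, row LOC8, energy form. The loss from pinning is at most
`9 sqrt (sqrt C A k) exp Λ exp (- c n / 4 ξ)`, where `Λ` bounds `log Z(2J)/Z(0)`; the pointwise size
`A` of the source enters only as a factor.
-/

open Finset MeasureTheory
open scoped ENNReal

set_option linter.unusedSectionVars false
set_option linter.unusedDecidableInType false

namespace Vale.Agent.P159.H358

open Vale.Agent.P159.TM.H60 Vale.Agent.P159.TM.H131 Vale.Agent.P159.TM.H682
  Vale.Agent.P159.T1.H934 Vale.Agent.P159.TM.H708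
open Vale.Agent.P159.H353 (wI wI_neg wI_nonneg)

/-- `cosh x ≤ 1 + x²/(4 ε³) + 8 ε cosh 2x` -/
theorem cosh_pt2 {ε : ℝ} (hε : 0 < ε) (x : ℝ) :
    Real.cosh x ≤ 1 + x ^ 2 / (4 * ε ^ 3) + 8 * ε * Real.cosh (2 * x) := by
  have hc := Real.one_le_cosh x
  set c := Real.cosh x with hcdef
  have e2 : Real.cosh (2 * x) = 2 * c ^ 2 - 1 := by
    rw [Real.cosh_two_mul, Real.sinh_sq]
    ring
  have h1 : c - 1 ≤ x ^ 2 / 2 * c := by
    have h2 : ∀ y : ℝ, 0 ≤ y → Real.sinh y ≤ y * Real.cosh y := by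
      intro y hy
      have h3 : MonotoneOn (fun z : ℝ => z * Real.cosh z - Real.sinh z) (Set.Ici 0) := by
        apply monotoneOn_of_deriv_nonneg (convex_Ici 0)
        · fun_prop
        · fun_prop
        · intro z hz
          rw [interior_Ici] at hz
          have h5 : HasDerivAt (fun z : ℝ => z * Real.cosh z - Real.sinh z)
              (1 * Real.cosh z + z * Real.sinh z - Real.cosh z) z :=
            ((hasDerivAt_id z).mul (Real.hasDerivAt_cosh z)).sub (Real.hasDerivAt_sinh z)
          rw [h5.deriv]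
          have h6 : 0 ≤ Real.sinh z := Real.sinh_nonneg_iff.2 (le_of_lt hz)
          have h7 : 0 ≤ z * Real.sinh z := mul_nonneg (le_of_lt hz) h6
          linarith
      have h4 := h3 (Set.mem_Ici.2 le_rfl) (Set.mem_Ici.2 hy) hy
      simp only [zero_mul, Real.sinh_zero, sub_zero] at h4
      linarith
    have h3 : ∀ y : ℝ, 0 ≤ y → Real.cosh y - 1 ≤ y ^ 2 / 2 * Real.cosh y := by
      intro y hy
      have hm : MonotoneOn (fun z : ℝ => z ^ 2 / 2 * Real.cosh z - Real.cosh z) (Set.Ici 0) := by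
        apply monotoneOn_of_deriv_nonneg (convex_Ici 0)
        · fun_prop
        · fun_prop
        · intro z hz
          rw [interior_Ici] at hz
          have h5 : HasDerivAt (fun z : ℝ => z ^ 2 / 2 * Real.cosh z - Real.cosh z)
              (((2 : ℕ) * z ^ (2 - 1) * 1 / 2) * Real.cosh z + z ^ 2 / 2 * Real.sinh z -
                Real.sinh z) z :=
            (((((hasDerivAt_id z).pow 2).div_const 2).mul (Real.hasDerivAt_cosh z)).sub
              (Real.hasDerivAt_cosh z))
          rw [h5.deriv]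
          have h6 : 0 ≤ Real.sinh z := Real.sinh_nonneg_iff.2 (le_of_lt hz)
          have h7 : 0 ≤ z ^ 2 / 2 * Real.sinh z := by positivity
          have h8 := h2 z (le_of_lt hz)
          norm_num
          linarith
      have h4 := hm (Set.mem_Ici.2 le_rfl) (Set.mem_Ici.2 hy) hy
      simp only [ne_eq, OfNat.ofNat_ne_zero, not_false_eq_true, zero_pow, zero_div, zero_mul,
        Real.cosh_zero, zero_sub] at h4
      linarith
    rcases le_total 0 x with hx | hx
    · exact h3 x hx
    · have h4 := h3 (-x) (by linarith)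
      rw [Real.cosh_neg] at h4
      have e : (-x) ^ 2 = x ^ 2 := by ring
      rw [e] at h4
      exact h4
  -- `x^6 <= 1440 cosh x`
  have h6 : x ^ 6 ≤ 1440 * c := by
    have a1 : ∀ z : ℝ, 0 ≤ z → z ^ 6 ≤ 720 * Real.exp z := by
      intro z hz
      have h5 := Real.pow_div_factorial_le_exp z hz 6
      have h7 : ((Nat.factorial 6 : ℕ) : ℝ) = 720 := by norm_num [Nat.factorial]
      rw [h7, div_le_iff₀ (by norm_num)] at h5
      linarith
    have e3 : c = (Real.exp x + Real.exp (-x)) / 2 := Real.cosh_eq x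
    have p1 := Real.exp_pos x
    have p2 := Real.exp_pos (-x)
    rcases le_total 0 x with hx | hx
    · have := a1 x hx
      linarith
    · have := a1 (-x) (by linarith)
      have e : (-x) ^ 6 = x ^ 6 := by ring
      rw [e] at this
      linarith
  have hx2 : 0 ≤ x ^ 2 := sq_nonneg x
  have h0 : x ^ 2 / 2 * c ≤ x ^ 2 / (4 * ε ^ 3) + 8 * ε * Real.cosh (2 * x) := by
    have hC2 : 0 < Real.cosh (2 * x) := Real.cosh_pos _
    rcases le_total (c * (2 * ε ^ 3)) 1 with h | h
    · have h7 : c ≤ 1 / (2 * ε ^ 3) := by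
        rw [le_div_iff₀ (by positivity)]
        exact h
      have h8 : x ^ 2 / 2 * c ≤ x ^ 2 / (4 * ε ^ 3) := by
        calc x ^ 2 / 2 * c ≤ x ^ 2 / 2 * (1 / (2 * ε ^ 3)) :=
              mul_le_mul_of_nonneg_left h7 (by positivity)
          _ = _ := by field_simp; ring
      have h9 : 0 ≤ 8 * ε * Real.cosh (2 * x) := by positivity
      linarith
    · -- `x² c / 2 ≤ 8 ε c²`
      have h7 : x ^ 2 / 2 * c ≤ 8 * ε * c ^ 2 := by
        have hc0 : 0 < c := by linarith
        have h8 : x ^ 2 ≤ 16 * ε * c := by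
          have h9 : (x ^ 2) ^ 3 ≤ (16 * ε * c) ^ 3 := by
            have e4 : (x ^ 2) ^ 3 = x ^ 6 := by ring
            have e5 : (16 * ε * c) ^ 3 = 2048 * c ^ 2 * (c * (2 * ε ^ 3)) := by ring
            rw [e4, e5]
            have h10 : 2048 * c ^ 2 * 1 ≤ 2048 * c ^ 2 * (c * (2 * ε ^ 3)) :=
              mul_le_mul_of_nonneg_left h (by positivity)
            nlinarith
          exact le_of_pow_le_pow_left₀ (by norm_num) (by positivity) h9
        calc x ^ 2 / 2 * c ≤ (16 * ε * c) / 2 * c := by gcongr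
          _ = _ := by ring
      have h8 : 8 * ε * c ^ 2 ≤ 8 * ε * Real.cosh (2 * x) := by
        refine mul_le_mul_of_nonneg_left ?_ (by positivity)
        rw [e2]
        nlinarith
      have h9 : 0 ≤ x ^ 2 / (4 * ε ^ 3) := by positivity
      linarith
  linarith

variable {V E E' : Type} [Fintype V] [DecidableEq V] [Fintype E] [DecidableEq E] [Fintype E']

section mass
variable (s t : E → V) {J : E → ℝ} (hJ : ∀ e, 0 ≤ J e) {m : V → ℝ} (hm : ∀ x, 0 < m x)
include hJ hm

/-- the expectation of `cosh` of the part in the hull, energy form -/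
theorem cosh_hull2 (A : Finset V) (g : V → ℝ) {δ X : ℝ} (hδ : 0 < δ) (hX1 : 1 ≤ X)
    (hX : SS (grd s t) J m ∅ (fun h => Real.exp (lf (fun v => 2 * g v) h)) ≤
      X * SS (grd s t) J m ∅ fun _ => 1)
    (h2 : ∑ om : Finset E, ∑' u, ENNReal.ofReal ((syM s t J m hJ).wt om u) *
        ENNReal.ofReal ((li (inG g (hull s t om A)) u) ^ 2) ≤
      ENNReal.ofReal (δ ^ 4 * SS (grd s t) J m ∅ fun _ => 1)) :
    ∑ om : Finset E, ∑' u, ENNReal.ofReal ((syM s t J m hJ).wt om u) *
        ENNReal.ofReal (Real.cosh (li (inG g (hull s t om A)) u)) ≤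
      ENNReal.ofReal ((1 + 9 * δ * X) * SS (grd s t) J m ∅ fun _ => 1) := by
  set σ := syM s t J m hJ with hσ
  set Z := SS (grd s t) J m ∅ fun _ => 1 with hZ
  have hZ0 : 0 < Z := SS_one_pos (grd s t) hJ hm ∅
  -- the three terms
  have t1 : ∑ om : Finset E, ∑' u, ENNReal.ofReal (σ.wt om u) = ENNReal.ofReal Z := by
    rw [← Summable.tsum_finsetSum fun _ _ => ENNReal.summable]
    have h1 : ∀ u, ∑ om : Finset E, ENNReal.ofReal (σ.wt om u) =
        ENNReal.ofReal (bw (grd s t) J m ∅ u * 1) := by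
      intro u
      rw [← ENNReal.ofReal_sum_of_nonneg fun om _ => σ.wt_nonneg om u, σ.sum_wt, mul_one,
        ← Wm_gs]
      rfl
    rw [tsum_congr h1]
    exact tsum_ofReal_bw hJ hm ∅ (F := fun _ => (1 : ℝ)) TM.H708.Gr.one fun _ => zero_le_one
  have t3 : ∑ om : Finset E, ∑' u, ENNReal.ofReal (σ.wt om u) *
        ENNReal.ofReal (Real.cosh (2 * li (inG g (hull s t om A)) u)) ≤
      ENNReal.ofReal (X * Z) := by
    have h1 := cosh_in_le (s := s) (t := t) hJ (fun v n => (gs_pos m v n).le) (gs_neg m) A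
      fun v => 2 * g v
    have e1 : ∀ K u, li (inG (fun v => 2 * g v) K) u = 2 * li (inG g K) u := by
      intro K u
      unfold li inG
      rw [Finset.mul_sum]
      refine Finset.sum_congr rfl fun v _ => ?_
      split_ifs <;> ring
    simp only [e1] at h1
    refine h1.trans ?_
    have e2 : ∀ u, Wm s t (gs m) J u * Real.exp (li (fun v => 2 * g v) u) =
        bw (grd s t) J m ∅ u * Real.exp (lf (fun v => 2 * g v) u) := by
      intro u
      rw [Wm_gs, li_eq_lf]
    simp only [e2]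
    rw [tsum_ofReal_bw hJ hm ∅ (F := fun h => Real.exp (lf (fun v => 2 * g v) h))
      (gr_exp _) fun _ => (Real.exp_pos _).le]
    exact ENNReal.ofReal_le_ofReal hX
  have h3 : ∀ om u, ENNReal.ofReal (σ.wt om u) *
        ENNReal.ofReal (Real.cosh (li (inG g (hull s t om A)) u)) ≤
      ENNReal.ofReal (σ.wt om u) + (ENNReal.ofReal (1 / (4 * δ ^ 3)) *
        (ENNReal.ofReal (σ.wt om u) *
        ENNReal.ofReal ((li (inG g (hull s t om A)) u) ^ 2)) +
        ENNReal.ofReal (8 * δ) * (ENNReal.ofReal (σ.wt om u) *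
        ENNReal.ofReal (Real.cosh (2 * li (inG g (hull s t om A)) u)))) := by
    intro om u
    set x := li (inG g (hull s t om A)) u with hx
    have h4 := cosh_pt2 hδ x
    have e4 : (1 : ℝ) + x ^ 2 / (4 * δ ^ 3) + 8 * δ * Real.cosh (2 * x) =
        1 + (1 / (4 * δ ^ 3) * x ^ 2 + 8 * δ * Real.cosh (2 * x)) := by ring
    rw [e4] at h4
    have h5 := ENNReal.ofReal_le_ofReal h4
    have hc := Real.cosh_pos (2 * x)
    rw [ENNReal.ofReal_add zero_le_one (by positivity),
      ENNReal.ofReal_add (by positivity) (by positivity), ENNReal.ofReal_one,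
      ENNReal.ofReal_mul (by positivity), ENNReal.ofReal_mul (by positivity)] at h5
    refine (mul_le_mul' le_rfl h5).trans (le_of_eq ?_)
    ring
  calc ∑ om : Finset E, ∑' u, ENNReal.ofReal (σ.wt om u) *
        ENNReal.ofReal (Real.cosh (li (inG g (hull s t om A)) u))
      ≤ ∑ om : Finset E, ∑' u, (ENNReal.ofReal (σ.wt om u) +
        (ENNReal.ofReal (1 / (4 * δ ^ 3)) * (ENNReal.ofReal (σ.wt om u) *
        ENNReal.ofReal ((li (inG g (hull s t om A)) u) ^ 2)) +
        ENNReal.ofReal (8 * δ) * (ENNReal.ofReal (σ.wt om u) *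
        ENNReal.ofReal (Real.cosh (2 * li (inG g (hull s t om A)) u))))) :=
        Finset.sum_le_sum fun om _ => ENNReal.tsum_le_tsum fun u => h3 om u
    _ = ENNReal.ofReal Z + (ENNReal.ofReal (1 / (4 * δ ^ 3)) * ∑ om : Finset E, ∑' u,
        ENNReal.ofReal (σ.wt om u) * ENNReal.ofReal ((li (inG g (hull s t om A)) u) ^ 2) +
        ENNReal.ofReal (8 * δ) * ∑ om : Finset E, ∑' u, ENNReal.ofReal (σ.wt om u) *
        ENNReal.ofReal (Real.cosh (2 * li (inG g (hull s t om A)) u))) := by
        simp only [ENNReal.tsum_add, ENNReal.tsum_mul_left, Finset.sum_add_distrib,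
          ← Finset.mul_sum]
        rw [t1]
    _ ≤ ENNReal.ofReal Z + (ENNReal.ofReal (1 / (4 * δ ^ 3)) * ENNReal.ofReal (δ ^ 4 * Z) +
        ENNReal.ofReal (8 * δ) * ENNReal.ofReal (X * Z)) := by
        gcongr
    _ ≤ _ := by
        rw [← ENNReal.ofReal_mul (by positivity), ← ENNReal.ofReal_mul (by positivity),
          ← ENNReal.ofReal_add (by positivity) (by positivity),
          ← ENNReal.ofReal_add hZ0.le (by positivity)]
        refine ENNReal.ofReal_le_ofReal ?_
        have e5 : 1 / (4 * δ ^ 3) * (δ ^ 4 * Z) = δ / 4 * Z := by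
          field_simp
        rw [e5]
        have h6 : δ * 1 ≤ δ * X := mul_le_mul_of_nonneg_left hX1 hδ.le
        have h7 : Z + (δ / 4 * Z + 8 * δ * (X * Z)) = (1 + (δ / 4 + 8 * (δ * X))) * Z := by ring
        rw [h7]
        refine mul_le_mul_of_nonneg_right ?_ hZ0.le
        have h8 : 0 < δ * X := by positivity
        linarith

/-- **LOC8, abstract energy form.** -/
theorem loc8q_mass (A : Finset V) (g : V → ℝ) {δ X : ℝ} (hδ : 0 < δ) (hX1 : 1 ≤ X)
    (hX : SS (grd s t) J m ∅ (fun h => Real.exp (lf (fun v => 2 * g v) h)) ≤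
      X * SS (grd s t) J m ∅ fun _ => 1)
    (h2 : ∑ om : Finset E, ∑' u, ENNReal.ofReal ((syM s t J m hJ).wt om u) *
        ENNReal.ofReal ((li (inG g (hull s t om A)) u) ^ 2) ≤
      ENNReal.ofReal (δ ^ 4 * SS (grd s t) J m ∅ fun _ => 1)) :
    SS (grd s t) J m ∅ (fun h => Real.exp (lf g h)) / SS (grd s t) J m ∅ (fun _ => 1) ≤
      SS (grd s t) J m (A : Set V) (fun h => Real.exp (lf g h)) /
        SS (grd s t) J m (A : Set V) (fun _ => 1) * (1 + 9 * δ * X) := by
  set R := SS (grd s t) J m (A : Set V) (fun h => Real.exp (lf g h)) /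
        SS (grd s t) J m (A : Set V) (fun _ => 1) with hR
  have hR0 : 0 ≤ R := div_nonneg (tsum_nonneg fun h => mul_nonneg (bw_nonneg hJ h)
    (Real.exp_pos _).le) (SS_one_pos (grd s t) hJ hm _).le
  have hmon := monoF_gen (E' := E) (s := s) (t := t) (a := gs m) (J := J) (grd s t)
    (φ := fun J' => J') hm ∅ (fun _ h => h) (fun _ h => h) (fun J' h => Wm_gs s t m J' h) A g
  rw [Set.empty_union, ← ss_exp hJ hm, ← hR] at hmon
  have h3 := gen_le (s := s) (t := t) hJ (fun v n => (gs_pos m v n).le) (gs_neg m)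
    (fun v => gs_pos m v 0) hmon
  have h4 := cosh_hull2 s t hJ hm A g hδ hX1 hX h2
  have h5 := h3.trans (mul_le_mul' le_rfl h4)
  set Z := SS (grd s t) J m ∅ fun _ => 1 with hZ
  have hZ0 : 0 < Z := SS_one_pos (grd s t) hJ hm ∅
  have hX0 : 0 < X := by linarith
  have e1 : ∑' u, ENNReal.ofReal (Wm s t (gs m) J u * Real.exp (li g u)) =
      ENNReal.ofReal (SS (grd s t) J m ∅ fun h => Real.exp (lf g h)) := by
    have e2 : ∀ u, Wm s t (gs m) J u * Real.exp (li g u) =
        bw (grd s t) J m ∅ u * Real.exp (lf g u) := by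
      intro u
      rw [Wm_gs, li_eq_lf]
    simp only [e2]
    exact tsum_ofReal_bw hJ hm ∅ (F := fun h => Real.exp (lf g h)) (gr_exp _)
      fun _ => (Real.exp_pos _).le
  rw [e1, ← ENNReal.ofReal_mul hR0] at h5
  have h6 := (ENNReal.ofReal_le_ofReal_iff (by positivity)).1 h5
  rw [div_le_iff₀ hZ0]
  calc _ ≤ _ := h6
    _ = _ := by ring

end mass

end Vale.Agent.P159.H358
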