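import Vale.Agent.P159.H856.Rp
import Vale.Agent.P159.H529.Hb

/-!
P159 (helper358), tiling lemmas for the quadratic form of wired regions, in the letters of
helper856: subadditivity for any finite partition, monotonicity for arbitrary regions,
translations, families of disjoint pieces or of disjoint translates inside a region.
-/

set_option linter.all false

open MeasureTheory Filter Topology
open scoped BigOperators

namespace Vale.Agent.P159.H358

open Vale.Agent.P159 Vale.Agent.P159.UJ Vale.Agent.P159.H950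
open Vale.Agent.P159.H856 (HF qG nG shF qG_le qG_nonneg nG_nonneg qG_congr nG_congr)

noncomputable section

/-- the two letters agree -/
theorem qG_QF (b : ℝ) (R : Finset (ℤ × ℤ)) (y : HF) :
    qG b R y = H529.QF b R (fun p => y p.2 p.1) := rfl

/-- the norm as a sum over cells -/
theorem nG_sum (R : Finset (ℤ × ℤ)) (y : HF) : nG R y = ∑ z ∈ R, ∑ t : Bool × Bool, y t z ^ 2 := by
  unfold nG
  rw [Fintype.sum_prod_type, ← Finset.sum_coe_sort R]

/-- **subadditivity** for any partition of a region -/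
theorem qG_part {b : ℝ} (hb : 0 ≤ b) {ι : Type*} [DecidableEq ι] (R : Finset (ℤ × ℤ))
    (S : Finset ι) (τ : ℤ × ℤ → ι) (hτ : ∀ c ∈ R, τ c ∈ S) (y : HF) :
    qG b R y ≤ ∑ k ∈ S, qG b (R.filter fun c => τ c = k) y :=
  H529.QF_tile hb R S τ hτ (fun p => y p.2 p.1)

/-- two pieces -/
theorem qG_two {b : ℝ} (hb : 0 ≤ b) {P D : Finset (ℤ × ℤ)} (h : P ⊆ D) (y : HF) :
    qG b D y ≤ qG b P y + qG b (D \ P) y := by
  classical
  have h1 := qG_part hb D (Finset.univ : Finset Bool) (fun c => decide (c ∈ P))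
    (fun c _ => Finset.mem_univ _) y
  have h2 : (D.filter fun c => decide (c ∈ P) = true) = P := by
    ext c
    rw [Finset.mem_filter, decide_eq_true_iff]
    exact ⟨fun hc => hc.2, fun hc => ⟨h hc, hc⟩⟩
  have h3 : (D.filter fun c => decide (c ∈ P) = false) = D \ P := by
    ext c
    rw [Finset.mem_filter, decide_eq_false_iff_not, Finset.mem_sdiff]
  rw [Fintype.sum_bool, h2, h3] at h1
  exact h1

/-- **monotonicity** for arbitrary regions: the field only has to vanish on `R' \ R` -/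
theorem qG_mono_reg {b : ℝ} (hb : 0 ≤ b) {R R' : Finset (ℤ × ℤ)} (h : R ⊆ R') (y : HF)
    (hy : ∀ c ∈ R', c ∉ R → ∀ t, y t c = 0) : qG b R' y ≤ qG b R y := by
  refine (qG_two hb h y).trans ?_
  have h1 : qG b (R' \ R) y ≤ 0 := by
    refine (qG_le hb _ y).trans (le_of_eq ?_)
    have : nG (R' \ R) y = 0 := by
      rw [nG_sum]
      refine Finset.sum_eq_zero fun c hc => Finset.sum_eq_zero fun t _ => ?_
      rw [Finset.mem_sdiff] at hc
      rw [hy c hc.1 hc.2]
      norm_num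
    rw [this, mul_zero]
  linarith

/-- monotonicity with the rest: enlarging the region costs at most the norm on the rest -/
theorem qG_le_rest {b : ℝ} (hb : 0 ≤ b) {R R' : Finset (ℤ × ℤ)} (h : R ⊆ R') (y : HF) :
    qG b R' y ≤ qG b R y + b / 2 * nG (R' \ R) y := by
  have := qG_two hb h y
  have h1 := qG_le hb (R' \ R) y
  linarith

/-- **disjoint pieces inside a region** -/
theorem qG_fam {b : ℝ} (hb : 0 ≤ b) {ι : Type*} (S : Finset ι) (P : ι → Finset (ℤ × ℤ))
    (hd : ∀ i ∈ S, ∀ j ∈ S, i ≠ j → Disjoint (P i) (P j)) (D : Finset (ℤ × ℤ))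
    (hD : ∀ k ∈ S, P k ⊆ D) (y : HF) :
    qG b D y ≤ ∑ k ∈ S, qG b (P k) y + b / 2 * nG (D \ S.biUnion P) y := by
  classical
  induction S using Finset.induction_on generalizing D with
  | empty =>
    rw [Finset.sum_empty, zero_add, Finset.biUnion_empty, Finset.sdiff_empty]
    exact qG_le hb D y
  | @insert k S hk ih =>
    have h1 := qG_two hb (hD k (Finset.mem_insert_self k S)) y
    have h2 := ih (fun i hi j hj => hd i (Finset.mem_insert_of_mem hi) j
      (Finset.mem_insert_of_mem hj)) (D \ P k) (fun j hj => by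
        intro c hc
        rw [Finset.mem_sdiff]
        refine ⟨hD j (Finset.mem_insert_of_mem hj) hc, fun hc' => ?_⟩
        have hne : j ≠ k := fun h => hk (h ▸ hj)
        exact Finset.disjoint_left.1 (hd j (Finset.mem_insert_of_mem hj) k
          (Finset.mem_insert_self k S) hne) hc hc')
    rw [Finset.sum_insert hk]
    have h3 : (D \ P k) \ S.biUnion P = D \ (insert k S).biUnion P := by
      rw [Finset.biUnion_insert]
      ext c
      simp only [Finset.mem_sdiff, Finset.mem_union]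
      tauto
    rw [h3] at h2
    linarith

/-- disjoint pieces, exact tiling -/
theorem qG_fam_eq {b : ℝ} (hb : 0 ≤ b) {ι : Type*} [DecidableEq ι] (S : Finset ι)
    (P : ι → Finset (ℤ × ℤ)) (hd : ∀ i ∈ S, ∀ j ∈ S, i ≠ j → Disjoint (P i) (P j)) (y : HF) :
    qG b (S.biUnion P) y ≤ ∑ k ∈ S, qG b (P k) y := by
  have h := qG_fam hb S P hd (S.biUnion P) (fun k hk => Finset.subset_biUnion_of_mem P hk) y
  rw [Finset.sdiff_self] at h
  have h0 : nG ∅ y = 0 := by rw [nG_sum, Finset.sum_empty]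
  rw [h0, mul_zero, add_zero] at h
  exact h

/-! ### translations -/

/-- translate of a region -/
def tr (v : ℤ × ℤ) (R : Finset (ℤ × ℤ)) : Finset (ℤ × ℤ) := R.map (addRightEmbedding v)

theorem mem_tr {v : ℤ × ℤ} {R : Finset (ℤ × ℤ)} {c : ℤ × ℤ} : c ∈ tr v R ↔ c - v ∈ R := by
  unfold tr
  rw [Finset.mem_map]
  constructor
  · rintro ⟨a, ha, rfl⟩
    rw [addRightEmbedding_apply, add_sub_cancel_right]
    exact ha
  · intro h
    exact ⟨c - v, h, by rw [addRightEmbedding_apply, sub_add_cancel]⟩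

theorem card_tr (v : ℤ × ℤ) (R : Finset (ℤ × ℤ)) : (tr v R).card = R.card := Finset.card_map _

theorem tr_zero (R : Finset (ℤ × ℤ)) : tr 0 R = R := by
  ext c
  rw [mem_tr, sub_zero]

theorem tr_tr (u v : ℤ × ℤ) (R : Finset (ℤ × ℤ)) : tr u (tr v R) = tr (u + v) R := by
  ext c
  rw [mem_tr, mem_tr, mem_tr, sub_sub]

theorem mem_intR_tr {v : ℤ × ℤ} {R : Finset (ℤ × ℤ)} {w : ℤ × ℤ} :
    v + w ∈ intR (tr v R) ↔ w ∈ intR R := by
  unfold intR
  simp only [Set.mem_setOf_eq, mem_tr]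
  rw [show v + w - v = w by abel, show v + w - (1, 0) - v = w - (1, 0) by abel,
    show v + w - (0, 1) - v = w - (0, 1) by abel, show v + w - (1, 1) - v = w - (1, 1) by abel]

/-- the half-bonds of the translate -/
def eTr (v : ℤ × ℤ) (R : Finset (ℤ × ℤ)) : KR (tr v R) ≃ KR R where
  toFun e := (⟨(e.1 : ℤ × ℤ) - v, mem_tr.1 e.1.2⟩, e.2)
  invFun e := (⟨(e.1 : ℤ × ℤ) + v, mem_tr.2 (by rw [add_sub_cancel_right]; exact e.1.2)⟩, e.2)
  left_inv e := by
    obtain ⟨⟨c, hc⟩, t⟩ := e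
    simp only [sub_add_cancel]
  right_inv e := by
    obtain ⟨⟨c, hc⟩, t⟩ := e
    simp only [add_sub_cancel_right]

theorem hu_tr (v c : ℤ × ℤ) (t : HT) : hu c t = v + hu (c - v) t := by
  unfold hu
  ext <;> simp only [Prod.fst_add, Prod.snd_add, Prod.fst_sub, Prod.snd_sub] <;> ring

theorem hv_tr (v c : ℤ × ℤ) (t : HT) : hv c t = v + hv (c - v) t := by
  unfold hv
  rw [hu_tr v c t, add_assoc]

theorem proj_tr (v : ℤ × ℤ) (R : Finset (ℤ × ℤ)) (x : Ginf) (w : ℤ × ℤ) :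
    proj (intR (tr v R)) x (v + w) =
      proj (intR R) (relabel (fun w : ℤ × ℤ => v + w) x) w := by
  by_cases h : w ∈ intR R
  · rw [proj_of_mem h, proj_of_mem (mem_intR_tr.2 h)]
    rfl
  · rw [proj_of_notMem h, proj_of_notMem (fun h' => h (mem_intR_tr.1 h'))]

theorem chiR_tr_c (v : ℤ × ℤ) (R : Finset (ℤ × ℤ)) (e : KR (tr v R)) (x : Ginf) :
    (chiR (tr v R) e).c x = (chiR R (eTr v R e)).c (relabel (fun w : ℤ × ℤ => v + w) x) := by
  show cosT (proj (intR (tr v R)) x (hu e.1 e.2) - proj (intR (tr v R)) x (hv e.1 e.2)) =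
    cosT (proj (intR R) (relabel (fun w : ℤ × ℤ => v + w) x) (hu ((e.1 : ℤ × ℤ) - v) e.2) -
      proj (intR R) (relabel (fun w : ℤ × ℤ => v + w) x) (hv ((e.1 : ℤ × ℤ) - v) e.2))
  rw [hu_tr v, hv_tr v (e.1 : ℤ × ℤ), proj_tr, proj_tr]

theorem chiR_tr_s (v : ℤ × ℤ) (R : Finset (ℤ × ℤ)) (e : KR (tr v R)) (x : Ginf) :
    (chiR (tr v R) e).s x = (chiR R (eTr v R e)).s (relabel (fun w : ℤ × ℤ => v + w) x) := by
  show sinT (proj (intR (tr v R)) x (hu e.1 e.2) - proj (intR (tr v R)) x (hv e.1 e.2)) =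
    sinT (proj (intR R) (relabel (fun w : ℤ × ℤ => v + w) x) (hu ((e.1 : ℤ × ℤ) - v) e.2) -
      proj (intR R) (relabel (fun w : ℤ × ℤ => v + w) x) (hv ((e.1 : ℤ × ℤ) - v) e.2))
  rw [hu_tr v, hv_tr v (e.1 : ℤ × ℤ), proj_tr, proj_tr]

/-- **translation invariance** for an arbitrary region -/
theorem qG_tr (b : ℝ) (v : ℤ × ℤ) (R : Finset (ℤ × ℤ)) (y : HF) :
    qG b (tr v R) y = qG b R (shF v y) := by
  refine Qform_tr muInf (J := fun _ : KR (tr v R) => b / 2) (χ := chiR (tr v R))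
    (J' := fun _ : KR R => b / 2) (χ' := chiR R) (eTr v R)
    (fun x => relabel (fun w : ℤ × ℤ => v + w) x) (int_tr_real v) (fun _ => 1)
    (fun _ => Or.inl rfl) (fun e => rfl) (chiR_tr_c v R)
    (fun e x => by rw [one_mul]; exact chiR_tr_s v R e x) (fun e => ?_)
  rw [one_mul]
  show y e.2 e.1 = y e.2 ((e.1 : ℤ × ℤ) - v + v)
  rw [sub_add_cancel]

theorem nG_tr (v : ℤ × ℤ) (R : Finset (ℤ × ℤ)) (y : HF) : nG (tr v R) y = nG R (shF v y) := by
  rw [nG_sum, nG_sum]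
  unfold tr
  rw [Finset.sum_map]
  rfl

/-- **disjoint translates inside a region** -/
theorem qG_tiles {b : ℝ} (hb : 0 ≤ b) (R : Finset (ℤ × ℤ)) (V : Finset (ℤ × ℤ))
    (hd : ∀ u ∈ V, ∀ v ∈ V, u ≠ v → Disjoint (tr u R) (tr v R)) (D : Finset (ℤ × ℤ))
    (hD : ∀ v ∈ V, tr v R ⊆ D) (y : HF) :
    qG b D y ≤ ∑ v ∈ V, qG b R (shF v y) + b / 2 * nG (D \ V.biUnion fun v => tr v R) y := by
  have h := qG_fam hb V (fun v => tr v R) hd D hD y
  rw [Finset.sum_congr rfl fun v _ => qG_tr b v R y] at h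
  exact h

/-- disjoint translates, the same bound on each of them -/
theorem qG_tiles_le {b : ℝ} (hb : 0 ≤ b) (R : Finset (ℤ × ℤ)) (V : Finset (ℤ × ℤ))
    (hd : ∀ u ∈ V, ∀ v ∈ V, u ≠ v → Disjoint (tr u R) (tr v R)) (D : Finset (ℤ × ℤ))
    (hD : ∀ v ∈ V, tr v R ⊆ D) (y : HF) {M : ℝ} (hM : ∀ v ∈ V, qG b R (shF v y) ≤ M) :
    qG b D y ≤ V.card * M + b / 2 * nG (D \ V.biUnion fun v => tr v R) y := by
  refine (qG_tiles hb R V hd D hD y).trans ?_
  have : ∑ v ∈ V, qG b R (shF v y) ≤ V.card * M := by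
    refine (Finset.sum_le_sum hM).trans (le_of_eq ?_)
    rw [Finset.sum_const, nsmul_eq_mul]
  linarith

/-- a bounded field has a small norm on a small rest -/
theorem nG_le_card (R : Finset (ℤ × ℤ)) (y : HF) {K : ℝ} (hK : ∀ c ∈ R, ∀ t, |y t c| ≤ K) :
    nG R y ≤ 4 * K ^ 2 * R.card := by
  rw [nG_sum]
  refine (Finset.sum_le_sum fun c hc => Finset.sum_le_sum fun t _ =>
    (sq_le_sq' (abs_le.1 (hK c hc t)).1 (abs_le.1 (hK c hc t)).2)).trans (le_of_eq ?_)
  rw [Finset.sum_const, Finset.sum_const, nsmul_eq_mul, nsmul_eq_mul]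
  have : ((Finset.univ : Finset (Bool × Bool)).card : ℝ) = 4 := by
    norm_num [Finset.card_univ]
  rw [this]
  ring

/-- cardinality of the rest -/
theorem card_rest (R V D : Finset (ℤ × ℤ))
    (hd : ∀ u ∈ V, ∀ v ∈ V, u ≠ v → Disjoint (tr u R) (tr v R))
    (hD : ∀ v ∈ V, tr v R ⊆ D) :
    ((D \ V.biUnion fun v => tr v R).card : ℝ) = D.card - V.card * R.card := by
  classical
  have h1 : (V.biUnion fun v => tr v R).card = V.card * R.card := by
    rw [Finset.card_biUnion hd, Finset.sum_congr rfl fun v _ => card_tr v R, Finset.sum_const,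
      smul_eq_mul]
  have h2 : (V.biUnion fun v => tr v R) ⊆ D := by
    intro c hc
    rw [Finset.mem_biUnion] at hc
    obtain ⟨v, hv, hc⟩ := hc
    exact hD v hv hc
  have h3 := Finset.card_sdiff_add_card_eq_card h2
  rw [h1] at h3
  have h4 : ((D \ V.biUnion fun v => tr v R).card : ℝ) + V.card * R.card = D.card := by
    exact_mod_cast h3
  linarith

/-- **tiling with counting**: `#V` disjoint translates of `R` inside `D`, field bounded by `K` -/
theorem qG_tiles_card {b : ℝ} (hb : 0 ≤ b) (R : Finset (ℤ × ℤ)) (V : Finset (ℤ × ℤ))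
    (hd : ∀ u ∈ V, ∀ v ∈ V, u ≠ v → Disjoint (tr u R) (tr v R)) (D : Finset (ℤ × ℤ))
    (hD : ∀ v ∈ V, tr v R ⊆ D) (y : HF) {M K : ℝ} (hM : ∀ v ∈ V, qG b R (shF v y) ≤ M)
    (hK : ∀ c ∈ D, ∀ t, |y t c| ≤ K) :
    qG b D y ≤ V.card * M + 2 * b * K ^ 2 * (D.card - V.card * R.card) := by
  refine (qG_tiles_le hb R V hd D hD y hM).trans ?_
  have h1 := nG_le_card (D \ V.biUnion fun v => tr v R) y
    (fun c hc t => hK c (Finset.mem_sdiff.1 hc).1 t)
  rw [card_rest R V D hd hD] at h1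
  have h2 := mul_le_mul_of_nonneg_left h1 (by linarith : (0:ℝ) ≤ b / 2)
  linarith

/-- **tiling for an invariant field** -/
theorem qG_tiles_inv {b : ℝ} (hb : 0 ≤ b) (R : Finset (ℤ × ℤ)) (V : Finset (ℤ × ℤ))
    (hd : ∀ u ∈ V, ∀ v ∈ V, u ≠ v → Disjoint (tr u R) (tr v R)) (D : Finset (ℤ × ℤ))
    (hD : ∀ v ∈ V, tr v R ⊆ D) (y : HF) {K : ℝ}
    (hy : ∀ v ∈ V, ∀ c ∈ R, ∀ t, y t (c + v) = y t c)
    (hK : ∀ c ∈ D, ∀ t, |y t c| ≤ K) :
    qG b D y ≤ V.card * qG b R y + 2 * b * K ^ 2 * (D.card - V.card * R.card) :=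
  qG_tiles_card hb R V hd D hD y
    (fun v hv => (qG_congr b (fun c hc t => hy v hv c hc t)).le) hK

end

end Vale.Agent.P159.H358
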