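import Vale.Agent.P159.H358.Utwo4
import Vale.Agent.P159.H889.Vreal

/-!
P159, module VTOR, `u_two`, canonical geometry: the window is the box of radius `D0` (cells) around an
arbitrary cell of the cell torus, the cut-off is the box of radius `D1 ≥ D0`.
-/

open Finset MeasureTheory

set_option linter.unusedSectionVars false
set_option linter.unusedDecidableInType false

namespace Vale.Agent.P159.H358

open Vale.Agent.P159.TM.H104 (EM Lg Ex Cv Gr li)
open Vale.Agent.P159.H37 (wt wM bf qf Rs Tq Gm Ght)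
open Vale.Agent.P159.TM.Spec (V)
open Vale.Agent.P159.TM.SpecC (wT)
open Vale.Agent.P159.TM.H705 (dB)
open Vale.Agent.P159.TM.H459 (sd sn)
open Vale.Agent.P159.H145 (mt mt_mulVec bf_mt em_mt cs LM)
open Vale.Agent.P159.H552 (uq lft idc ut ut_ch cutB)
open Vale.Agent.P159.H864 (cl cl1 cl1_val card_cell)
open Vale.Agent.P159.H363 (Ch Cov sh)
open Vale.Agent.P159.H889 (uc cov_uc ch_uc cutx)
open Vale.Agent.P159.H813 (LB4)

/-! ### one coordinate -/

theorem val_add {K : ℕ} [NeZero K] (v z : ZMod K) {d : ℕ} (h1 : d ≤ v.val) (h2 : v.val + d < K)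
    (h : (z - v).valMinAbs.natAbs ≤ d) : (z.val : ℤ) = v.val + (z - v).valMinAbs := by
  set ζ := (z - v).valMinAbs with hζ
  have e1 : ((ζ : ℤ) : ZMod K) = z - v := ZMod.coe_valMinAbs _
  have hb : |ζ| ≤ d := by
    rw [Int.abs_eq_natAbs]
    exact_mod_cast h
  have hlo : 0 ≤ (v.val : ℤ) + ζ := by
    have := (abs_le.1 hb).1
    have h3 : (d : ℤ) ≤ v.val := by exact_mod_cast h1
    linarith
  have hhi : (v.val : ℤ) + ζ < K := by
    have := (abs_le.1 hb).2
    have h3 : (v.val : ℤ) + d < K := by exact_mod_cast h2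
    linarith
  obtain ⟨m, hm⟩ := Int.eq_ofNat_of_zero_le hlo
  have hmK : m < K := by
    rw [hm] at hhi
    exact_mod_cast hhi
  have e2 : z = (m : ZMod K) := by
    have h3 : (((v.val : ℤ) + ζ : ℤ) : ZMod K) = ((m : ℤ) : ZMod K) := by rw [hm]
    rw [Int.cast_add, e1] at h3
    push_cast at h3
    rw [ZMod.natCast_zmod_val] at h3
    rw [← h3]
    ring
  rw [e2, ZMod.val_cast_of_lt hmK, hm]

theorem vma_of {K : ℕ} [NeZero K] (v z : ZMod K) {d : ℕ} (h2 : 2 * d < K)
    (h : ((z.val : ℤ) - v.val).natAbs ≤ d) : (z - v).valMinAbs = (z.val : ℤ) - v.val := by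
  rw [ZMod.valMinAbs_spec]
  have hb : |(z.val : ℤ) - v.val| ≤ d := by
    rw [Int.abs_eq_natAbs]
    exact_mod_cast h
  have h3 : (2 * (d : ℤ)) < K := by exact_mod_cast h2
  obtain ⟨h4, h5⟩ := abs_le.1 hb
  refine ⟨?_, ?_, ?_⟩
  · push_cast
    rw [ZMod.natCast_zmod_val, ZMod.natCast_zmod_val]
  · linarith
  · linarith

theorem vma_iff {K : ℕ} [NeZero K] (v z : ZMod K) {d : ℕ} (h1 : d ≤ v.val) (h2 : v.val + d < K)
    (h3 : 2 * d < K) :
    (z - v).valMinAbs.natAbs ≤ d ↔ ((z.val : ℤ) - v.val).natAbs ≤ d := by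
  constructor
  · intro h
    have := val_add v z h1 h2 h
    rw [this]
    simpa using h
  · intro h
    rw [vma_of v z h3 h]
    exact h

/-! ### the window in natural coordinates -/

/-- the field `h` on the box of radius `D` around `x`, the constant `h 0` outside -/
noncomputable def cwf (K : ℕ) [NeZero K] (D : ℕ) (h : ℤ × ℤ → ℝ) (x v : V K) : ℝ :=
  if v ∈ H462.box x D then h ((v - x).1.valMinAbs, (v - x).2.valMinAbs) else h 0

/-- distance at most `D` from the centre `q` in natural coordinates -/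
def nr (q D a b : ℕ) : Prop := ((a : ℤ) - q).natAbs ≤ D ∧ ((b : ℤ) - q).natAbs ≤ D

instance (q D a b : ℕ) : Decidable (nr q D a b) := by unfold nr; infer_instance

/-- the field relative to its value at the centre, natural coordinates -/
noncomputable def gq (q D : ℕ) (h : ℤ × ℤ → ℝ) (a b : ℕ) : ℝ :=
  if nr q D a b then h ((a : ℤ) - q, (b : ℤ) - q) - h 0 else 0

/-- the cut-off -/
noncomputable def pq (q D a b : ℕ) : ℝ := if nr q D a b then 1 else 0

variable {K : ℕ} [NeZero K]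

theorem box_nat {q D : ℕ} (h1 : D ≤ q) (h2 : q + D < K) (h3 : 2 * D < K) (v : V K) :
    v ∈ H462.box (pc K (q, q)) D ↔ nr q D v.1.val v.2.val := by
  have hq : ((q : ℕ) : ZMod K).val = q := ZMod.val_cast_of_lt (by omega)
  rw [H462.mem_box]
  unfold nr pc
  have a1 := vma_iff (K := K) (q : ZMod K) v.1 (d := D) (by rw [hq]; exact h1)
    (by rw [hq]; exact h2) h3
  have a2 := vma_iff (K := K) (q : ZMod K) v.2 (d := D) (by rw [hq]; exact h1)
    (by rw [hq]; exact h2) h3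
  rw [hq] at a1 a2
  exact and_congr a1 a2

theorem cwf_nat {q D : ℕ} (h1 : D ≤ q) (h2 : q + D < K) (h3 : 2 * D < K) (h : ℤ × ℤ → ℝ) :
    cwf K D h (pc K (q, q)) = fun v => cfn K (gq q D h) v + h 0 := by
  have hq : ((q : ℕ) : ZMod K).val = q := ZMod.val_cast_of_lt (by omega)
  funext v
  unfold cwf cfn gq
  by_cases hv : v ∈ H462.box (pc K (q, q)) D
  · have hn := (box_nat h1 h2 h3 v).1 hv
    rw [if_pos hv, if_pos hn, sub_add_cancel]
    have e1 := vma_of (K := K) (q : ZMod K) v.1 h3 (by rw [hq]; exact hn.1)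
    have e2 := vma_of (K := K) (q : ZMod K) v.2 h3 (by rw [hq]; exact hn.2)
    rw [hq] at e1 e2
    show h ((v.1 - (q : ZMod K)).valMinAbs, (v.2 - (q : ZMod K)).valMinAbs) = _
    rw [e1, e2]
  · rw [if_neg hv, if_neg (fun hn => hv ((box_nat h1 h2 h3 v).2 hn)), zero_add]

/-! ### the canonical geometry -/

/-- the net of the window in the fine lattice -/
def net (l ξ q D : ℕ) : Finset (ℕ × ℕ) :=
  (range ((2 * D + 1) * l / ξ + 1) ×ˢ range ((2 * D + 1) * l / ξ + 1)).image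
    fun p => ((q - D) * l + ξ * p.1, (q - D) * l + ξ * p.2)

theorem card_net {l ξ q D : ℕ} (hξ : 0 < ξ) :
    (net l ξ q D).card = ((2 * D + 1) * l / ξ + 1) ^ 2 := by
  unfold net
  rw [Finset.card_image_of_injective, Finset.card_product, Finset.card_range, pow_two]
  intro p p' h
  simp only [Prod.mk.injEq, Nat.add_left_cancel_iff] at h
  exact Prod.ext (Nat.eq_of_mul_eq_mul_left hξ h.1) (Nat.eq_of_mul_eq_mul_left hξ h.2)

theorem net_one {l ξ D x0 i : ℕ} (hξ : 0 < ξ) (h1 : x0 ≤ i) (h2 : i < x0 + (2 * D + 1) * l) :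
    ∃ p ∈ range ((2 * D + 1) * l / ξ + 1), ((i : ℤ) - ((x0 + ξ * p : ℕ) : ℤ)).natAbs ≤ ξ := by
  refine ⟨(i - x0) / ξ, ?_, ?_⟩
  · rw [mem_range]
    have : (i - x0) / ξ ≤ (2 * D + 1) * l / ξ := Nat.div_le_div_right (by omega)
    omega
  · have e := Nat.div_add_mod (i - x0) ξ
    have h3 := Nat.mod_lt (i - x0) hξ
    set m := (i - x0) / ξ
    have h4 : i = x0 + ξ * m + (i - x0) % ξ := by omega
    have h5 : ((i : ℤ) - ((x0 + ξ * m : ℕ) : ℤ)) = (((i - x0) % ξ : ℕ) : ℤ) := by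
      conv_lhs => rw [h4]
      push_cast
      ring
    rw [h5, Int.natAbs_natCast]
    exact h3.le

/-- coordinates of the cells of the window -/
theorem nr_div {l q D i : ℕ} (hl : 0 < l) (hq : D ≤ q) (h : (((i / l : ℕ) : ℤ) - q).natAbs ≤ D) :
    (q - D) * l ≤ i ∧ i < (q - D) * l + (2 * D + 1) * l := by
  have h1 : q - D ≤ i / l := by omega
  have h2 : i / l < q + D + 1 := by omega
  constructor
  · calc (q - D) * l ≤ i / l * l := Nat.mul_le_mul_right _ h1
      _ ≤ i := Nat.div_mul_le_self _ _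
  · have h3 : i < (q + D + 1) * l := (Nat.div_lt_iff_lt_mul hl).1 h2
    have h4 : (q - D) * l + (2 * D + 1) * l = (q + D + 1) * l := by
      rw [← add_mul]
      congr 1
      omega
    omega

theorem far_one {l q D : ℕ} (hl : 0 < l) (hq : D ≤ q) (hK : (q + D + 1) * l ≤ K) (v z : ZMod K)
    (hv : v.val / l = q) (hz : ¬ (((z.val / l : ℕ) : ℤ) - q).natAbs ≤ D) :
    D * l ≤ (z - v).valMinAbs.natAbs := by
  by_contra hcon
  rw [not_le] at hcon
  have hv1 : q * l ≤ v.val := by rw [← hv]; exact Nat.div_mul_le_self _ _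
  have hv2 : v.val < (q + 1) * l := (Nat.div_lt_iff_lt_mul hl).1 (by omega)
  have hqD : D * l ≤ q * l := Nat.mul_le_mul_right _ hq
  have e1 : (q + D + 1) * l = (q + 1) * l + D * l := by ring
  have hD1 : 1 ≤ D * l := by omega
  have h := val_add v z (d := D * l) (by omega) (by omega) hcon.le
  apply hz
  have hb : |(z - v).valMinAbs| < D * l := by
    rw [Int.abs_eq_natAbs]
    exact_mod_cast hcon
  obtain ⟨b1, b2⟩ := abs_lt.1 hb
  have hz1 : (q - D) * l ≤ z.val := by
    have e2 : ((q - D) * l : ℕ) + D * l = q * l := by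
      rw [← add_mul]
      congr 1
      omega
    have e3 : (((q - D) * l : ℕ) : ℤ) + ((D * l : ℕ) : ℤ) = ((q * l : ℕ) : ℤ) := by
      exact_mod_cast e2
    have e4 : ((q * l : ℕ) : ℤ) ≤ v.val := by exact_mod_cast hv1
    have e5 : ((D * l : ℕ) : ℤ) = (D : ℤ) * l := by push_cast; ring
    have : (((q - D) * l : ℕ) : ℤ) ≤ z.val := by
      rw [h]
      linarith
    exact_mod_cast this
  have hz2 : z.val < (q + D + 1) * l := by
    have e4 : ((v.val : ℕ) : ℤ) < (((q + 1) * l : ℕ) : ℤ) := by exact_mod_cast hv2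
    have e5 : (((q + D + 1) * l : ℕ) : ℤ) = (((q + 1) * l : ℕ) : ℤ) + (D : ℤ) * l := by
      rw [e1]
      push_cast
      ring
    have : ((z.val : ℕ) : ℤ) < (((q + D + 1) * l : ℕ) : ℤ) := by
      rw [h, e5]
      linarith
    exact_mod_cast this
  have h5 : q - D ≤ z.val / l := (Nat.le_div_iff_mul_le hl).2 hz1
  have h6 : z.val / l < q + D + 1 := (Nat.div_lt_iff_lt_mul hl).2 hz2
  omega

/-- **the canonical geometry** -/
theorem ut_geo {N M l : ℕ} [NeZero N] [NeZero M] {b : ℝ} {hb : 0 ≤ b} {ξ : ℕ}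
    {t y y' c C c4 C4 : ℝ} {r D1 : ℕ} {D : ℝ} (hξ : 0 < ξ) (ht : 0 < t) (hC : 0 < C)
    (hT : HAt N b ξ t hb y c C) (hT' : HAt M b ξ t hb y' c C) (hr : ξ + 1 ≤ r)
    (hny : (r : ℝ) * y ≤ c * ξ) (hny' : (r : ℝ) * y' ≤ c * ξ) (hlN : l ∣ N) (hlM : l ∣ M)
    (lbN : LB4 N b t ξ c4 C4) (lbM : LB4 M b t ξ c4 C4) (hC4 : 0 ≤ C4) (hD : 0 ≤ D)
    (hDl : D * ξ ≤ D1 * l) (hsN : 2 * r + (2 * D1 + 2) * l < N)
    (hsM : 2 * r + (2 * D1 + 2) * l < M) :
    UT N M l b hb ξ t y y' c C c4 C4 (net l ξ (D1 + 1 + r / l) D1) r (min N M)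
      (pq (D1 + 1 + r / l) D1) (D1 + 1 + r / l, D1 + 1 + r / l) D := by
  have hl : 0 < l := Nat.pos_of_dvd_of_pos hlN (Nat.pos_of_ne_zero (NeZero.ne N))
  have hrl : r < (1 + r / l) * l := by
    rw [add_comm, mul_comm]
    exact Nat.lt_mul_div_succ _ hl
  have hrl' : r / l * l ≤ r := Nat.div_mul_le_self _ _
  generalize r / l = ρ at hrl hrl' ⊢
  set q := D1 + 1 + ρ with hq
  have hqD : D1 ≤ q := by omega
  have hsub : q - D1 = 1 + ρ := by omega
  have htop : (q + D1 + 1) * l ≤ (2 * D1 + 2) * l + r := by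
    have : q + D1 + 1 = (2 * D1 + 2) + ρ := by omega
    rw [this, add_mul]
    omega
  have hspan : (q - D1) * l + (2 * D1 + 1) * l = (q + D1 + 1) * l := by
    rw [← add_mul]
    congr 1
    omega
  have hn : 2 * r + (2 * D1 + 2) * l < min N M := lt_min hsN hsM
  have hdist : ∀ {K : ℕ} [NeZero K], 2 * r + (2 * D1 + 2) * l < K → ∀ v z : V K,
      v.1.val / l = q → v.2.val / l = q → pq q D1 (z.1.val / l) (z.2.val / l) ≠ 1 →
      D * ξ ≤ sd v z := by
    intro K _ hK v z h1 h2 h3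
    have h4 : ¬ nr q D1 (z.1.val / l) (z.2.val / l) := by
      intro h
      exact h3 (by unfold pq; rw [if_pos h])
    have hKK : (q + D1 + 1) * l ≤ K := by omega
    have h5 : D1 * l ≤ sd v z := by
      unfold sd sn
      by_cases h6 : (((z.1.val / l : ℕ) : ℤ) - q).natAbs ≤ D1
      · have h7 : ¬ (((z.2.val / l : ℕ) : ℤ) - q).natAbs ≤ D1 := fun h => h4 ⟨h6, h⟩
        exact le_max_of_le_right (far_one hl hqD hKK v.2 z.2 h2 h7)
      · exact le_max_of_le_left (far_one hl hqD hKK v.1 z.1 h1 h6)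
    have h6 : ((D1 * l : ℕ) : ℝ) ≤ sd v z := by exact_mod_cast h5
    push_cast at h6
    linarith
  refine ⟨⟨hξ, ht, hC, hT, hT', hr, hny, hny', ?_, min_le_left _ _, min_le_right _ _⟩, hlN, hlM,
    lbN, lbM, hC4, hD, ?_, ?_, ?_, ?_, ?_, hdist hsN, hdist hsM⟩
  · intro p hp
    unfold net at hp
    rw [mem_image] at hp
    obtain ⟨a, ha, rfl⟩ := hp
    rw [mem_product, mem_range, mem_range] at ha
    have key : ∀ i : ℕ, i < (2 * D1 + 1) * l / ξ + 1 →
        r < (q - D1) * l + ξ * i ∧ (q - D1) * l + ξ * i + r < min N M := by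
      intro i hi
      have h1 : ξ * i ≤ (2 * D1 + 1) * l := by
        calc ξ * i ≤ ξ * ((2 * D1 + 1) * l / ξ) := Nat.mul_le_mul_left _ (by omega)
          _ ≤ _ := Nat.mul_div_le _ _
      have h2 : r < (q - D1) * l := by rw [hsub]; exact hrl
      constructor <;> omega
    exact ⟨key a.1 ha.1, key a.2 ha.2⟩
  · intro a b'
    unfold pq
    split_ifs <;> norm_num
  · intro a b'
    unfold pq
    split_ifs <;> norm_num
  · show pq q D1 q q ≠ 0
    have h1 : nr q D1 q q := by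
      unfold nr
      simp
    unfold pq
    rw [if_pos h1]
    norm_num
  · intro a b' h
    have h1 : nr q D1 a b' := by
      by_contra h2
      exact h (by unfold pq; rw [if_neg h2])
    have key : ∀ a : ℕ, ((a : ℤ) - q).natAbs ≤ D1 → 1 ≤ a ∧ (a + 1) * l ≤ min N M := by
      intro a ha
      have h3 : q - D1 ≤ a := by omega
      have h4 : a + 1 ≤ q + D1 + 1 := by omega
      refine ⟨by omega, ?_⟩
      have h5 : (a + 1) * l ≤ (q + D1 + 1) * l := Nat.mul_le_mul_right _ h4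
      omega
    exact ⟨(key a h1.1).1, (key a h1.1).2, (key b' h1.2).1, (key b' h1.2).2⟩
  · intro i k h
    have h1 : nr q D1 (i / l) (k / l) := by
      by_contra h2
      exact h (by unfold pq; rw [if_neg h2])
    have hi := nr_div hl hqD h1.1
    have hk := nr_div hl hqD h1.2
    obtain ⟨a, ha, ha2⟩ := net_one hξ hi.1 hi.2
    obtain ⟨a', ha', ha2'⟩ := net_one hξ hk.1 hk.2
    refine ⟨((q - D1) * l + ξ * a, (q - D1) * l + ξ * a'), ?_, ?_⟩
    · unfold net
      exact mem_image.2 ⟨(a, a'), mem_product.2 ⟨ha, ha'⟩, rfl⟩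
    · unfold dB
      exact max_le ha2 ha2'

end Vale.Agent.P159.H358
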