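import Vale.Agent.P159.H358.Ugeo
import Vale.Agent.P159.H733.TorgB

/-!
P159, module VTOR, `u_two` in torus letters (helper889's `uc`, `cutx`): the density of the cut field at an
arbitrary cell of the torus `M` equals the density of the SAME window field at an arbitrary cell of the
torus `N`, up to `eru`.
-/

open Finset MeasureTheory

set_option linter.unusedSectionVars false
set_option linter.unusedDecidableInType false

namespace Vale.Agent.P159.H358

open Vale.Agent.P159.TM.H104 (EM Lg Ex Cv Gr li)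
open Vale.Agent.P159.H37 (wt wM bf qf Rs Tq Gm Ght)
open Vale.Agent.P159.TM.Spec (V)
open Vale.Agent.P159.TM.SpecC (wT)
open Vale.Agent.P159.TM.H705 (dB)
open Vale.Agent.P159.TM.H459 (sd sn)
open Vale.Agent.P159.H145 (mt mt_mulVec bf_mt em_mt cs LM)
open Vale.Agent.P159.H552 (uq lft idc ut ut_ch cutB)
open Vale.Agent.P159.H864 (cl cl1 cl1_val card_cell tra up cl_add_up)
open Vale.Agent.P159.H363 (Ch Cov sh)
open Vale.Agent.P159.H889 (uc cov_uc ch_uc cutx norm_uc_le continuous_uc tn2)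
open Vale.Agent.P159.H813 (LB4)
open Vale.Agent.P159.H733.Torg (ip)

section

variable {K : ℕ} [NeZero K]

theorem cwf_sh (D : ℕ) (h : ℤ × ℤ → ℝ) (x a v : V K) :
    cwf K D h (x + a) (v + a) = cwf K D h x v := by
  unfold cwf
  rw [add_sub_add_right_eq_sub]
  by_cases hv : v ∈ H462.box x D
  · rw [if_pos hv, if_pos (H889.mem_box_add.2 hv)]
  · rw [if_neg hv, if_neg fun h2 => hv (H889.mem_box_add.1 h2)]

theorem cutx_eq (D : ℕ) (x : V K) (F : V K → ℝ) :
    cutx D x F = cwf K D (fun ζ => F (x + ip K ζ)) x := by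
  funext v
  unfold cutx cutB cwf
  by_cases hv : v ∈ H462.box x D
  · rw [if_pos hv, if_pos hv]
    congr 1
    unfold H733.Torg.ip
    refine Prod.ext ?_ ?_
    · show v.1 = x.1 + (((v - x).1.valMinAbs : ℤ) : ZMod K)
      rw [ZMod.coe_valMinAbs]
      show v.1 = x.1 + (v.1 - x.1)
      ring
    · show v.2 = x.2 + (((v - x).2.valMinAbs : ℤ) : ZMod K)
      rw [ZMod.coe_valMinAbs]
      show v.2 = x.2 + (v.2 - x.2)
      ring
  · rw [if_neg hv, if_neg hv]
    congr 1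
    unfold H733.Torg.ip
    refine Prod.ext ?_ ?_
    · show x.1 = x.1 + ((0 : ℤ) : ZMod K)
      rw [Int.cast_zero, add_zero]
    · show x.2 = x.2 + ((0 : ℤ) : ZMod K)
      rw [Int.cast_zero, add_zero]

end

section

variable {K l : ℕ} [NeZero K] [NeZero (K / l)] {b t : ℝ}

/-- the density of a window field does not depend on the place -/
theorem uc_cwf (hb : 0 ≤ b) (ht : 0 < t) (hl : l ∣ K) (D : ℕ) (h : ℤ × ℤ → ℝ)
    (x p : V (K / l)) : uc K l b t x (cwf (K / l) D h x) = uc K l b t p (cwf (K / l) D h p) := by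
  have e : p = x + (p - x) := by ring
  conv_rhs => rw [e]
  rw [cov_uc hb ht hl]
  congr 1
  funext v
  exact (cwf_sh D h x (p - x) v).symm

/-- the value of `R` of a window field does not depend on the place -/
theorem Rs_place (hl : l ∣ K) (k : V (K / l) → V (K / l) → ℝ)
    (hk : ∀ x a v, k (x + a) (v + a) = k x v) (x p : V (K / l)) (s : ℝ) :
    Rs (wt K b t) ((2 : ℝ) • (s • lft (cl : V K → V (K / l)) (k x))) =
      Rs (wt K b t) ((2 : ℝ) • (s • lft (cl : V K → V (K / l)) (k p))) := by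
  have h := H864.Rs_perm (H864.tinv_wt (N := K) (b := b) t (up (p - x)))
    ((2 : ℝ) • (s • lft (cl : V K → V (K / l)) (k p)))
  rw [← h]
  congr 1
  funext v
  show 2 * (s * k x (cl v)) = 2 * (s * k p (cl (v + up (p - x))))
  rw [cl_add_up hl]
  have e : p = x + (p - x) := by ring
  have e2 : k p (cl v + (p - x)) = k (x + (p - x)) (cl v + (p - x)) := by rw [← e]
  rw [e2, hk]

end

section

variable {N M l : ℕ} [NeZero N] [NeZero M] [NeZero (N / l)] [NeZero (M / l)] {b : ℝ} {hb : 0 ≤ b}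
  {ξ : ℕ} {t y y' c C c4 C4 : ℝ} {r D0 D1 : ℕ} {D : ℝ}

/-- geometry and locality inputs of `uc_two`: torus sides `N`, `M`, cells `l`, cut-off radius `D1` -/
structure UG (N M l : ℕ) [NeZero N] [NeZero M] (b : ℝ) (hb : 0 ≤ b) (ξ : ℕ)
    (t y y' c C c4 C4 : ℝ) (r D0 D1 : ℕ) (D : ℝ) : Prop where
  hξ : 0 < ξ
  ht : 0 < t
  hC : 0 < C
  hT : HAt N b ξ t hb y c C
  hT' : HAt M b ξ t hb y' c C
  hr : ξ + 1 ≤ r
  hny : (r : ℝ) * y ≤ c * ξ
  hny' : (r : ℝ) * y' ≤ c * ξ
  hlN : l ∣ N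
  hlM : l ∣ M
  lbN : LB4 N b t ξ c4 C4
  lbM : LB4 M b t ξ c4 C4
  hC4 : 0 ≤ C4
  hD : 0 ≤ D
  hDl : D * ξ ≤ D1 * l
  hD01 : D0 ≤ D1
  hsN : 2 * r + (2 * D1 + 2) * l < N
  hsM : 2 * r + (2 * D1 + 2) * l < M

/-- number of `ξ`-balls of the net -/
def kn (l ξ D1 : ℕ) : ℕ := ((2 * D1 + 1) * l / ξ + 1) ^ 2

/-- **`uc_two`, window fields.** -/
theorem uc_two_cwf (H : UG N M l b hb ξ t y y' c C c4 C4 r D0 D1 D) {h : ℤ × ℤ → ℝ} {G τ τ₀ : ℝ}
    (hG0 : 0 ≤ G)
    (hG : ∀ ζ : ℤ × ℤ, ζ.1.natAbs ≤ D0 → ζ.2.natAbs ≤ D0 → |h ζ - h 0| ≤ G)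
    (x : V (N / l)) (x' : V (M / l))
    (h0 : Rs (wt M b t) ((2 : ℝ) • (t • lft (cl : V M → V (M / l))
      (fun v => cwf (M / l) D0 h x' v - h 0))) ≤ τ₀)
    (h2 : Rs (wt M b t) ((2 : ℝ) • (t • lft (cl : V M → V (M / l))
      (fun v => cwf (M / l) D0 h x' v - h 0 + if v ∈ H462.box x' D1 then 1 else 0))) ≤ τ₀)
    (hτN : τ₀ + erR ξ t c C G (kn l ξ D1) r + t * (N : ℝ) ^ 2 * om N b t * (4 * G + 2) ≤ τ)
    (hτM : τ₀ + t * (M : ℝ) ^ 2 * om M b t * (4 * G + 2) ≤ τ) :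
    ‖uc N l b t x (cwf (N / l) D0 h x) - uc M l b t x' (cwf (M / l) D0 h x')‖ ≤
      eru N M l ξ t c C c4 C4 D τ G (kn l ξ D1) r := by
  have ht := H.ht
  have hl : 0 < l := H864.l_pos H.hlN
  set q := D1 + 1 + r / l with hq
  have hU := ut_geo H.hξ ht H.hC H.hT H.hT' H.hr H.hny H.hny' H.hlN H.hlM H.lbN H.lbM H.hC4 H.hD
    H.hDl H.hsN H.hsM
  rw [← hq] at hU
  have hrl' : r / l * l ≤ r := Nat.div_mul_le_self _ _
  have hfit : ∀ {K : ℕ}, l ∣ K → 2 * r + (2 * D1 + 2) * l < K → q + D1 + 1 ≤ K / l := by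
    intro K hK hs
    rw [Nat.le_div_iff_mul_le hl]
    have e : q + D1 + 1 = (2 * D1 + 2) + r / l := by omega
    rw [e, add_mul]
    omega
  have fN := hfit H.hlN H.hsN
  have fM := hfit H.hlM H.hsM
  have h01 := H.hD01
  have hqp : D1 + 1 ≤ q := by
    rw [hq]
    exact Nat.le_add_right _ _
  have eN := cwf_nat (K := N / l) (q := q) (D := D0) (by omega) (by omega) (by omega) h
  have eM := cwf_nat (K := M / l) (q := q) (D := D0) (by omega) (by omega) (by omega) h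
  rw [uc_cwf hb ht H.hlN D0 h x (pc (N / l) (q, q)),
    uc_cwf hb ht H.hlM D0 h x' (pc (M / l) (q, q)), eN, eM, ch_uc hb ht, ch_uc hb ht, ← mul_sub,
    norm_mul]
  have e1 : ‖Complex.exp (((2 * Real.pi * h 0 : ℝ) : ℂ) * Complex.I)‖ = 1 :=
    Complex.norm_exp_ofReal_mul_I _
  rw [e1, one_mul]
  have hcard : (net l ξ q D1).card = kn l ξ D1 := card_net H.hξ
  have r0 := Rs_place (b := b) (t := t) H.hlM (fun x v => cwf (M / l) D0 h x v - h 0)
    (fun x a v => by rw [cwf_sh]) x' (pc (M / l) (q, q)) t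
  have r2 := Rs_place (b := b) (t := t) H.hlM
    (fun x v => cwf (M / l) D0 h x v - h 0 + if v ∈ H462.box x D1 then 1 else 0)
    (fun x a v => by
      rw [cwf_sh]
      by_cases hv : v ∈ H462.box x D1
      · rw [if_pos hv, if_pos (H889.mem_box_add.2 hv)]
      · rw [if_neg hv, if_neg fun h2 => hv (H889.mem_box_add.1 h2)]) x' (pc (M / l) (q, q)) t
  rw [r0] at h0
  rw [r2] at h2
  have g0 : (fun v : V (M / l) => cwf (M / l) D0 h (pc (M / l) (q, q)) v - h 0) =
      cfn (M / l) (gq q D0 h) := by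
    funext v
    rw [eM]
    ring
  have g2 : (fun v : V (M / l) => cwf (M / l) D0 h (pc (M / l) (q, q)) v - h 0 +
      if v ∈ H462.box (pc (M / l) (q, q)) D1 then 1 else 0) =
      cfn (M / l) (fun a b => gq q D0 h a b + pq q D1 a b) := by
    funext v
    rw [eM]
    have hb1 := box_nat (K := M / l) (q := q) (D := D1) (by omega) (by omega) (by omega) v
    show cfn (M / l) (gq q D0 h) v + h 0 - h 0 + _ = gq q D0 h v.1.val v.2.val +
      pq q D1 v.1.val v.2.val
    rw [add_sub_cancel_right]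
    congr 1
    unfold pq
    by_cases hv : v ∈ H462.box (pc (M / l) (q, q)) D1
    · rw [if_pos hv, if_pos (hb1.1 hv)]
    · rw [if_neg hv, if_neg fun h2 => hv (hb1.2 h2)]
  rw [g0] at h0
  rw [g2] at h2
  have main := u_two' hU (g := gq q D0 h) (fun a b' hab => by
    have h3 : nr q D0 a b' := by
      by_contra h4
      exact hab (by unfold gq; rw [if_neg h4])
    have h4 : nr q D1 a b' := ⟨h3.1.trans h01, h3.2.trans h01⟩
    unfold pq
    rw [if_pos h4]
    norm_num) hG0 (fun a b' => by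
    unfold gq
    split_ifs with h3
    · exact hG _ h3.1 h3.2
    · rwa [abs_zero]) h0 h2 (by rw [hcard]; exact hτN) hτM
  rw [hcard] at main
  exact main

/-- **`uc_two`**: the density of the cut field on the torus `M` is the density on the torus `N` of the
same window field -/
theorem uc_two (H : UG N M l b hb ξ t y y' c C c4 C4 r D0 D1 D) {G τ τ₀ : ℝ} (hG0 : 0 ≤ G)
    (z : V (N / l)) (x : V (M / l)) {F : V (M / l) → ℝ}
    (hG : ∀ v ∈ H462.box x D0, |F v - F x| ≤ G)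
    (h0 : Rs (wt M b t) ((2 : ℝ) • (t • lft (cl : V M → V (M / l))
      (fun v => cutx D0 x F v - F x))) ≤ τ₀)
    (h2 : Rs (wt M b t) ((2 : ℝ) • (t • lft (cl : V M → V (M / l))
      (fun v => cutx D0 x F v - F x + if v ∈ H462.box x D1 then 1 else 0))) ≤ τ₀)
    (hτN : τ₀ + erR ξ t c C G (kn l ξ D1) r + t * (N : ℝ) ^ 2 * om N b t * (4 * G + 2) ≤ τ)
    (hτM : τ₀ + t * (M : ℝ) ^ 2 * om M b t * (4 * G + 2) ≤ τ) :
    ‖uc M l b t x (cutx D0 x F) -
      uc N l b t z (cwf (N / l) D0 (fun ζ => F (x + ip (M / l) ζ)) z)‖ ≤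
      eru N M l ξ t c C c4 C4 D τ G (kn l ξ D1) r := by
  have e0 : F (x + ip (M / l) 0) = F x := by
    congr 1
    unfold H733.Torg.ip
    refine Prod.ext ?_ ?_
    · show x.1 + ((0 : ℤ) : ZMod (M / l)) = x.1
      rw [Int.cast_zero, add_zero]
    · show x.2 + ((0 : ℤ) : ZMod (M / l)) = x.2
      rw [Int.cast_zero, add_zero]
  rw [norm_sub_rev, cutx_eq]
  have hl : 0 < l := H864.l_pos H.hlN
  have h01 := H.hD01
  have hbig : 2 * D0 < M / l := by
    have h3 : (2 * D1 + 2) ≤ M / l := by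
      rw [Nat.le_div_iff_mul_le hl]
      have := H.hsM
      omega
    omega
  refine uc_two_cwf H hG0 (h := fun ζ => F (x + ip (M / l) ζ)) ?_ z x ?_ ?_ hτN hτM
  · intro ζ h3 h4
    rw [e0]
    refine hG _ ?_
    rw [H462.mem_box, add_sub_cancel_left]
    have key : ∀ s : ℤ, s.natAbs ≤ D0 → ((s : ZMod (M / l))).valMinAbs.natAbs ≤ D0 := by
      intro s hs
      have h5 : ((s : ZMod (M / l))).valMinAbs = s := by
        rw [ZMod.valMinAbs_spec]
        have h6 : |s| ≤ D0 := by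
          rw [Int.abs_eq_natAbs]
          exact_mod_cast hs
        have h7 : (2 * (D0 : ℤ)) < ((M / l : ℕ) : ℤ) := by exact_mod_cast hbig
        obtain ⟨h8, h9⟩ := abs_le.1 h6
        exact ⟨rfl, by constructor <;> linarith⟩
      rw [h5]
      exact hs
    exact ⟨key _ h3, key _ h4⟩
  · rw [e0]
    rw [cutx_eq] at h0
    exact h0
  · rw [e0]
    rw [cutx_eq] at h2
    exact h2

end

end Vale.Agent.P159.H358
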