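import Vale.Agent.P159.H358.Ugeo2

/-!
P159, module VTOR, `u_two`: the `near` field of `Lcl` on the second torus. On the torus `M` the density
`uc` is close, in the typical law, to the density of the torus `N` read on the window around `x`.
-/

open Finset MeasureTheory

set_option linter.unusedSectionVars false
set_option linter.unusedDecidableInType false

namespace Vale.Agent.P159.H358

open Vale.Agent.P159.H37 (wt Rs gau)
open Vale.Agent.P159.TM.Spec (V)
open Vale.Agent.P159.H552 (lft ut ut_ch cutB)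
open Vale.Agent.P159.H864 (cl)
open Vale.Agent.P159.H363 (Ch Cov sh measurable_mulVec)
open Vale.Agent.P159.H889 (uc cov_uc ch_uc cutx norm_uc_le continuous_uc tn2 tn2_sq mc)
open Vale.Agent.P159.H733.Torg (ip)
open Matrix

/-- the window field of `F` around `x` read around `z` on the torus of side `K` -/
noncomputable def rdx (K : ℕ) [NeZero K] {K' : ℕ} [NeZero K'] (D : ℕ) (x : V K') (z : V K)
    (F : V K' → ℝ) : V K → ℝ := cwf K D (fun ζ => F (x + ip K' ζ)) z

theorem measurable_rdx {K : ℕ} [NeZero K] {K' : ℕ} [NeZero K'] (D : ℕ) (x : V K') (z : V K) :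
    Measurable (rdx K D x z : (V K' → ℝ) → V K → ℝ) := by
  refine measurable_pi_lambda _ fun v => ?_
  unfold rdx cwf
  by_cases hv : v ∈ H462.box z D
  · simp only [if_pos hv]
    exact measurable_pi_apply _
  · simp only [if_neg hv]
    exact measurable_pi_apply _

theorem cutx_cwf {K : ℕ} [NeZero K] (D : ℕ) (h : ℤ × ℤ → ℝ) (z : V K) :
    cutx D z (cwf K D h z) = cwf K D h z := by
  funext v
  have hz : cwf K D h z z = h 0 := by
    unfold cwf
    rw [if_pos (H889.self_mem_box z D), sub_self]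
    congr 1
    refine Prod.ext ?_ ?_
    · show ((0 : ZMod K)).valMinAbs = 0
      exact ZMod.valMinAbs_zero K
    · show ((0 : ZMod K)).valMinAbs = 0
      exact ZMod.valMinAbs_zero K
  unfold cutx cutB
  by_cases hv : v ∈ H462.box z D
  · rw [if_pos hv]
  · rw [if_neg hv, hz]
    unfold cwf
    rw [if_neg hv]

variable {N M l : ℕ} [NeZero N] [NeZero M] [NeZero (N / l)] [NeZero (M / l)] {b : ℝ} {hb : 0 ≤ b}
  {ξ : ℕ} {t y y' c C c4 C4 : ℝ} {r D0 D1 : ℕ} {D : ℝ}

theorem mc_rdx (x : V (M / l)) (z : V (N / l)) (F : V (M / l) → ℝ) :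
    mc N l b t D0 z (rdx (N / l) D0 x z F) = uc N l b t z (rdx (N / l) D0 x z F) := by
  unfold mc rdx
  rw [cutx_cwf]

/-- **the `near` field on the second torus** -/
theorem uc_near (H : UG N M l b hb ξ t y y' c C c4 C4 r D0 D1 D) {G τ τ₀ : ℝ} (hG0 : 0 ≤ G)
    (z : V (N / l)) (x : V (M / l)) {A : Matrix (V (M / l)) (V (M / l)) ℝ}
    {Gd : Set (V (M / l) → ℝ)} (hGd : MeasurableSet Gd) {r₁ p : ℝ} (hr₁ : 0 ≤ r₁) (hp0 : 0 ≤ p)
    (hloc : ∀ F ∈ Gd, ‖uc M l b t x F - uc M l b t x (cutx D0 x F)‖ ≤ r₁)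
    (hG : ∀ F ∈ Gd, ∀ v ∈ H462.box x D0, |F v - F x| ≤ G)
    (h0 : ∀ F ∈ Gd, Rs (wt M b t) ((2 : ℝ) • (t • lft (cl : V M → V (M / l))
      (fun v => cutx D0 x F v - F x))) ≤ τ₀)
    (h2 : ∀ F ∈ Gd, Rs (wt M b t) ((2 : ℝ) • (t • lft (cl : V M → V (M / l))
      (fun v => cutx D0 x F v - F x + if v ∈ H462.box x D1 then 1 else 0))) ≤ τ₀)
    (hτN : τ₀ + erR ξ t c C G (kn l ξ D1) r + t * (N : ℝ) ^ 2 * om N b t * (4 * G + 2) ≤ τ)
    (hτM : τ₀ + t * (M : ℝ) ^ 2 * om M b t * (4 * G + 2) ≤ τ)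
    (hp : (gau (V (M / l))).real {g | H363.pin A *ᵥ g ∉ Gd} ≤ p ^ 2) :
    tn2 A (fun F => uc M l b t x F - mc N l b t D0 z (rdx (N / l) D0 x z F)) ≤
      r₁ + |eru N M l ξ t c C c4 C4 D τ G (kn l ξ D1) r| +
        Real.pi⁻¹ * (t * (l : ℝ) ^ 2) * p := by
  have ht := H.ht
  simp only [mc_rdx]
  set e := |eru N M l ξ t c C c4 C4 D τ G (kn l ξ D1) r| with he
  have he0 : 0 ≤ e := abs_nonneg _
  have mu := (continuous_uc (l := l) (N := M) hb ht x).measurable
  have mu' := (continuous_uc (l := l) (N := N) hb ht z).measurable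
  have mm : Measurable fun F : V (M / l) → ℝ =>
      uc M l b t x F - uc N l b t z (rdx (N / l) D0 x z F) :=
    mu.sub (mu'.comp (measurable_rdx D0 x z))
  have hB : ∀ F, ‖uc M l b t x F - uc N l b t z (rdx (N / l) D0 x z F)‖ ≤
      Real.pi⁻¹ * (t * (l : ℝ) ^ 2) := by
    intro F
    refine (norm_sub_le _ _).trans ((add_le_add (norm_uc_le hb ht H.hlM x F)
      (norm_uc_le hb ht H.hlN z _)).trans (le_of_eq ?_))
    have := Real.pi_pos
    field_simp
    ring
  have hg : ∀ F ∈ Gd, ‖uc M l b t x F - uc N l b t z (rdx (N / l) D0 x z F)‖ ≤ r₁ + e := by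
    intro F hF
    have a1 := hloc F hF
    have a2 := uc_two H hG0 z x (hG F hF) (h0 F hF) (h2 F hF) hτN hτM
    have a3 : uc M l b t x F - uc N l b t z (rdx (N / l) D0 x z F) =
        (uc M l b t x F - uc M l b t x (cutx D0 x F)) +
        (uc M l b t x (cutx D0 x F) - uc N l b t z (rdx (N / l) D0 x z F)) := by ring
    rw [a3]
    exact (norm_add_le _ _).trans (add_le_add a1 (a2.trans (le_abs_self _)))
  have h := H552.l2_good (P := gau (V (M / l))) (X := fun g => H363.pin A *ᵥ g)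
    (measurable_mulVec (H363.pin A)) mm hGd hg hB hp
  have hb0 : 0 ≤ Real.pi⁻¹ * (t * (l : ℝ) ^ 2) := (norm_nonneg _).trans (hB 0)
  rw [← tn2_sq mm hB A] at h
  refine le_of_sq_le_sq (h.trans ?_) (by positivity)
  nlinarith [mul_nonneg (add_nonneg hr₁ he0) (mul_nonneg hb0 hp0)]

end Vale.Agent.P159.H358
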