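import Vale.Agent.P159.H358.Ugeo3
import Vale.Agent.P159.H733.Vt3

/-!
P159, module VTOR, `u_two`: the hypothesis of helper733's `lcl_same` / `Den.tor`: on the torus `M` the
densities have the local approximants of the torus `N`.
-/

open Finset MeasureTheory

set_option linter.unusedSectionVars false
set_option linter.unusedDecidableInType false

namespace Vale.Agent.P159.H358

open Vale.Agent.P159.H37 (wt Rs gau)
open Vale.Agent.P159.TM.Spec (V)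
open Vale.Agent.P159.H552 (ut ut_ch cutB)
open Vale.Agent.P159.H864 (cl)
open Vale.Agent.P159.H363 (Ch Cov sh measurable_mulVec)
open Vale.Agent.P159.H889 (uc cov_uc ch_uc cutx norm_uc_le continuous_uc tn2 tn2_sq mc Lcl lcl_uc
  uc_good)
open Vale.Agent.P159.H733.Torg (ip)
open Matrix

theorem rdx_trp {K : ℕ} [NeZero K] {K' : ℕ} [NeZero K'] (D : ℕ) (x : V K') (z : V K)
    (F : V K' → ℝ) : rdx K D x z F = H733.Vt.trp D z x F := by
  funext v
  unfold rdx cwf H733.Vt.trp H733.Vt.zz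
  by_cases hv : v ∈ H462.box z D
  · rw [if_pos hv, if_pos hv]
  · rw [if_neg hv, if_neg hv]

section

variable {N l : ℕ} [NeZero N] [NeZero (N / l)] {b t : ℝ}

/-- the densities of the cut fields are their own local approximants -/
theorem lcl_mc (hb : 0 ≤ b) (ht : 0 < t) (hl : l ∣ N) (A : Matrix (V (N / l)) (V (N / l)) ℝ)
    (D0 : ℕ) : Lcl A D0 0 (Real.pi⁻¹ * (t * (l : ℝ) ^ 2)) (mc N l b t D0) (mc N l b t D0) := by
  have h : Lcl A D0 (0 + Real.pi⁻¹ * (t * (l : ℝ) ^ 2) * 1) (Real.pi⁻¹ * (t * (l : ℝ) ^ 2))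
      (uc N l b t) (mc N l b t D0) := by
    refine lcl_uc hb ht hl fun x => ?_
    refine uc_good hb ht hl (G := ∅) MeasurableSet.empty le_rfl zero_le_one
      (fun F hF => absurd hF (Set.notMem_empty F)) ?_
    rw [one_pow]
    exact measureReal_le_one
  exact H733.Vt.Lcl.self h

end

variable {N M l : ℕ} [NeZero N] [NeZero M] [NeZero (N / l)] [NeZero (M / l)] {b : ℝ} {hb : 0 ≤ b}
  {ξ : ℕ} {t y y' c C c4 C4 : ℝ} {r D0 D1 : ℕ} {D : ℝ}

/-- good fields at the cell `x` of the torus `M` -/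
structure GdF (M l : ℕ) [NeZero M] [NeZero (M / l)] (b t : ℝ) (D0 D1 : ℕ) (r₁ G τ₀ : ℝ)
    (x : V (M / l)) (F : V (M / l) → ℝ) : Prop where
  loc : ‖uc M l b t x F - uc M l b t x (cutx D0 x F)‖ ≤ r₁
  osc : ∀ v ∈ H462.box x D0, |F v - F x| ≤ G
  r0 : Rs (wt M b t) ((2 : ℝ) • (t • H552.lft (cl : V M → V (M / l))
    (fun v => cutx D0 x F v - F x))) ≤ τ₀
  r2 : Rs (wt M b t) ((2 : ℝ) • (t • H552.lft (cl : V M → V (M / l))
    (fun v => cutx D0 x F v - F x + if v ∈ H462.box x D1 then 1 else 0))) ≤ τ₀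

/-- **`Lcl` on the torus `M` with the local functional of the torus `N`** -/
theorem lcl_uc2 (H : UG N M l b hb ξ t y y' c C c4 C4 r D0 D1 D) {G τ τ₀ : ℝ} (hG0 : 0 ≤ G)
    {A : Matrix (V (M / l)) (V (M / l)) ℝ} {Gd : V (M / l) → Set (V (M / l) → ℝ)}
    (hGd : ∀ x, MeasurableSet (Gd x)) {r₁ p : ℝ} (hr₁ : 0 ≤ r₁) (hp0 : 0 ≤ p)
    (hg : ∀ x, ∀ F ∈ Gd x, GdF M l b t D0 D1 r₁ G τ₀ x F)
    (hτN : τ₀ + erR ξ t c C G (kn l ξ D1) r + t * (N : ℝ) ^ 2 * om N b t * (4 * G + 2) ≤ τ)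
    (hτM : τ₀ + t * (M : ℝ) ^ 2 * om M b t * (4 * G + 2) ≤ τ)
    (hp : ∀ x, (gau (V (M / l))).real {g | H363.pin A *ᵥ g ∉ Gd x} ≤ p ^ 2) :
    Lcl A D0 (r₁ + |eru N M l ξ t c C c4 C4 D τ G (kn l ξ D1) r| +
      Real.pi⁻¹ * (t * (l : ℝ) ^ 2) * p) (Real.pi⁻¹ * (t * (l : ℝ) ^ 2)) (uc M l b t)
      (H733.Vt.lft D0 (mc N l b t D0)) := by
  refine H733.Vt.lcl_lft (lcl_mc hb H.ht H.hlN (1 : Matrix (V (N / l)) (V (N / l)) ℝ) D0)
    fun x => ?_
  have h := uc_near H hG0 0 x (hGd x) hr₁ hp0 (fun F hF => (hg x F hF).loc)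
    (fun F hF => (hg x F hF).osc) (fun F hF => (hg x F hF).r0) (fun F hF => (hg x F hF).r2)
    hτN hτM (hp x)
  simp only [rdx_trp] at h
  exact h

end Vale.Agent.P159.H358
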