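import Vale.Agent.P159.H358.Um1
import Vale.Agent.P159.H415.CellT
import Vale.Agent.P159.H145.In1

/-!
P159, module VTOR, `u_two` for fine cells, part 2: neutral `R` along the hull (any reference
constant), energies as numbers.
-/

open Finset MeasureTheory

set_option linter.unusedSectionVars false
set_option linter.unusedDecidableInType false

namespace Vale.Agent.P159.H358

open Vale.Agent.P159.TM.H104 (EM Lg Ex Cv Gr li)
open Vale.Agent.P159.H37 (wt wM bf qf Rs Tq Gm)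
open Vale.Agent.P159.TM.Spec (V)
open Vale.Agent.P159.TM.SpecC (wT)
open Vale.Agent.P159.TM.H705 (dB)
open Vale.Agent.P159.TM.H459 (sd)
open Vale.Agent.P159.H145 (mt mt_mulVec bf_mt em_mt cs OscZ)
open Vale.Agent.P159.H43 (dL dW continuous_dL)
open Vale.Agent.P159.H896 (ph continuous_ph norm_ph)
open Vale.Agent.P159.H552 (uq lft idc ut norm_two_pi_I_inv)
open Vale.Agent.P159.H864 (cl cl1 cl1_val card_cell)
open Vale.Agent.P159.H813 (LB4)
open Vale.Agent.P159.H963 (ntr nwt nM Neu gw_wT mf_smul)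
open Matrix

/-! ### the neutral `R` of a field -/

section rn

variable {N : ℕ} [NeZero N] {b t : ℝ}

/-- `R` of the neutral model at `2 t F` (blind to constants) -/
noncomputable def Rn (N : ℕ) [NeZero N] (b t : ℝ) (F : V N → ℝ) : ℝ :=
  Rs (nwt N b t 0) ((2 : ℝ) • (ntr (t • (1 : Matrix (V N) (V N) ℝ)) t *ᵥ F))

theorem ntr_one (t : ℝ) (F : V N → ℝ) :
    ntr (t • (1 : Matrix (V N) (V N) ℝ)) t *ᵥ F =
      fun x => t * (F x - (∑ y, F y) / Fintype.card (V N)) := by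
  funext x
  rw [H963.ntr_mulVec, Matrix.smul_mulVec, Matrix.one_mulVec, Pi.smul_apply, smul_eq_mul]
  ring

theorem neu_ntr_one (t : ℝ) (F : V N → ℝ) :
    Neu (ntr (t • (1 : Matrix (V N) (V N) ℝ)) t *ᵥ F) := by
  rw [ntr_one]
  unfold H963.Neu
  have hN : (Fintype.card (V N) : ℝ) ≠ 0 := Nat.cast_ne_zero.2 Fintype.card_ne_zero
  rw [← Finset.mul_sum, Finset.sum_sub_distrib, Finset.sum_const, Finset.card_univ, nsmul_eq_mul]
  field_simp
  ring

theorem ntr_cs (t : ℝ) (F : V N → ℝ) (c : ℝ) :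
    ntr (t • (1 : Matrix (V N) (V N) ℝ)) t *ᵥ cs F c =
      ntr (t • (1 : Matrix (V N) (V N) ℝ)) t *ᵥ F := by
  have hN : (Fintype.card (V N) : ℝ) ≠ 0 := Nat.cast_ne_zero.2 Fintype.card_ne_zero
  rw [ntr_one, ntr_one]
  funext x
  unfold cs
  rw [Finset.sum_add_distrib, Finset.sum_const, Finset.card_univ, nsmul_eq_mul]
  field_simp
  ring

theorem Rn_cs (F : V N → ℝ) (c : ℝ) : Rn N b t (cs F c) = Rn N b t F := by
  unfold Rn
  rw [ntr_cs]

theorem Rn_nonneg (hb : 0 ≤ b) (ht : 0 < t) (F : V N → ℝ) : 0 ≤ Rn N b t F :=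
  H789.Rs_nonneg ((gw_wT hb).em_nM (mf_smul (N := N) ht) 0)
    ((gw_wT hb).ev_nM (t • (1 : Matrix (V N) (V N) ℝ)) t 0)
    ((gw_wT hb).pk_nM (mf_smul (N := N) ht) 0) _

theorem Rn_comb (hb : 0 ≤ b) (ht : 0 < t) (F F' : V N → ℝ) {s τ : ℝ} (hs0 : 0 ≤ s) (hs1 : s ≤ 1)
    (h : Rn N b t F ≤ τ) (h' : Rn N b t F' ≤ τ) : Rn N b t ((1 - s) • F + s • F') ≤ τ := by
  have hc := H789.Rs_convex ((gw_wT hb).em_nM (mf_smul (N := N) ht) 0)
    ((gw_wT hb).ev_nM (t • (1 : Matrix (V N) (V N) ℝ)) t 0)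
    ((gw_wT hb).pk_nM (mf_smul (N := N) ht) 0)
  have e5 : (2 : ℝ) • (ntr (t • (1 : Matrix (V N) (V N) ℝ)) t *ᵥ ((1 - s) • F + s • F')) =
      (1 - s) • ((2 : ℝ) • (ntr (t • (1 : Matrix (V N) (V N) ℝ)) t *ᵥ F)) +
      s • ((2 : ℝ) • (ntr (t • (1 : Matrix (V N) (V N) ℝ)) t *ᵥ F')) := by
    rw [mulVec_add, mulVec_smul, mulVec_smul]
    module
  have h1 := hc.2 (Set.mem_univ ((2 : ℝ) • (ntr (t • (1 : Matrix (V N) (V N) ℝ)) t *ᵥ F)))
    (Set.mem_univ ((2 : ℝ) • (ntr (t • (1 : Matrix (V N) (V N) ℝ)) t *ᵥ F')))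
    (by linarith : 0 ≤ 1 - s) hs0 (by ring)
  unfold Rn at h h' ⊢
  rw [e5]
  refine h1.trans ?_
  have h5 := mul_le_mul_of_nonneg_left h (by linarith : 0 ≤ 1 - s)
  have h6 := mul_le_mul_of_nonneg_left h' hs0
  have h7 : (1 - s) * τ + s * τ = τ := by ring
  show (1 - s) * Rs (nwt N b t 0) ((2 : ℝ) • (ntr (t • (1 : Matrix (V N) (V N) ℝ)) t *ᵥ F)) +
    s * Rs (nwt N b t 0) ((2 : ℝ) • (ntr (t • (1 : Matrix (V N) (V N) ℝ)) t *ᵥ F')) ≤ τ
  linarith

/-- the neutral `R` from the integer `R` -/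
theorem Rn_le_Rs (hb : 0 ≤ b) (ht : 0 < t) (hO : OscZ (wT b N) (mt N t) (1 / 2)) (F : V N → ℝ) :
    Rn N b t F ≤ Rs (wt N b t) ((2 : ℝ) • (t • F)) + 2 := by
  set J : V N → ℝ := (2 : ℝ) • (ntr (t • (1 : Matrix (V N) (V N) ℝ)) t *ᵥ F) with hJ
  have hn : Neu J := (neu_ntr_one t F).smul 2
  have h := H145.neu_le_int (gw_wT hb) H145.per_wT (mf_smul (N := N) ht) 0 hO le_rfl hn
    (H30.bf_one (H864.ti_Gm_wt t) hn) (2 * ((∑ y, F y) / Fintype.card (V N)))
  have e : J + (fun _ : V N => t * (2 * ((∑ y, F y) / Fintype.card (V N)))) =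
      (2 : ℝ) • (t • F) := by
    rw [hJ, ntr_one]
    funext x
    simp only [Pi.add_apply, Pi.smul_apply, smul_eq_mul]
    ring
  rw [e] at h
  have e2 : Rs (nM (wT b N) (t • (1 : Matrix (V N) (V N) ℝ)) t 0) J = Rn N b t F := rfl
  rw [e2] at h
  have e3 : Rs (wM (wT b N) (t • (1 : Matrix (V N) (V N) ℝ))) ((2 : ℝ) • (t • F)) =
      Rs (wt N b t) ((2 : ℝ) • (t • F)) := rfl
  rw [e3] at h
  linarith

/-- **locality of a mean**, neutral `R` at the two ends (helper415 `loc_ex`) -/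
theorem loc_exO (hb : 0 ≤ b) (ht : 0 < t) (hO : OscZ (wT b N) (mt N t) (1 / 2))
    {F F' u : V N → ℝ} {E τ : ℝ} (hE0 : 0 ≤ E)
    (hE : ∀ J : V N → ℝ, |Cv (wt N b t) J (li u) (li (t • (F - F')))| ≤
      Real.exp (Tq (wt N b t) J / 2) * E)
    (h0 : Rn N b t F ≤ τ) (h1 : Rn N b t F' ≤ τ) (c : ℝ) :
    |Ex (wt N b t) (t • cs F c) (li u) - Ex (wt N b t) (t • cs F' c) (li u)| ≤
      Real.exp ((τ + 8) / 2) * E := by
  have hM : EM (wt N b t) := H789.em_wt hb ht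
  have e1 : t • cs F c = t • cs F' c + t • (F - F') := by
    rw [← smul_add]
    congr 1
    funext v
    simp only [cs, Pi.add_apply, Pi.sub_apply]
    ring
  obtain ⟨s, hs, hse⟩ := H612.Ex_li_diff hM (t • cs F' c) (t • (F - F')) u
  rw [e1, hse]
  refine (hE _).trans ?_
  have e4 : t • cs F' c + s • (t • (F - F')) = t • cs (F' + s • (F - F')) c := by
    funext v
    simp only [cs, Pi.add_apply, Pi.sub_apply, Pi.smul_apply, smul_eq_mul]
    ring
  rw [e4]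
  have hM' : EM (wM (wT b N) (mt N t)) := hM
  have h2 := (abs_le.1 (H145.Tq_le_T0 H145.per_wT H145.mt_symm hM' hO le_rfl
    (F' + s • (F - F')) c)).2
  rw [H145.mt_mulVec] at h2
  have h3 : H145.T0 (wT b N) (mt N t) (F' + s • (F - F')) ≤ τ := by
    refine (H415.T0_le_Rs (gw_wT hb) (mf_smul ht) 0 _).trans ?_
    have h4 := Rn_comb hb ht F' F hs.1 hs.2 h1 h0
    have e5 : (1 - s) • F' + s • F = F' + s • (F - F') := by module
    rw [e5] at h4
    exact h4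
  have h8 : Tq (wt N b t) (t • cs (F' + s • (F - F')) c) ≤ τ + 8 := by
    have e6 : Tq (wt N b t) (t • cs (F' + s • (F - F')) c) =
      Tq (wM (wT b N) (mt N t)) (t • cs (F' + s • (F - F')) c) := rfl
    rw [e6]
    linarith
  exact mul_le_mul_of_nonneg_right (Real.exp_le_exp.2 (by linarith)) hE0

end rn

/-! ### energies -/

section en

variable {N : ℕ} [NeZero N] {b t : ℝ}

/-- energy of a source -/
noncomputable def EN (N : ℕ) [NeZero N] (b t : ℝ) (J : V N → ℝ) : ℝ :=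
  Lg (wt N b t) J - Lg (wt N b t) 0

theorem EN_nonneg (hb : 0 ≤ b) (ht : 0 < t) (J : V N → ℝ) : 0 ≤ EN N b t J := by
  unfold EN
  have := Lg_zero_t hb ht J
  linarith

theorem EN_zero : EN N b t 0 = 0 := sub_self _

theorem EN_convex (hb : 0 ≤ b) (ht : 0 < t) : ConvexOn ℝ Set.univ (EN N b t) := by
  have hM : EM (wt N b t) := H789.em_wt hb ht
  refine ⟨convex_univ, fun X _ Y _ p q hp hq hpq => ?_⟩
  set K := p • X + q • Y with hK
  have t1 := Lg_tangent hM K (X - K)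
  have t2 := Lg_tangent hM K (Y - K)
  rw [add_sub_cancel] at t1 t2
  have e : p * Ex (wt N b t) K (li (X - K)) + q * Ex (wt N b t) K (li (Y - K)) = 0 := by
    have e1 : ∀ Z : V N → ℝ, Ex (wt N b t) K (li Z) = ∑ x, Z x * Ex (wt N b t) K (fun h => (h x : ℝ)) := by
      intro Z
      have := H789.Ex_li hM K Z
      exact this
    rw [e1, e1, Finset.mul_sum, Finset.mul_sum, ← Finset.sum_add_distrib]
    refine Finset.sum_eq_zero fun x _ => ?_
    have e2 : p * (X - K) x + q * (Y - K) x = 0 := by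
      have hq' : q = 1 - p := by linarith
      simp only [hK, hq', Pi.sub_apply, Pi.add_apply, Pi.smul_apply, smul_eq_mul]
      ring
    calc p * ((X - K) x * Ex (wt N b t) K fun h => (h x : ℝ)) +
          q * ((Y - K) x * Ex (wt N b t) K fun h => (h x : ℝ))
        = (p * (X - K) x + q * (Y - K) x) * Ex (wt N b t) K fun h => (h x : ℝ) := by ring
      _ = 0 := by rw [e2, zero_mul]
  have h1 := mul_le_mul_of_nonneg_left t1 hp
  have h2 := mul_le_mul_of_nonneg_left t2 hq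
  unfold EN
  simp only [smul_eq_mul]
  have e3 : Lg (wt N b t) K = p * Lg (wt N b t) K + q * Lg (wt N b t) K := by
    rw [← add_mul, hpq, one_mul]
  have e4 : Lg (wt N b t) 0 = p * Lg (wt N b t) 0 + q * Lg (wt N b t) 0 := by
    rw [← add_mul, hpq, one_mul]
  linarith

theorem EN_even (J : V N → ℝ) : EN N b t (-J) = EN N b t J := by
  have h := H612.Zs_neg (H789.ev_wt (N := N) (b := b) (t := t)) J
  unfold H37.Zs at h
  unfold EN Lg
  rw [h]

/-- energy on a ray -/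
theorem EN_smul (hb : 0 ≤ b) (ht : 0 < t) {s : ℝ} (hs : |s| ≤ 1) (J : V N → ℝ) :
    EN N b t (s • J) ≤ |s| * EN N b t J := by
  have key : ∀ s : ℝ, 0 ≤ s → s ≤ 1 → EN N b t (s • J) ≤ s * EN N b t J := by
    intro s h0 h1
    have h := (EN_convex (N := N) hb ht).2 (Set.mem_univ J) (Set.mem_univ (0 : V N → ℝ)) h0
      (by linarith : 0 ≤ 1 - s) (by ring)
    rw [smul_zero, add_zero, EN_zero] at h
    simpa using h
  rcases le_total 0 s with h | h
  · rw [abs_of_nonneg h] at hs ⊢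
    exact key s h hs
  · rw [abs_of_nonpos h] at hs ⊢
    have h2 := key (-s) (by linarith) hs
    rw [neg_smul, EN_even] at h2
    exact h2

theorem EN_le_smul (hb : 0 ≤ b) (ht : 0 < t) {s : ℝ} (hs : |s| ≤ 1) (J : V N → ℝ) :
    EN N b t (s • J) ≤ EN N b t J :=
  (EN_smul hb ht hs J).trans (mul_le_of_le_one_left (EN_nonneg hb ht J) hs)

/-- energy of a sum -/
theorem EN_add (hb : 0 ≤ b) (ht : 0 < t) (X Y : V N → ℝ) :
    EN N b t (X + Y) ≤ EN N b t ((2 : ℝ) • X) / 2 + EN N b t ((2 : ℝ) • Y) / 2 := by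
  have h := (EN_convex (N := N) hb ht).2 (Set.mem_univ ((2 : ℝ) • X))
    (Set.mem_univ ((2 : ℝ) • Y)) (by norm_num : (0 : ℝ) ≤ 1 / 2) (by norm_num : (0 : ℝ) ≤ 1 / 2)
    (by norm_num)
  rw [smul_smul, smul_smul] at h
  norm_num at h
  linarith

end en

end Vale.Agent.P159.H358
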