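import Vale.Agent.P159.H358.Um2

/-!
P159, module VTOR, `u_two` for fine cells, part 3: the theorem with the energy as a number.
-/

open Finset MeasureTheory

set_option linter.unusedSectionVars false
set_option linter.unusedDecidableInType false

namespace Vale.Agent.P159.H358

open Vale.Agent.P159.TM.H104 (EM Lg Ex Cv Gr li)
open Vale.Agent.P159.H37 (wt wM bf qf Rs Tq Gm)
open Vale.Agent.P159.TM.Spec (V)
open Vale.Agent.P159.TM.SpecC (wT)
open Vale.Agent.P159.TM.H705 (dB)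
open Vale.Agent.P159.TM.H459 (sd)
open Vale.Agent.P159.H145 (mt mt_mulVec bf_mt em_mt cs OscZ)
open Vale.Agent.P159.H43 (dL dW continuous_dL)
open Vale.Agent.P159.H896 (ph continuous_ph norm_ph)
open Vale.Agent.P159.H552 (uq lft idc ut norm_two_pi_I_inv)
open Vale.Agent.P159.H864 (cl cl1 cl1_val card_cell)
open Vale.Agent.P159.H813 (LB4)
open Matrix

section far

variable {N l : ℕ} [NeZero N] [NeZero (N / l)] {b t : ℝ} {ξ : ℕ}

/-- the constant is cut off, one torus, neutral `R` -/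
theorem far_step3 (hb : 0 ≤ b) (ht : 0 < t) (hξ : 0 < ξ) (hl : l ∣ N) {c4 C4 : ℝ}
    (hLB : LB4 N b t ξ c4 C4) (hO : OscZ (wT b N) (mt N t) (1 / 2)) {ψ g : ℕ → ℕ → ℝ}
    (hψ0 : ∀ a b, 0 ≤ ψ a b)
    (hψ1 : ∀ a b, ψ a b ≤ 1) {x : V (N / l)} {D τ : ℝ} (hD : 0 ≤ D) (hC4 : 0 ≤ C4)
    (hd : ∀ v z : V N, (cl v : V (N / l)) = x → ψ (z.1.val / l) (z.2.val / l) ≠ 1 →
      D * ξ ≤ sd v z)
    (R0 : Rn N b t (lft (cl : V N → V (N / l)) (cfn (N / l) g)) ≤ τ)
    (R2 : Rn N b t (lft (cl : V N → V (N / l)) (cfn (N / l) fun a b => g a b + ψ a b)) ≤ τ)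
    {c : ℝ} (hc : c ∈ Set.Icc (0 : ℝ) 1) :
    |Ex (wt N b t) (t • cs (lft (cl : V N → V (N / l)) (cfn (N / l) g)) c) (li (t • idc cl x)) -
      Ex (wt N b t) (t • lft (cl : V N → V (N / l)) (cfn (N / l) fun a b => g a b + c * ψ a b))
        (li (t • idc cl x))| ≤
      Real.exp ((τ + 8) / 2) * ((t * l * ξ) * (t * N * ξ) * (C4 * Real.exp (-(c4 * D)))) := by
  have hl0 : 0 < l := H864.l_pos hl
  have hξ' : (0 : ℝ) < ξ := by exact_mod_cast hξ
  have hl' : (0 : ℝ) < l := by exact_mod_cast hl0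
  have hN' : (0 : ℝ) < N := by exact_mod_cast NeZero.pos N
  set F : V N → ℝ := lft (cl : V N → V (N / l)) (cfn (N / l) g) with hF
  set F1 : V N → ℝ := lft (cl : V N → V (N / l)) (cfn (N / l) fun a b => g a b + c * ψ a b)
    with hF1
  set F' : V N → ℝ := cs F1 (-c) with hF'
  have e0 : ∀ z : V N, F z = g (z.1.val / l) (z.2.val / l) := fun z => lft_cfn hl g z
  have e1 : ∀ z : V N, F1 z = g (z.1.val / l) (z.2.val / l) + c * ψ (z.1.val / l) (z.2.val / l) :=
    fun z => lft_cfn hl _ z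
  have eF1 : cs F' c = F1 := by
    funext z
    simp only [hF', cs]
    ring
  have hdiff : ∀ z : V N, (t • (F - F')) z = t * (c * (1 - ψ (z.1.val / l) (z.2.val / l))) := by
    intro z
    rw [Pi.smul_apply, smul_eq_mul, Pi.sub_apply]
    have : F' z = F1 z + -c := rfl
    rw [this, e0, e1]
    ring
  have hu : ∑ z, (t • idc (cl : V N → V (N / l)) x) z ^ 2 ≤
      (t * l * ξ) ^ 2 * (1 / (ξ : ℝ) ^ 2) := by
    have h1 : ∀ z : V N, (t • idc (cl : V N → V (N / l)) x) z ^ 2 =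
        if (cl z : V (N / l)) = x then t ^ 2 else 0 := by
      intro z
      rw [Pi.smul_apply, smul_eq_mul]
      unfold idc
      split_ifs
      · rw [mul_one]
      · rw [mul_zero]; ring
    rw [Finset.sum_congr rfl fun z _ => h1 z, ← Finset.sum_filter, Finset.sum_const,
      nsmul_eq_mul, card_cell hl]
    refine le_of_eq ?_
    field_simp
  have hv : ∑ z, (t • (F - F')) z ^ 2 ≤ (t * N * ξ) ^ 2 * (1 / (ξ : ℝ) ^ 2) := by
    have h1 : ∀ z : V N, (t • (F - F')) z ^ 2 ≤ t ^ 2 := by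
      intro z
      rw [hdiff]
      have h2 := hψ0 (z.1.val / l) (z.2.val / l)
      have h3 := hψ1 (z.1.val / l) (z.2.val / l)
      have h4 : 0 ≤ c * (1 - ψ (z.1.val / l) (z.2.val / l)) := mul_nonneg hc.1 (by linarith)
      have h5 : c * (1 - ψ (z.1.val / l) (z.2.val / l)) ≤ 1 :=
        mul_le_one₀ hc.2 (by linarith) (by linarith)
      have h6 : t * (c * (1 - ψ (z.1.val / l) (z.2.val / l))) ≤ t * 1 :=
        mul_le_mul_of_nonneg_left h5 ht.le
      rw [mul_one] at h6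
      exact pow_le_pow_left₀ (mul_nonneg ht.le h4) h6 2
    refine (Finset.sum_le_sum fun z _ => h1 z).trans (le_of_eq ?_)
    rw [Finset.sum_const, nsmul_eq_mul, Finset.card_univ, card_V]
    field_simp
  have hsep : ∀ v z : V N, (t • idc (cl : V N → V (N / l)) x) v ≠ 0 → (t • (F - F')) z ≠ 0 →
      D * ξ ≤ sd v z := by
    intro v z h1 h2
    refine hd v z ?_ ?_
    · by_contra h3
      apply h1
      rw [Pi.smul_apply, smul_eq_mul]
      unfold idc
      rw [if_neg h3, mul_zero]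
    · intro h3
      apply h2
      rw [hdiff, h3, sub_self, mul_zero, mul_zero]
  have hR : Rn N b t F' ≤ τ := by
    rw [hF', Rn_cs]
    have h4 := Rn_comb hb ht F (lft (cl : V N → V (N / l)) (cfn (N / l) fun a b => g a b + ψ a b))
      hc.1 hc.2 R0 R2
    have e5 : (1 - c) • F + c • lft (cl : V N → V (N / l))
        (cfn (N / l) fun a b => g a b + ψ a b) = F1 := by
      funext z
      rw [Pi.add_apply, Pi.smul_apply, Pi.smul_apply, smul_eq_mul, smul_eq_mul, e0, e1,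
        lft_cfn hl]
      ring
    rw [e5] at h4
    exact h4
  have h := loc_exO (u := t • idc (cl : V N → V (N / l)) x) hb ht hO (F := F) (F' := F')
    (E := (t * l * ξ) * (t * N * ξ) * (C4 * Real.exp (-(c4 * D)))) (by positivity)
    (fun J => (hLB _ _ (t * l * ξ) (t * N * ξ) D (by positivity) (by positivity) hD hu hv hsep
      J).trans (le_of_eq (by ring))) R0 hR c
  rw [eF1] at h
  exact h

end far

/-! ### energies of the sources -/

section ens

variable {N : ℕ} [NeZero N] {b t : ℝ} {ξ : ℕ}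

/-- crude energy of a bounded local source -/
theorem EN_crude (hb : 0 ≤ b) (ht : 0 < t) (hξ : 0 < ξ) {n : ℕ} {I : Finset (ℕ × ℕ)}
    (hI : ∀ p ∈ I, 2 * (ξ + 1) ≤ n) (hn : n ≤ N) {ψ : ℕ → ℕ → ℝ}
    (hψ : Wd ξ I (t * (ξ : ℝ) ^ 2) ψ) {s : ℝ} (hs : |s| ≤ 16) :
    EN N b t (s • src N n ψ) ≤ 2592 * (t * (ξ : ℝ) ^ 2) * I.card := by
  have hξ' : (0 : ℝ) < ξ := by exact_mod_cast hξ
  have h4 : Wd ξ I (4 * (t * (ξ : ℝ) ^ 2)) (fun i k => 4 * ψ i k) := by
    refine ⟨fun i k => ?_, fun i k h => hψ.sp i k fun h0 => h (by rw [h0, mul_zero])⟩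
    rw [abs_mul, abs_of_pos (by norm_num : (0 : ℝ) < 4), mul_div_assoc]
    exact mul_le_mul_of_nonneg_left (hψ.bd i k) (by norm_num)
  have w0 : Wd ξ I (4 * (t * (ξ : ℝ) ^ 2)) fun _ _ => (0 : ℝ) := wd_zero (by positivity)
  have h := Lg_two_src (N := N) hb ht hξ hI hn w0 h4 (s := s / 8) (by
    rw [abs_div, abs_of_pos (by norm_num : (0 : ℝ) < 8)]
    linarith)
  rw [src_zero, zero_add] at h
  have e : (2 : ℝ) • ((s / 8) • src N n fun i k => 4 * ψ i k) = s • src N n ψ := by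
    funext x
    simp only [Pi.smul_apply, smul_eq_mul, src]
    split_ifs
    · ring
    · ring
  rw [e] at h
  refine h.trans (le_of_eq ?_)
  field_simp
  ring

end ens

section three

variable {N M l : ℕ} [NeZero N] [NeZero M] [NeZero (N / l)] [NeZero (M / l)] {b : ℝ} {hb : 0 ≤ b}
  {ξ : ℕ} {t y y' c C c4 C4 : ℝ} {I : Finset (ℕ × ℕ)} {r n : ℕ} {ψ : ℕ → ℕ → ℝ} {p : ℕ × ℕ}
  {D : ℝ}

/-- the error of the transfer of `R`, energy `Λ` -/
noncomputable def erR3 (ξ : ℕ) (t c C G Λ : ℝ) (k r : ℕ) : ℝ :=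
  eps8q C c (2 * (t * (ξ : ℝ) ^ 2 * (G + 1))) Λ k r ξ +
  err9q C c (2 * (t * (ξ : ℝ) ^ 2 * (G + 1))) Λ k r ξ / 2

/-- the error of `u_two3` -/
noncomputable def eru3 (N M l ξ : ℕ) (t c C c4 C4 D τ G Λ : ℝ) (k r : ℕ) : ℝ :=
  (2 * Real.pi)⁻¹ * (Real.exp ((τ + 8) / 2) * ((t * l * ξ) * (t * (N + M) * ξ) *
    (C4 * Real.exp (-(c4 * D)))) +
    err9q C c (t * (ξ : ℝ) ^ 2 * (G + 1)) Λ k r ξ)

/-- **`R` of a local source on two tori, energy form** -/
theorem rs_two3 (H : TwoT N M b hb ξ t y y' c C I r n) {j : ℕ → ℕ → ℝ} {A Λ : ℝ} (hA : 0 ≤ A)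
    (hj : Wd ξ I A j) (hN : EN N b t ((4 : ℝ) • src N n j) ≤ Λ)
    (hM : EN M b t ((4 : ℝ) • src M n j) ≤ Λ) :
    |Rs (wt N b t) (src N n j) - Rs (wt M b t) (src M n j)| ≤
      eps8q C c A Λ I.card r ξ + err9q C c A Λ I.card r ξ / 2 := by
  have ht := H.hτ
  have w0 : Wd ξ I A fun _ _ => 0 := wd_zero hA
  have LN : ∀ s : ℝ, |s| ≤ 2 → Lg (wt N b t) ((2 : ℝ) • (src N n (fun _ _ => (0 : ℝ)) +
      s • src N n j)) - Lg (wt N b t) 0 ≤ Λ := by
    intro s hs
    rw [src_zero, zero_add]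
    have e : (2 : ℝ) • s • src N n j = (s / 2) • (4 : ℝ) • src N n j := by
      rw [smul_smul, smul_smul]
      congr 1
      ring
    rw [e]
    exact (EN_le_smul hb ht (s := s / 2) (by
      rw [abs_div, abs_of_pos (by norm_num : (0 : ℝ) < 2)]
      linarith) _).trans hN
  have LM' : ∀ s : ℝ, |s| ≤ 2 → Lg (wt M b t) ((2 : ℝ) • (src M n (fun _ _ => (0 : ℝ)) +
      s • src M n j)) - Lg (wt M b t) 0 ≤ Λ := by
    intro s hs
    rw [src_zero, zero_add]
    have e : (2 : ℝ) • s • src M n j = (s / 2) • (4 : ℝ) • src M n j := by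
      rw [smul_smul, smul_smul]
      congr 1
      ring
    rw [e]
    exact (EN_le_smul hb ht (s := s / 2) (by
      rw [abs_div, abs_of_pos (by norm_num : (0 : ℝ) < 2)]
      linarith) _).trans hM
  have h1 := (loc9q_diag_t H hA w0 hj LN LM').2
  rw [src_zero, src_zero] at h1
  have LN1 := LN 1 (by norm_num)
  have LM1 := LM' 1 (by norm_num)
  rw [src_zero, zero_add, one_smul] at LN1 LM1
  have h2 := loc8q_two_t hb H.hξ H.hτ H.hC H.hT H.hT' H.hr H.hny H.hny' H.hI H.hn H.hn' hA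
    hj.bd hj.sp LN1 LM1
  have eN : qf (Gm (wt N b t)) (src N n j) =
      Cv (wt N b t) 0 (li (src N n j)) (li (src N n j)) :=
    (H159.Cv_li (H789.em_wt hb ht) 0 (src N n j) (src N n j)).symm
  have eM : qf (Gm (wt M b t)) (src M n j) =
      Cv (wt M b t) 0 (li (src M n j)) (li (src M n j)) :=
    (H159.Cv_li (H789.em_wt hb ht) 0 (src M n j) (src M n j)).symm
  unfold Rs
  rw [eN, eM]
  rw [abs_le] at h1 h2 ⊢
  constructor <;> linarith [h1.1, h1.2, h2.1, h2.2]

/-- the cut-off as a source -/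
theorem UT.wψ (H : UT N M l b hb ξ t y y' c C c4 C4 I r n ψ p D) :
    Wd ξ I (t * (ξ : ℝ) ^ 2) fun i k => t * ψ (i / l) (k / l) := by
  have ht := H.two.hτ
  have hξ' : (0 : ℝ) < ξ := by exact_mod_cast H.two.hξ
  refine ⟨fun i k => ?_, fun i k h => H.net i k fun h0 => h (by rw [h0, mul_zero])⟩
  rw [abs_mul, abs_of_pos ht, abs_of_nonneg (H.ψ0 _ _)]
  refine (mul_le_mul_of_nonneg_left (H.ψ1 _ _) ht.le).trans (le_of_eq ?_)
  field_simp

/-- the energies of the sources of `u_two3`, one torus `K` -/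
theorem en_four {K n' : ℕ} [NeZero K] (hb : 0 ≤ b) (ht : 0 < t) (hξ : 0 < ξ)
    (hI : ∀ p ∈ I, 2 * (ξ + 1) ≤ n') (hn : n' ≤ K) {g ψ : ℕ → ℕ → ℝ}
    (hψ : Wd ξ I (t * (ξ : ℝ) ^ 2) ψ) {Λ : ℝ} (hΛ : EN K b t ((16 : ℝ) • src K n' g) ≤ Λ) {s : ℝ}
    (hs : |s| ≤ 1) :
    EN K b t ((8 : ℝ) • src K n' fun i k => g i k + s * ψ i k) ≤
      Λ / 2 + 1296 * (t * (ξ : ℝ) ^ 2) * I.card := by
  rw [src_add, smul_add]
  have h1 := EN_add (N := K) hb ht ((8 : ℝ) • src K n' g) ((8 : ℝ) • s • src K n' ψ)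
  have h2 := EN_crude (N := K) hb ht hξ hI hn hψ (s := 16 * s) (by
    rw [abs_mul, abs_of_pos (by norm_num : (0 : ℝ) < 16)]
    linarith)
  have e1 : (2 : ℝ) • (8 : ℝ) • src K n' g = (16 : ℝ) • src K n' g := by
    rw [smul_smul]
    norm_num
  have e2 : (2 : ℝ) • (8 : ℝ) • s • src K n' ψ = (16 * s) • src K n' ψ := by
    rw [smul_smul, smul_smul]
    congr 1
    ring
  rw [e1, e2] at h1
  linarith

/-- `R` of twice a local cell field on two tori, energy form -/
theorem rs_cell3 (H : UT N M l b hb ξ t y y' c C c4 C4 I r n ψ p D) {g : ℕ → ℕ → ℝ}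
    (hg : ∀ a b, g a b ≠ 0 → ψ a b ≠ 0) {G Λ : ℝ} (hG0 : 0 ≤ G) (hG : ∀ a b, |g a b| ≤ G + 1)
    (hN : EN N b t ((8 : ℝ) • (t • lft (cl : V N → V (N / l)) (cfn (N / l) g))) ≤ Λ)
    (hM : EN M b t ((8 : ℝ) • (t • lft (cl : V M → V (M / l)) (cfn (M / l) g))) ≤ Λ) :
    |Rs (wt N b t) ((2 : ℝ) • (t • lft (cl : V N → V (N / l)) (cfn (N / l) g))) -
      Rs (wt M b t) ((2 : ℝ) • (t • lft (cl : V M → V (M / l)) (cfn (M / l) g)))| ≤
      erR3 ξ t c C G Λ I.card r := by
  have ht := H.two.hτ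
  have hξ' : (0 : ℝ) < ξ := by exact_mod_cast H.two.hξ
  set A : ℝ := 2 * (t * (ξ : ℝ) ^ 2 * (G + 1)) with hA
  have hA0 : 0 ≤ A := by positivity
  have hgw : Win l n g := fun a b h => H.win a b (hg a b h)
  have w : Wd ξ I A fun i k => (2 * t) * g (i / l) (k / l) := by
    refine ⟨fun i k => ?_, fun i k h => ?_⟩
    · rw [abs_mul, abs_of_pos (by positivity : (0 : ℝ) < 2 * t), hA]
      refine (mul_le_mul_of_nonneg_left (hG _ _) (by positivity)).trans (le_of_eq ?_)
      field_simp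
    · refine H.net i k (hg _ _ fun h0 => h ?_)
      rw [h0, mul_zero]
  have eN : src N n (fun i k => (2 * t) * g (i / l) (k / l)) =
      (2 : ℝ) • (t • lft (cl : V N → V (N / l)) (cfn (N / l) g)) := by
    rw [src_cell H.hlN hgw, mul_smul]
  have eM : src M n (fun i k => (2 * t) * g (i / l) (k / l)) =
      (2 : ℝ) • (t • lft (cl : V M → V (M / l)) (cfn (M / l) g)) := by
    rw [src_cell H.hlM hgw, mul_smul]
  have h := rs_two3 (Λ := Λ) H.two hA0 w (by
    rw [eN, smul_smul]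
    norm_num
    exact hN) (by
    rw [eM, smul_smul]
    norm_num
    exact hM)
  rw [eN, eM] at h
  exact h

/-- **`u_two3`**: the cell densities of two tori agree on the fields of a window; integer `R` on the
torus `M` only, energies on both tori -/
theorem u_two3 (H : UT N M l b hb ξ t y y' c C c4 C4 I r n ψ p D)
    (oN : OscZ (wT b N) (mt N t) (1 / 2)) (oM : OscZ (wT b M) (mt M t) (1 / 2)) {g : ℕ → ℕ → ℝ}
    (hg : ∀ a b, g a b ≠ 0 → ψ a b ≠ 0) {G τ τ₀ Λ₁ Λ : ℝ} (hG0 : 0 ≤ G)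
    (hG : ∀ a b, |g a b| ≤ G)
    (hN : EN N b t ((16 : ℝ) • (t • lft (cl : V N → V (N / l)) (cfn (N / l) g))) ≤ Λ₁)
    (hM : EN M b t ((16 : ℝ) • (t • lft (cl : V M → V (M / l)) (cfn (M / l) g))) ≤ Λ₁)
    (hΛ : Λ₁ + 2592 * (t * (ξ : ℝ) ^ 2) * I.card ≤ Λ)
    (h0 : Rs (wt M b t) ((2 : ℝ) • (t • lft (cl : V M → V (M / l)) (cfn (M / l) g))) ≤ τ₀)
    (h2 : Rs (wt M b t) ((2 : ℝ) • (t • lft (cl : V M → V (M / l))
      (cfn (M / l) fun a b => g a b + ψ a b))) ≤ τ₀)
    (hτ : τ₀ + erR3 ξ t c C G Λ I.card r + 2 ≤ τ) :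
    ‖ut N b t (cl : V N → V (N / l)) (pc (N / l) p) (cfn (N / l) g) -
      ut M b t (cl : V M → V (M / l)) (pc (M / l) p) (cfn (M / l) g)‖ ≤
      eru3 N M l ξ t c C c4 C4 D τ G Λ I.card r := by
  have ht := H.two.hτ
  have hξ := H.two.hξ
  have hξ' : (0 : ℝ) < ξ := by exact_mod_cast hξ
  have hl0 : 0 < l := H864.l_pos H.hlN
  have hp := H.win _ _ H.ψp
  have hNl : n ≤ N / l * l := by rw [Nat.div_mul_cancel H.hlN]; exact H.two.hn
  have hMl : n ≤ M / l * l := by rw [Nat.div_mul_cancel H.hlM]; exact H.two.hn'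
  obtain ⟨pN1, pN2⟩ := hp.lt hl0 hNl
  obtain ⟨pM1, pM2⟩ := hp.lt hl0 hMl
  have hgw : Win l n g := fun a b h => H.win a b (hg a b h)
  have hI2 : ∀ q ∈ I, 2 * (ξ + 1) ≤ n := by
    intro q hq
    have h1 := H.two.hI q hq
    have h2 := H.two.hr
    omega
  have hk0 : (0 : ℝ) ≤ I.card := Nat.cast_nonneg _
  have hΛ10 : 0 ≤ Λ₁ := (EN_nonneg hb ht _).trans hN
  have wψ := H.wψ
  have hw1 : (0 : ℝ) ≤ t * (ξ : ℝ) ^ 2 * I.card := by positivity
  -- sources
  have sg : ∀ s : ℝ, Win l n fun a b => g a b + s * ψ a b := fun s => hgw.add H.win s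
  have eN : ∀ s : ℝ, src N n (fun i k => t * (g (i / l) (k / l) + s * ψ (i / l) (k / l))) =
      t • lft (cl : V N → V (N / l)) (cfn (N / l) fun a b => g a b + s * ψ a b) := fun s =>
    src_cell H.hlN (sg s) t
  have eM : ∀ s : ℝ, src M n (fun i k => t * (g (i / l) (k / l) + s * ψ (i / l) (k / l))) =
      t • lft (cl : V M → V (M / l)) (cfn (M / l) fun a b => g a b + s * ψ a b) := fun s =>
    src_cell H.hlM (sg s) t
  have gN : src N n (fun i k => t * g (i / l) (k / l)) =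
      t • lft (cl : V N → V (N / l)) (cfn (N / l) g) := src_cell H.hlN hgw t
  have gM : src M n (fun i k => t * g (i / l) (k / l)) =
      t • lft (cl : V M → V (M / l)) (cfn (M / l) g) := src_cell H.hlM hgw t
  -- energies `8 t (g + s ψ)`
  have E8N : ∀ s : ℝ, |s| ≤ 1 → EN N b t ((8 : ℝ) • (t • lft (cl : V N → V (N / l))
      (cfn (N / l) fun a b => g a b + s * ψ a b))) ≤ Λ := by
    intro s hs
    have h := en_four (K := N) (n' := n) hb ht hξ hI2 H.two.hn
      (g := fun i k => t * g (i / l) (k / l)) wψ (Λ := Λ₁) (by rw [gN]; exact hN) hs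
    have e : (fun i k => t * g (i / l) (k / l) + s * (t * ψ (i / l) (k / l))) =
        fun i k => t * (g (i / l) (k / l) + s * ψ (i / l) (k / l)) := by
      funext i k
      ring
    rw [e, eN] at h
    linarith
  have E8M : ∀ s : ℝ, |s| ≤ 1 → EN M b t ((8 : ℝ) • (t • lft (cl : V M → V (M / l))
      (cfn (M / l) fun a b => g a b + s * ψ a b))) ≤ Λ := by
    intro s hs
    have h := en_four (K := M) (n' := n) hb ht hξ hI2 H.two.hn'
      (g := fun i k => t * g (i / l) (k / l)) wψ (Λ := Λ₁) (by rw [gM]; exact hM) hs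
    have e : (fun i k => t * g (i / l) (k / l) + s * (t * ψ (i / l) (k / l))) =
        fun i k => t * (g (i / l) (k / l) + s * ψ (i / l) (k / l)) := by
      funext i k
      ring
    rw [e, eM] at h
    linarith
  have g0 : (fun a b => g a b + (0 : ℝ) * ψ a b) = g := by
    funext a b'
    ring
  have g1 : (fun a b => g a b + (1 : ℝ) * ψ a b) = fun a b => g a b + ψ a b := by
    funext a b'
    ring
  -- transfer of `R`
  have q0 := rs_cell3 H (Λ := Λ) hg hG0 (fun a b => (hG a b).trans (by linarith))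
    (by have := E8N 0 (by norm_num); rwa [g0] at this)
    (by have := E8M 0 (by norm_num); rwa [g0] at this)
  have q2 := rs_cell3 H (Λ := Λ) (g := fun a b => g a b + ψ a b) (fun a b h h3 => by
    have h4 : g a b = 0 := by
      by_contra h5
      exact hg a b h5 h3
    exact h (by rw [h4, h3, add_zero])) hG0 (fun a b => by
      refine (abs_add_le _ _).trans (add_le_add (hG _ _) ?_)
      rw [abs_of_nonneg (H.ψ0 _ _)]
      exact H.ψ1 _ _)
    (by have := E8N 1 (by norm_num); rwa [g1] at this)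
    (by have := E8M 1 (by norm_num); rwa [g1] at this)
  have a0 := (abs_le.1 q0).2
  have a2 := (abs_le.1 q2).2
  have er0 : 0 ≤ erR3 ξ t c C G Λ I.card r := (abs_nonneg _).trans q0
  have RN0 := (Rn_le_Rs hb ht oN (lft (cl : V N → V (N / l)) (cfn (N / l) g)))
  have RN2 := (Rn_le_Rs hb ht oN (lft (cl : V N → V (N / l))
    (cfn (N / l) fun a b => g a b + ψ a b)))
  have RM0 := (Rn_le_Rs hb ht oM (lft (cl : V M → V (M / l)) (cfn (M / l) g)))
  have RM2 := (Rn_le_Rs hb ht oM (lft (cl : V M → V (M / l))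
    (cfn (M / l) fun a b => g a b + ψ a b)))
  unfold ut uq eru3
  rw [← mul_sub, norm_mul, norm_two_pi_I_inv]
  refine mul_le_mul_of_nonneg_left ?_ (by positivity)
  refine dW_two (em_mt hb ht) (em_mt hb ht) 1 _ _ _ _ fun c' hc => ?_
  unfold dL
  rw [bf_cell H.hlN, bf_cell H.hlM]
  have e0 : cfn (N / l) g (pc (N / l) p) = cfn (M / l) g (pc (M / l) p) := by
    unfold cfn pc
    rw [ZMod.val_cast_of_lt pN1, ZMod.val_cast_of_lt pN2, ZMod.val_cast_of_lt pM1,
      ZMod.val_cast_of_lt pM2]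
  rw [e0, sub_sub_sub_cancel_right, mt_mulVec, mt_mulVec, mt_mulVec, mt_mulVec]
  have fN := far_step3 (g := g) hb ht hξ H.hlN H.lbN oN H.ψ0 H.ψ1 (x := pc (N / l) p) (τ := τ) H.hD H.hC4
    (fun v z h1 h2 => by
      have h3 := (eq_pc pN1 pN2 _).1 h1
      exact H.dN v z (by rw [← h3.1]; exact (cl1_val H.hlN _).symm)
        (by rw [← h3.2]; exact (cl1_val H.hlN _).symm) h2) (by linarith) (by linarith) hc
  have fM := far_step3 (g := g) hb ht hξ H.hlM H.lbM oM H.ψ0 H.ψ1 (x := pc (M / l) p) (τ := τ) H.hD H.hC4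
    (fun v z h1 h2 => by
      have h3 := (eq_pc pM1 pM2 _).1 h1
      exact H.dM v z (by rw [← h3.1]; exact (cl1_val H.hlM _).symm)
        (by rw [← h3.2]; exact (cl1_val H.hlM _).symm) h2) (by linarith) (by linarith) hc
  -- LOC9
  set A : ℝ := t * (ξ : ℝ) ^ 2 * (G + 1) with hA
  have hA0 : 0 ≤ A := by positivity
  set j : ℕ → ℕ → ℝ := fun i k => t * (g (i / l) (k / l) + c' * ψ (i / l) (k / l)) with hj
  set u : ℕ → ℕ → ℝ := fun i k => t * ind p (i / l) (k / l) with hu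
  have wj : Wd ξ I A j := by
    refine ⟨fun i k => ?_, fun i k h => ?_⟩
    · rw [hj, hA]
      show |t * (g (i / l) (k / l) + c' * ψ (i / l) (k / l))| ≤ _
      rw [abs_mul, abs_of_pos ht]
      have h1 : |g (i / l) (k / l) + c' * ψ (i / l) (k / l)| ≤ G + 1 := by
        refine (abs_add_le _ _).trans (add_le_add (hG _ _) ?_)
        rw [abs_of_nonneg (mul_nonneg hc.1 (H.ψ0 _ _))]
        exact mul_le_one₀ hc.2 (H.ψ0 _ _) (H.ψ1 _ _)
      refine (mul_le_mul_of_nonneg_left h1 ht.le).trans (le_of_eq ?_)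
      field_simp
    · refine H.net i k fun h0 => h ?_
      have h1 : g (i / l) (k / l) = 0 := by
        by_contra h2
        exact hg _ _ h2 h0
      show t * (g (i / l) (k / l) + c' * ψ (i / l) (k / l)) = 0
      rw [h0, h1, mul_zero, add_zero, mul_zero]
  have wu' : Wd ξ I (t * (ξ : ℝ) ^ 2) u := by
    refine ⟨fun i k => ?_, fun i k h => ?_⟩
    · rw [hu]
      show |t * ind p (i / l) (k / l)| ≤ _
      rw [abs_mul, abs_of_pos ht]
      have h1 : |ind p (i / l) (k / l)| ≤ 1 := by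
        unfold ind
        split_ifs
        · rw [abs_one]
        · rw [abs_zero]; exact zero_le_one
      refine (mul_le_mul_of_nonneg_left h1 ht.le).trans (le_of_eq ?_)
      field_simp
    · refine H.net i k ?_
      have h1 : ind p (i / l) (k / l) ≠ 0 := by
        intro h2
        apply h
        show t * ind p (i / l) (k / l) = 0
        rw [h2, mul_zero]
      unfold ind at h1
      split_ifs at h1 with h3
      · rw [h3.1, h3.2]
        exact H.ψp
      · exact absurd rfl h1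
  have wu : Wd ξ I A u := wu'.mono (by
    rw [hA]
    nlinarith [mul_nonneg (mul_nonneg ht.le (sq_nonneg (ξ : ℝ))) hG0])
  have ejN : src N n j = t • lft (cl : V N → V (N / l))
      (cfn (N / l) fun a b => g a b + c' * ψ a b) := eN c'
  have ejM : src M n j = t • lft (cl : V M → V (M / l))
      (cfn (M / l) fun a b => g a b + c' * ψ a b) := eM c'
  have wi : Win l n (ind p) := win_ind hp
  have euN : src N n u = t • idc (cl : V N → V (N / l)) (pc (N / l) p) := by
    rw [idc_eq pN1 pN2]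
    exact src_cell H.hlN wi t
  have euM : src M n u = t • idc (cl : V M → V (M / l)) (pc (M / l) p) := by
    rw [idc_eq pM1 pM2]
    exact src_cell H.hlM wi t
  have hc1 : |c'| ≤ 1 := by
    rw [abs_of_nonneg hc.1]
    exact hc.2
  -- energy `2 (j + s u)`: half of `4 j` and half of `4 s u`
  have LN : ∀ s : ℝ, |s| ≤ 2 → Lg (wt N b t) ((2 : ℝ) • (src N n j + s • src N n u)) -
      Lg (wt N b t) 0 ≤ Λ := by
    intro s hs
    rw [smul_add]
    have h1 := EN_add (N := N) hb ht ((2 : ℝ) • src N n j) ((2 : ℝ) • s • src N n u)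
    have h3 := EN_crude (N := N) hb ht hξ hI2 H.two.hn wu' (s := 4 * s) (by
      rw [abs_mul, abs_of_pos (by norm_num : (0 : ℝ) < 4)]
      linarith)
    have h4 : EN N b t ((2 : ℝ) • (2 : ℝ) • src N n j) ≤
        Λ₁ / 2 + 1296 * (t * (ξ : ℝ) ^ 2) * I.card := by
      have h := en_four (K := N) (n' := n) hb ht hξ hI2 H.two.hn
        (g := fun i k => t * g (i / l) (k / l)) wψ (Λ := Λ₁) (by rw [gN]; exact hN) hc1
      have e : (fun i k => t * g (i / l) (k / l) + c' * (t * ψ (i / l) (k / l))) = j := by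
        funext i k
        rw [hj]
        ring
      rw [e] at h
      have e2 : (2 : ℝ) • (2 : ℝ) • src N n j = (1 / 2 : ℝ) • (8 : ℝ) • src N n j := by
        rw [smul_smul, smul_smul]
        norm_num
      rw [e2]
      exact (EN_le_smul hb ht (by norm_num [abs_of_pos]) _).trans h
    have e3 : (2 : ℝ) • (2 : ℝ) • s • src N n u = (4 * s) • src N n u := by
      rw [smul_smul, smul_smul]
      congr 1
      ring
    rw [e3] at h1
    show EN N b t _ ≤ Λ
    linarith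
  have LM : ∀ s : ℝ, |s| ≤ 2 → Lg (wt M b t) ((2 : ℝ) • (src M n j + s • src M n u)) -
      Lg (wt M b t) 0 ≤ Λ := by
    intro s hs
    rw [smul_add]
    have h1 := EN_add (N := M) hb ht ((2 : ℝ) • src M n j) ((2 : ℝ) • s • src M n u)
    have h3 := EN_crude (N := M) hb ht hξ hI2 H.two.hn' wu' (s := 4 * s) (by
      rw [abs_mul, abs_of_pos (by norm_num : (0 : ℝ) < 4)]
      linarith)
    have h4 : EN M b t ((2 : ℝ) • (2 : ℝ) • src M n j) ≤
        Λ₁ / 2 + 1296 * (t * (ξ : ℝ) ^ 2) * I.card := by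
      have h := en_four (K := M) (n' := n) hb ht hξ hI2 H.two.hn'
        (g := fun i k => t * g (i / l) (k / l)) wψ (Λ := Λ₁) (by rw [gM]; exact hM) hc1
      have e : (fun i k => t * g (i / l) (k / l) + c' * (t * ψ (i / l) (k / l))) = j := by
        funext i k
        rw [hj]
        ring
      rw [e] at h
      have e2 : (2 : ℝ) • (2 : ℝ) • src M n j = (1 / 2 : ℝ) • (8 : ℝ) • src M n j := by
        rw [smul_smul, smul_smul]
        norm_num
      rw [e2]
      exact (EN_le_smul hb ht (by norm_num [abs_of_pos]) _).trans h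
    have e3 : (2 : ℝ) • (2 : ℝ) • s • src M n u = (4 * s) • src M n u := by
      rw [smul_smul, smul_smul]
      congr 1
      ring
    rw [e3] at h1
    show EN M b t _ ≤ Λ
    linarith
  have m := loc9q_mean_t H.two (Λ := Λ) hA0 wj wu LN LM
  rw [ejN, ejM, euN, euM] at m
  set a1 := Ex (wt N b t) (t • cs (lft (cl : V N → V (N / l)) (cfn (N / l) g)) c')
    (li (t • idc cl (pc (N / l) p)))
  set a2 := Ex (wt N b t) (t • lft (cl : V N → V (N / l))
    (cfn (N / l) fun a b => g a b + c' * ψ a b)) (li (t • idc cl (pc (N / l) p)))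
  set a3 := Ex (wt M b t) (t • lft (cl : V M → V (M / l))
    (cfn (M / l) fun a b => g a b + c' * ψ a b)) (li (t • idc cl (pc (M / l) p)))
  set a4 := Ex (wt M b t) (t • cs (lft (cl : V M → V (M / l)) (cfn (M / l) g)) c')
    (li (t • idc cl (pc (M / l) p)))
  have e5 : Real.exp ((τ + 8) / 2) * ((t * l * ξ) * (t * (N + M) * ξ) *
      (C4 * Real.exp (-(c4 * D)))) =
      Real.exp ((τ + 8) / 2) * ((t * l * ξ) * (t * N * ξ) * (C4 * Real.exp (-(c4 * D)))) +
      Real.exp ((τ + 8) / 2) * ((t * l * ξ) * (t * M * ξ) * (C4 * Real.exp (-(c4 * D)))) := by ring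
  rw [e5]
  show |a1 - a4| ≤ _
  rw [abs_le] at fN fM m ⊢
  constructor <;> linarith [fN.1, fN.2, fM.1, fM.2, m.1, m.2]

end three

end Vale.Agent.P159.H358
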