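import Vale.Agent.P159.H358.Um3

/-!
P159, module VTOR, `u_two` for fine cells, part 4: torus letters (`uc`, `cutm`), locality of the
density of the full field, `Lcl` on a second torus.
-/

open Finset MeasureTheory

set_option linter.unusedSectionVars false
set_option linter.unusedDecidableInType false

namespace Vale.Agent.P159.H358

open Vale.Agent.P159.TM.H104 (EM Lg Ex Cv Gr li)
open Vale.Agent.P159.H37 (wt wM bf qf Rs Tq Gm gau)
open Vale.Agent.P159.TM.Spec (V)
open Vale.Agent.P159.TM.SpecC (wT)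
open Vale.Agent.P159.TM.H459 (sd sn)
open Vale.Agent.P159.H145 (mt mt_mulVec bf_mt em_mt cs OscZ)
open Vale.Agent.P159.H552 (uq lft idc ut norm_two_pi_I_inv)
open Vale.Agent.P159.H864 (cl cl1 cl1_val card_cell up)
open Vale.Agent.P159.H363 (Ch Cov sh measurable_mulVec)
open Vale.Agent.P159.H889 (uc cov_uc ch_uc norm_uc_le continuous_uc tn2 tn2_sq Lcl mem_box_add)
open Vale.Agent.P159.H813 (LB4)
open Vale.Agent.P159.H733.Torg (ip)
open Vale.Agent.P159.H733.Vt (zb zz trp)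
open Matrix

/-! ### places -/

section place

variable {K l : ℕ} [NeZero K] [NeZero (K / l)] {b t : ℝ}

theorem lft_place (hl : l ∣ K) (k : V (K / l) → V (K / l) → ℝ)
    (hk : ∀ x a v, k (x + a) (v + a) = k x v) (x p : V (K / l)) (s : ℝ) :
    (s • lft (cl : V K → V (K / l)) (k x)) =
      (s • lft (cl : V K → V (K / l)) (k p)) ∘ H864.tra (up (p - x)) := by
  funext v
  show s * k x (cl v) = s * k p (cl (v + up (p - x)))
  rw [H864.cl_add_up hl]
  have e : p = x + (p - x) := by ring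
  have e2 : k p (cl v + (p - x)) = k (x + (p - x)) (cl v + (p - x)) := by rw [← e]
  rw [e2, hk]

/-- energies of window fields do not depend on the place -/
theorem EN_place (hl : l ∣ K) (k : V (K / l) → V (K / l) → ℝ)
    (hk : ∀ x a v, k (x + a) (v + a) = k x v) (x p : V (K / l)) (s : ℝ) :
    EN K b t (s • lft (cl : V K → V (K / l)) (k x)) =
      EN K b t (s • lft (cl : V K → V (K / l)) (k p)) := by
  unfold EN
  rw [lft_place hl k hk x p s, H864.Lg_perm (H864.tinv_wt (N := K) (b := b) t (up (p - x)))]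

theorem Rs_place3 (hl : l ∣ K) (k : V (K / l) → V (K / l) → ℝ)
    (hk : ∀ x a v, k (x + a) (v + a) = k x v) (x p : V (K / l)) (s : ℝ) :
    Rs (wt K b t) (s • lft (cl : V K → V (K / l)) (k x)) =
      Rs (wt K b t) (s • lft (cl : V K → V (K / l)) (k p)) := by
  rw [lft_place hl k hk x p s, H864.Rs_perm (H864.tinv_wt (N := K) (b := b) t (up (p - x)))]

/-- window field relative to the constant `a`, and the same plus the cut-off -/
noncomputable def ka (K : ℕ) [NeZero K] (D : ℕ) (h : ℤ × ℤ → ℝ) (a : ℝ) (x v : V K) : ℝ :=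
  cwa K D h a x v - a

/-- window field plus the cut-off of radius `D1` -/
noncomputable def kb (K : ℕ) [NeZero K] (D D1 : ℕ) (h : ℤ × ℤ → ℝ) (a : ℝ) (x v : V K) : ℝ :=
  cwa K D h a x v - a + if v ∈ H462.box x D1 then 1 else 0

theorem ka_sh (D : ℕ) (h : ℤ × ℤ → ℝ) (a : ℝ) (x c v : V K) :
    ka K D h a (x + c) (v + c) = ka K D h a x v := by
  unfold ka
  rw [cwa_sh]

theorem kb_sh (D D1 : ℕ) (h : ℤ × ℤ → ℝ) (a : ℝ) (x c v : V K) :
    kb K D D1 h a (x + c) (v + c) = kb K D D1 h a x v := by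
  unfold kb
  rw [cwa_sh]
  by_cases hv : v ∈ H462.box x D1
  · rw [if_pos hv, if_pos (mem_box_add.2 hv)]
  · rw [if_neg hv, if_neg fun h2 => hv (mem_box_add.1 h2)]

end place

/-! ### distances -/

section dist

variable {K l : ℕ} [NeZero K]

theorem vma_le_of {n : ℕ} [NeZero n] {a : ZMod n} {y : ℤ} (h : ((y : ℤ) : ZMod n) = a) :
    a.valMinAbs.natAbs ≤ y.natAbs := by
  refine ZMod.natAbs_min_of_le_div_two n a.valMinAbs y ?_ (ZMod.natAbs_valMinAbs_le a)
  rw [ZMod.coe_valMinAbs, h]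

/-- cells of near sites are near -/
theorem cl1_near [NeZero (K / l)] (hl : l ∣ K) {D : ℕ} (v z : ZMod K)
    (h : (z - v).valMinAbs.natAbs < D * l) :
    ((cl1 z : ZMod (K / l)) - cl1 v).valMinAbs.natAbs ≤ D := by
  have hl0 : 0 < l := H864.l_pos hl
  have hKl : K / l * l = K := Nat.div_mul_cancel hl
  set s := (z - v).valMinAbs with hs
  have e1 : ((s : ℤ) : ZMod K) = z - v := ZMod.coe_valMinAbs _
  -- `z.val = v.val + s + K m`
  have e2 : (((z.val : ℤ) - v.val - s : ℤ) : ZMod K) = 0 := by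
    rw [Int.cast_sub, Int.cast_sub, e1]
    push_cast
    rw [ZMod.natCast_zmod_val, ZMod.natCast_zmod_val]
    ring
  obtain ⟨m, hm⟩ := (ZMod.intCast_zmod_eq_zero_iff_dvd _ K).1 e2
  have hz : (z.val : ℤ) = v.val + s + (K / l : ℕ) * m * l := by
    have h3 : (K : ℤ) * m = ((K / l : ℕ) : ℤ) * m * l := by
      have h4 : ((K / l : ℕ) : ℤ) * l = K := by exact_mod_cast hKl
      calc (K : ℤ) * m = (((K / l : ℕ) : ℤ) * l) * m := by rw [h4]
        _ = _ := by ring
    linarith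
  have hl' : (0 : ℤ) < l := by exact_mod_cast hl0
  have hdz : ((z.val / l : ℕ) : ℤ) = ((v.val : ℤ) + s) / l + (K / l : ℕ) * m := by
    rw [Int.natCast_div, hz, Int.add_mul_ediv_right _ _ hl'.ne']
  refine (vma_le_of (y := ((v.val : ℤ) + s) / l - (v.val : ℤ) / l) ?_).trans ?_
  · have h5 : (((v.val : ℤ) + s) / l - (v.val : ℤ) / l : ℤ) =
        ((z.val / l : ℕ) : ℤ) - (v.val / l : ℕ) - (K / l : ℕ) * m := by
      have h6 : ((v.val / l : ℕ) : ℤ) = (v.val : ℤ) / l := Int.natCast_div _ _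
      rw [hdz, h6]
      ring
    rw [h5, Int.cast_sub, Int.cast_sub, Int.cast_mul, Int.cast_natCast, Int.cast_natCast,
      Int.cast_natCast, ZMod.natCast_self, zero_mul, sub_zero]
    rfl
  · have hsD : |s| < D * l := by
      rw [Int.abs_eq_natAbs]
      exact_mod_cast h
    obtain ⟨s1, s2⟩ := abs_lt.1 hsD
    have a1 : ((v.val : ℤ) + s) / l ≤ (v.val : ℤ) / l + D := by
      rw [← Int.add_mul_ediv_right _ _ hl'.ne']
      exact Int.ediv_le_ediv hl' (by linarith)
    have a2 : (v.val : ℤ) / l - D ≤ ((v.val : ℤ) + s) / l := by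
      have : (v.val : ℤ) / l - D = ((v.val : ℤ) + (-D) * l) / l := by
        rw [Int.add_mul_ediv_right _ _ hl'.ne']
        ring
      rw [this]
      exact Int.ediv_le_ediv hl' (by linarith)
    omega

theorem far_box [NeZero (K / l)] (hl : l ∣ K) {D : ℕ} {x : V (K / l)} {v z : V K}
    (hv : (cl v : V (K / l)) = x) (hz : (cl z : V (K / l)) ∉ H462.box x D) :
    ((D * l : ℕ) : ℝ) ≤ sd v z := by
  have key : D * l ≤ max (z.1 - v.1).valMinAbs.natAbs (z.2 - v.2).valMinAbs.natAbs := by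
    by_contra hcon
    rw [not_le, max_lt_iff] at hcon
    apply hz
    rw [H462.mem_box, ← hv]
    exact ⟨cl1_near hl v.1 z.1 hcon.1, cl1_near hl v.2 z.2 hcon.2⟩
  have h2 : D * l ≤ sd v z := by
    unfold sd sn
    exact key
  exact_mod_cast h2

end dist

/-! ### locality of the density of the full field -/

section loc

variable {M l : ℕ} [NeZero M] [NeZero (M / l)] {b t : ℝ} {ξ : ℕ}

/-- error of the locality of the density -/
noncomputable def elo (M l ξ : ℕ) (t c4 C4 τ G D : ℝ) : ℝ :=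
  (2 * Real.pi)⁻¹ * (Real.exp ((τ + 8) / 2) *
    ((t * l * ξ) * (t * M * ξ * (G + 1)) * (C4 * Real.exp (-(c4 * D)))))

/-- **locality of the density**: neutral `R` of the field and of the cut field -/
theorem loc_ucm (hb : 0 ≤ b) (ht : 0 < t) (hξ : 0 < ξ) (hl : l ∣ M) {c4 C4 : ℝ} (hC4 : 0 ≤ C4)
    (hLB : LB4 M b t ξ c4 C4) (hO : OscZ (wT b M) (mt M t) (1 / 2)) {D0 : ℕ} {D τ G : ℝ}
    (hD : 0 ≤ D) (hDl : D * ξ ≤ D0 * l) (hG0 : 0 ≤ G) (x : V (M / l)) {F : V (M / l) → ℝ}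
    (hG : ∀ v, |F v - av D0 x F| ≤ G)
    (h0 : Rn M b t (lft (cl : V M → V (M / l)) F) ≤ τ)
    (h1 : Rn M b t (lft (cl : V M → V (M / l)) (cutm D0 x F)) ≤ τ) :
    ‖uc M l b t x F - uc M l b t x (cutm D0 x F)‖ ≤ elo M l ξ t c4 C4 τ G D := by
  have hl0 : 0 < l := H864.l_pos hl
  have hξ' : (0 : ℝ) < ξ := by exact_mod_cast hξ
  have hl' : (0 : ℝ) < l := by exact_mod_cast hl0
  have hM' : (0 : ℝ) < M := by exact_mod_cast NeZero.pos M
  set F1 : V M → ℝ := lft (cl : V M → V (M / l)) F with hF1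
  set F2 : V M → ℝ := lft (cl : V M → V (M / l)) (cutm D0 x F) with hF2
  have hdiff : ∀ z : V M, (t • (F1 - F2)) z =
      if (cl z : V (M / l)) ∈ H462.box x D0 then 0 else t * (F (cl z) - av D0 x F) := by
    intro z
    rw [Pi.smul_apply, smul_eq_mul, Pi.sub_apply]
    show t * (F (cl z) - cutm D0 x F (cl z)) = _
    unfold cutm
    split_ifs
    · rw [sub_self, mul_zero]
    · rfl
  have hu : ∑ z, (t • idc (cl : V M → V (M / l)) x) z ^ 2 ≤
      (t * l * ξ) ^ 2 * (1 / (ξ : ℝ) ^ 2) := by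
    have h1 : ∀ z : V M, (t • idc (cl : V M → V (M / l)) x) z ^ 2 =
        if (cl z : V (M / l)) = x then t ^ 2 else 0 := by
      intro z
      rw [Pi.smul_apply, smul_eq_mul]
      unfold idc
      split_ifs
      · rw [mul_one]
      · rw [mul_zero]; ring
    rw [Finset.sum_congr rfl fun z _ => h1 z, ← Finset.sum_filter, Finset.sum_const,
      nsmul_eq_mul, card_cell hl]
    refine le_of_eq ?_
    field_simp
  have hv : ∑ z, (t • (F1 - F2)) z ^ 2 ≤ (t * M * ξ * (G + 1)) ^ 2 * (1 / (ξ : ℝ) ^ 2) := by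
    have h1 : ∀ z : V M, (t • (F1 - F2)) z ^ 2 ≤ (t * (G + 1)) ^ 2 := by
      intro z
      rw [hdiff]
      split_ifs
      · rw [zero_pow two_ne_zero]
        positivity
      · refine sq_le_sq' ?_ ?_
        · have h3 := (abs_le.1 (hG (cl z))).1
          nlinarith
        · have h3 := (abs_le.1 (hG (cl z))).2
          nlinarith
    refine (Finset.sum_le_sum fun z _ => h1 z).trans (le_of_eq ?_)
    rw [Finset.sum_const, nsmul_eq_mul, Finset.card_univ, card_V]
    field_simp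
  have hsep : ∀ v z : V M, (t • idc (cl : V M → V (M / l)) x) v ≠ 0 → (t • (F1 - F2)) z ≠ 0 →
      D * ξ ≤ sd v z := by
    intro v z h1 h2
    have hv : (cl v : V (M / l)) = x := by
      by_contra h3
      apply h1
      rw [Pi.smul_apply, smul_eq_mul]
      unfold idc
      rw [if_neg h3, mul_zero]
    have hz : (cl z : V (M / l)) ∉ H462.box x D0 := by
      intro h3
      apply h2
      rw [hdiff, if_pos h3]
    have := far_box hl hv hz
    push_cast at this
    linarith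
  unfold uc ut uq
  rw [← mul_sub, norm_mul, norm_two_pi_I_inv]
  unfold elo
  refine mul_le_mul_of_nonneg_left ?_ (by positivity)
  refine H552.dW_sub_le' (w := wT b M) (M := mt M t) (em_mt hb ht) (q := 1) one_ne_zero F1 F2
    (idc cl x) (h := fun _ => Real.exp ((τ + 8) / 2) *
      ((t * l * ξ) * (t * M * ξ * (G + 1)) * (C4 * Real.exp (-(c4 * D)))))
    continuous_const (fun c _ => ?_) |>.trans (le_of_eq ?_)
  · rw [mt_mulVec, mt_mulVec, mt_mulVec]
    exact loc_exO (u := t • idc (cl : V M → V (M / l)) x) hb ht hO (F := F1) (F' := F2)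
      (by positivity) (fun J => (hLB _ _ (t * l * ξ) (t * M * ξ * (G + 1)) D (by positivity)
        (by positivity) hD hu hv hsep J).trans (le_of_eq (by ring))) h0 h1 c
  · simp

end loc

/-! ### two tori -/

section two

variable {N M l : ℕ} [NeZero N] [NeZero M] [NeZero (N / l)] [NeZero (M / l)] {b : ℝ} {hb : 0 ≤ b}
  {ξ : ℕ} {t y y' c C c4 C4 : ℝ} {r D0 D1 : ℕ} {D : ℝ}

/-- what `u_two3` needs of a window field -/
structure Wg (N M l : ℕ) [NeZero N] [NeZero M] [NeZero (N / l)] [NeZero (M / l)] (b t : ℝ)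
    (D0 D1 : ℕ) (G τ₀ Λ₁ : ℝ) (h : ℤ × ℤ → ℝ) (a : ℝ) : Prop where
  osc : ∀ ζ ∈ zb D0, |h ζ - a| ≤ G
  enN : EN N b t ((16 * t) • lft (cl : V N → V (N / l)) (ka (N / l) D0 h a 0)) ≤ Λ₁
  enM : EN M b t ((16 * t) • lft (cl : V M → V (M / l)) (ka (M / l) D0 h a 0)) ≤ Λ₁
  r0 : Rs (wt M b t) ((2 * t) • lft (cl : V M → V (M / l)) (ka (M / l) D0 h a 0)) ≤ τ₀
  r2 : Rs (wt M b t) ((2 * t) • lft (cl : V M → V (M / l)) (kb (M / l) D0 D1 h a 0)) ≤ τ₀

theorem gqa_fit (H : UG N M l b hb ξ t y y' c C c4 C4 r D0 D1 D) :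
    ∃ q : ℕ, q = D1 + 1 + r / l ∧ D1 + 1 ≤ q ∧ q + D1 + 1 ≤ N / l ∧ q + D1 + 1 ≤ M / l := by
  have hl : 0 < l := H864.l_pos H.hlN
  have hrl' : r / l * l ≤ r := Nat.div_mul_le_self _ _
  have hfit : ∀ {K : ℕ}, 2 * r + (2 * D1 + 2) * l < K → (D1 + 1 + r / l) + D1 + 1 ≤ K / l := by
    intro K hs
    rw [Nat.le_div_iff_mul_le hl]
    have e : (D1 + 1 + r / l) + D1 + 1 = (2 * D1 + 2) + r / l := by omega
    rw [e, add_mul]
    omega
  exact ⟨_, rfl, Nat.le_add_right _ _, hfit H.hsN, hfit H.hsM⟩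

theorem ka_nat {K q D : ℕ} [NeZero K] (h1 : D ≤ q) (h2 : q + D < K) (h3 : 2 * D < K)
    (h : ℤ × ℤ → ℝ) (a : ℝ) : ka K D h a (pc K (q, q)) = cfn K (gqa q D h a) := by
  funext v
  unfold ka
  rw [cwa_nat h1 h2 h3]
  ring

theorem kb_nat {K q D D1 : ℕ} [NeZero K] (h0 : D ≤ D1) (h1 : D1 ≤ q) (h2 : q + D1 < K)
    (h3 : 2 * D1 < K) (h : ℤ × ℤ → ℝ) (a : ℝ) :
    kb K D D1 h a (pc K (q, q)) = cfn K fun i k => gqa q D h a i k + pq q D1 i k := by
  funext v
  unfold kb
  rw [cwa_nat (by omega) (by omega) (by omega)]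
  have hb1 := box_nat (K := K) (q := q) (D := D1) h1 h2 h3 v
  show cfn K (gqa q D h a) v + a - a + _ = gqa q D h a v.1.val v.2.val + pq q D1 v.1.val v.2.val
  rw [add_sub_cancel_right]
  congr 1
  unfold pq
  by_cases hv : v ∈ H462.box (pc K (q, q)) D1
  · rw [if_pos hv, if_pos (hb1.1 hv)]
  · rw [if_neg hv, if_neg fun h2 => hv (hb1.2 h2)]

/-- **`uc_two3`**: the density of a window field is the same on two tori, and `R` of the window field
on the torus `N` -/
theorem uc_two3 (H : UG N M l b hb ξ t y y' c C c4 C4 r D0 D1 D)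
    (oN : OscZ (wT b N) (mt N t) (1 / 2)) (oM : OscZ (wT b M) (mt M t) (1 / 2))
    {G τ τ₀ Λ₁ Λ : ℝ} (hG0 : 0 ≤ G) {h : ℤ × ℤ → ℝ} {a : ℝ}
    (hw : Wg N M l b t D0 D1 G τ₀ Λ₁ h a)
    (hΛ : Λ₁ + 2592 * (t * (ξ : ℝ) ^ 2) * kn l ξ D1 ≤ Λ)
    (hτ : τ₀ + erR3 ξ t c C G Λ (kn l ξ D1) r + 2 ≤ τ) (x : V (N / l)) (x' : V (M / l)) :
    ‖uc N l b t x (cwa (N / l) D0 h a x) - uc M l b t x' (cwa (M / l) D0 h a x')‖ ≤
      eru3 N M l ξ t c C c4 C4 D τ G Λ (kn l ξ D1) r ∧
    Rn N b t (lft (cl : V N → V (N / l)) (cwa (N / l) D0 h a x)) ≤ τ ∧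
    Rn M b t (lft (cl : V M → V (M / l)) (cwa (M / l) D0 h a x')) ≤ τ := by
  have ht := H.ht
  have h01 := H.hD01
  obtain ⟨q, hq, hqp, fN, fM⟩ := gqa_fit H
  have hU := ut_geo H.hξ ht H.hC H.hT H.hT' H.hr H.hny H.hny' H.hlN H.hlM H.lbN H.lbM H.hC4 H.hD
    H.hDl H.hsN H.hsM
  rw [← hq] at hU
  have hcard : (net l ξ q D1).card = kn l ξ D1 := card_net H.hξ
  have kN := ka_nat (K := N / l) (q := q) (D := D0) (by omega) (by omega) (by omega) h a
  have kM := ka_nat (K := M / l) (q := q) (D := D0) (by omega) (by omega) (by omega) h a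
  have kbM := kb_nat (K := M / l) (q := q) (D := D0) (D1 := D1) (by omega) (by omega) (by omega)
    (by omega) h a
  have kbN := kb_nat (K := N / l) (q := q) (D := D0) (D1 := D1) (by omega) (by omega) (by omega)
    (by omega) h a
  have eN := EN_place (b := b) (t := t) H.hlN (ka (N / l) D0 h a) (ka_sh D0 h a) 0
    (pc (N / l) (q, q)) (16 * t)
  have eM := EN_place (b := b) (t := t) H.hlM (ka (M / l) D0 h a) (ka_sh D0 h a) 0
    (pc (M / l) (q, q)) (16 * t)
  have rM := Rs_place3 (b := b) (t := t) H.hlM (ka (M / l) D0 h a) (ka_sh D0 h a) 0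
    (pc (M / l) (q, q)) (2 * t)
  have rM2 := Rs_place3 (b := b) (t := t) H.hlM (kb (M / l) D0 D1 h a) (kb_sh D0 D1 h a) 0
    (pc (M / l) (q, q)) (2 * t)
  have w1 := hw.enN
  have w2 := hw.enM
  have w3 := hw.r0
  have w4 := hw.r2
  rw [eN, kN, mul_smul] at w1
  rw [eM, kM, mul_smul] at w2
  rw [rM, kM, mul_smul] at w3
  rw [rM2, kbM, mul_smul] at w4
  have hg : ∀ a_1 b_1, gqa q D0 h a a_1 b_1 ≠ 0 → pq q D1 a_1 b_1 ≠ 0 := by
    intro i k hik
    have h3 : nr q D0 i k := by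
      by_contra h4
      exact hik (by unfold gqa; rw [if_neg h4])
    have h4 : nr q D1 i k := ⟨h3.1.trans h01, h3.2.trans h01⟩
    unfold pq
    rw [if_pos h4]
    norm_num
  have hG' : ∀ i k, |gqa q D0 h a i k| ≤ G := by
    intro i k
    unfold gqa
    split_ifs with h3
    · exact hw.osc _ (H733.Vt.mem_zb.2 h3)
    · rwa [abs_zero]
  have main := u_two3 hU oN oM (g := gqa q D0 h a) hg hG0 hG' w1 w2 (Λ := Λ) (τ := τ)
    (by rw [hcard]; exact hΛ) w3 w4 (by rw [hcard]; exact hτ)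
  rw [hcard] at main
  refine ⟨?_, ?_, ?_⟩
  · rw [uc_cwa hb ht H.hlN D0 h a x (pc (N / l) (q, q)),
      uc_cwa hb ht H.hlM D0 h a x' (pc (M / l) (q, q)),
      cwa_nat (by omega) (by omega) (by omega), cwa_nat (by omega) (by omega) (by omega),
      ch_uc hb ht, ch_uc hb ht, ← mul_sub, norm_mul]
    have e1 : ‖Complex.exp (((2 * Real.pi * a : ℝ) : ℂ) * Complex.I)‖ = 1 :=
      Complex.norm_exp_ofReal_mul_I _
    rw [e1, one_mul]
    exact main
  · have e2 : lft (cl : V N → V (N / l)) (cwa (N / l) D0 h a x) =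
        cs (lft (cl : V N → V (N / l)) (ka (N / l) D0 h a x)) a := by
      funext v
      show cwa (N / l) D0 h a x (cl v) = cwa (N / l) D0 h a x (cl v) - a + a
      ring
    rw [e2, Rn_cs]
    refine (Rn_le_Rs hb ht oN _).trans ?_
    have rN := Rs_place3 (b := b) (t := t) H.hlN (ka (N / l) D0 h a) (ka_sh D0 h a) x
      (pc (N / l) (q, q)) (2 * t)
    rw [mul_smul, mul_smul] at rN
    rw [rN, kN]
    have hI2 : ∀ q' ∈ net l ξ q D1, 2 * (ξ + 1) ≤ min N M := by
      intro q' hq'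
      have h1 := hU.two.hI q' hq'
      have h2 := hU.two.hr
      omega
    have hgw : Win l (min N M) (gqa q D0 h a) := fun a b h => hU.win a b (hg a b h)
    have hk0 : (0 : ℝ) ≤ kn l ξ D1 := Nat.cast_nonneg _
    have hw1 : (0 : ℝ) ≤ t * (ξ : ℝ) ^ 2 * kn l ξ D1 := by positivity
    have half : ∀ {K : ℕ} [NeZero K] (X : V K → ℝ), EN K b t ((16 : ℝ) • X) ≤ Λ₁ →
        EN K b t ((8 : ℝ) • X) ≤ Λ := by
      intro K _ X hX
      have h5 : (8 : ℝ) • X = (1 / 2 : ℝ) • (16 : ℝ) • X := by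
        rw [smul_smul]
        norm_num
      rw [h5]
      have h6 := EN_le_smul (N := K) hb ht (s := 1 / 2) (by norm_num [abs_of_pos]) ((16 : ℝ) • X)
      linarith
    have q0 := rs_cell3 hU (Λ := Λ) (g := gqa q D0 h a) hg hG0
      (fun i k => (hG' i k).trans (by linarith)) (half _ w1) (half _ w2)
    rw [hcard] at q0
    have := (abs_le.1 q0).2
    linarith
  · have e2 : lft (cl : V M → V (M / l)) (cwa (M / l) D0 h a x') =
        cs (lft (cl : V M → V (M / l)) (ka (M / l) D0 h a x')) a := by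
      funext v
      show cwa (M / l) D0 h a x' (cl v) = cwa (M / l) D0 h a x' (cl v) - a + a
      ring
    rw [e2, Rn_cs]
    refine (Rn_le_Rs hb ht oM _).trans ?_
    have rN := Rs_place3 (b := b) (t := t) H.hlM (ka (M / l) D0 h a) (ka_sh D0 h a) x'
      (pc (M / l) (q, q)) (2 * t)
    rw [mul_smul, mul_smul] at rN
    rw [rN, kM]
    have er0 : 0 ≤ erR3 ξ t c C G Λ (kn l ξ D1) r := by
      have ξ0 : (0 : ℝ) < ξ := by exact_mod_cast H.hξ
      unfold erR3
      refine add_nonneg ?_ (div_nonneg (err9q_nonneg C c (by positivity) Λ _ r ξ) (by norm_num))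
      unfold eps8q
      positivity
    linarith

end two

end Vale.Agent.P159.H358
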