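import Vale.Agent.P159.H358.Um4

/-!
P159, module VTOR, `u_two` for fine cells, part 5: `Lcl` of the densities, on their own torus and with
the local functional of another torus; base torus `B` for the a priori bound.
-/

open Finset MeasureTheory

set_option linter.unusedSectionVars false
set_option linter.unusedDecidableInType false

namespace Vale.Agent.P159.H358

open Vale.Agent.P159.H37 (wt Rs gau)
open Vale.Agent.P159.TM.Spec (V)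
open Vale.Agent.P159.TM.SpecC (wT)
open Vale.Agent.P159.H145 (mt OscZ)
open Vale.Agent.P159.H552 (lft)
open Vale.Agent.P159.H864 (cl)
open Vale.Agent.P159.H363 (Ch Cov sh measurable_mulVec)
open Vale.Agent.P159.H889 (uc cov_uc ch_uc norm_uc_le continuous_uc tn2 tn2_sq Lcl)
open Vale.Agent.P159.H813 (LB4)
open Vale.Agent.P159.H733.Torg (ip)
open Vale.Agent.P159.H733.Vt (zb zz trp)
open Matrix

/-- the window around `x` -/
noncomputable def hx {K : ℕ} [NeZero K] (x : V K) (F : V K → ℝ) (ζ : ℤ × ℤ) : ℝ := F (x + ip K ζ)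

variable {N M B l : ℕ} [NeZero N] [NeZero M] [NeZero B] [NeZero (N / l)] [NeZero (M / l)]
  [NeZero (B / l)] {b : ℝ} {hb : 0 ≤ b}
  {ξ : ℕ} {t y y' y'' c C c4 C4 : ℝ} {r D0 D1 : ℕ} {D : ℝ}

/-- good window at `x`: amplitudes, energies on the tori `M` and `B`, `R` on the base torus `B` -/
def WgM (M B l : ℕ) [NeZero M] [NeZero B] [NeZero (M / l)] [NeZero (B / l)] {K : ℕ} [NeZero K]
    (b t : ℝ) (D0 D1 : ℕ) (G τ₀ Λ₁ : ℝ) (x : V K) (F : V K → ℝ) : Prop :=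
  Wg M B l b t D0 D1 G τ₀ Λ₁ (hx x F) (avz D0 (hx x F))

/-- good field at `x` on its own torus -/
structure Gd1 (M B l : ℕ) [NeZero M] [NeZero B] [NeZero (M / l)] [NeZero (B / l)] (b t : ℝ)
    (D0 D1 : ℕ) (G τ τ₀ Λ₁ : ℝ) (x : V (M / l)) (F : V (M / l) → ℝ) : Prop where
  osc : ∀ v, |F v - av D0 x F| ≤ G
  full : Rn M b t (lft (cl : V M → V (M / l)) F) ≤ τ
  win : WgM M B l b t D0 D1 G τ₀ Λ₁ x F

/-- the number of the locality, `D2 ξ ≤ D0 l` -/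
theorem near_one (H : UG M B l b hb ξ t y y' c C c4 C4 r D0 D1 D)
    (oM : OscZ (wT b M) (mt M t) (1 / 2)) (oB : OscZ (wT b B) (mt B t) (1 / 2))
    {G τ τ₀ Λ₁ Λ D2 : ℝ} (hG0 : 0 ≤ G) (hD2 : 0 ≤ D2) (hDl : D2 * ξ ≤ D0 * l)
    (hΛ : Λ₁ + 2592 * (t * (ξ : ℝ) ^ 2) * kn l ξ D1 ≤ Λ)
    (hτ : τ₀ + erR3 ξ t c C G Λ (kn l ξ D1) r + 2 ≤ τ) (x : V (M / l)) {F : V (M / l) → ℝ}
    (hF : Gd1 M B l b t D0 D1 G τ τ₀ Λ₁ x F) :
    ‖uc M l b t x F - mcm M l b t D0 x F‖ ≤ elo M l ξ t c4 C4 τ G D2 := by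
  have hfit : 2 * D0 < M / l := by
    obtain ⟨q, _, h1, h2, _⟩ := gqa_fit H
    have := H.hD01
    omega
  refine loc_ucm hb H.ht H.hξ H.hlN H.hC4 H.lbN oM hD2 hDl hG0 x hF.osc hF.full ?_
  have h := (uc_two3 H oM oB hG0 hF.win hΛ hτ x 0).2.1
  rw [cutm_eq hfit]
  exact h

/-- **(VT0) one torus**: `Lcl` of the real densities with mean reference -/
theorem lcl_ucm1 (H : UG M B l b hb ξ t y y' c C c4 C4 r D0 D1 D)
    (oM : OscZ (wT b M) (mt M t) (1 / 2)) (oB : OscZ (wT b B) (mt B t) (1 / 2))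
    {G τ τ₀ Λ₁ Λ D2 : ℝ} (hG0 : 0 ≤ G) (hD2 : 0 ≤ D2) (hDl : D2 * ξ ≤ D0 * l)
    (hΛ : Λ₁ + 2592 * (t * (ξ : ℝ) ^ 2) * kn l ξ D1 ≤ Λ)
    (hτ : τ₀ + erR3 ξ t c C G Λ (kn l ξ D1) r + 2 ≤ τ)
    {A : Matrix (V (M / l)) (V (M / l)) ℝ} {Gd : V (M / l) → Set (V (M / l) → ℝ)}
    (hGd : ∀ x, MeasurableSet (Gd x)) {p : ℝ} (hp0 : 0 ≤ p)
    (hg : ∀ x, ∀ F ∈ Gd x, Gd1 M B l b t D0 D1 G τ τ₀ Λ₁ x F)
    (hp : ∀ x, (gau (V (M / l))).real {g | H363.pin A *ᵥ g ∉ Gd x} ≤ p ^ 2) :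
    Lcl A D0 (elo M l ξ t c4 C4 τ G D2 + Real.pi⁻¹ * (t * (l : ℝ) ^ 2) * p)
      (Real.pi⁻¹ * (t * (l : ℝ) ^ 2)) (uc M l b t) (mcm M l b t D0) := by
  have ht := H.ht
  have hξ' : (0 : ℝ) < ξ := by exact_mod_cast H.hξ
  have he0 : 0 ≤ elo M l ξ t c4 C4 τ G D2 := by
    have := H.hC4
    unfold elo
    positivity
  refine lcl_ucm hb ht H.hlN fun x => ?_
  have hc : Continuous fun F => uc M l b t x F - uc M l b t x (cutm D0 x F) :=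
    (continuous_uc hb ht x).sub ((continuous_uc hb ht x).comp (continuous_cutm D0 x))
  have hB : ∀ F, ‖uc M l b t x F - uc M l b t x (cutm D0 x F)‖ ≤
      Real.pi⁻¹ * (t * (l : ℝ) ^ 2) := by
    intro F
    refine (norm_sub_le _ _).trans ((add_le_add (norm_uc_le hb ht H.hlN x F)
      (norm_uc_le hb ht H.hlN x _)).trans (le_of_eq ?_))
    have := Real.pi_pos
    field_simp
    ring
  have h := H552.l2_good (P := gau (V (M / l))) (X := fun g => H363.pin A *ᵥ g)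
    (measurable_mulVec (H363.pin A)) hc.measurable (hGd x)
    (fun F hF => near_one H oM oB hG0 hD2 hDl hΛ hτ x (hg x F hF)) hB (hp x)
  have hb0 : 0 ≤ Real.pi⁻¹ * (t * (l : ℝ) ^ 2) := (norm_nonneg _).trans (hB 0)
  rw [← tn2_sq hc.measurable hB A] at h
  refine le_of_sq_le_sq (h.trans ?_) (by positivity)
  nlinarith [mul_nonneg he0 (mul_nonneg hb0 hp0)]

/-- the transported cut field -/
theorem near_two (HM : UG M B l b hb ξ t y y' c C c4 C4 r D0 D1 D)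
    (HN : UG N B l b hb ξ t y'' y' c C c4 C4 r D0 D1 D)
    (oN : OscZ (wT b N) (mt N t) (1 / 2)) (oM : OscZ (wT b M) (mt M t) (1 / 2))
    (oB : OscZ (wT b B) (mt B t) (1 / 2))
    {G τ τ₀ Λ₁ Λ D2 : ℝ} (hG0 : 0 ≤ G) (hD2 : 0 ≤ D2) (hDl : D2 * ξ ≤ D0 * l)
    (hΛ : Λ₁ + 2592 * (t * (ξ : ℝ) ^ 2) * kn l ξ D1 ≤ Λ)
    (hτ : τ₀ + erR3 ξ t c C G Λ (kn l ξ D1) r + 2 ≤ τ) (x : V (M / l)) {F : V (M / l) → ℝ}
    (hF : Gd1 M B l b t D0 D1 G τ τ₀ Λ₁ x F) (hFN : WgM N B l b t D0 D1 G τ₀ Λ₁ x F) :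
    ‖uc M l b t x F - H733.Vt.lft D0 (mcm N l b t D0) x F‖ ≤
      elo M l ξ t c4 C4 τ G D2 + (eru3 M B l ξ t c C c4 C4 D τ G Λ (kn l ξ D1) r +
        eru3 N B l ξ t c C c4 C4 D τ G Λ (kn l ξ D1) r) := by
  have hfM : 2 * D0 < M / l := by
    obtain ⟨q, _, h1, h2, _⟩ := gqa_fit HM
    have := HM.hD01
    omega
  have hfN : 2 * D0 < N / l := by
    obtain ⟨q, _, h1, h2, _⟩ := gqa_fit HN
    have := HN.hD01
    omega
  have h1 := near_one HM oM oB hG0 hD2 hDl hΛ hτ x hF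
  have h2 := (uc_two3 HM oM oB hG0 hF.win hΛ hτ x 0).1
  have h3 := (uc_two3 HN oN oB hG0 hFN hΛ hτ 0 0).1
  have e1 : mcm M l b t D0 x F =
      uc M l b t x (cwa (M / l) D0 (hx x F) (avz D0 (hx x F)) x) := by
    unfold mcm
    rw [cutm_eq hfM]
    rfl
  have e2 : H733.Vt.lft D0 (mcm N l b t D0) x F =
      uc N l b t 0 (cwa (N / l) D0 (hx x F) (avz D0 (hx x F)) 0) := by
    unfold H733.Vt.lft mcm
    rw [cutm_trp hfN]
    rfl
  rw [e1] at h1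
  rw [e2]
  set a1 := uc M l b t x F
  set a2 := uc M l b t x (cwa (M / l) D0 (hx x F) (avz D0 (hx x F)) x)
  set a3 := uc B l b t 0 (cwa (B / l) D0 (hx x F) (avz D0 (hx x F)) 0)
  set a4 := uc N l b t 0 (cwa (N / l) D0 (hx x F) (avz D0 (hx x F)) 0)
  have e3 : a1 - a4 = (a1 - a2) + ((a2 - a3) + (a3 - a4)) := by ring
  rw [e3]
  refine (norm_add_le _ _).trans (add_le_add h1 ((norm_add_le _ _).trans (add_le_add h2 ?_)))
  rw [norm_sub_rev]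
  exact h3

/-- **(VT0) two tori**: the hypothesis of helper733's `lcl_same`, `Den.tor` -/
theorem lcl_ucm2 (HM : UG M B l b hb ξ t y y' c C c4 C4 r D0 D1 D)
    (HN : UG N B l b hb ξ t y'' y' c C c4 C4 r D0 D1 D)
    (oN : OscZ (wT b N) (mt N t) (1 / 2)) (oM : OscZ (wT b M) (mt M t) (1 / 2))
    (oB : OscZ (wT b B) (mt B t) (1 / 2))
    {G τ τ₀ Λ₁ Λ D2 : ℝ} (hG0 : 0 ≤ G) (hD2 : 0 ≤ D2) (hDl : D2 * ξ ≤ D0 * l)
    (hΛ : Λ₁ + 2592 * (t * (ξ : ℝ) ^ 2) * kn l ξ D1 ≤ Λ)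
    (hτ : τ₀ + erR3 ξ t c C G Λ (kn l ξ D1) r + 2 ≤ τ)
    {A : Matrix (V (M / l)) (V (M / l)) ℝ} {Gd : V (M / l) → Set (V (M / l) → ℝ)}
    (hGd : ∀ x, MeasurableSet (Gd x)) {p : ℝ} (hp0 : 0 ≤ p)
    (hg : ∀ x, ∀ F ∈ Gd x, Gd1 M B l b t D0 D1 G τ τ₀ Λ₁ x F ∧
      WgM N B l b t D0 D1 G τ₀ Λ₁ x F)
    (hp : ∀ x, (gau (V (M / l))).real {g | H363.pin A *ᵥ g ∉ Gd x} ≤ p ^ 2) :
    Lcl A D0 (elo M l ξ t c4 C4 τ G D2 + (eru3 M B l ξ t c C c4 C4 D τ G Λ (kn l ξ D1) r +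
        eru3 N B l ξ t c C c4 C4 D τ G Λ (kn l ξ D1) r) + Real.pi⁻¹ * (t * (l : ℝ) ^ 2) * p)
      (Real.pi⁻¹ * (t * (l : ℝ) ^ 2)) (uc M l b t) (H733.Vt.lft D0 (mcm N l b t D0)) := by
  have ht := HM.ht
  have hξ' : (0 : ℝ) < ξ := by exact_mod_cast HM.hξ
  have hfN : 2 * D0 < N / l := by
    obtain ⟨q, _, h1, h2, _⟩ := gqa_fit HN
    have := HN.hD01
    omega
  refine H733.Vt.lcl_lft (lcl_mcm hb ht HN.hlN (1 : Matrix (V (N / l)) (V (N / l)) ℝ) D0)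
    fun x => ?_
  set e := elo M l ξ t c4 C4 τ G D2 + (eru3 M B l ξ t c C c4 C4 D τ G Λ (kn l ξ D1) r +
    eru3 N B l ξ t c C c4 C4 D τ G Λ (kn l ξ D1) r) with he
  have he0 : 0 ≤ e := by
    have h4 := HM.hC4
    have k1 := err9q_nonneg C c (A := t * (ξ : ℝ) ^ 2 * (G + 1)) (by positivity) Λ
      (kn l ξ D1) r ξ
    rw [he]
    unfold elo eru3
    positivity
  have hcN : Continuous fun F : V (M / l) → ℝ => H733.Vt.lft D0 (mcm N l b t D0) x F := by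
    unfold H733.Vt.lft mcm
    refine (continuous_uc hb ht 0).comp ((continuous_cutm D0 0).comp ?_)
    exact continuous_pi fun v => continuous_apply _
  have hc : Continuous fun F => uc M l b t x F - H733.Vt.lft D0 (mcm N l b t D0) x F :=
    (continuous_uc hb ht x).sub hcN
  have hB : ∀ F, ‖uc M l b t x F - H733.Vt.lft D0 (mcm N l b t D0) x F‖ ≤
      Real.pi⁻¹ * (t * (l : ℝ) ^ 2) := by
    intro F
    refine (norm_sub_le _ _).trans ((add_le_add (norm_uc_le hb ht HM.hlN x F)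
      (norm_uc_le hb ht HN.hlN 0 _)).trans (le_of_eq ?_))
    have := Real.pi_pos
    field_simp
    ring
  have h := H552.l2_good (P := gau (V (M / l))) (X := fun g => H363.pin A *ᵥ g)
    (measurable_mulVec (H363.pin A)) hc.measurable (hGd x)
    (fun F hF => near_two HM HN oN oM oB hG0 hD2 hDl hΛ hτ x (hg x F hF).1 (hg x F hF).2) hB
    (hp x)
  have hb0 : 0 ≤ Real.pi⁻¹ * (t * (l : ℝ) ^ 2) := (norm_nonneg _).trans (hB 0)
  rw [← tn2_sq hc.measurable hB A] at h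
  refine le_of_sq_le_sq (h.trans ?_) (by positivity)
  nlinarith [mul_nonneg he0 (mul_nonneg hb0 hp0)]

end Vale.Agent.P159.H358
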