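import Vale.Agent.P159.H358.Up5

/-!
P159, module VTOR, numbers for fine cells, part 1: scalar estimates.
Letters: `ξ = l Q`, `1/ξ² ≤ t ≤ 4/ξ²`, `L ≥ 1`, `N, M, B ≤ e^{qL} ξ`, `Q ≤ e^{qL}`,
`A₀ L ξ ≤ D₀ l ≤ A' L ξ`.
-/

open Finset MeasureTheory

set_option linter.unusedSectionVars false
set_option linter.unusedDecidableInType false

namespace Vale.Agent.P159.H358

open Matrix

/-- geometry of the numbers -/
structure Nm (ξ l Q D0 : ℕ) (t L q A' : ℝ) : Prop where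
  hξ : l * Q = ξ
  hl : 0 < l
  hQ : 0 < Q
  t1 : 1 / (ξ : ℝ) ^ 2 ≤ t
  t2 : t ≤ 4 / (ξ : ℝ) ^ 2
  hL : 1 ≤ L
  hq : 0 ≤ q
  hQq : (Q : ℝ) ≤ Real.exp (q * L)
  hA : 1 ≤ A'
  hD : (D0 : ℝ) * l ≤ A' * L * ξ

section nm

variable {ξ l Q D0 : ℕ} {t L q A' : ℝ}

theorem Nm.ξ0 (H : Nm ξ l Q D0 t L q A') : 0 < ξ := by
  rw [← H.hξ]
  exact Nat.mul_pos H.hl H.hQ

theorem Nm.ξ0' (H : Nm ξ l Q D0 t L q A') : (0 : ℝ) < ξ := by exact_mod_cast H.ξ0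

theorem Nm.l0 (H : Nm ξ l Q D0 t L q A') : (0 : ℝ) < l := by exact_mod_cast H.hl

theorem Nm.Q0 (H : Nm ξ l Q D0 t L q A') : (0 : ℝ) < Q := by exact_mod_cast H.hQ

theorem Nm.L0 (H : Nm ξ l Q D0 t L q A') : 0 < L := lt_of_lt_of_le one_pos H.hL

theorem Nm.ξe (H : Nm ξ l Q D0 t L q A') : (ξ : ℝ) = l * Q := by
  rw [← H.hξ]
  push_cast
  rfl

theorem Nm.t0 (H : Nm ξ l Q D0 t L q A') : 0 < t := by
  have := H.ξ0'
  exact lt_of_lt_of_le (by positivity) H.t1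

theorem Nm.tx1 (H : Nm ξ l Q D0 t L q A') : 1 ≤ t * (ξ : ℝ) ^ 2 := by
  have h := H.ξ0'
  have := H.t1
  rwa [div_le_iff₀ (by positivity)] at this

theorem Nm.tx4 (H : Nm ξ l Q D0 t L q A') : t * (ξ : ℝ) ^ 2 ≤ 4 := by
  have h := H.ξ0'
  have := H.t2
  rwa [le_div_iff₀ (by positivity)] at this

theorem Nm.lξ (H : Nm ξ l Q D0 t L q A') : (l : ℝ) ≤ ξ := by
  rw [H.ξe]
  have : (1 : ℝ) ≤ Q := by exact_mod_cast H.hQ
  nlinarith [H.l0]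

theorem Nm.w1 (H : Nm ξ l Q D0 t L q A') : (2 * (D0 : ℝ) + 1) * l ≤ 3 * (A' * L * ξ) := by
  have h1 := H.hD
  have h2 := H.lξ
  have h3 : (ξ : ℝ) ≤ A' * L * ξ := by
    have : 1 ≤ A' * L := by nlinarith [H.hA, H.hL]
    nlinarith [H.ξ0']
  linarith

theorem Nm.w2 (H : Nm ξ l Q D0 t L q A') :
    t * (l : ℝ) ^ 2 * (2 * (D0 : ℝ) + 1) ^ 2 ≤ 36 * A' ^ 2 * L ^ 2 := by
  have h0 : 0 ≤ (2 * (D0 : ℝ) + 1) * l := by
    have := H.l0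
    positivity
  have h1 := pow_le_pow_left₀ h0 H.w1 2
  have h2 := mul_le_mul_of_nonneg_left h1 H.t0.le
  have h3 := H.tx4
  have h4 : 0 ≤ 9 * A' ^ 2 * L ^ 2 := by positivity
  have h5 := mul_le_mul_of_nonneg_left h3 h4
  calc t * (l : ℝ) ^ 2 * (2 * (D0 : ℝ) + 1) ^ 2 = t * ((2 * (D0 : ℝ) + 1) * l) ^ 2 := by ring
    _ ≤ t * (3 * (A' * L * ξ)) ^ 2 := h2
    _ = 9 * A' ^ 2 * L ^ 2 * (t * (ξ : ℝ) ^ 2) := by ring
    _ ≤ 9 * A' ^ 2 * L ^ 2 * 4 := h5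
    _ = _ := by ring

/-- number of cells of a side -/
theorem Nm.side (H : Nm ξ l Q D0 t L q A') {K : ℕ} (hlK : l ∣ K) (hK : (K : ℝ) ≤ Real.exp (q * L) * ξ) :
    ((K / l : ℕ) : ℝ) ≤ Real.exp (2 * q * L) := by
  have hl := H.l0
  rw [Nat.cast_div hlK hl.ne', div_le_iff₀ hl]
  have e : Real.exp (2 * q * L) = Real.exp (q * L) * Real.exp (q * L) := by
    rw [← Real.exp_add]
    ring_nf
  rw [e]
  have h1 := H.ξe
  have h2 := H.hQq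
  have h3 : (0 : ℝ) < Real.exp (q * L) := Real.exp_pos _
  calc (K : ℝ) ≤ Real.exp (q * L) * ξ := hK
    _ = Real.exp (q * L) * l * Q := by rw [h1]; ring
    _ ≤ Real.exp (q * L) * l * Real.exp (q * L) := mul_le_mul_of_nonneg_left h2 (by positivity)
    _ = _ := by ring

theorem log_side {n : ℕ} {q L : ℝ} (hq : 0 ≤ q) (hL : 1 ≤ L) (h : (n : ℝ) ≤ Real.exp (2 * q * L)) :
    1 + Real.log (1 + (n : ℝ) ^ 2) ≤ (2 + 4 * q) * L := by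
  have h0 : (0 : ℝ) ≤ n := Nat.cast_nonneg n
  have h1 : 1 + (n : ℝ) ^ 2 ≤ Real.exp (1 + 4 * q * L) := by
    have h2 := pow_le_pow_left₀ h0 h 2
    have h3 : Real.exp (2 * q * L) ^ 2 = Real.exp (4 * q * L) := by
      rw [← Real.exp_nat_mul]
      congr 1
      push_cast
      ring
    rw [h3] at h2
    have h4 : 1 ≤ Real.exp (4 * q * L) := Real.one_le_exp (by positivity)
    have h5 : (2 : ℝ) ≤ Real.exp 1 := by linarith [Real.add_one_le_exp (1 : ℝ)]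
    rw [Real.exp_add]
    nlinarith
  have h6 : Real.log (1 + (n : ℝ) ^ 2) ≤ 1 + 4 * q * L := by
    rw [Real.log_le_iff_le_exp (by positivity)]
    exact h1
  nlinarith

theorem log_side1 {n : ℕ} {q L : ℝ} (hq : 0 ≤ q) (hL : 1 ≤ L)
    (h : (n : ℝ) ≤ Real.exp (2 * q * L)) : 1 + Real.log (n : ℝ) ≤ (1 + 2 * q) * L := by
  rcases Nat.eq_zero_or_pos n with h0 | h0
  · rw [h0, Nat.cast_zero, Real.log_zero]
    nlinarith
  · have h1 : (0 : ℝ) < n := by exact_mod_cast h0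
    have h2 : Real.log (n : ℝ) ≤ 2 * q * L := by
      rw [Real.log_le_iff_le_exp h1]
      exact h
    nlinarith

/-- constant of the covariance -/
noncomputable def K3 (A' q c0 : ℝ) : ℝ := 1 + c0⁻¹ * (36 * A' ^ 2 * (50 * (2 + 4 * q)))

theorem K3_pos {A' q c0 : ℝ} (hq : 0 ≤ q) (hc : 0 < c0) : 1 ≤ K3 A' q c0 := by
  unfold K3
  have : 0 ≤ c0⁻¹ * (36 * A' ^ 2 * (50 * (2 + 4 * q))) := by positivity
  linarith

theorem Nm.tκ (H : Nm ξ l Q D0 t L q A') {n : ℕ} (hn : (n : ℝ) ≤ Real.exp (2 * q * L)) {c c0 : ℝ}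
    (hc0 : 0 < c0) (hc : c0 ≤ c) :
    t * (l : ℝ) ^ 2 * κw n D0 (t * (l : ℝ) ^ 2) c ≤ K3 A' q c0 * L ^ 3 := by
  have ht := H.t0
  have hl := H.l0
  have hL := H.hL
  have hq := H.hq
  have hc' : 0 < c := hc0.trans_le hc
  have h1 := log_side hq hL hn
  have h2 := H.w2
  have hlog := log_nn n
  unfold κw K3
  have e1 : t * (l : ℝ) ^ 2 * ((t * (l : ℝ) ^ 2)⁻¹ +
      c⁻¹ * ((2 * (D0 : ℝ) + 1) ^ 2 * (50 * (1 + Real.log (1 + (n : ℝ) ^ 2))))) =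
      1 + c⁻¹ * ((t * (l : ℝ) ^ 2 * (2 * (D0 : ℝ) + 1) ^ 2) *
        (50 * (1 + Real.log (1 + (n : ℝ) ^ 2)))) := by
    field_simp
  rw [e1]
  have h3 : (t * (l : ℝ) ^ 2 * (2 * (D0 : ℝ) + 1) ^ 2) * (50 * (1 + Real.log (1 + (n : ℝ) ^ 2))) ≤
      (36 * A' ^ 2 * L ^ 2) * (50 * ((2 + 4 * q) * L)) :=
    mul_le_mul h2 (by linarith) (by positivity) (by positivity)
  have h4 : c⁻¹ ≤ c0⁻¹ := inv_anti₀ hc0 hc
  have h5 : c⁻¹ * ((t * (l : ℝ) ^ 2 * (2 * (D0 : ℝ) + 1) ^ 2) *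
      (50 * (1 + Real.log (1 + (n : ℝ) ^ 2)))) ≤
      c0⁻¹ * ((36 * A' ^ 2 * L ^ 2) * (50 * ((2 + 4 * q) * L))) :=
    mul_le_mul h4 h3 (by positivity) (by positivity)
  have h6 : 1 ≤ L ^ 3 := one_le_pow₀ hL
  calc _ ≤ 1 + c0⁻¹ * ((36 * A' ^ 2 * L ^ 2) * (50 * ((2 + 4 * q) * L))) := by linarith
    _ = 1 + (c0⁻¹ * (36 * A' ^ 2 * (50 * (2 + 4 * q)))) * L ^ 3 := by ring
    _ ≤ _ := by linarith

/-- constant of the energies -/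
noncomputable def K4 (A' q c0 κ₀ : ℝ) : ℝ := K3 A' q c0 * (36 * A' ^ 2) * (1 + (1 + 2 * q) / κ₀)

theorem K4_pos {A' q c0 κ₀ : ℝ} (hA : 1 ≤ A') (hq : 0 ≤ q) (hc : 0 < c0) (hκ : 0 < κ₀) :
    0 < K4 A' q c0 κ₀ := by
  unfold K4
  have := K3_pos (A' := A') hq hc
  have : 0 < K3 A' q c0 := by linarith
  have : 0 < A' := by linarith
  positivity

theorem Nm.TE_le (H : Nm ξ l Q D0 t L q A') {n K : ℕ} (hn : (n : ℝ) ≤ Real.exp (2 * q * L))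
    {c c0 κ₀ : ℝ} (hc0 : 0 < c0) (hc : c0 ≤ c) (hκ₀ : 0 < κ₀) (hlK : l ∣ K)
    (hK : (K : ℝ) ≤ Real.exp (q * L) * ξ) (hξK : ξ ≤ K) :
    TE K l t (κw n D0 (t * (l : ℝ) ^ 2) c) κ₀ D0 ≤ K4 A' q c0 κ₀ * L ^ 6 := by
  have ht := H.t0
  have hl := H.l0
  have hL := H.hL
  have hq := H.hq
  have hL0 := H.L0
  have hξ := H.ξ0'
  have hc' : 0 < c := hc0.trans_le hc
  have h1 := H.tκ hn hc0 hc
  have h2 := H.w2
  have h3 := log_side1 hq hL (H.side hlK hK)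
  have hlog : 0 ≤ Real.log ((K / l : ℕ) : ℝ) := Real.log_natCast_nonneg _
  have hK0 : (0 : ℝ) < K := lt_of_lt_of_le hξ (by exact_mod_cast hξK)
  have h4 : 1 / (t * (K : ℝ) ^ 2) ≤ 1 := by
    rw [div_le_one (by positivity)]
    refine H.tx1.trans ?_
    have : (ξ : ℝ) ^ 2 ≤ (K : ℝ) ^ 2 := pow_le_pow_left₀ hξ.le (by exact_mod_cast hξK) 2
    exact mul_le_mul_of_nonneg_left this ht.le
  have h5 : 1 / (t * (K : ℝ) ^ 2) + (1 + Real.log ((K / l : ℕ) : ℝ)) / κ₀ ≤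
      (1 + (1 + 2 * q) / κ₀) * L := by
    have h6 : (1 + Real.log ((K / l : ℕ) : ℝ)) / κ₀ ≤ ((1 + 2 * q) * L) / κ₀ :=
      div_le_div_of_nonneg_right h3 hκ₀.le
    have e : (1 + (1 + 2 * q) / κ₀) * L = L + ((1 + 2 * q) * L) / κ₀ := by ring
    rw [e]
    linarith
  have hκ : 0 < κw n D0 (t * (l : ℝ) ^ 2) c := by
    have := log_nn n
    unfold κw
    positivity
  have hk3 := K3_pos (A' := A') hq hc0
  have hk3' : 0 < K3 A' q c0 := by linarith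
  unfold TE K4
  have h7 : (t * (l : ℝ) ^ 2 * κw n D0 (t * (l : ℝ) ^ 2) c) *
      (t * (l : ℝ) ^ 2 * (2 * (D0 : ℝ) + 1) ^ 2) ≤ (K3 A' q c0 * L ^ 3) * (36 * A' ^ 2 * L ^ 2) :=
    mul_le_mul h1 h2 (by positivity) (by positivity)
  have h8 := mul_le_mul h7 h5 (by positivity) (by positivity)
  refine h8.trans (le_of_eq ?_)
  ring

theorem TE_pos {K l : ℕ} {t κ κ₀ : ℝ} {D0 : ℕ} (ht : 0 < t) (hl : (0 : ℝ) < l) (hκ : 0 < κ)
    (hκ₀ : 0 < κ₀) : 0 < TE K l t κ κ₀ D0 := by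
  have hlog : 0 ≤ Real.log ((K / l : ℕ) : ℝ) := Real.log_natCast_nonneg _
  unfold TE
  positivity

/-- tail of the energies -/
theorem Nm.en_exp (H : Nm ξ l Q D0 t L q A') {n K : ℕ} (hn : (n : ℝ) ≤ Real.exp (2 * q * L))
    {c c0 κ₀ bb : ℝ} (hc0 : 0 < c0) (hc : c0 ≤ c) (hκ₀ : 0 < κ₀) (hlK : l ∣ K)
    (hK : (K : ℝ) ≤ Real.exp (q * L) * ξ) (hξK : ξ ≤ K) (hbb : 0 ≤ bb) :
    Real.exp (-(512 * (K4 A' q c0 κ₀ * L ^ 6) * (bb * L) /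
      (512 * TE K l t (κw n D0 (t * (l : ℝ) ^ 2) c) κ₀ D0))) ≤ Real.exp (-(bb * L)) := by
  have h1 := H.TE_le hn hc0 hc hκ₀ hlK hK hξK
  have hL0 := H.L0
  have hc' : 0 < c := hc0.trans_le hc
  have ht := H.t0
  have hl := H.l0
  have h2 : 0 < TE K l t (κw n D0 (t * (l : ℝ) ^ 2) c) κ₀ D0 := by
    refine TE_pos ht hl ?_ hκ₀
    have := log_nn n
    unfold κw
    positivity
  refine Real.exp_le_exp.2 (neg_le_neg ?_)
  rw [le_div_iff₀ (by positivity)]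
  have h3 : 0 ≤ bb * L := by positivity
  nlinarith [mul_le_mul_of_nonneg_left h1 h3]

/-! ### numbers of balls and blocks -/

theorem Nm.AL (H : Nm ξ l Q D0 t L q A') : 1 ≤ A' * L := by nlinarith [H.hA, H.hL]

theorem Nm.kn_le (H : Nm ξ l Q D0 t L q A') : (kn l ξ D0 : ℝ) ≤ 16 * A' ^ 2 * L ^ 2 := by
  have hξ := H.ξ0'
  unfold kn
  push_cast
  have h1 : (((2 * D0 + 1) * l / ξ : ℕ) : ℝ) ≤ 3 * (A' * L) := by
    refine (Nat.cast_div_le).trans ?_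
    rw [div_le_iff₀ hξ]
    push_cast
    have := H.w1
    linarith
  have h2 := H.AL
  have h0 : (0 : ℝ) ≤ (((2 * D0 + 1) * l / ξ : ℕ) : ℝ) := Nat.cast_nonneg _
  calc ((((2 * D0 + 1) * l / ξ : ℕ) : ℝ) + 1) ^ 2 ≤ (4 * (A' * L)) ^ 2 :=
        pow_le_pow_left₀ (by positivity) (by linarith) 2
    _ = _ := by ring

theorem Nm.m_le (H : Nm ξ l Q D0 t L q A') :
    (((2 * D0 / Q + 2) ^ 2 : ℕ) : ℝ) ≤ 16 * A' ^ 2 * L ^ 2 := by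
  have hQ := H.Q0
  have hl := H.l0
  push_cast
  have h1 : ((2 * D0 / Q : ℕ) : ℝ) ≤ 2 * (A' * L) := by
    refine (Nat.cast_div_le).trans ?_
    rw [div_le_iff₀ hQ]
    push_cast
    have h2 := H.hD
    rw [H.ξe] at h2
    have h3 : (D0 : ℝ) * l ≤ (A' * L * Q) * l := by linarith
    have h4 := le_of_mul_le_mul_right h3 hl
    linarith
  have h2 := H.AL
  have h0 : (0 : ℝ) ≤ ((2 * D0 / Q : ℕ) : ℝ) := Nat.cast_nonneg _
  calc (((2 * D0 / Q : ℕ) : ℝ) + 2) ^ 2 ≤ (4 * (A' * L)) ^ 2 :=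
        pow_le_pow_left₀ (by positivity) (by linarith) 2
    _ = _ := by ring

end nm

end Vale.Agent.P159.H358
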