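import Vale.Agent.P159.H358.Un9
import Vale.Agent.P159.H316.Zb13

/-!
P159, module VTOR, numbers for fine cells, part 10: the full field in every law below a law close to
the typical law.
-/

open Finset MeasureTheory Filter Topology

set_option linter.unusedSectionVars false
set_option linter.unusedDecidableInType false

namespace Vale.Agent.P159.H358

open Vale.Agent.P159.TM.Spec (V Rng)
open Vale.Agent.P159.TM.SpecC (wT)
open Vale.Agent.P159.H37 (gau Rs qf)
open Vale.Agent.P159.H552 (lft)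
open Vale.Agent.P159.H864 (cl MC yt)
open Vale.Agent.P159.H462 (Dom)
open Vale.Agent.P159.H363 (acl Nf rel lf Below n2 below_pin Rcl)
open Vale.Agent.P159.H239 (TypE)
open Vale.Agent.P159.H896 (srcF)
open Vale.Agent.P159.H972 (Par lg tn RNG Good GP)
open Matrix

section below

variable {N l : ℕ} [NeZero N] [NeZero (N / l)] {b T : ℝ}

/-- `Rn` of a cell field is `Rcl` of twice the field -/
theorem Rn_Rcl (F : V (N / l) → ℝ) :
    Rn N b T (lft (cl : V N → V (N / l)) F) = Rcl N l b T T ((2 : ℝ) • F) := by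
  rw [Rn_srcF]
  unfold H363.Rcl H896.srcF
  rw [H963.nMC_self, H363.lf_smul, mulVec_smul]

/-- a law below is a convolution factor -/
theorem below_split {n : ℕ} [NeZero n] {A : Matrix (V n) (V n) ℝ} {I : Type} [Fintype I]
    {Bm : Matrix (V n) I ℝ} (h : Below A Bm) :
    ∃ D : Matrix (V n) (V n) ℝ, H363.pin A * (H363.pin A)ᵀ = Bm * Bmᵀ + D * Dᵀ := by
  have hps : (H363.pin A * (H363.pin A)ᵀ - Bm * Bmᵀ).PosSemidef := by
    refine H859.psd_of ?_ fun x => ?_
    · rw [transpose_sub, transpose_mul, transpose_mul, transpose_transpose, transpose_transpose]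
    · have h1 := h x
      rw [H363.vecMul_sq] at h1
      rw [H37.qf_eq] at h1 ⊢
      rw [sub_mulVec, dotProduct_sub]
      linarith
  obtain ⟨D, hD⟩ := H239.exists_increment hps
  exact ⟨D, by rw [← hD]; abel⟩

/-- the tail of `Rn` in every law below -/
theorem rn_below (hb : 0 ≤ b) (hl : l ∣ N) (hT : 0 < T)
    {A : Matrix (V (N / l)) (V (N / l)) ℝ} {I : Type} [Fintype I]
    {Bm : Matrix (V (N / l)) I ℝ} (h : Below A Bm) (hm : Measurable fun F : V (N / l) → ℝ =>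
      Rn N b T (lft (cl : V N → V (N / l)) F)) (ρ : ℝ) :
    (gau I).real {g | ρ < Rn N b T (lft (cl : V N → V (N / l)) (Bm *ᵥ g))} ≤
      2 * (gau (V (N / l))).real {g | ρ < Rn N b T
        (lft (cl : V N → V (N / l)) (H363.pin A *ᵥ g))} := by
  obtain ⟨D, hD⟩ := below_split h
  refine H316.prob_dom (H363.pin A) Bm D hD hm (fun x y => ?_) ρ
  rw [Rn_Rcl, Rn_Rcl, Rn_Rcl]
  exact H316.Rcl_mid_smul hb hl hT le_rfl 2 x y

end below

/-- the probability after the change of law, every law below -/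
theorem Sq.prob2 {th e : ℝ} (S : Sq th e) (he : 0 < e) (he1 : e ≤ 1) (hth1 : th ≤ 1)
    {x : ℝ} (hx : x ≤ 6 * Real.exp (-(e ^ (-(th / 16))))) :
    2 * (4 * x + 2 * (4 : ℝ) ^ (-(1 / (2 * e ^ (22 / 25 : ℝ))))) ≤
      Real.exp (-(e ^ (-(th / 20)))) := by
  set u : ℝ := e ^ (-(th / 16)) with hu
  have hu0 : 0 < u := Real.rpow_pos_of_pos he _
  -- `u` is large
  have h16 : 16 ≤ u := by
    have h1 := S.b2
    have h2 : e ^ (th / 16) * u = 1 := by
      rw [hu, ← Real.rpow_add he, add_neg_cancel, Real.rpow_zero]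
    have h3 := mul_le_mul_of_nonneg_right h1 hu0.le
    rw [mul_assoc, h2] at h3
    linarith
  have h20 : e ^ (-(th / 20)) ≤ u / 4 := by
    have h1 := S.b1
    have h2 : e ^ (-(th / 20)) = e ^ (th / 80) * u := by
      rw [hu, ← Real.rpow_add he]
      congr 1
      ring
    rw [h2]
    have h3 := mul_le_mul_of_nonneg_right h1 hu0.le
    linarith
  have hη : (4 : ℝ) ^ (-(1 / (2 * e ^ (22 / 25 : ℝ)))) ≤ Real.exp (-(u / 2)) := by
    have h1 : u ≤ 1 / e ^ (22 / 25 : ℝ) := by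
      rw [hu, one_div, ← Real.rpow_neg he.le]
      exact Real.rpow_le_rpow_of_exponent_ge he he1 (by linarith)
    rw [Real.rpow_def_of_pos (by norm_num : (0 : ℝ) < 4)]
    refine Real.exp_le_exp.2 ?_
    have h4 : Real.log 4 = 2 * Real.log 2 := by
      rw [show (4 : ℝ) = 2 ^ 2 by norm_num, Real.log_pow]
      norm_num
    have h5 : (1 / 2 : ℝ) ≤ Real.log 2 := by linarith [Real.log_two_gt_d9]
    have h6 : 1 / (2 * e ^ (22 / 25 : ℝ)) = 1 / 2 * (1 / e ^ (22 / 25 : ℝ)) := by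
      rw [one_div_mul_one_div]
    rw [h4, h6]
    have h7 : 0 < 1 / e ^ (22 / 25 : ℝ) := by
      have := Real.rpow_pos_of_pos he (22 / 25 : ℝ)
      positivity
    nlinarith
  have h2 : Real.exp (-u) ≤ Real.exp (-(u / 2)) := Real.exp_le_exp.2 (by linarith)
  have h3 : Real.exp (-(u / 2)) * 52 ≤ Real.exp (-(u / 4)) := by
    have h4 : (52 : ℝ) ≤ Real.exp (u / 4) := by
      have k1 : (2.7 : ℝ) ≤ Real.exp 1 := by linarith [Real.exp_one_gt_d9]
      have k2 := pow_le_pow_left₀ (by norm_num) k1 4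
      rw [← Real.exp_nat_mul] at k2
      norm_num at k2
      have k3 : Real.exp 4 ≤ Real.exp (u / 4) := Real.exp_le_exp.2 (by linarith)
      linarith
    calc Real.exp (-(u / 2)) * 52 ≤ Real.exp (-(u / 2)) * Real.exp (u / 4) :=
          mul_le_mul_of_nonneg_left h4 (Real.exp_pos _).le
      _ = Real.exp (-(u / 4)) := by
          rw [← Real.exp_add]
          congr 1
          ring
  have h4 : Real.exp (-(u / 4)) ≤ Real.exp (-(e ^ (-(th / 20)))) :=
    Real.exp_le_exp.2 (by linarith)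
  linarith

/-- **the tail of `Rn` in every law below a law close to the typical law** -/
theorem rn_law' {P : Par} {b : ℝ} {s : ℕ} {e : ℝ} (hb : 0 < b) {r : ℕ}
    [NeZero (2 ^ r / 2 ^ s)] (hsr : s ≤ r) {T : ℝ} (hT : 0 < T)
    (he : 0 < e) (he1 : e ≤ 1) (hth1 : P.th ≤ 1) (S : Sq P.th e)
    (htv : ∀ a', 0 < a' → a' < T → TypE (2 ^ r) (2 ^ s) b T a' (e ^ (-(P.th / 16))) 1
      (Real.exp (-(e ^ (-(P.th / 16))))))
    {A : Matrix (V (2 ^ r / 2 ^ s)) (V (2 ^ r / 2 ^ s)) ℝ} (hA : Nf A)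
    (hHS : ∑ k, rel (acl (2 ^ r) (2 ^ s) b T T) A k ^ 2 ≤ (e ^ (22 / 25 : ℝ)) ^ 2)
    {I : Type} [Fintype I] {Bm : Matrix (V (2 ^ r / 2 ^ s)) I ℝ} (hBm : Below A Bm) :
    (gau I).real {g | 8 < Rn (2 ^ r) b T
      (lft (cl : V (2 ^ r) → V (2 ^ r / 2 ^ s)) (Bm *ᵥ g))} ≤
      Real.exp (-(e ^ (-(P.th / 20)))) := by
  have hl : 2 ^ s ∣ 2 ^ r := pow_dvd_pow 2 hsr
  have hnf := nf_aclT (N := 2 ^ r) (l := 2 ^ s) hb hl hT
  have hth := P.th0
  set u : ℝ := e ^ (-(P.th / 16)) with hu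
  have hu0 : 0 < u := Real.rpow_pos_of_pos he _
  have h16 : 16 ≤ u := by
    have h1 := S.b2
    have h2 : e ^ (P.th / 16) * u = 1 := by
      rw [hu, ← Real.rpow_add he, add_neg_cancel, Real.rpow_zero]
    have h3 := mul_le_mul_of_nonneg_right h1 hu0.le
    rw [mul_assoc, h2] at h3
    linarith
  have hp : Real.exp (-u) ≤ 1 / 2 := by
    rw [Real.exp_neg, inv_le_comm₀ (Real.exp_pos _) (by norm_num)]
    linarith [Real.add_one_le_exp u]
  have h1 := rn_typ hb hl hT (by linarith : 2 ≤ u) hp htv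
  have hm := measurable_Rn (N := 2 ^ r) (l := 2 ^ s) hb hl hT
  have mB : MeasurableSet {F : V (2 ^ r / 2 ^ s) → ℝ | 8 < Rn (2 ^ r) b T
      (lft (cl : V (2 ^ r) → V (2 ^ r / 2 ^ s)) F)} :=
    measurableSet_lt measurable_const hm
  have hη0 : 0 < e ^ (22 / 25 : ℝ) := Real.rpow_pos_of_pos he _
  have h2 := law_set hnf hA hη0 S.b3 hHS mB
  have h3 := rn_below hb.le hl hT hBm hm 8
  have h4 := S.prob2 he he1 hth1 h1
  have h5 := mul_le_mul_of_nonneg_left h2 (show (0 : ℝ) ≤ 2 by norm_num)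
  exact h3.trans (h5.trans h4)

end Vale.Agent.P159.H358
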