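import Vale.Agent.P159.H358.Un1

/-!
P159, module VTOR, numbers for fine cells, part 2: amplitudes, blocks, gradient condition, errors.
-/

open Finset MeasureTheory

set_option linter.unusedSectionVars false
set_option linter.unusedDecidableInType false

namespace Vale.Agent.P159.H358

open Vale.Agent.P159.H816 (Gam)
open Matrix

section nm

variable {ξ l Q D0 : ℕ} {t L q A' : ℝ}

/-! ### oscillation -/

/-- constant of the variance -/
noncomputable def K5 (q c0 : ℝ) : ℝ := 4 + c0⁻¹ * (200 * (2 + 4 * q))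

theorem K5_pos {q c0 : ℝ} (hq : 0 ≤ q) (hc : 0 < c0) : 4 ≤ K5 q c0 := by
  unfold K5
  have : 0 ≤ c0⁻¹ * (200 * (2 + 4 * q)) := by positivity
  linarith

theorem Nm.inv_tl (H : Nm ξ l Q D0 t L q A') : (t * (l : ℝ) ^ 2)⁻¹ ≤ (Q : ℝ) ^ 2 := by
  have ht := H.t0
  have hl := H.l0
  have h := H.tx1
  rw [H.ξe] at h
  rw [inv_le_iff_one_le_mul₀ (by positivity)]
  linarith

theorem Nm.sig (H : Nm ξ l Q D0 t L q A') {n : ℕ} (hn : (n : ℝ) ≤ Real.exp (2 * q * L)) {c c0 : ℝ}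
    (hc0 : 0 < c0) (hc : c0 ≤ c) :
    4 * (t * (l : ℝ) ^ 2)⁻¹ + c⁻¹ * (200 * (1 + Real.log (1 + (n : ℝ) ^ 2))) ≤
      (√(K5 q c0 * L) * Q) ^ 2 := by
  have hq := H.hq
  have hL := H.hL
  have hL0 := H.L0
  have h5 := K5_pos hq hc0
  have hc' : 0 < c := hc0.trans_le hc
  have hQ1 : (1 : ℝ) ≤ Q := by exact_mod_cast H.hQ
  rw [mul_pow, Real.sq_sqrt (by positivity)]
  have h1 := H.inv_tl
  have h2 := log_side hq hL hn
  have hlog := log_nn n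
  have h3 : c⁻¹ * (200 * (1 + Real.log (1 + (n : ℝ) ^ 2))) ≤ c0⁻¹ * (200 * ((2 + 4 * q) * L)) :=
    mul_le_mul (inv_anti₀ hc0 hc) (by linarith) (by positivity) (by positivity)
  have hQ2 : (1 : ℝ) ≤ (Q : ℝ) ^ 2 := one_le_pow₀ hQ1
  have h4 : 4 * (t * (l : ℝ) ^ 2)⁻¹ ≤ 4 * L * (Q : ℝ) ^ 2 := by
    have : (Q : ℝ) ^ 2 ≤ L * (Q : ℝ) ^ 2 := le_mul_of_one_le_left (by positivity) hL
    linarith
  have h6 : c0⁻¹ * (200 * ((2 + 4 * q) * L)) ≤ c0⁻¹ * (200 * ((2 + 4 * q) * L)) * (Q : ℝ) ^ 2 :=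
    le_mul_of_one_le_right (by positivity) hQ2
  unfold K5
  calc _ ≤ 4 * L * (Q : ℝ) ^ 2 + c0⁻¹ * (200 * ((2 + 4 * q) * L)) * (Q : ℝ) ^ 2 := by linarith
    _ = _ := by ring

/-- constant of the amplitude, probability exponent `bb` -/
noncomputable def gc (q c0 bb : ℝ) : ℝ := 1 + 2 * K5 q c0 * (4 * q + bb)

theorem gc_pos {q c0 bb : ℝ} (hq : 0 ≤ q) (hc : 0 < c0) (hb : 0 ≤ bb) : 1 ≤ gc q c0 bb := by
  unfold gc
  have := K5_pos hq hc
  have : 0 ≤ 2 * K5 q c0 * (4 * q + bb) := by positivity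
  linarith

theorem Nm.osc_exp (H : Nm ξ l Q D0 t L q A') {n : ℕ} (hn : (n : ℝ) ≤ Real.exp (2 * q * L))
    {c0 bb : ℝ} (hc0 : 0 < c0) (hbb : 0 ≤ bb) :
    2 * (n : ℝ) ^ 2 * Real.exp (-((gc q c0 bb * L * Q / (√(K5 q c0 * L) * Q)) ^ 2 / 2)) ≤
      2 * Real.exp (-(bb * L)) := by
  have hq := H.hq
  have hL := H.hL
  have hL0 := H.L0
  have hQ := H.Q0
  have h5 := K5_pos hq hc0
  have hg := gc_pos hq hc0 hbb
  have e1 : (gc q c0 bb * L * Q / (√(K5 q c0 * L) * Q)) ^ 2 / 2 =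
      gc q c0 bb ^ 2 * L / (2 * K5 q c0) := by
    rw [div_pow, mul_pow √_, Real.sq_sqrt (by positivity)]
    field_simp
  rw [e1]
  have h1 : (4 * q + bb) * L ≤ gc q c0 bb ^ 2 * L / (2 * K5 q c0) := by
    rw [le_div_iff₀ (by positivity)]
    have h2 : gc q c0 bb ≤ gc q c0 bb ^ 2 := by nlinarith
    have h3 : 2 * K5 q c0 * (4 * q + bb) ≤ gc q c0 bb := by
      unfold gc
      linarith
    nlinarith
  have h0 : (0 : ℝ) ≤ n := Nat.cast_nonneg n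
  have h4 : (n : ℝ) ^ 2 ≤ Real.exp (4 * q * L) := by
    have h2 := pow_le_pow_left₀ h0 hn 2
    have h3 : Real.exp (2 * q * L) ^ 2 = Real.exp (4 * q * L) := by
      rw [← Real.exp_nat_mul]
      congr 1
      push_cast
      ring
    rwa [h3] at h2
  calc 2 * (n : ℝ) ^ 2 * Real.exp (-(gc q c0 bb ^ 2 * L / (2 * K5 q c0)))
      ≤ 2 * Real.exp (4 * q * L) * Real.exp (-((4 * q + bb) * L)) := by
        refine mul_le_mul (by linarith) (Real.exp_le_exp.2 (neg_le_neg h1)) (Real.exp_pos _).le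
          (by positivity)
    _ = 2 * (Real.exp (4 * q * L) * Real.exp (-((4 * q + bb) * L))) := by ring
    _ = 2 * Real.exp (-(bb * L)) := by
        rw [← Real.exp_add]
        ring_nf

/-! ### blocks -/

/-- constant of the amplitude of block noise -/
noncomputable def K7 (A' q c0 bb : ℝ) : ℝ := 64 * A' ^ 2 * (7 * bb * K3 A' q c0)

theorem Nm.blk (H : Nm ξ l Q D0 t L q A') {n : ℕ} (hn : (n : ℝ) ≤ Real.exp (2 * q * L))
    {c c0 bb X : ℝ} (hc0 : 0 < c0) (hc : c0 ≤ c) (hbb : 1 ≤ bb)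
    (hX : K7 A' q c0 bb * L ^ 4 ≤ X) :
    √(7 * bb * L) * ((((2 * D0 / Q + 2) ^ 2 : ℕ) : ℝ) *
      (4 * t * l * √(κw n D0 (t * (l : ℝ) ^ 2) c))) ≤ X * √t := by
  have hq := H.hq
  have hL := H.hL
  have hL0 := H.L0
  have ht := H.t0
  have hl := H.l0
  have hA := H.hA
  have hA0 : 0 < A' := by linarith
  have hc' : 0 < c := hc0.trans_le hc
  have hκ : 0 < κw n D0 (t * (l : ℝ) ^ 2) c := by
    have := log_nn n
    unfold κw
    positivity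
  set κ := κw n D0 (t * (l : ℝ) ^ 2) c with hκd
  set m : ℝ := (((2 * D0 / Q + 2) ^ 2 : ℕ) : ℝ) with hm
  have hm0 : 0 ≤ m := Nat.cast_nonneg _
  have hm1 : m ≤ 16 * A' ^ 2 * L ^ 2 := H.m_le
  have hk3 := K3_pos (A' := A') hq hc0
  have h1 := H.tκ hn hc0 hc
  rw [← hκd] at h1
  set u : ℝ := √t * l * √κ with hu
  have hu0 : 0 ≤ u := by positivity
  have hu2 : u ^ 2 ≤ K3 A' q c0 * L ^ 3 := by
    rw [hu, mul_pow, mul_pow, Real.sq_sqrt ht.le, Real.sq_sqrt hκ.le]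
    linarith
  have hau : √(7 * bb * L) * u ≤ 7 * bb * K3 A' q c0 * L ^ 2 := by
    refine abs_le_of_sq_le_sq' ?_ (by positivity) |>.2
    rw [mul_pow, Real.sq_sqrt (by positivity)]
    have h7 : 1 ≤ 7 * bb * K3 A' q c0 := by nlinarith
    have h8 : 7 * bb * K3 A' q c0 ≤ (7 * bb * K3 A' q c0) ^ 2 := by nlinarith
    calc 7 * bb * L * u ^ 2 ≤ 7 * bb * L * (K3 A' q c0 * L ^ 3) :=
          mul_le_mul_of_nonneg_left hu2 (by positivity)
      _ = (7 * bb * K3 A' q c0) * L ^ 4 := by ring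
      _ ≤ (7 * bb * K3 A' q c0) ^ 2 * L ^ 4 := mul_le_mul_of_nonneg_right h8 (by positivity)
      _ = _ := by ring
  have e1 : 4 * t * l * √κ = 4 * u * √t := by
    rw [hu]
    have : t = √t * √t := (Real.mul_self_sqrt ht.le).symm
    calc 4 * t * l * √κ = 4 * (√t * √t) * l * √κ := by rw [← this]
      _ = _ := by ring
  rw [e1]
  have hst : 0 ≤ √t := Real.sqrt_nonneg _
  calc √(7 * bb * L) * (m * (4 * u * √t)) = (4 * m * (√(7 * bb * L) * u)) * √t := by ring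
    _ ≤ (4 * (16 * A' ^ 2 * L ^ 2) * (7 * bb * K3 A' q c0 * L ^ 2)) * √t := by
        refine mul_le_mul_of_nonneg_right (mul_le_mul (by linarith) hau (by positivity)
          (by positivity)) hst
    _ = (K7 A' q c0 bb * L ^ 4) * √t := by unfold K7; ring
    _ ≤ X * √t := mul_le_mul_of_nonneg_right hX hst

theorem Nm.cut (H : Nm ξ l Q D0 t L q A') {c0 bb X : ℝ} (hc0 : 0 < c0) (hbb : 1 ≤ bb)
    (hX : K7 A' q c0 bb * L ^ 4 ≤ X) :
    4 * (((2 * D0 / Q + 2) ^ 2 : ℕ) : ℝ) ^ 2 * (4 * t) ^ 2 * ((l : ℝ) * Q) ^ 2 ≤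
      3 * (X ^ 2 * t) := by
  have hq := H.hq
  have hL := H.hL
  have hL0 := H.L0
  have ht := H.t0
  have hA := H.hA
  set m : ℝ := (((2 * D0 / Q + 2) ^ 2 : ℕ) : ℝ) with hm
  have hm0 : 0 ≤ m := Nat.cast_nonneg _
  have hm1 : m ≤ 16 * A' ^ 2 * L ^ 2 := H.m_le
  have hk3 := K3_pos (A' := A') hq hc0
  have h1 : 16 * m ≤ X := by
    refine le_trans ?_ hX
    unfold K7
    have h7 : 7 ≤ 7 * bb * K3 A' q c0 := by nlinarith
    have hL2 : L ^ 2 ≤ L ^ 4 := pow_le_pow_right₀ hL (by norm_num)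
    calc 16 * m ≤ 16 * (16 * A' ^ 2 * L ^ 2) := by linarith
      _ ≤ 64 * A' ^ 2 * 7 * L ^ 4 := by nlinarith [sq_nonneg A', mul_nonneg (sq_nonneg A') (sq_nonneg L)]
      _ ≤ 64 * A' ^ 2 * (7 * bb * K3 A' q c0) * L ^ 4 := by
          refine mul_le_mul_of_nonneg_right (mul_le_mul_of_nonneg_left h7 (by positivity))
            (by positivity)
  have h2 : 256 * m ^ 2 ≤ X ^ 2 := by
    have := pow_le_pow_left₀ (by positivity) h1 2
    linarith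
  have h3 := H.tx4
  rw [← H.ξe]
  have h4 : 0 ≤ m ^ 2 * t := by positivity
  calc 4 * m ^ 2 * (4 * t) ^ 2 * (ξ : ℝ) ^ 2 = 64 * (m ^ 2 * t) * (t * (ξ : ℝ) ^ 2) := by ring
    _ ≤ 64 * (m ^ 2 * t) * 4 := mul_le_mul_of_nonneg_left h3 (by positivity)
    _ = (256 * m ^ 2) * t := by ring
    _ ≤ X ^ 2 * t := mul_le_mul_of_nonneg_right h2 ht.le
    _ ≤ _ := by nlinarith [mul_nonneg (sq_nonneg X) ht.le]

/-! ### gradient condition -/

/-- constant of the gradient condition -/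
noncomputable def Kc (A' g : ℝ) : ℝ := 147456 * A' ^ 2 * g ^ 2

theorem Nm.edge (H : Nm ξ l Q D0 t L q A') {K : ℕ} {κ₀ g : ℝ} (hκ₀ : 0 < κ₀) (hκ1 : κ₀ ≤ 1)
    (hg : 1 ≤ g) (hK : (K : ℝ) ≤ Real.exp (q * L) * ξ) (hξK : ξ ≤ K) (hξl : (ξ : ℝ) ≤ (l : ℝ) ^ 2)
    (hl1 : (2 * (2 + q) + 4) * Kc A' g * L ^ 5 ≤ l) :
    Gam K t t κ₀ * ((16 * t) ^ 2 * (l : ℝ) ^ 2 * ((2 * (D0 : ℝ) + 1) ^ 2 * (g * L * Q) ^ 2)) ≤
      1 ^ 2 := by
  have hq := H.hq
  have hL := H.hL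
  have hL0 := H.L0
  have ht := H.t0
  have hl := H.l0
  have hA := H.hA
  have hξ := H.ξ0'
  have hQ := H.Q0
  have hK0 : (0 : ℝ) < K := lt_of_lt_of_le hξ (by exact_mod_cast hξK)
  have hl1' : (1 : ℝ) ≤ l := by exact_mod_cast H.hl
  have hKc : 1 ≤ Kc A' g := by
    unfold Kc
    have h1 : 1 ≤ A' ^ 2 := one_le_pow₀ hA
    have h2 : 1 ≤ g ^ 2 := one_le_pow₀ hg
    nlinarith
  -- the logarithm
  have hlog : Real.log K ≤ q * L + 2 * l := by
    have h1 : Real.log K ≤ Real.log (Real.exp (q * L) * ξ) := Real.log_le_log hK0 hK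
    rw [Real.log_mul (Real.exp_pos _).ne' hξ.ne', Real.log_exp] at h1
    have h2 : Real.log ξ ≤ Real.log ((l : ℝ) ^ 2) := Real.log_le_log hξ hξl
    rw [Real.log_pow] at h2
    have h3 : Real.log (l : ℝ) ≤ l := (Real.log_le_sub_one_of_pos hl).trans (by linarith)
    push_cast at h2
    linarith
  have hGam : Gam K t t κ₀ ≤ 4 * ((2 + q) * L + 2 * l) := by
    unfold H816.Gam
    rw [div_self ht.ne', one_pow, mul_one]
    have h4 : κ₀ / (t * (K : ℝ) ^ 2) ≤ 1 := by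
      rw [div_le_one (by positivity)]
      refine hκ1.trans (H.tx1.trans ?_)
      have : (ξ : ℝ) ^ 2 ≤ (K : ℝ) ^ 2 := pow_le_pow_left₀ hξ.le (by exact_mod_cast hξK) 2
      exact mul_le_mul_of_nonneg_left this ht.le
    have h5 : (2 : ℝ) ≤ 2 * L := by linarith
    have e : (2 + q) * L = 2 * L + q * L := by ring
    rw [e]
    linarith
  have hbody : (16 * t) ^ 2 * (l : ℝ) ^ 2 * ((2 * (D0 : ℝ) + 1) ^ 2 * (g * L * Q) ^ 2) ≤
      36864 * A' ^ 2 * g ^ 2 * L ^ 4 / (l : ℝ) ^ 2 := by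
    have h1 := H.w2
    have h2 : t * (Q : ℝ) ^ 2 ≤ 4 / (l : ℝ) ^ 2 := by
      rw [le_div_iff₀ (by positivity)]
      have := H.tx4
      rw [H.ξe] at this
      linarith
    calc (16 * t) ^ 2 * (l : ℝ) ^ 2 * ((2 * (D0 : ℝ) + 1) ^ 2 * (g * L * Q) ^ 2) =
          256 * (g * L) ^ 2 * ((t * (l : ℝ) ^ 2 * (2 * (D0 : ℝ) + 1) ^ 2) * (t * (Q : ℝ) ^ 2)) := by
          ring
      _ ≤ 256 * (g * L) ^ 2 * ((36 * A' ^ 2 * L ^ 2) * (4 / (l : ℝ) ^ 2)) := by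
          refine mul_le_mul_of_nonneg_left ?_ (by positivity)
          exact mul_le_mul h1 h2 (by positivity) (by positivity)
      _ = _ := by ring
  have hGam0 : 0 ≤ 4 * ((2 + q) * L + 2 * l) := by positivity
  refine (mul_le_mul hGam hbody (by positivity) hGam0).trans ?_
  rw [one_pow, mul_div_assoc', div_le_one (by positivity)]
  have e : 4 * ((2 + q) * L + 2 * (l : ℝ)) * (36864 * A' ^ 2 * g ^ 2 * L ^ 4) =
      Kc A' g * (2 + q) * L ^ 5 + 2 * Kc A' g * L ^ 4 * l := by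
    unfold Kc
    ring
  rw [e]
  have h5 : 1 ≤ L ^ 5 := one_le_pow₀ hL
  have hL45 : L ^ 4 ≤ L ^ 5 := pow_le_pow_right₀ hL (by norm_num)
  have e2 : (2 * (2 + q) + 4) * Kc A' g * L ^ 5 = 2 * (Kc A' g * (2 + q) * L ^ 5) +
      4 * (Kc A' g * L ^ 5) := by ring
  rw [e2] at hl1
  have p1 : 0 ≤ Kc A' g * (2 + q) * L ^ 5 := by positivity
  have p2 : 0 ≤ Kc A' g * L ^ 5 := by positivity
  have h6 : 2 * (Kc A' g * (2 + q) * L ^ 5) ≤ l := by linarith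
  have h7 : 4 * (Kc A' g * L ^ 4) ≤ l := by
    have := mul_le_mul_of_nonneg_left hL45 (show 0 ≤ Kc A' g by linarith)
    linarith
  have h8 : (l : ℝ) ≤ (l : ℝ) ^ 2 := by nlinarith
  nlinarith

end nm

end Vale.Agent.P159.H358
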