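import Vale.Agent.P159.H358.Un2

/-!
P159, module VTOR, numbers for fine cells, part 3: the errors of `near_one`, `near_two` with
`D = A₀ L`, `r ≥ R L⁷ ξ`, `Λ = K8 L⁷`, `G = g L Q`.
-/

open Finset MeasureTheory

set_option linter.unusedSectionVars false
set_option linter.unusedDecidableInType false

namespace Vale.Agent.P159.H358

open Matrix

theorem le_exp' (x : ℝ) : x ≤ Real.exp x := by linarith [Real.add_one_le_exp x]

section nm

variable {ξ l Q D0 : ℕ} {t L q A' : ℝ}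

theorem Nm.tlξ (H : Nm ξ l Q D0 t L q A') : t * l * ξ ≤ 4 := by
  have h1 := H.tx4
  have h2 := H.lξ
  have ht := H.t0
  have hξ := H.ξ0'
  calc t * l * ξ ≤ t * ξ * ξ := by gcongr
    _ = t * (ξ : ℝ) ^ 2 := by ring
    _ ≤ 4 := h1

theorem Nm.tKξ (H : Nm ξ l Q D0 t L q A') {K : ℝ} (hK : K ≤ Real.exp (q * L) * ξ) :
    t * K * ξ ≤ 4 * Real.exp (q * L) := by
  have h1 := H.tx4
  have ht := H.t0
  have hξ := H.ξ0'
  have he := Real.exp_pos (q * L)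
  calc t * K * ξ ≤ t * (Real.exp (q * L) * ξ) * ξ := by gcongr
    _ = Real.exp (q * L) * (t * (ξ : ℝ) ^ 2) := by ring
    _ ≤ Real.exp (q * L) * 4 := by gcongr
    _ = _ := by ring

theorem Nm.G1 (H : Nm ξ l Q D0 t L q A') {g : ℝ} (hg : 1 ≤ g) :
    g * L * Q + 1 ≤ 2 * g * L * Real.exp (q * L) := by
  have hL := H.hL
  have hL0 := H.L0
  have hQ1 : (1 : ℝ) ≤ Q := by exact_mod_cast H.hQ
  have h1 := H.hQq
  have h2 : 1 ≤ g * L * Q := by nlinarith [mul_le_mul hg hL zero_le_one (by linarith : 0 ≤ g)]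
  have h3 : g * L * Q ≤ g * L * Real.exp (q * L) := by gcongr
  linarith

/-- constant of the locality -/
noncomputable def KA (q β g C4 : ℝ) : ℝ := 2 * q + 12 + β + 32 * g * C4

theorem Nm.elo_le (H : Nm ξ l Q D0 t L q A') {M : ℕ} {c4 C4 τ g β A0 : ℝ} (hC4 : 0 ≤ C4)
    (hg : 1 ≤ g) (hτ : τ ≤ 8 * L) (hM : (M : ℝ) ≤ Real.exp (q * L) * ξ)
    (hA0 : KA q β g C4 ≤ c4 * A0) :
    elo M l ξ t c4 C4 τ (g * L * Q) (A0 * L) ≤ Real.exp (-((β + 3) * L)) := by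
  have hL := H.hL
  have hL0 := H.L0
  have ht := H.t0
  have hξ := H.ξ0'
  have hl := H.l0
  have he := Real.exp_pos (q * L)
  have h1 := H.tlξ
  have h2 := H.tKξ hM
  have h3 := H.G1 hg
  have hG0 : 0 ≤ g * L * Q + 1 := by
    have := H.Q0
    positivity
  have hpi : (2 * Real.pi)⁻¹ ≤ 1 := by
    rw [inv_le_one₀ (by positivity)]
    linarith [Real.pi_gt_three]
  have h4 : Real.exp ((τ + 8) / 2) ≤ Real.exp (8 * L) := Real.exp_le_exp.2 (by linarith)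
  have h5 : t * M * ξ * (g * L * Q + 1) ≤ (4 * Real.exp (q * L)) * (2 * g * L * Real.exp (q * L)) :=
    mul_le_mul h2 h3 hG0 (by positivity)
  unfold elo
  calc (2 * Real.pi)⁻¹ * (Real.exp ((τ + 8) / 2) * ((t * l * ξ) * (t * M * ξ * (g * L * Q + 1)) *
        (C4 * Real.exp (-(c4 * (A0 * L))))))
      ≤ 1 * (Real.exp (8 * L) * (4 * ((4 * Real.exp (q * L)) * (2 * g * L * Real.exp (q * L))) *
        (C4 * Real.exp (-(c4 * (A0 * L)))))) := by gcongr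
    _ = (32 * g * C4) * L * (Real.exp (8 * L) * (Real.exp (q * L) * Real.exp (q * L)) *
        Real.exp (-(c4 * (A0 * L)))) := by ring
    _ ≤ Real.exp (32 * g * C4) * Real.exp L * (Real.exp (8 * L) *
        (Real.exp (q * L) * Real.exp (q * L)) * Real.exp (-(c4 * (A0 * L)))) := by
        have k1 := le_exp' (32 * g * C4)
        have k2 := le_exp' L
        gcongr
    _ = Real.exp (32 * g * C4 + L + (8 * L + (q * L + q * L) + -(c4 * (A0 * L)))) := by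
        rw [Real.exp_add, Real.exp_add, Real.exp_add, Real.exp_add, Real.exp_add]
    _ ≤ Real.exp (-((β + 3) * L)) := by
        refine Real.exp_le_exp.2 ?_
        unfold KA at hA0
        have k3 := mul_le_mul_of_nonneg_right hA0 hL0.le
        have k4 : 32 * g * C4 ≤ 32 * g * C4 * L := le_mul_of_one_le_right (by positivity) hL
        nlinarith

theorem Nm.eru_a (H : Nm ξ l Q D0 t L q A') {N M : ℕ} {c4 C4 τ g β A0 : ℝ} (hC4 : 0 ≤ C4)
    (hg : 1 ≤ g) (hτ : τ ≤ 8 * L) (hN : (N : ℝ) ≤ Real.exp (q * L) * ξ)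
    (hM : (M : ℝ) ≤ Real.exp (q * L) * ξ) (hq0 : 0 ≤ q)
    (hA0 : KA q β g C4 ≤ c4 * A0) :
    Real.exp ((τ + 8) / 2) * ((t * l * ξ) * (t * (N + M) * ξ) *
      (C4 * Real.exp (-(c4 * (A0 * L))))) ≤ Real.exp (-((β + 3) * L)) := by
  have hL := H.hL
  have hL0 := H.L0
  have ht := H.t0
  have hξ := H.ξ0'
  have hl := H.l0
  have he := Real.exp_pos (q * L)
  have h1 := H.tlξ
  have h2 : t * (N + M) * ξ ≤ 8 * Real.exp (q * L) := by
    have k1 := H.tKξ hN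
    have k2 := H.tKξ hM
    linarith
  have h4 : Real.exp ((τ + 8) / 2) ≤ Real.exp (8 * L) := Real.exp_le_exp.2 (by linarith)
  calc Real.exp ((τ + 8) / 2) * ((t * l * ξ) * (t * (N + M) * ξ) *
        (C4 * Real.exp (-(c4 * (A0 * L)))))
      ≤ Real.exp (8 * L) * (4 * (8 * Real.exp (q * L)) *
        (C4 * Real.exp (-(c4 * (A0 * L))))) := by gcongr
    _ = (32 * C4) * (Real.exp (8 * L) * Real.exp (q * L) * Real.exp (-(c4 * (A0 * L)))) := by ring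
    _ ≤ Real.exp (32 * C4) * (Real.exp (8 * L) * Real.exp (q * L) *
        Real.exp (-(c4 * (A0 * L)))) := by
        have k1 := le_exp' (32 * C4)
        gcongr
    _ = Real.exp (32 * C4 + (8 * L + q * L + -(c4 * (A0 * L)))) := by
        rw [Real.exp_add, Real.exp_add, Real.exp_add]
    _ ≤ Real.exp (-((β + 3) * L)) := by
        refine Real.exp_le_exp.2 ?_
        unfold KA at hA0
        have k3 := mul_le_mul_of_nonneg_right hA0 hL0.le
        have k4 : 32 * g * C4 ≤ 32 * g * C4 * L := le_mul_of_one_le_right (by positivity) hL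
        have k5 : 32 * C4 ≤ 32 * g * C4 := by nlinarith
        nlinarith [mul_nonneg hq0 hL0.le]

/-- constant of the number of balls times the amplitude -/
noncomputable def K9 (g A' C : ℝ) : ℝ := 1 + 512 * √C * g * A' ^ 2

theorem K9_pos {g A' C : ℝ} (hg : 1 ≤ g) : 1 ≤ K9 g A' C := by
  unfold K9
  have : 0 ≤ 512 * √C * g * A' ^ 2 := by positivity
  linarith

/-- constant of the energies -/
noncomputable def K8 (A' q c0 κ₀ bb : ℝ) : ℝ := 512 * K4 A' q c0 κ₀ * bb + 165888 * A' ^ 2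

theorem K8_pos {A' q c0 κ₀ bb : ℝ} (hA : 1 ≤ A') (hq : 0 ≤ q) (hc : 0 < c0) (hκ : 0 < κ₀)
    (hbb : 0 ≤ bb) : 0 < K8 A' q c0 κ₀ bb := by
  unfold K8
  have := K4_pos hA hq hc hκ
  have : 0 < A' := by linarith
  positivity

/-- constant of the radius -/
noncomputable def KR (cx K8 K9 q β : ℝ) : ℝ := 2 + 12 / cx * (3 * K8 + 60 * K9 + q + 6 + β)

theorem KR_pos {cx K8 K9 q β : ℝ} (hcx : 0 < cx) (h8 : 0 ≤ K8) (h9 : 0 ≤ K9) (hq : 0 ≤ q)
    (hβ : 0 ≤ β) : 2 ≤ KR cx K8 K9 q β := by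
  unfold KR
  have : 0 ≤ 12 / cx * (3 * K8 + 60 * K9 + q + 6 + β) := by positivity
  linarith

theorem Nm.amp (H : Nm ξ l Q D0 t L q A') {C g A : ℝ} (hg : 1 ≤ g)
    (hA : A ≤ 2 * (t * (ξ : ℝ) ^ 2 * (g * L * Q + 1))) (hA0 : 0 ≤ A) :
    1 + 2 * √C * A * (kn l ξ D0 : ℝ) ≤ K9 g A' C * L ^ 3 * Real.exp (q * L) := by
  have hL := H.hL
  have hL0 := H.L0
  have he1 : 1 ≤ Real.exp (q * L) := Real.one_le_exp (mul_nonneg H.hq hL0.le)
  have h1 := H.kn_le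
  have h2 := H.G1 hg
  have h3 := H.tx4
  have hG0 : 0 ≤ g * L * Q + 1 := by
    have := H.Q0
    positivity
  have h4 : A ≤ 16 * g * L * Real.exp (q * L) := by
    refine hA.trans ?_
    have : t * (ξ : ℝ) ^ 2 * (g * L * Q + 1) ≤ 4 * (2 * g * L * Real.exp (q * L)) :=
      mul_le_mul h3 h2 hG0 (by norm_num)
    linarith
  have h0 : (0 : ℝ) ≤ kn l ξ D0 := Nat.cast_nonneg _
  have h5 : 1 ≤ L ^ 3 * Real.exp (q * L) := by
    nlinarith [one_le_pow₀ hL (n := 3)]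
  have hs := Real.sqrt_nonneg C
  unfold K9
  calc 1 + 2 * √C * A * (kn l ξ D0 : ℝ)
      ≤ 1 + 2 * √C * (16 * g * L * Real.exp (q * L)) * (16 * A' ^ 2 * L ^ 2) := by gcongr
    _ = 1 + 512 * √C * g * A' ^ 2 * L ^ 3 * Real.exp (q * L) := by ring
    _ ≤ L ^ 3 * Real.exp (q * L) + 512 * √C * g * A' ^ 2 * L ^ 3 * Real.exp (q * L) := by linarith
    _ = _ := by ring

theorem Nm.err9_le (H : Nm ξ l Q D0 t L q A') {C cx g A β k8 : ℝ} {r : ℕ} (hg : 1 ≤ g)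
    (hA : A ≤ 2 * (t * (ξ : ℝ) ^ 2 * (g * L * Q + 1))) (hA0 : 0 ≤ A) (hcx : 0 < cx)
    (hk8 : 0 ≤ k8) (hβ : 0 ≤ β)
    (hr : KR cx k8 (K9 g A' C) q β * L ^ 7 * ξ ≤ r) :
    err9q C cx A (k8 * L ^ 7) (kn l ξ D0) r ξ ≤ Real.exp (-((β + 3) * L)) := by
  have hL := H.hL
  have hL0 := H.L0
  have hξ := H.ξ0'
  have h1 := H.amp (C := C) hg hA hA0
  have h9 := K9_pos (A' := A') (C := C) hg
  have hL7 : 1 ≤ L ^ 7 := one_le_pow₀ hL
  have hL17 : L ≤ L ^ 7 := by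
    calc L = L ^ 1 := (pow_one L).symm
      _ ≤ L ^ 7 := pow_le_pow_right₀ hL (by norm_num)
  have hrr : (3 * k8 + 60 * K9 g A' C + q + 6 + β) * L ^ 7 ≤ cx * r / (12 * ξ) := by
    rw [le_div_iff₀ (by positivity)]
    have k1 : 12 / cx * (3 * k8 + 60 * K9 g A' C + q + 6 + β) ≤ KR cx k8 (K9 g A' C) q β := by
      unfold KR
      linarith
    have k2 : 12 / cx * (3 * k8 + 60 * K9 g A' C + q + 6 + β) * (L ^ 7 * ξ) ≤ r := by
      refine le_trans ?_ hr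
      have := mul_le_mul_of_nonneg_right k1 (show 0 ≤ L ^ 7 * ξ by positivity)
      linarith
    have k3 := mul_le_mul_of_nonneg_left k2 hcx.le
    have e : cx * (12 / cx * (3 * k8 + 60 * K9 g A' C + q + 6 + β) * (L ^ 7 * ξ)) =
        (3 * k8 + 60 * K9 g A' C + q + 6 + β) * L ^ 7 * (12 * ξ) := by
      field_simp
    rwa [e] at k3
  have hL3 : L ^ 3 ≤ Real.exp (3 * L) := by
    have := pow_le_pow_left₀ hL0.le (le_exp' L) 3
    rwa [← Real.exp_nat_mul] at this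
  unfold err9q
  calc 60 * (1 + 2 * √C * A * (kn l ξ D0 : ℝ)) * Real.exp (3 * (k8 * L ^ 7)) *
        Real.exp (-(cx * r / (12 * ξ)))
      ≤ 60 * (K9 g A' C * L ^ 3 * Real.exp (q * L)) * Real.exp (3 * (k8 * L ^ 7)) *
        Real.exp (-((3 * k8 + 60 * K9 g A' C + q + 6 + β) * L ^ 7)) := by
        have k4 := Real.exp_le_exp.2 (neg_le_neg hrr)
        gcongr
    _ = (60 * K9 g A' C) * (L ^ 3 * Real.exp (q * L) * Real.exp (3 * (k8 * L ^ 7)) *
        Real.exp (-((3 * k8 + 60 * K9 g A' C + q + 6 + β) * L ^ 7))) := by ring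
    _ ≤ Real.exp (60 * K9 g A' C) * (Real.exp (3 * L) * Real.exp (q * L) *
        Real.exp (3 * (k8 * L ^ 7)) *
        Real.exp (-((3 * k8 + 60 * K9 g A' C + q + 6 + β) * L ^ 7))) := by
        have k5 := le_exp' (60 * K9 g A' C)
        gcongr
    _ = Real.exp (60 * K9 g A' C + (3 * L + q * L + 3 * (k8 * L ^ 7) +
        -((3 * k8 + 60 * K9 g A' C + q + 6 + β) * L ^ 7))) := by
        rw [Real.exp_add, Real.exp_add, Real.exp_add, Real.exp_add]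
    _ ≤ Real.exp (-((β + 3) * L)) := by
        refine Real.exp_le_exp.2 ?_
        have j1 : 60 * K9 g A' C ≤ 60 * K9 g A' C * L ^ 7 :=
          le_mul_of_one_le_right (by linarith) hL7
        have j2 : q * L ≤ q * L ^ 7 := mul_le_mul_of_nonneg_left hL17 H.hq
        have j3 : β * L ≤ β * L ^ 7 := mul_le_mul_of_nonneg_left hL17 hβ
        linarith

theorem Nm.eps8_le (H : Nm ξ l Q D0 t L q A') {C cx g A β k8 : ℝ} {r : ℕ} (hg : 1 ≤ g)
    (hA : A ≤ 2 * (t * (ξ : ℝ) ^ 2 * (g * L * Q + 1))) (hA0 : 0 ≤ A) (hcx : 0 < cx)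
    (hk8 : 0 ≤ k8) (hβ : 0 ≤ β)
    (hr : KR cx k8 (K9 g A' C) q β * L ^ 7 * ξ ≤ r) :
    eps8q C cx A (k8 * L ^ 7) (kn l ξ D0) r ξ ≤ Real.exp (-((β + 3) * L)) := by
  have h := H.err9_le (C := C) hg hA hA0 hcx hk8 hβ hr
  refine le_trans ?_ h
  have hL := H.hL
  have hL0 := H.L0
  have hξ := H.ξ0'
  unfold eps8q err9q
  have h0 : (0 : ℝ) ≤ kn l ξ D0 := Nat.cast_nonneg _
  have hs := Real.sqrt_nonneg C
  have h1 : √(√C * A * (kn l ξ D0 : ℝ)) ≤ 1 + 2 * √C * A * (kn l ξ D0 : ℝ) := by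
    have hx : 0 ≤ √C * A * (kn l ξ D0 : ℝ) := by positivity
    refine abs_le_of_sq_le_sq' ?_ (by positivity) |>.2
    rw [Real.sq_sqrt hx]
    nlinarith
  have h2 : Real.exp (k8 * L ^ 7) ≤ Real.exp (3 * (k8 * L ^ 7)) := by
    refine Real.exp_le_exp.2 ?_
    have : 0 ≤ k8 * L ^ 7 := by positivity
    linarith
  have h3 : Real.exp (-(cx * r / (4 * ξ))) ≤ Real.exp (-(cx * r / (12 * ξ))) := by
    refine Real.exp_le_exp.2 (neg_le_neg ?_)
    have : (0 : ℝ) ≤ cx * r := by positivity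
    exact div_le_div_of_nonneg_left this (by positivity) (by linarith)
  have h4 : 0 ≤ 1 + 2 * √C * A * (kn l ξ D0 : ℝ) := by positivity
  calc 9 * √(√C * A * (kn l ξ D0 : ℝ)) * Real.exp (k8 * L ^ 7) * Real.exp (-(cx * r / (4 * ξ)))
      ≤ 60 * (1 + 2 * √C * A * (kn l ξ D0 : ℝ)) * Real.exp (3 * (k8 * L ^ 7)) *
        Real.exp (-(cx * r / (12 * ξ))) := by
        refine mul_le_mul (mul_le_mul ?_ h2 (Real.exp_pos _).le (by positivity)) h3
          (Real.exp_pos _).le (by positivity)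
        nlinarith

theorem Nm.erR_le (H : Nm ξ l Q D0 t L q A') {C cx g β k8 : ℝ} {r : ℕ} (hg : 1 ≤ g)
    (hcx : 0 < cx) (hk8 : 0 ≤ k8) (hβ : 0 ≤ β)
    (hr : KR cx k8 (K9 g A' C) q β * L ^ 7 * ξ ≤ r) :
    erR3 ξ t cx C (g * L * Q) (k8 * L ^ 7) (kn l ξ D0) r ≤ 1 := by
  have hL := H.hL
  have hL0 := H.L0
  have hξ := H.ξ0'
  have ht := H.t0
  have hQ := H.Q0
  have hA0 : 0 ≤ 2 * (t * (ξ : ℝ) ^ 2 * (g * L * Q + 1)) := by positivity
  have h1 := H.err9_le (C := C) hg le_rfl hA0 hcx hk8 hβ hr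
  have h2 := H.eps8_le (C := C) hg le_rfl hA0 hcx hk8 hβ hr
  have h3 : Real.exp (-((β + 3) * L)) ≤ 1 / 4 := by
    have k1 : (4 : ℝ) ≤ Real.exp 3 := by linarith [Real.add_one_le_exp (3 : ℝ)]
    have k2 : Real.exp 3 ≤ Real.exp ((β + 3) * L) := by
      refine Real.exp_le_exp.2 ?_
      nlinarith
    rw [Real.exp_neg, inv_le_comm₀ (Real.exp_pos _) (by norm_num)]
    linarith
  unfold erR3
  linarith

theorem Nm.eru_le (H : Nm ξ l Q D0 t L q A') {N M : ℕ} {c4 C4 τ g β A0 C cx k8 : ℝ} {r : ℕ}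
    (hC4 : 0 ≤ C4) (hg : 1 ≤ g) (hτ : τ ≤ 8 * L) (hN : (N : ℝ) ≤ Real.exp (q * L) * ξ)
    (hM : (M : ℝ) ≤ Real.exp (q * L) * ξ) (hA0 : KA q β g C4 ≤ c4 * A0)
    (hcx : 0 < cx) (hk8 : 0 ≤ k8) (hβ : 0 ≤ β)
    (hr : KR cx k8 (K9 g A' C) q β * L ^ 7 * ξ ≤ r) :
    eru3 N M l ξ t cx C c4 C4 (A0 * L) τ (g * L * Q) (k8 * L ^ 7) (kn l ξ D0) r ≤
      Real.exp (-((β + 3) * L)) := by
  have hL := H.hL
  have hL0 := H.L0
  have hξ := H.ξ0'
  have ht := H.t0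
  have hQ := H.Q0
  have hA0' : 0 ≤ t * (ξ : ℝ) ^ 2 * (g * L * Q + 1) := by positivity
  have h1 := H.eru_a hC4 hg hτ hN hM H.hq hA0
  have h2 := H.err9_le (C := C) (A := t * (ξ : ℝ) ^ 2 * (g * L * Q + 1)) hg (by linarith) hA0'
    hcx hk8 hβ hr
  have hpi : (2 * Real.pi)⁻¹ ≤ 1 / 2 := by
    rw [inv_le_comm₀ (by positivity) (by norm_num)]
    linarith [Real.pi_gt_three]
  have h3 : 0 ≤ err9q C cx (t * (ξ : ℝ) ^ 2 * (g * L * Q + 1)) (k8 * L ^ 7) (kn l ξ D0) r ξ :=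
    err9q_nonneg C cx hA0' _ _ _ _
  unfold eru3
  have hp0 : 0 ≤ Real.exp (-((β + 3) * L)) := (Real.exp_pos _).le
  calc _ ≤ (1 / 2 : ℝ) * (Real.exp (-((β + 3) * L)) + Real.exp (-((β + 3) * L))) := by
        refine mul_le_mul hpi (add_le_add h1 h2) ?_ (by norm_num)
        have := hξ
        positivity
    _ = _ := by ring

end nm

end Vale.Agent.P159.H358
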