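import Vale.Agent.P159.H358.Un4
import Vale.Agent.P159.H358.Hr8
import Vale.Agent.P159.H767.Nr12
import Vale.Agent.P159.H733.Vt11

/-!
P159, module VTOR, numbers for fine cells, part 5: the letters of the parameters (`Par`, `Ev`), every
real mass `t ∈ [tn n, 4 tn n]`.
-/

open Finset MeasureTheory

set_option linter.unusedSectionVars false
set_option linter.unusedDecidableInType false

namespace Vale.Agent.P159.H358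

open Vale.Agent.P159.TM.Spec (V Rng)
open Vale.Agent.P159.TM.SpecC (wT)
open Vale.Agent.P159.H37 (gau)
open Vale.Agent.P159.H145 (mt OscZ)
open Vale.Agent.P159.H552 (lft)
open Vale.Agent.P159.H864 (cl yt)
open Vale.Agent.P159.H813 (LB4)
open Vale.Agent.P159.H462 (Dom)
open Vale.Agent.P159.H363 (Below n2)
open Vale.Agent.P159.H889 (uc)
open Vale.Agent.P159.H972 (Par lg tn RNG Good GP)
open Vale.Agent.P159.H801 (Ev PS)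
open Vale.Agent.P159.H640 (sm_rpow rng_thr osc_yt)
open Matrix

/-! ### constants, `A₀` first -/

/-- the constants exist, `A₀` first -/
theorem cst_A {b2 c4 C4 q β c0 : ℝ} (hb2 : 0 ≤ b2) (hc4 : 0 < c4) (hC4 : 0 ≤ C4) (hq : 0 ≤ q)
    (hβ : 0 ≤ β) (hc0 : 0 < c0) :
    ∃ A00 : ℝ, 1 ≤ A00 ∧ ∀ A0 : ℝ, A00 ≤ A0 → ∀ cx Cx : ℝ, 0 < cx → 0 < Cx →
      ∃ κ₀ bo bb g K1 R : ℝ, ∀ b : ℝ, 0 ≤ b → b ≤ b2 →
        Cst b cx Cx c4 C4 q β c0 κ₀ A0 (2 * A0) bo bb g K1 R := by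
  have hm : 0 < b2 + 12 * max b2 1 ^ 2 * 1 ^ 2 := by
    have : 1 ≤ max b2 1 := le_max_right _ _
    positivity
  refine ⟨max 1 (KA q β (gc q c0 (2 * β + 9)) C4 / c4), le_max_left _ _, ?_⟩
  intro A0 hA0 cx Cx hcx hCx
  have h1 : 1 ≤ A0 := (le_max_left _ _).trans hA0
  have h3 : KA q β (gc q c0 (2 * β + 9)) C4 / c4 ≤ A0 := (le_max_right _ _).trans hA0
  rw [div_le_iff₀ hc4] at h3
  set κ₀ : ℝ := (b2 + 12 * max b2 1 ^ 2 * 1 ^ 2)⁻¹ with hκ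
  set bb : ℝ := 2 * β + 16 + 32 * (2 * A0) ^ 2
  set R : ℝ := KR cx (K8 (2 * A0) q c0 κ₀ bb) (K9 (gc q c0 (2 * β + 9)) (2 * A0) Cx) q β
  refine ⟨κ₀, 2 * β + 9, bb, gc q c0 (2 * β + 9), 2 * (R + 1) + 2 * (2 * A0) + 3, R,
    fun b hb0 hb1 => ?_⟩
  refine ⟨hb0, hcx, hCx, hc4, hC4, hq, hβ, hc0, by positivity, ?_, rfl, rfl, by linarith, h1, rfl,
    rfl, rfl, rfl⟩
  have h2 : b + 12 * max b 1 ^ 2 * 1 ^ 2 ≤ b2 + 12 * max b2 1 ^ 2 * 1 ^ 2 := by gcongr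
  calc κ₀ * (b + 12 * max b 1 ^ 2 * 1 ^ 2)
      ≤ κ₀ * (b2 + 12 * max b2 1 ^ 2 * 1 ^ 2) := mul_le_mul_of_nonneg_left h2 (by positivity)
    _ = 1 := inv_mul_cancel₀ hm.ne'

/-- Theorem A (1) and the fourth moment bound in the range, constants of the second first -/
theorem tn_rng {b1 : ℝ} (hb1 : 0 < b1) (b2 a : ℝ) :
    ∃ c4 C4 W₀ : ℝ, 0 < c4 ∧ 0 ≤ C4 ∧ ∀ W : ℝ, W₀ ≤ W → ∃ cx Cx ys : ℝ, ∃ X : ℕ, 0 < cx ∧ 0 < Cx ∧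
    0 < ys ∧ 1 ≤ X ∧ ∀ (K : ℕ) [NeZero K] (b : ℝ) (hb : 0 ≤ b) (l : ℕ) (y t : ℝ),
      Rng b1 b2 a W ys X K b l y → Rng b1 b2 a W ys X K b (2 * l) y →
      1 / ((2 * l : ℕ) : ℝ) ^ 2 ≤ t → t ≤ 4 / ((2 * l : ℕ) : ℝ) ^ 2 →
      (K : ℝ) * y ≤ c4 * ((2 * l : ℕ) : ℝ) →
      HAt K b (2 * l) t hb y cx Cx ∧ LB4 K b t (2 * l) c4 C4 := by
  obtain ⟨W1, c4, C4, ys1, X1, hc4, hC4, hys1, hX1, h1⟩ := H813.LB4_rng hb1 b2 a
  obtain ⟨W2, h2⟩ := hat_t hb1 b2 a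
  refine ⟨c4, C4, max W1 W2, hc4, by linarith, fun W hW => ?_⟩
  obtain ⟨cx, Cx, ys2, X2, hcx, hCx, hys2, hX2, h2⟩ := h2 W ((le_max_right _ _).trans hW)
  refine ⟨cx, Cx, min ys1 ys2, max X1 X2, hcx, hCx, lt_min hys1 hys2,
    hX1.trans (le_max_left _ _), ?_⟩
  intro K _ b hb l y t hR hR2 ht1 ht2 hK
  refine ⟨h2 K b hb l y t (rng_thr hR (min_le_right _ _) (le_max_right _ _))
    (rng_thr hR2 (min_le_right _ _) (le_max_right _ _)) ht1 ht2, ?_⟩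
  exact h1 W ((le_max_left _ _).trans hW) K b (2 * l) y
    (rng_thr hR2 (min_le_left _ _) (le_max_left _ _)) hK t ht1

/-! ### small numbers -/

/-- small numbers of a level -/
structure Sp (th thp c1 : ℝ) (q0 : ℕ) (cx c4 K1 R k7 kc β e : ℝ) : Prop where
  e4 : e ≤ 1 / 4
  a1 : K1 * e ^ (th - 14 * c1) ≤ 1
  a2 : (R + 1) * e ^ (1 / 4 - 14 * c1) ≤ cx
  a3 : k7 * e ^ (th / 4 - 8 * c1) ≤ 1
  a4 : kc * e ^ (1 - 10 * c1) ≤ 1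
  a5 : (2 * (β + 3) + 2) * e ^ (th / 20 - 2 * c1) ≤ 1
  a6 : 2 ^ (1 + 4 * q0) * e ^ (1 / 4 - (th + 4 * q0 * thp)) ≤ c4
  a7 : (2 ^ (1 + 4 * q0)) ^ 2 * e ^ (1 / 2 - 2 * (th + 4 * q0 * thp)) ≤ 1 / 4
  a8 : 2 ^ (1 + 4 * q0) * e ^ (1 - (th + 4 * q0 * thp)) ≤ 1

theorem sp_ex {th thp c1 : ℝ} (q0 : ℕ) {cx c4 : ℝ} (K1 R k7 kc β : ℝ) (hcx : 0 < cx) (hc4 : 0 < c4)
    (hth : 0 < th) (hc1 : 0 < c1) (hc : 100 * c1 ≤ th) (hth1 : th ≤ 1)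
    (hρ : th + 4 * q0 * thp < 1 / 4) :
    ∃ E, 0 < E ∧ ∀ e : ℝ, 0 < e → e ≤ E → Sp th thp c1 q0 cx c4 K1 R k7 kc β e := by
  obtain ⟨e1, h1, n1⟩ := sm_rpow (s := th - 14 * c1) (A := K1) (by linarith) one_pos
  obtain ⟨e2, h2, n2⟩ := sm_rpow (s := 1 / 4 - 14 * c1) (A := R + 1) (by linarith) hcx
  obtain ⟨e3, h3, n3⟩ := sm_rpow (s := th / 4 - 8 * c1) (A := k7) (by linarith) one_pos
  obtain ⟨e4, h4, n4⟩ := sm_rpow (s := 1 - 10 * c1) (A := kc) (by linarith) one_pos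
  obtain ⟨e5, h5, n5⟩ := sm_rpow (s := th / 20 - 2 * c1) (A := 2 * (β + 3) + 2) (by linarith)
    one_pos
  obtain ⟨e6, h6, n6⟩ := sm_rpow (s := 1 / 4 - (th + 4 * q0 * thp)) (A := 2 ^ (1 + 4 * q0))
    (by linarith) hc4
  obtain ⟨e7, h7, n7⟩ := sm_rpow (s := 1 / 2 - 2 * (th + 4 * q0 * thp))
    (A := (2 ^ (1 + 4 * q0)) ^ 2) (by linarith) (show (0 : ℝ) < 1 / 4 by norm_num)
  obtain ⟨e8, h8, n8⟩ := sm_rpow (s := 1 - (th + 4 * q0 * thp)) (A := 2 ^ (1 + 4 * q0))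
    (by linarith) one_pos
  refine ⟨min (1 / 4) (min e1 (min e2 (min e3 (min e4 (min e5 (min e6 (min e7 e8))))))),
    by positivity, ?_⟩
  intro e he hle
  simp only [le_min_iff] at hle
  obtain ⟨g0, g1, g2, g3, g4, g5, g6, g7, g8⟩ := hle
  exact ⟨g0, n1 e he g1, n2 e he g2, n3 e he g3, n4 e he g4, n5 e he g5, n6 e he g6, n7 e he g7,
    n8 e he g8⟩

/-! ### one level -/

/-- the cells of one level -/
structure Lvl (P : Par) (b c1 : ℝ) (n s : ℕ) (e T : ℝ) : Prop where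
  e0 : 0 < e
  ees : e ≤ P.es
  G : Good P b n e
  t1 : tn n ≤ T
  t2 : T ≤ 4 * tn n
  sn : s ≤ n
  ns : n ≤ 2 * s
  nR : ((n - s : ℕ) : ℝ) ≤ e ^ (-(2 * c1))
  lam : (2 : ℝ) ^ s / 2 ^ n ≤ e

/-- `log (ξ / l)` -/
noncomputable def Ls (n s : ℕ) : ℝ := ((n - s : ℕ) : ℝ) * Real.log 2

theorem exp_Ls (n s : ℕ) : Real.exp (Ls n s) = (2 : ℝ) ^ (n - s) := by
  unfold Ls
  rw [Real.exp_nat_mul, Real.exp_log two_pos]

section lvl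

variable {P : Par} {b c1 : ℝ} {n s : ℕ} {e T : ℝ}

theorem Lvl.Q1 (h : Lvl P b c1 n s e T) : 1 / e ≤ (2 : ℝ) ^ (n - s) := by
  have h1 := h.lam
  have he := h.e0
  rw [pow_sub₀ _ two_ne_zero h.sn]
  rw [div_le_iff₀ (by positivity)] at h1
  rw [div_le_iff₀ he, ← div_eq_mul_inv, div_mul_eq_mul_div, le_div_iff₀ (by positivity)]
  linarith

theorem Lvl.L1 (h : Lvl P b c1 n s e T) (h4 : e ≤ 1 / 4) : 1 ≤ Ls n s := by
  have h1 := h.Q1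
  rw [← exp_Ls] at h1
  have he := h.e0
  have h2 : (4 : ℝ) ≤ 1 / e := by
    rw [le_div_iff₀ he]
    linarith
  have h3 : Real.exp 1 ≤ 4 := by linarith [Real.exp_one_lt_d9]
  exact Real.exp_le_exp.1 (h3.trans (h2.trans h1))

theorem Lvl.Lu (h : Lvl P b c1 n s e T) : Ls n s ≤ e ^ (-(2 * c1)) := by
  unfold Ls
  have h1 : Real.log 2 ≤ 1 := by linarith [Real.log_two_lt_d9]
  have h0 : 0 ≤ Real.log 2 := Real.log_nonneg one_le_two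
  have h2 := h.nR
  have h3 : (0 : ℝ) ≤ ((n - s : ℕ) : ℝ) := Nat.cast_nonneg _
  nlinarith

theorem Lvl.Lk (h : Lvl P b c1 n s e T) (k : ℕ) : Ls n s ^ k ≤ e ^ (-(2 * k * c1)) := by
  have h0 : 0 ≤ Ls n s := mul_nonneg (Nat.cast_nonneg _) (Real.log_nonneg one_le_two)
  refine (pow_le_pow_left₀ h0 h.Lu k).trans (le_of_eq ?_)
  rw [← Real.rpow_natCast, ← Real.rpow_mul h.e0.le]
  congr 1
  ring

/-- the structure `Nm` of a level -/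
theorem Lvl.nm (h : Lvl P b c1 n s e T) (h4 : e ≤ 1 / 4) {D0 : ℕ} {A' : ℝ} (hA : 1 ≤ A')
    (hD : (D0 : ℝ) * 2 ^ s ≤ A' * Ls n s * 2 ^ n) :
    Nm (2 ^ n) (2 ^ s) (2 ^ (n - s)) D0 T (Ls n s) 1 A' := by
  have e1 : ((2 ^ n : ℕ) : ℝ) ^ 2 = 4 ^ n := by
    push_cast
    rw [← pow_mul, mul_comm, pow_mul]
    norm_num
  refine ⟨?_, by positivity, by positivity, ?_, ?_, h.L1 h4, zero_le_one, ?_, hA, ?_⟩
  · rw [← pow_add]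
    congr 1
    have := h.sn
    omega
  · rw [e1, one_div]
    exact h.t1
  · rw [e1]
    refine h.t2.trans (le_of_eq ?_)
    unfold H972.tn
    ring
  · rw [one_mul, exp_Ls]
    push_cast
    exact le_rfl
  · push_cast
    exact hD

end lvl

end Vale.Agent.P159.H358
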