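import Vale.Agent.P159.H358.Un5

/-!
P159, module VTOR, numbers for fine cells, part 6: `vt_ev`, the distance of the densities to the cut
densities (same torus, other torus) in the order of constants, every real mass, every law below.
-/

open Finset MeasureTheory

set_option linter.unusedSectionVars false
set_option linter.unusedDecidableInType false

namespace Vale.Agent.P159.H358

open Vale.Agent.P159.TM.Spec (V Rng)
open Vale.Agent.P159.TM.SpecC (wT)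
open Vale.Agent.P159.H37 (gau)
open Vale.Agent.P159.H145 (mt OscZ)
open Vale.Agent.P159.H552 (lft)
open Vale.Agent.P159.H864 (cl yt)
open Vale.Agent.P159.H813 (LB4)
open Vale.Agent.P159.H462 (Dom)
open Vale.Agent.P159.H363 (Below n2)
open Vale.Agent.P159.H889 (uc)
open Vale.Agent.P159.H972 (Par lg tn RNG Good GP)
open Vale.Agent.P159.H801 (Ev PS)
open Vale.Agent.P159.H640 (sm_rpow rng_thr osc_yt)
open Matrix

/-- the inputs of one level: two tori, block noise on the first -/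
structure VtIn (P : Par) (b c1 : ℝ) (n s : ℕ) (e T Y X δ : ℝ) (r1 r2 : ℕ) : Prop where
  lv : Lvl P b c1 n s e T
  T1 : P.TT n e r1
  T2 : P.TT n e r2
  y1 : yt (2 ^ r1) b (4 * tn n) ≤ Y
  y2 : yt (2 ^ r2) b (4 * tn n) ≤ Y
  Y2 : 16 * Y ^ 2 ≤ e
  δ0 : 0 ≤ δ
  δ1 : δ ≤ 1
  ap : APB (2 ^ r1) (2 ^ s) (2 ^ (n - s)) b X T δ
  X1 : e ^ (-(P.th / 4)) ≤ X

section tor

variable {P : Par} {b c1 : ℝ} {n s : ℕ} {e T : ℝ}

theorem TT_pow_le {r : ℕ} (hT : P.TT n e r) (he : 0 < e) (he1 : e ≤ 1) :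
    (2 : ℝ) ^ r ≤ 2 ^ (1 + 4 * P.q0) * e ^ (-(P.th + 4 * P.q0 * P.thp)) * 2 ^ n := by
  have h := H733.Vt.tt_size hT he he1
  rw [div_le_iff₀ (by positivity)] at h
  refine h.trans (le_of_eq ?_)
  rw [mul_pow, ← Real.rpow_natCast (e ^ (-P.thp)), ← Real.rpow_mul he.le]
  have h3 : e ^ (-(P.th + 4 * P.q0 * P.thp)) = e ^ (-P.th) * e ^ (-P.thp * ((4 * P.q0 : ℕ) : ℝ)) := by
    rw [← Real.rpow_add he]
    congr 1
    push_cast
    ring
  rw [h3, pow_add, pow_one]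
  ring

theorem TT_pow_ge {r : ℕ} (hT : P.TT n e r) (he : 0 < e) :
    e ^ (-P.th) * 2 ^ n ≤ (2 : ℝ) ^ r := by
  have h1 := H733.Vt.lg_ge (c := P.th) he
  calc e ^ (-P.th) * 2 ^ n ≤ 2 ^ lg P.th e * 2 ^ n := by gcongr
    _ = 2 ^ (n + lg P.th e) := by rw [pow_add]; ring
    _ ≤ 2 ^ r := pow_le_pow_right₀ one_le_two hT.1

theorem Y_le {Y : ℝ} (he : 0 < e) (hY : 16 * Y ^ 2 ≤ e) : 4 * Y ≤ e ^ (1 / 2 : ℝ) := by
  have h1 : (4 * Y) ^ 2 ≤ (e ^ (1 / 2 : ℝ)) ^ 2 := by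
    rw [← Real.rpow_natCast (e ^ (1 / 2 : ℝ)), ← Real.rpow_mul he.le]
    norm_num
    linarith
  exact (abs_le_of_sq_le_sq' h1 (Real.rpow_pos_of_pos he _).le).2

/-- the structure `Tn` of an admissible torus -/
theorem Lvl.tn {cx Cx c4 C4 K1 R k7 kc β Y : ℝ} {ys : ℝ} {X0 : ℕ} {r : ℕ} {b2' : ℝ}
    (h : Lvl P b c1 n s e T) (hb : 0 ≤ b) (hb0 : 0 < b)
    (S : Sp P.th P.thp c1 P.q0 cx c4 K1 R k7 kc β e)
    (hK1 : 0 ≤ K1)
    (H : ∀ (K : ℕ) [NeZero K] (b : ℝ) (hb : 0 ≤ b) (l : ℕ) (y t : ℝ),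
      Rng P.b1 b2' (5 / 2) P.W ys X0 K b l y → Rng P.b1 b2' (5 / 2) P.W ys X0 K b (2 * l) y →
      1 / ((2 * l : ℕ) : ℝ) ^ 2 ≤ t → t ≤ 4 / ((2 * l : ℕ) : ℝ) ^ 2 →
      (K : ℝ) * y ≤ c4 * ((2 * l : ℕ) : ℝ) →
      HAt K b (2 * l) t hb y cx Cx ∧ LB4 K b t (2 * l) c4 C4)
    (hb2 : P.b2 = b2') (hys : P.ys ≤ ys) (hX0 : X0 ≤ P.X0) (hX2 : 2 ≤ P.X0) (hT : P.TT n e r)
    (hY : yt (2 ^ r) b (4 * tn n) ≤ Y) (hY2 : 16 * Y ^ 2 ≤ e) :
    Tn (2 ^ r) b hb (2 ^ n) (2 ^ s) T (e ^ (1 / 4 : ℝ)) cx Cx c4 C4 (Ls n s) 1 K1 := by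
  have he := h.e0
  have he4 := S.e4
  have he1 : e ≤ 1 := by linarith
  obtain ⟨τ0, a0, -, -, hGP⟩ := h.G
  have hr := (hGP e le_rfl h.ees).rng r (Or.inl hT)
  obtain ⟨hr1, hr2⟩ := hr
  unfold H972.RNG at hr1 hr2
  have hn1 : 1 ≤ n := by
    have h2 := hr1.hX
    by_contra h4
    have h5 : n = 0 := by omega
    rw [h5] at h2
    simp only [pow_zero] at h2
    omega
  have e2 : 2 ^ n = 2 * 2 ^ (n - 1) := by
    conv_lhs => rw [show n = (n - 1) + 1 by omega, pow_succ, mul_comm]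
  have hsr : s ≤ r := h.sn.trans ((Nat.le_add_right _ _).trans hT.1)
  have q2 : ((2 ^ n : ℕ) : ℝ) ^ 2 = 4 ^ n := by
    push_cast
    rw [← pow_mul, mul_comm, pow_mul]
    norm_num
  have hT0 : 0 < T := (H972.tn_pos n).trans_le h.t1
  have t1 : 1 / ((2 ^ n : ℕ) : ℝ) ^ 2 ≤ T := by
    rw [q2, one_div]
    exact h.t1
  have t2 : T ≤ 4 / ((2 ^ n : ℕ) : ℝ) ^ 2 := by
    rw [q2]
    refine h.t2.trans (le_of_eq ?_)
    unfold H972.tn
    ring
  have hup := TT_pow_le hT he he1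
  have hlo := TT_pow_ge hT he
  have hρ : 0 < e ^ (-(P.th + 4 * P.q0 * P.thp)) := Real.rpow_pos_of_pos he _
  have hKy : ((2 ^ r : ℕ) : ℝ) * e ^ (1 / 4 : ℝ) ≤ c4 * ((2 ^ n : ℕ) : ℝ) := by
    push_cast
    have e5 : e ^ (1 / 4 - (P.th + 4 * P.q0 * P.thp)) =
        e ^ (-(P.th + 4 * P.q0 * P.thp)) * e ^ (1 / 4 : ℝ) := by
      rw [← Real.rpow_add he]
      congr 1
      ring
    have h6 := S.a6
    rw [e5] at h6
    calc (2 : ℝ) ^ r * e ^ (1 / 4 : ℝ)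
        ≤ (2 ^ (1 + 4 * P.q0) * e ^ (-(P.th + 4 * P.q0 * P.thp)) * 2 ^ n) * e ^ (1 / 4 : ℝ) :=
          mul_le_mul_of_nonneg_right hup (Real.rpow_pos_of_pos he _).le
      _ = (2 ^ (1 + 4 * P.q0) * (e ^ (-(P.th + 4 * P.q0 * P.thp)) * e ^ (1 / 4 : ℝ))) * 2 ^ n := by
          ring
      _ ≤ c4 * 2 ^ n := mul_le_mul_of_nonneg_right h6 (by positivity)
  subst hb2
  have hHL := H (2 ^ r) b hb (2 ^ (n - 1)) (e ^ (1 / 4 : ℝ)) T (rng_thr hr2 hys hX0)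
    (by rw [← e2]; exact rng_thr hr1 hys hX0) (by rw [← e2]; exact t1) (by rw [← e2]; exact t2)
    (by rw [← e2]; exact hKy)
  rw [← e2] at hHL
  refine ⟨pow_dvd_pow 2 hsr, hHL.1, hHL.2, ?_, ?_, ?_⟩
  · -- oscillation
    have hyT : yt (2 ^ r) b T ≤ 4 * Y := by
      have h7 := H767.yt_mass4 (N := 2 ^ r) hb0 hT0 h.t2 (by linarith [h.t1])
      linarith
    have hY0 : 0 ≤ Y := by
      have h8 := H864.yt_nonneg (N := 2 ^ r) hb hT0
      linarith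
    have h9 := osc_yt (N := 2 ^ r) hb0 hT0 (ξ := 2 ^ n) (by positivity) t2 (Y := 4 * Y)
      (Q := 1 / 4) hyT (by
        have h10 : ((2 ^ r : ℕ) : ℝ) ^ 2 / ((2 ^ n : ℕ) : ℝ) ^ 2 ≤
            (2 ^ (1 + 4 * P.q0) * e ^ (-(P.th + 4 * P.q0 * P.thp))) ^ 2 := by
          rw [← div_pow]
          refine pow_le_pow_left₀ (by positivity) ?_ 2
          rw [div_le_iff₀ (by positivity)]
          push_cast
          exact hup
        have h11 := Y_le he hY2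
        have e6 : (e ^ (-(P.th + 4 * P.q0 * P.thp))) ^ 2 * e ^ (1 / 2 : ℝ) =
            e ^ (1 / 2 - 2 * (P.th + 4 * P.q0 * P.thp)) := by
          rw [← Real.rpow_natCast (e ^ (-(P.th + 4 * P.q0 * P.thp))), ← Real.rpow_mul he.le,
            ← Real.rpow_add he]
          congr 1
          push_cast
          ring
        calc ((2 ^ r : ℕ) : ℝ) ^ 2 / ((2 ^ n : ℕ) : ℝ) ^ 2 * (4 * Y)
            ≤ (2 ^ (1 + 4 * P.q0) * e ^ (-(P.th + 4 * P.q0 * P.thp))) ^ 2 * e ^ (1 / 2 : ℝ) :=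
              mul_le_mul h10 h11 (by positivity) (by positivity)
          _ = (2 ^ (1 + 4 * P.q0)) ^ 2 * e ^ (1 / 2 - 2 * (P.th + 4 * P.q0 * P.thp)) := by
              rw [mul_pow, mul_assoc, e6]
          _ ≤ 1 / 4 := S.a7) (by norm_num)
    norm_num at h9
    exact h9
  · -- upper bound of the size
    rw [one_mul, exp_Ls]
    push_cast
    refine hup.trans (mul_le_mul_of_nonneg_right ?_ (by positivity))
    refine le_trans ?_ h.Q1
    rw [le_div_iff₀ he]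
    have e7 : e ^ (1 - (P.th + 4 * P.q0 * P.thp)) = e ^ (-(P.th + 4 * P.q0 * P.thp)) * e := by
      conv_rhs => rw [← Real.rpow_one e, ← Real.rpow_mul he.le, one_mul, ← Real.rpow_add he]
      congr 1
      ring
    have h8 := S.a8
    rw [e7] at h8
    linarith
  · -- lower bound
    push_cast
    refine le_trans ?_ hlo
    refine mul_le_mul_of_nonneg_right ?_ (by positivity)
    have h7 := h.Lk 7
    have e8 : e ^ (-(2 * (7 : ℕ) * c1)) = e ^ (P.th - 14 * c1) * e ^ (-P.th) := by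
      rw [← Real.rpow_add he]
      congr 1
      push_cast
      ring
    rw [e8] at h7
    have hp : 0 < e ^ (-P.th) := Real.rpow_pos_of_pos he _
    calc K1 * Ls n s ^ 7 ≤ K1 * (e ^ (P.th - 14 * c1) * e ^ (-P.th)) :=
          mul_le_mul_of_nonneg_left h7 hK1
      _ = (K1 * e ^ (P.th - 14 * c1)) * e ^ (-P.th) := by ring
      _ ≤ 1 * e ^ (-P.th) := mul_le_mul_of_nonneg_right S.a1 hp.le
      _ = _ := one_mul _

end tor

end Vale.Agent.P159.H358
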