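import Vale.Agent.P159.H358.Up1
import Vale.Agent.P159.H816.HtFine
import Vale.Agent.P159.H586.Fern1
import Vale.Agent.P159.H145.In3

/-!
P159, module VTOR, probabilities for fine cells, part 2: energies of window fields (bare domination)
and their tails.
-/

open Finset MeasureTheory

set_option linter.unusedSectionVars false
set_option linter.unusedDecidableInType false

namespace Vale.Agent.P159.H358

open Vale.Agent.P159.TM.H104 (EM Lg)
open Vale.Agent.P159.H37 (gau qf wt wM)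
open Vale.Agent.P159.TM.Spec (V)
open Vale.Agent.P159.TM.SpecC (wT)
open Vale.Agent.P159.H552 (lft)
open Vale.Agent.P159.H864 (cl cobV cobV_tr_mulVec lapM sq_cobV_tr)
open Vale.Agent.P159.H859 (Rk gd gd_le ge cob_res_le)
open Vale.Agent.P159.H816 (Gam edge_le dom_int)
open Vale.Agent.P159.H462 (Dom)
open Vale.Agent.P159.H363 (pin Below)
open Vale.Agent.P159.H733.Torg (ip)
open Vale.Agent.P159.H733.Vt (zb mem_zb sum_box ip_mem_box)
open Matrix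

section lin

variable {W I : Type*} [Fintype W] [Fintype I]

theorem tr_qf [DecidableEq W] {A : Matrix W W ℝ} (hA : A.PosSemidef) (L : Matrix W I ℝ) {κ : ℝ}
    {s : Finset W} (h : ∀ α : W → ℝ, ∑ i, (α ᵥ* L) i ^ 2 ≤ κ * ∑ v ∈ s, α v ^ 2) :
    ∑ i, qf A (Lᵀ i) ≤ κ * ∑ v ∈ s, A v v := by
  obtain ⟨C, hC⟩ := H239.exists_increment hA
  have e1 : ∀ u : W → ℝ, qf A u = ∑ j, (u ᵥ* C) j ^ 2 := by
    intro u
    rw [H37.qf_eq, hC, ← Matrix.mulVec_mulVec, Matrix.dotProduct_mulVec]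
    unfold dotProduct
    refine Finset.sum_congr rfl fun j _ => ?_
    rw [Matrix.mulVec_transpose, pow_two]
  have e2 : ∀ i j, (Lᵀ i ᵥ* C) j = ((fun v => C v j) ᵥ* L) i := by
    intro i j
    show ∑ v, L v i * C v j = ∑ v, C v j * L v i
    exact Finset.sum_congr rfl fun v _ => mul_comm _ _
  simp only [e1, e2]
  rw [Finset.sum_comm]
  calc ∑ j, ∑ i, ((fun v => C v j) ᵥ* L) i ^ 2 ≤ ∑ j, κ * ∑ v ∈ s, C v j ^ 2 :=
        Finset.sum_le_sum fun j _ => h _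
    _ = κ * ∑ v ∈ s, A v v := by
        rw [← Finset.mul_sum, Finset.sum_comm]
        congr 1
        refine Finset.sum_congr rfl fun v _ => ?_
        rw [hC, Matrix.mul_apply]
        exact Finset.sum_congr rfl fun j _ => by rw [Matrix.transpose_apply, pow_two]

end lin

section en

variable {K l : ℕ} [NeZero K] [NeZero (K / l)] {b t : ℝ}

theorem lft_cob (hl : l ∣ K) (k : V (K / l) → ℝ) :
    lft (cl : V K → V (K / l)) k = (l : ℝ) • ((cobV K l)ᵀ *ᵥ k) := by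
  have hl0 : (0 : ℝ) < l := by exact_mod_cast H864.l_pos hl
  funext v
  rw [Pi.smul_apply, smul_eq_mul, cobV_tr_mulVec]
  show k (cl v) = _
  field_simp

theorem sum_sq_lft (hl : l ∣ K) (s : ℝ) (k : V (K / l) → ℝ) :
    ∑ v, (s • lft (cl : V K → V (K / l)) k) v ^ 2 = s ^ 2 * (l : ℝ) ^ 2 * ∑ c, k c ^ 2 := by
  rw [lft_cob hl, ← sq_cobV_tr hl k, Finset.mul_sum]
  refine Finset.sum_congr rfl fun v _ => ?_
  rw [Pi.smul_apply, Pi.smul_apply, smul_eq_mul, smul_eq_mul]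
  ring

/-- sum of squares of a bounded window field -/
theorem sq_win {n : ℕ} [NeZero n] {D : ℕ} (hD : 2 * D < n) {k : V n → ℝ} {p : V n} {G : ℝ}
    (h0 : ∀ v, v ∉ H462.box p D → k v = 0) (hG : ∀ v, |k v| ≤ G) :
    ∑ v, k v ^ 2 ≤ (2 * (D : ℝ) + 1) ^ 2 * G ^ 2 := by
  have e1 : ∑ v, k v ^ 2 = ∑ v ∈ H462.box p D, k v ^ 2 := by
    symm
    refine Finset.sum_subset (Finset.subset_univ _) fun w _ hw => ?_
    rw [h0 w hw, zero_pow two_ne_zero]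
  have h3 : ((H462.box p D).card : ℝ) = (2 * (D : ℝ) + 1) ^ 2 := by
    rw [card_box_eq hD, H733.Vt.card_zb]
  rw [e1, ← h3]
  have : ∀ v ∈ H462.box p D, k v ^ 2 ≤ G ^ 2 := by
    intro v _
    rw [← sq_abs]
    exact pow_le_pow_left₀ (abs_nonneg _) (hG v) 2
  refine (Finset.sum_le_sum this).trans (le_of_eq ?_)
  rw [Finset.sum_const, nsmul_eq_mul]

/-- **bare domination of the energy of a cell field** -/
theorem EN_bare (hb : 0 ≤ b) (ht : 0 < t) (hl : l ∣ K) {κ cs s : ℝ} (hκ : 0 < κ)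
    (hcs : κ * (b + 12 * max b 1 ^ 2 * cs ^ 2) ≤ 1) (hcs0 : 0 ≤ cs) (hcs1 : cs ≤ 1)
    (k : V (K / l) → ℝ) (hE : Gam K t t κ * (s ^ 2 * (l : ℝ) ^ 2 * ∑ c, k c ^ 2) ≤ cs ^ 2) :
    EN K b t (s • lft (cl : V K → V (K / l)) k) ≤
      s ^ 2 * (l : ℝ) ^ 2 / 2 * qf (Rk t (κ / (l : ℝ) ^ 2)) k := by
  have hs : (t • (1 : Matrix (V K) (V K) ℝ))ᵀ = t • 1 := by
    rw [Matrix.transpose_smul, Matrix.transpose_one]
  have hM : ∀ u : V K → ℝ, t * ∑ x, u x ^ 2 ≤ qf (t • (1 : Matrix (V K) (V K) ℝ)) u :=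
    fun u => (H37.qf_smul_one t u).ge
  have hM' : ∀ u : V K → ℝ, qf (t • (1 : Matrix (V K) (V K) ℝ)) u ≤ t * ∑ x, u x ^ 2 :=
    fun u => (H37.qf_smul_one t u).le
  have h1 := dom_int (N := K) (cs := cs) hb hs ht hM hκ hcs hcs1
    (s • lft (cl : V K → V (K / l)) k) (fun x e => by
      have h2 := edge_le hs ht le_rfl hκ hM hM' (s • lft (cl : V K → V (K / l)) k) x e
      rw [sum_sq_lft hl] at h2
      exact abs_le_of_sq_le_sq (h2.trans hE) hcs0)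
  unfold EN
  refine h1.trans ?_
  have e3 : s • lft (cl : V K → V (K / l)) k = (s * l) • ((cobV K l)ᵀ *ᵥ k) := by
    rw [lft_cob hl, smul_smul]
  rw [e3, H37.qf_smul]
  have h4 := cob_res_le (N := K) (l := l) hl hs ht hM ht hκ.le (fun f => by
    rw [H37.qf_smul_one]
    refine mul_le_mul_of_nonneg_left ?_ ht.le
    rw [← H864.qf_cellP hl]
    exact H864.qf_cellP_le hl f) k
  have h5 : 0 ≤ (s * l) ^ 2 / 2 := by positivity
  calc (s * l) ^ 2 * _ / 2 = (s * l) ^ 2 / 2 * _ := by ring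
    _ ≤ (s * l) ^ 2 / 2 * _ := mul_le_mul_of_nonneg_left h4 h5
    _ = _ := by ring

theorem rk_sym (n : ℕ) [NeZero n] (r κ : ℝ) :
    (Rk r κ : Matrix (V n) (V n) ℝ)ᵀ = Rk r κ := (H859.ti_Rk r κ).transpose

theorem rk_diag {n : ℕ} [NeZero n] (r κ : ℝ) (v : V n) :
    (Rk r κ : Matrix (V n) (V n) ℝ) v v = gd n r κ := by
  unfold H859.gd
  have h := (H859.ti_Rk r κ : H864.TI (Rk r κ : Matrix (V n) (V n) ℝ))
  rw [h.eq v v, sub_self]

/-- scale of the energy of a window field -/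
noncomputable def TE (K l : ℕ) (t κ κ₀ : ℝ) (D : ℕ) : ℝ :=
  (t * (l : ℝ) ^ 2 * κ) * (t * (l : ℝ) ^ 2 * (2 * (D : ℝ) + 1) ^ 2) *
    (1 / (t * (K : ℝ) ^ 2) + (1 + Real.log ((K / l : ℕ) : ℝ)) / κ₀)

/-- **tail of the energy of a window field** -/
theorem en_tail {n : ℕ} [NeZero n] {I : Type*} [Fintype I] (hb : 0 ≤ b) (ht : 0 < t) (hl : l ∣ K)
    {κ₀ cs : ℝ} (hκ₀ : 0 < κ₀) (hcs : κ₀ * (b + 12 * max b 1 ^ 2 * cs ^ 2) ≤ 1) (hcs0 : 0 ≤ cs)
    (hcs1 : cs ≤ 1) {D : ℕ} {κ : ℝ} (hκ : 0 < κ) {Bm : Matrix (V n) I ℝ} (hB : CovB D κ Bm)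
    (hn : 2 * D < n) (hK : 2 * D < K / l) {G : ℝ}
    (hE : Gam K t t κ₀ * ((16 * t) ^ 2 * (l : ℝ) ^ 2 * ((2 * (D : ℝ) + 1) ^ 2 * G ^ 2)) ≤ cs ^ 2)
    (x : V n) (p : V (K / l)) (Λ : ℝ) :
    (gau I).real {g | (∀ ζ ∈ zb D, |hx x (Bm *ᵥ g) ζ - avz D (hx x (Bm *ᵥ g))| ≤ G) ∧
      Λ < EN K b t ((16 * t) • lft (cl : V K → V (K / l)) (wf (K / l) D x p (Bm *ᵥ g)))} ≤
      2 * Real.exp (-(Λ / (512 * TE K l t κ κ₀ D))) := by
  have hl0 : (0 : ℝ) < l := by exact_mod_cast H864.l_pos hl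
  have hK0 : (0 : ℝ) < K := by exact_mod_cast NeZero.pos K
  have hG0 : ∀ {g : I → ℝ}, (∀ ζ ∈ zb D, |hx x (Bm *ᵥ g) ζ - avz D (hx x (Bm *ᵥ g))| ≤ G) →
      0 ≤ G := fun h => (abs_nonneg _).trans (h _ (H733.Vt.zero_mem_zb D))
  have hKl : ((K / l : ℕ) : ℝ) = (K : ℝ) / l := by
    rw [Nat.cast_div hl hl0.ne']
  have hn' : (0 : ℝ) < ((K / l : ℕ) : ℝ) := by rw [hKl]; positivity
  have hκl : 0 < κ₀ / (l : ℝ) ^ 2 := by positivity
  set A : Matrix (V (K / l)) (V (K / l)) ℝ := Rk t (κ₀ / (l : ℝ) ^ 2) with hA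
  set L : Matrix (V (K / l)) I ℝ := wK (K / l) D x p * Bm with hL
  have hpd : A.PosSemidef := (H859.pd_Rk ht hκl.le).posSemidef
  have hlog : 0 ≤ Real.log ((K / l : ℕ) : ℝ) := Real.log_natCast_nonneg _
  set E : ℝ := κ * ((2 * (D : ℝ) + 1) ^ 2 * (1 / (t * ((K / l : ℕ) : ℝ) ^ 2) +
    (1 + Real.log ((K / l : ℕ) : ℝ)) / (κ₀ / (l : ℝ) ^ 2))) with hEdef
  have hE0 : 0 < E := by positivity
  have htr : ∑ i, qf A (Lᵀ i) ≤ E := by
    refine (tr_qf hpd L (fun α => wK_cov hn hK hκ.le hB x p α)).trans ?_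
    rw [hEdef]
    refine mul_le_mul_of_nonneg_left ?_ hκ.le
    rw [hA]
    simp only [rk_diag]
    rw [Finset.sum_const, nsmul_eq_mul, card_box_eq hK, H733.Vt.card_zb]
    exact mul_le_mul_of_nonneg_left (gd_le ht hκl) (by positivity)
  have hq0 : ∀ u, 0 ≤ qf A u := by
    intro u
    rw [H37.qf_eq]
    have := hpd.dotProduct_mulVec_nonneg u
    simpa using this
  have h1 := H145.tail_src hq0 (rk_sym _ _ _) L hE0 htr (Λ / (128 * t ^ 2 * (l : ℝ) ^ 2))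
  have e1 : Λ / (128 * t ^ 2 * (l : ℝ) ^ 2) / (4 * E) = Λ / (512 * TE K l t κ κ₀ D) := by
    have : TE K l t κ κ₀ D = t ^ 2 * (l : ℝ) ^ 2 * E := by
      unfold TE
      rw [hEdef, hKl]
      field_simp
    rw [this]
    field_simp
    ring
  rw [e1] at h1
  refine le_trans (measureReal_mono fun g hg => ?_) h1
  obtain ⟨g1, g2⟩ := hg
  show Λ / (128 * t ^ 2 * (l : ℝ) ^ 2) ≤ qf A (L *ᵥ g)
  have hG := hG0 g1
  have e2 : L *ᵥ g = wf (K / l) D x p (Bm *ᵥ g) := by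
    rw [hL, ← Matrix.mulVec_mulVec, wK_mulVec hK]
  rw [e2]
  set k := wf (K / l) D x p (Bm *ᵥ g) with hk
  have hout : ∀ v, v ∉ H462.box p D → k v = 0 := fun v hv => ka_out _ _ _ hv
  have hbd : ∀ v, |k v| ≤ G := by
    intro v
    by_cases hv : v ∈ H462.box p D
    · have e3 : p + ip (K / l) ((v - p).1.valMinAbs, (v - p).2.valMinAbs) = v := ip_vma p v
      have hm : ((v - p).1.valMinAbs, (v - p).2.valMinAbs) ∈ zb D :=
        mem_zb.2 (H462.mem_box.1 hv)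
      rw [← e3, hk]
      unfold wf
      rw [ka_box hK _ _ _ hm]
      exact g1 _ hm
    · rw [hout v hv, abs_zero]
      exact hG
  have hs := sq_win hK hout hbd
  have hGam : 0 ≤ Gam K t t κ₀ := H816.Gam_nonneg ht hκ₀
  have h2 := EN_bare hb ht hl hκ₀ hcs hcs0 hcs1 (s := 16 * t) k (le_trans
    (mul_le_mul_of_nonneg_left (mul_le_mul_of_nonneg_left hs (by positivity)) hGam) hE)
  rw [← hA] at h2
  rw [div_le_iff₀ (by positivity)]
  have h3 : (16 * t) ^ 2 * (l : ℝ) ^ 2 / 2 = 128 * t ^ 2 * (l : ℝ) ^ 2 := by ring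
  rw [h3] at h2
  linarith [g2.le.trans h2]

end en

end Vale.Agent.P159.H358
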