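import Vale.Agent.P159.H358.Up3
import Vale.Agent.P159.H363.Cvg3

/-!
P159, module VTOR, probabilities for fine cells, part 4: the good set and its probability.
-/

open Finset MeasureTheory

set_option linter.unusedSectionVars false
set_option linter.unusedDecidableInType false

namespace Vale.Agent.P159.H358

open Vale.Agent.P159.TM.H104 (EM Lg)
open Vale.Agent.P159.H37 (gau qf wt wM Rs cob PK Ev)
open Vale.Agent.P159.TM.Spec (V)
open Vale.Agent.P159.TM.SpecC (wT)
open Vale.Agent.P159.H552 (lft)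
open Vale.Agent.P159.H864 (cl cl1_val cobV)
open Vale.Agent.P159.H816 (Gam)
open Vale.Agent.P159.H462 (Dom)
open Vale.Agent.P159.H363 (pin Below measurable_mulVec)
open Vale.Agent.P159.H963 (gw_wT mf_smul)
open Vale.Agent.P159.H733.Torg (ip)
open Vale.Agent.P159.H733.Vt (zb mem_zb sum_box ip_mem_box)
open Matrix

/-! ### continuity -/

section cont

variable {N : ℕ} [NeZero N] {b t : ℝ}

theorem continuous_EN (hb : 0 ≤ b) (ht : 0 < t) : Continuous (EN N b t) := by
  unfold EN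
  exact (TM.H104.continuous_Lg (H789.em_wt hb ht)).sub continuous_const

theorem continuous_Rn (hb : 0 ≤ b) (ht : 0 < t) : Continuous (Rn N b t) := by
  unfold Rn
  refine (H114.continuous_Rs ((gw_wT hb).em_nM (mf_smul (N := N) ht) 0)).comp ?_
  exact (Continuous.const_smul (g := fun F : V N → ℝ =>
    H963.ntr (t • (1 : Matrix (V N) (V N) ℝ)) t *ᵥ F)
    (continuous_const.matrix_mulVec continuous_id) (2 : ℝ))

theorem continuous_lft {l : ℕ} [NeZero (N / l)] :
    Continuous fun F : V (N / l) → ℝ => lft (cl : V N → V (N / l)) F :=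
  continuous_pi fun v => continuous_apply (cl v)

end cont

/-! ### the good set -/

section good

variable {N M B l : ℕ} [NeZero N] [NeZero M] [NeZero B] [NeZero (N / l)] [NeZero (M / l)]
  [NeZero (B / l)] {b t : ℝ} {I : Type*} [Fintype I]

/-- the good set of fields at `x`, torus `M`, windows also on `N` and on the base torus `B` -/
def Gs (N M B l : ℕ) [NeZero N] [NeZero M] [NeZero B] [NeZero (N / l)] [NeZero (M / l)]
    [NeZero (B / l)] (b t : ℝ) (D0 : ℕ) (G τ δ Λ₁ : ℝ) (p : V (B / l)) (x : V (M / l)) :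
    Set (V (M / l) → ℝ) :=
  {F | (∀ v, |F v - av D0 x F| ≤ G) ∧ Rn M b t (lft (cl : V M → V (M / l)) F) ≤ τ ∧
    EN M b t ((16 * t) • lft (cl : V M → V (M / l)) (wK (M / l) D0 x 0 *ᵥ F)) ≤ Λ₁ ∧
    EN B b t ((16 * t) • lft (cl : V B → V (B / l)) (wK (B / l) D0 x 0 *ᵥ F)) ≤ Λ₁ ∧
    EN N b t ((16 * t) • lft (cl : V N → V (N / l)) (wK (N / l) D0 x 0 *ᵥ F)) ≤ Λ₁ ∧
    Rs (wt B b t) ((4 * t) • lft (cl : V B → V (B / l)) (wK (B / l) D0 x p *ᵥ F)) ≤ δ}

theorem continuous_en {K : ℕ} [NeZero K] [NeZero (K / l)] {n : ℕ} [NeZero n] (hb : 0 ≤ b)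
    (ht : 0 < t) (s : ℝ) (D0 : ℕ) (x : V n) (p : V (K / l)) :
    Continuous fun F : V n → ℝ =>
      EN K b t (s • lft (cl : V K → V (K / l)) (wK (K / l) D0 x p *ᵥ F)) :=
  (continuous_EN hb ht).comp ((continuous_lft.comp
    (continuous_const.matrix_mulVec continuous_id)).const_smul s)

theorem continuous_rs {K : ℕ} [NeZero K] [NeZero (K / l)] {n : ℕ} [NeZero n] (hb : 0 ≤ b)
    (ht : 0 < t) (s : ℝ) (D0 : ℕ) (x : V n) (p : V (K / l)) :
    Continuous fun F : V n → ℝ =>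
      Rs (wt K b t) (s • lft (cl : V K → V (K / l)) (wK (K / l) D0 x p *ᵥ F)) :=
  (H114.continuous_Rs (H789.em_wt hb ht)).comp ((continuous_lft.comp
    (continuous_const.matrix_mulVec continuous_id)).const_smul s)

theorem measurable_Gs (hb : 0 ≤ b) (ht : 0 < t) (D0 : ℕ) (G τ δ Λ₁ : ℝ) (p : V (B / l))
    (x : V (M / l)) : MeasurableSet (Gs N M B l b t D0 G τ δ Λ₁ p x) := by
  have h1 : MeasurableSet {F : V (M / l) → ℝ | ∀ v, |F v - av D0 x F| ≤ G} := by
    rw [Set.ofPred_forall]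
    refine MeasurableSet.iInter fun v => ?_
    exact measurableSet_le (((continuous_apply v).sub (continuous_av D0 x)).abs).measurable
      measurable_const
  refine h1.inter (MeasurableSet.inter ?_ (MeasurableSet.inter ?_ (MeasurableSet.inter ?_
    (MeasurableSet.inter ?_ ?_))))
  · exact measurableSet_le ((continuous_Rn hb ht).comp continuous_lft).measurable measurable_const
  · exact measurableSet_le (continuous_en hb ht _ _ _ _).measurable measurable_const
  · exact measurableSet_le (continuous_en hb ht _ _ _ _).measurable measurable_const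
  · exact measurableSet_le (continuous_en hb ht _ _ _ _).measurable measurable_const
  · exact measurableSet_le (continuous_rs hb ht _ _ _ _).measurable measurable_const

/-- from the two `R` numbers on the base torus -/
theorem wgM_of {K : ℕ} [NeZero K] [NeZero (K / l)] {n : ℕ} [NeZero n] (hb : 0 ≤ b) (ht : 0 < t)
    (hlB : l ∣ B) {D0 D1 q : ℕ} {G δ Λ₁ : ℝ} (hδ : 0 ≤ δ) (x : V n) {F : V n → ℝ}
    (hn : 2 * D0 < n) (hK : 2 * D0 < K / l) (hB : 2 * D0 < B / l)
    (h0 : ∀ v, |F v - av D0 x F| ≤ G)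
    (hE : EN K b t ((16 * t) • lft (cl : V K → V (K / l)) (wK (K / l) D0 x 0 *ᵥ F)) ≤ Λ₁)
    (hEB : EN B b t ((16 * t) • lft (cl : V B → V (B / l)) (wK (B / l) D0 x 0 *ᵥ F)) ≤ Λ₁)
    (hR : Rs (wt B b t) ((4 * t) • lft (cl : V B → V (B / l))
      (wK (B / l) D0 x (pc (B / l) (q, q)) *ᵥ F)) ≤ δ)
    (hI : Rs (wt B b t) ((4 * t) • lft (cl : V B → V (B / l))
      (fun v => if v ∈ H462.box (pc (B / l) (q, q)) D1 then 1 else 0)) ≤ δ) :
    WgM K B l b t D0 D1 G δ Λ₁ x F := by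
  have hμ := H789.em_wt (N := B) hb ht
  have hEv : Ev (wt B b t) := H789.ev_wt
  have hPK : PK (wt B b t) := H789.pk_wt (N := B) hb ht
  rw [wK_mulVec hK] at hE
  rw [wK_mulVec hB] at hEB hR
  refine ⟨fun ζ _ => ?_, hE, hEB, ?_, ?_⟩
  · have h1 := h0 (x + ip n ζ)
    rw [av_eq hn] at h1
    exact h1
  · rw [Rs_place3 hlB (ka (B / l) D0 (hx x F) (avz D0 (hx x F))) (ka_sh D0 _ _) 0
      (pc (B / l) (q, q)) (2 * t)]
    have h2 := H789.Rs_nonneg hμ hEv hPK ((4 * t) • lft (cl : V B → V (B / l))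
      (wf (B / l) D0 x (pc (B / l) (q, q)) F))
    have h3 := (H789.Rs_convex hμ hEv hPK).2
      (Set.mem_univ ((4 * t) • lft (cl : V B → V (B / l)) (wf (B / l) D0 x (pc (B / l) (q, q)) F)))
      (Set.mem_univ (0 : V B → ℝ)) (show (0 : ℝ) ≤ 1 / 2 by norm_num)
      (show (0 : ℝ) ≤ 1 / 2 by norm_num) (by norm_num)
    rw [smul_zero, add_zero, H789.Rs_zero, smul_zero, add_zero, smul_smul, smul_eq_mul] at h3
    have e : (1 / 2 : ℝ) * (4 * t) = 2 * t := by ring
    rw [e] at h3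
    refine h3.trans ?_
    linarith
  · rw [Rs_place3 hlB (kb (B / l) D0 D1 (hx x F) (avz D0 (hx x F))) (kb_sh D0 D1 _ _) 0
      (pc (B / l) (q, q)) (2 * t)]
    have e : (2 * t) • lft (cl : V B → V (B / l))
        (kb (B / l) D0 D1 (hx x F) (avz D0 (hx x F)) (pc (B / l) (q, q))) =
        (2 * t) • lft (cl : V B → V (B / l)) (wf (B / l) D0 x (pc (B / l) (q, q)) F) +
        (2 * t) • lft (cl : V B → V (B / l))
          (fun v => if v ∈ H462.box (pc (B / l) (q, q)) D1 then 1 else 0) := by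
      rw [← smul_add]
      congr 1
    rw [e]
    refine H586.conv_two (H789.Rs_convex hμ hEv hPK) ?_ ?_
    · rw [smul_smul]
      have e2 : (2 : ℝ) * (2 * t) = 4 * t := by ring
      rw [e2]
      exact hR
    · rw [smul_smul]
      have e2 : (2 : ℝ) * (2 * t) = 4 * t := by ring
      rw [e2]
      exact hI

/-- tail of the oscillation -/
theorem osc_tail {n : ℕ} [NeZero n] {A : Matrix (V n) (V n) ℝ} {ν c : ℝ} (h : Dom A ν c)
    {Bm : Matrix (V n) I ℝ} (hB : Below A Bm) (D : ℕ) (x : V n) {G σ : ℝ} (hG : 0 ≤ G)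
    (hσ0 : 0 < σ) (hσ : 4 * ν⁻¹ + c⁻¹ * (200 * (1 + Real.log (1 + (n : ℝ) ^ 2))) ≤ σ ^ 2) :
    (gau I).real {g | ¬∀ v, |(Bm *ᵥ g) v - av D x (Bm *ᵥ g)| ≤ G} ≤
      2 * (n : ℝ) ^ 2 * Real.exp (-((G / σ) ^ 2 / 2)) := by
  set L : Matrix (V n) I ℝ := Matrix.of fun v => σ⁻¹ • ((Pi.single v 1 - fun w =>
    if w ∈ H462.box x D then ((H462.box x D).card : ℝ)⁻¹ else 0 : V n → ℝ) ᵥ* Bm) with hL
  have hrow : ∀ v, ∑ i, L v i ^ 2 ≤ 1 := by
    intro v
    have h1 := dev_av h hB D x v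
    have e1 : ∑ i, L v i ^ 2 = (σ⁻¹) ^ 2 * ∑ i, ((Pi.single v 1 - fun w =>
        if w ∈ H462.box x D then ((H462.box x D).card : ℝ)⁻¹ else 0 : V n → ℝ) ᵥ* Bm) i ^ 2 := by
      rw [Finset.mul_sum]
      refine Finset.sum_congr rfl fun i _ => ?_
      rw [hL]
      simp only [Matrix.of_apply, Pi.smul_apply, smul_eq_mul, mul_pow]
    rw [e1, inv_pow, inv_mul_le_iff₀ (by positivity), mul_one]
    exact h1.trans hσ
  have hmv : ∀ g v, (L *ᵥ g) v = σ⁻¹ * ((Bm *ᵥ g) v - av D x (Bm *ᵥ g)) := by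
    intro g v
    show (L v) ⬝ᵥ g = _
    have e2 : L v = σ⁻¹ • ((Pi.single v 1 - fun w => if w ∈ H462.box x D then
      ((H462.box x D).card : ℝ)⁻¹ else 0 : V n → ℝ) ᵥ* Bm) := rfl
    rw [e2, smul_dotProduct, smul_eq_mul, ← Matrix.dotProduct_mulVec, sub_dotProduct,
      single_one_dotProduct]
    congr 2
    unfold av dotProduct
    rw [Finset.mul_sum, ← Finset.sum_subset (Finset.subset_univ (H462.box x D))]
    · refine Finset.sum_congr rfl fun w hw => ?_
      simp only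
      rw [if_pos hw]
    · intro w _ hw
      simp only
      rw [if_neg hw, zero_mul]
  have h2 := H30.sup_tail L hrow (r := G / σ) (by positivity)
  have hcard : ((Fintype.card (V n) : ℕ) : ℝ) = (n : ℝ) ^ 2 := card_V
  rw [hcard] at h2
  refine le_trans (measureReal_mono (fun g hg => ?_) (measure_ne_top _ _)) h2
  simp only [Set.mem_ofPred_eq, not_forall, not_le] at hg ⊢
  obtain ⟨v, hv⟩ := hg
  refine ⟨v, ?_⟩
  rw [hmv, abs_mul, abs_of_pos (inv_pos.2 hσ0), div_eq_inv_mul]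
  exact mul_le_mul_of_nonneg_left hv.le (inv_pos.2 hσ0).le

end good

end Vale.Agent.P159.H358
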