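import Vale.Agent.P159.H358.Up4

/-!
P159, module VTOR, probabilities for fine cells, part 5: probability of the complement of the good
set; closeness of the densities to their local approximants in `L²`, any law below the typical law.
-/

open Finset MeasureTheory

set_option linter.unusedSectionVars false
set_option linter.unusedDecidableInType false

namespace Vale.Agent.P159.H358

open Vale.Agent.P159.TM.H104 (EM Lg)
open Vale.Agent.P159.H37 (gau qf wt wM Rs cob PK Ev)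
open Vale.Agent.P159.TM.Spec (V)
open Vale.Agent.P159.TM.SpecC (wT)
open Vale.Agent.P159.H145 (mt OscZ)
open Vale.Agent.P159.H552 (lft)
open Vale.Agent.P159.H864 (cl cl1_val cobV)
open Vale.Agent.P159.H816 (Gam)
open Vale.Agent.P159.H462 (Dom)
open Vale.Agent.P159.H363 (pin Below measurable_mulVec n2 n2_good_law below_pin)
open Vale.Agent.P159.H889 (uc ch_uc norm_uc_le continuous_uc tn2 Lcl)
open Vale.Agent.P159.H963 (gw_wT mf_smul)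
open Vale.Agent.P159.H733.Torg (ip)
open Vale.Agent.P159.H733.Vt (zb mem_zb sum_box ip_mem_box)
open Matrix

section prob

variable {N M B l Q : ℕ} [NeZero N] [NeZero M] [NeZero B] [NeZero (N / l)] [NeZero (M / l)]
  [NeZero (B / l)] {b t : ℝ} {I : Type*} [Fintype I]

/-- inputs of the probabilities which do not depend on the law: bare constants `κ₀`, `cs`, block
noise of amplitude `X` on the base torus `B`, window `D0`, cut-off `D1`, number of blocks `m` -/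
structure PrI (N M B l Q : ℕ) [NeZero N] [NeZero M] [NeZero B] [NeZero (B / l)] (b t κ₀ cs X δ : ℝ)
    (D0 D1 q : ℕ) (m G : ℝ) : Prop where
  hb : 0 ≤ b
  ht : 0 < t
  hlN : l ∣ N
  hlM : l ∣ M
  hlB : l ∣ B
  hκ₀ : 0 < κ₀
  hcs : κ₀ * (b + 12 * max b 1 ^ 2 * cs ^ 2) ≤ 1
  hcs0 : 0 ≤ cs
  hcs1 : cs ≤ 1
  hδ : 0 ≤ δ
  hX : 0 < X
  hAP : APB B l Q b X t δ
  hQ : 0 < Q
  h01 : D0 ≤ D1
  hDN : 2 * D0 < N / l
  hDM : 2 * D0 < M / l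
  hq : D1 ≤ q
  hqB : q + D1 < B / l
  hm : (((2 * D1 / Q + 2) ^ 2 : ℕ) : ℝ) ≤ m
  hXs : 4 * m ^ 2 * (4 * t) ^ 2 * ((l : ℝ) * Q) ^ 2 ≤ 3 * (X ^ 2 * t)
  hG : 0 ≤ G
  edN : Gam N t t κ₀ * ((16 * t) ^ 2 * (l : ℝ) ^ 2 * ((2 * (D0 : ℝ) + 1) ^ 2 * G ^ 2)) ≤ cs ^ 2
  edM : Gam M t t κ₀ * ((16 * t) ^ 2 * (l : ℝ) ^ 2 * ((2 * (D0 : ℝ) + 1) ^ 2 * G ^ 2)) ≤ cs ^ 2
  edB : Gam B t t κ₀ * ((16 * t) ^ 2 * (l : ℝ) ^ 2 * ((2 * (D0 : ℝ) + 1) ^ 2 * G ^ 2)) ≤ cs ^ 2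

variable {κ₀ cs X δ : ℝ} {D0 D1 q : ℕ} {m G : ℝ}

theorem PrI.m0 (H : PrI N M B l Q b t κ₀ cs X δ D0 D1 q m G) : 0 < m := by
  refine lt_of_lt_of_le ?_ H.hm
  have : 0 < (2 * D1 / Q + 2) ^ 2 := by positivity
  exact_mod_cast this

theorem PrI.cardB (H : PrI N M B l Q b t κ₀ cs X δ D0 D1 q m G) :
    ((bset Q (pc (B / l) (q, q)) D1).card : ℝ) ≤ m := by
  have h1 := card_bset (Q := Q) (q := q) (D := D1) (n := B / l) H.hQ H.hq H.hqB (by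
    have := H.hq
    have := H.hqB
    omega)
  exact (Nat.cast_le.2 h1).trans H.hm

theorem PrI.cardB0 (H : PrI N M B l Q b t κ₀ cs X δ D0 D1 q m G) :
    ((bset Q (pc (B / l) (q, q)) D0).card : ℝ) ≤ m := by
  have h1 := card_bset (Q := Q) (q := q) (D := D0) (n := B / l) H.hQ (H.h01.trans H.hq) (by
    have := H.h01
    have := H.hqB
    omega) (by
    have := H.hq
    have := H.hqB
    have := H.h01
    omega)
  refine (Nat.cast_le.2 (h1.trans ?_)).trans H.hm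
  have := H.h01
  gcongr

theorem PrI.hDB (H : PrI N M B l Q b t κ₀ cs X δ D0 D1 q m G) : 2 * D0 < B / l := by
  have := H.hq
  have := H.hqB
  have := H.h01
  omega

/-- **good fields are good windows** -/
theorem gs_good (H : PrI N M B l Q b t κ₀ cs X δ D0 D1 q m G) {τ Λ₁ : ℝ} {x : V (M / l)}
    {F : V (M / l) → ℝ} (hF : F ∈ Gs N M B l b t D0 G τ δ Λ₁ (pc (B / l) (q, q)) x) :
    Gd1 M B l b t D0 D1 G τ δ Λ₁ x F ∧ WgM N B l b t D0 D1 G δ Λ₁ x F := by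
  obtain ⟨f1, f2, f3, f4, f5, f6⟩ := hF
  have ht := H.ht
  have hI := rs_ind (K := B) (l := l) (s := 4 * t) H.hb H.ht H.hlB H.hδ H.hX H.hAP H.hQ
    (pc (B / l) (q, q)) (D := D1) (m := m) (by positivity) H.m0 H.cardB H.hXs
  exact ⟨⟨f1, f2, wgM_of H.hb H.ht H.hlB H.hδ x H.hDM H.hDM H.hDB f1 f3 f4 f6 hI⟩,
    wgM_of H.hb H.ht H.hlB H.hδ x H.hDM H.hDN H.hDB f1 f5 f4 f6 hI⟩

/-- the probability of the complement -/
noncomputable def PBn (N M B l : ℕ) (t κ₀ κ : ℝ) (D0 : ℕ) (G σ Λ₁ m a pf : ℝ) : ℝ :=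
  2 * ((M / l : ℕ) : ℝ) ^ 2 * Real.exp (-((G / σ) ^ 2 / 2)) + (pf +
    (2 * Real.exp (-(Λ₁ / (512 * TE M l t κ κ₀ D0))) +
    (2 * Real.exp (-(Λ₁ / (512 * TE B l t κ κ₀ D0))) +
    (2 * Real.exp (-(Λ₁ / (512 * TE N l t κ κ₀ D0))) +
    2 * (m * Real.exp (-(a ^ 2 / 7)))))))

/-- **probability of the complement of the good set**, any law below the typical law -/
theorem gs_prob (H : PrI N M B l Q b t κ₀ cs X δ D0 D1 q m G)
    {A : Matrix (V (M / l)) (V (M / l)) ℝ} {ν c : ℝ} (hA : Dom A ν c)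
    {Bm : Matrix (V (M / l)) I ℝ} (hB : Below A Bm) {σ τ Λ₁ a pf : ℝ} (hσ0 : 0 < σ)
    (hσ : 4 * ν⁻¹ + c⁻¹ * (200 * (1 + Real.log (1 + ((M / l : ℕ) : ℝ) ^ 2))) ≤ σ ^ 2)
    (ha : 1 ≤ a) (haX : a * (m * (4 * t * l * √(κw (M / l) D0 ν c))) ≤ X * √t)
    (hf : (gau I).real {g | τ < Rn M b t (lft (cl : V M → V (M / l)) (Bm *ᵥ g))} ≤ pf)
    (x : V (M / l)) :
    (gau I).real {g | Bm *ᵥ g ∉ Gs N M B l b t D0 G τ δ Λ₁ (pc (B / l) (q, q)) x} ≤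
      PBn N M B l t κ₀ (κw (M / l) D0 ν c) D0 G σ Λ₁ m a pf := by
  have hb := H.hb
  have ht := H.ht
  have hν := hA.hν
  have hc := hA.hc
  have hκ : 0 < κw (M / l) D0 ν c := by
    have := log_nn (M / l)
    unfold κw
    positivity
  have hCB : CovB D0 (κw (M / l) D0 ν c) Bm := covB_of hA hB H.hDM
  have p1 := osc_tail hA hB D0 x H.hG hσ0 hσ
  have p3 := en_tail (K := M) hb ht H.hlM H.hκ₀ H.hcs H.hcs0 H.hcs1 hκ hCB H.hDM H.hDM H.edM x 0 Λ₁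
  have p4 := en_tail (K := B) hb ht H.hlB H.hκ₀ H.hcs H.hcs0 H.hcs1 hκ hCB H.hDM H.hDB H.edB x 0 Λ₁
  have p5 := en_tail (K := N) hb ht H.hlN H.hκ₀ H.hcs H.hcs0 H.hcs1 hκ hCB H.hDM H.hDN H.edN x 0 Λ₁
  have p6 := rs_tail (K := B) (Q := Q) hb ht H.hlB H.hδ H.hAP hκ hCB H.hDM H.hDB x
    (pc (B / l) (q, q)) (s := 4 * t) (m := m) (a := a) (by positivity) H.m0 H.cardB0 ha haX
  set E1 : Set (I → ℝ) := {g | ¬∀ v, |(Bm *ᵥ g) v - av D0 x (Bm *ᵥ g)| ≤ G} with hE1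
  set E2 : Set (I → ℝ) := {g | τ < Rn M b t (lft (cl : V M → V (M / l)) (Bm *ᵥ g))} with hE2
  set E3 : Set (I → ℝ) := {g | (∀ ζ ∈ zb D0, |hx x (Bm *ᵥ g) ζ - avz D0 (hx x (Bm *ᵥ g))| ≤ G) ∧
    Λ₁ < EN M b t ((16 * t) • lft (cl : V M → V (M / l)) (wf (M / l) D0 x 0 (Bm *ᵥ g)))} with hE3
  set E4 : Set (I → ℝ) := {g | (∀ ζ ∈ zb D0, |hx x (Bm *ᵥ g) ζ - avz D0 (hx x (Bm *ᵥ g))| ≤ G) ∧
    Λ₁ < EN B b t ((16 * t) • lft (cl : V B → V (B / l)) (wf (B / l) D0 x 0 (Bm *ᵥ g)))} with hE4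
  set E5 : Set (I → ℝ) := {g | (∀ ζ ∈ zb D0, |hx x (Bm *ᵥ g) ζ - avz D0 (hx x (Bm *ᵥ g))| ≤ G) ∧
    Λ₁ < EN N b t ((16 * t) • lft (cl : V N → V (N / l)) (wf (N / l) D0 x 0 (Bm *ᵥ g)))} with hE5
  set E6 : Set (I → ℝ) := {g | δ < Rs (wt B b t) ((4 * t) • lft (cl : V B → V (B / l))
    (wf (B / l) D0 x (pc (B / l) (q, q)) (Bm *ᵥ g)))} with hE6
  have hsub : {g | Bm *ᵥ g ∉ Gs N M B l b t D0 G τ δ Λ₁ (pc (B / l) (q, q)) x} ⊆
      E1 ∪ (E2 ∪ (E3 ∪ (E4 ∪ (E5 ∪ E6)))) := by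
    intro g hg
    by_contra hcon
    simp only [Set.mem_union, not_or] at hcon
    obtain ⟨c1, c2, c3, c4, c5, c6⟩ := hcon
    apply hg
    have k1 : ∀ v, |(Bm *ᵥ g) v - av D0 x (Bm *ᵥ g)| ≤ G := by
      by_contra h
      exact c1 h
    have k0 : ∀ ζ ∈ zb D0, |hx x (Bm *ᵥ g) ζ - avz D0 (hx x (Bm *ᵥ g))| ≤ G := by
      intro ζ _
      have h1 := k1 (x + ip (M / l) ζ)
      rw [av_eq H.hDM] at h1
      exact h1
    refine ⟨k1, not_lt.1 c2, ?_, ?_, ?_, ?_⟩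
    · rw [wK_mulVec H.hDM]
      by_contra h
      exact c3 ⟨k0, not_le.1 h⟩
    · rw [wK_mulVec H.hDB]
      by_contra h
      exact c4 ⟨k0, not_le.1 h⟩
    · rw [wK_mulVec H.hDN]
      by_contra h
      exact c5 ⟨k0, not_le.1 h⟩
    · rw [wK_mulVec H.hDB]
      exact not_lt.1 c6
  refine (measureReal_mono hsub (measure_ne_top _ _)).trans ?_
  unfold PBn
  refine (measureReal_union_le _ _).trans (add_le_add p1 ?_)
  refine (measureReal_union_le _ _).trans (add_le_add hf ?_)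
  refine (measureReal_union_le _ _).trans (add_le_add p3 ?_)
  refine (measureReal_union_le _ _).trans (add_le_add p4 ?_)
  exact (measureReal_union_le _ _).trans (add_le_add p5 p6)

end prob

/-! ### closeness in `L²` -/

section close

variable {N M B l Q : ℕ} [NeZero N] [NeZero M] [NeZero B] [NeZero (N / l)] [NeZero (M / l)]
  [NeZero (B / l)] {b : ℝ} {hb : 0 ≤ b} {ξ : ℕ} {t y y' y'' cx Cx c4 C4 : ℝ} {r D0 D1 : ℕ} {D : ℝ}
  {κ₀ cs X δ : ℝ} {q : ℕ} {m G : ℝ} {I : Type*} [Fintype I]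

/-- all numbers of the good set -/
structure Pr2 (N M B l Q : ℕ) [NeZero N] [NeZero M] [NeZero B] [NeZero (N / l)] [NeZero (M / l)]
    [NeZero (B / l)] (b : ℝ) (hb : 0 ≤ b) (ξ : ℕ) (t y y' y'' cx Cx c4 C4 : ℝ) (r D0 D1 : ℕ)
    (D κ₀ cs X δ : ℝ) (q : ℕ) (m G τ Λ₁ Λ D2 : ℝ) : Prop where
  HM : UG M B l b hb ξ t y y' cx Cx c4 C4 r D0 D1 D
  HN : UG N B l b hb ξ t y'' y' cx Cx c4 C4 r D0 D1 D
  oN : OscZ (wT b N) (mt N t) (1 / 2)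
  oM : OscZ (wT b M) (mt M t) (1 / 2)
  oB : OscZ (wT b B) (mt B t) (1 / 2)
  pr : PrI N M B l Q b t κ₀ cs X δ D0 D1 q m G
  hD2 : 0 ≤ D2
  hDl : D2 * ξ ≤ D0 * l
  hΛ : Λ₁ + 2592 * (t * (ξ : ℝ) ^ 2) * kn l ξ D1 ≤ Λ
  hτ : δ + erR3 ξ t cx Cx G Λ (kn l ξ D1) r + 2 ≤ τ

variable {τ Λ₁ Λ D2 : ℝ}

theorem measurable_lcm (hb : 0 ≤ b) (ht : 0 < t) (x : V (M / l)) :
    Continuous fun F : V (M / l) → ℝ => uc M l b t x F - mcm M l b t D0 x F :=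
  (continuous_uc hb ht x).sub ((continuous_uc hb ht x).comp (continuous_cutm D0 x))

theorem continuous_vl (hb : 0 ≤ b) (ht : 0 < t) (x : V (M / l)) :
    Continuous fun F : V (M / l) → ℝ =>
      uc M l b t x F - H733.Vt.lft D0 (mcm N l b t D0) x F := by
  refine (continuous_uc hb ht x).sub ?_
  unfold H733.Vt.lft mcm
  refine (continuous_uc hb ht 0).comp ((continuous_cutm D0 0).comp ?_)
  exact continuous_pi fun v => continuous_apply _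

/-- **one torus, any law below the typical law** -/
theorem n2_ucm1 (H : Pr2 N M B l Q b hb ξ t y y' y'' cx Cx c4 C4 r D0 D1 D κ₀ cs X δ q m G τ Λ₁ Λ
      D2) {A : Matrix (V (M / l)) (V (M / l)) ℝ} {ν c : ℝ} (hA : Dom A ν c)
    {Bm : Matrix (V (M / l)) I ℝ} (hB : Below A Bm) {σ a pf p : ℝ} (hσ0 : 0 < σ)
    (hσ : 4 * ν⁻¹ + c⁻¹ * (200 * (1 + Real.log (1 + ((M / l : ℕ) : ℝ) ^ 2))) ≤ σ ^ 2)
    (ha : 1 ≤ a) (haX : a * (m * (4 * t * l * √(κw (M / l) D0 ν c))) ≤ X * √t)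
    (hf : (gau I).real {g | τ < Rn M b t (lft (cl : V M → V (M / l)) (Bm *ᵥ g))} ≤ pf)
    (hp0 : 0 ≤ p) (hp : PBn N M B l t κ₀ (κw (M / l) D0 ν c) D0 G σ Λ₁ m a pf ≤ p ^ 2)
    (x : V (M / l)) :
    n2 (gau I) (fun g => uc M l b t x (Bm *ᵥ g) - mcm M l b t D0 x (Bm *ᵥ g)) ≤
      elo M l ξ t c4 C4 τ G D2 + Real.pi⁻¹ * (t * (l : ℝ) ^ 2) * p := by
  have ht := H.HM.ht
  have hξ' : (0 : ℝ) < ξ := by exact_mod_cast H.HM.hξ
  have hG0 := H.pr.hG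
  have he0 : 0 ≤ elo M l ξ t c4 C4 τ G D2 := by
    have := H.HM.hC4
    unfold elo
    positivity
  refine n2_good_law (u := fun F => uc M l b t x F - mcm M l b t D0 x F)
    (measurable_lcm hb ht x).measurable (K := Real.pi⁻¹ * (t * (l : ℝ) ^ 2)) (fun F => ?_)
    (measurable_Gs hb ht D0 G τ δ Λ₁ (pc (B / l) (q, q)) x) he0 hp0
    (fun F hF => near_one H.HM H.oM H.oB hG0 H.hD2 H.hDl H.hΛ H.hτ x
      (gs_good (N := N) H.pr hF).1)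
    ((gs_prob H.pr hA hB hσ0 hσ ha haX hf x).trans hp)
  refine (norm_sub_le _ _).trans ((add_le_add (norm_uc_le hb ht H.HM.hlN x F)
    (norm_uc_le hb ht H.HM.hlN x _)).trans (le_of_eq ?_))
  have := Real.pi_pos
  field_simp
  ring

/-- **two tori, any law below the typical law** -/
theorem n2_ucm2 (H : Pr2 N M B l Q b hb ξ t y y' y'' cx Cx c4 C4 r D0 D1 D κ₀ cs X δ q m G τ Λ₁ Λ
      D2) {A : Matrix (V (M / l)) (V (M / l)) ℝ} {ν c : ℝ} (hA : Dom A ν c)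
    {Bm : Matrix (V (M / l)) I ℝ} (hB : Below A Bm) {σ a pf p : ℝ} (hσ0 : 0 < σ)
    (hσ : 4 * ν⁻¹ + c⁻¹ * (200 * (1 + Real.log (1 + ((M / l : ℕ) : ℝ) ^ 2))) ≤ σ ^ 2)
    (ha : 1 ≤ a) (haX : a * (m * (4 * t * l * √(κw (M / l) D0 ν c))) ≤ X * √t)
    (hf : (gau I).real {g | τ < Rn M b t (lft (cl : V M → V (M / l)) (Bm *ᵥ g))} ≤ pf)
    (hp0 : 0 ≤ p) (hp : PBn N M B l t κ₀ (κw (M / l) D0 ν c) D0 G σ Λ₁ m a pf ≤ p ^ 2)
    (x : V (M / l)) :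
    n2 (gau I) (fun g => uc M l b t x (Bm *ᵥ g) -
      H733.Vt.lft D0 (mcm N l b t D0) x (Bm *ᵥ g)) ≤
      elo M l ξ t c4 C4 τ G D2 + (eru3 M B l ξ t cx Cx c4 C4 D τ G Λ (kn l ξ D1) r +
        eru3 N B l ξ t cx Cx c4 C4 D τ G Λ (kn l ξ D1) r) +
      Real.pi⁻¹ * (t * (l : ℝ) ^ 2) * p := by
  have ht := H.HM.ht
  have hξ' : (0 : ℝ) < ξ := by exact_mod_cast H.HM.hξ
  have hG0 := H.pr.hG
  have he0 : 0 ≤ elo M l ξ t c4 C4 τ G D2 + (eru3 M B l ξ t cx Cx c4 C4 D τ G Λ (kn l ξ D1) r +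
        eru3 N B l ξ t cx Cx c4 C4 D τ G Λ (kn l ξ D1) r) := by
    have h4 := H.HM.hC4
    have k1 := err9q_nonneg Cx cx (A := t * (ξ : ℝ) ^ 2 * (G + 1)) (by positivity) Λ
      (kn l ξ D1) r ξ
    unfold elo eru3
    positivity
  refine n2_good_law (u := fun F => uc M l b t x F - H733.Vt.lft D0 (mcm N l b t D0) x F)
    (continuous_vl hb ht x).measurable (K := Real.pi⁻¹ * (t * (l : ℝ) ^ 2)) (fun F => ?_)
    (measurable_Gs hb ht D0 G τ δ Λ₁ (pc (B / l) (q, q)) x) he0 hp0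
    (fun F hF => near_two H.HM H.HN H.oN H.oM H.oB hG0 H.hD2 H.hDl H.hΛ H.hτ x
      (gs_good (N := N) H.pr hF).1 (gs_good (N := N) H.pr hF).2)
    ((gs_prob H.pr hA hB hσ0 hσ ha haX hf x).trans hp)
  refine (norm_sub_le _ _).trans ((add_le_add (norm_uc_le hb ht H.HM.hlN x F)
    (norm_uc_le hb ht H.HN.hlN 0 _)).trans (le_of_eq ?_))
  have := Real.pi_pos
  field_simp
  ring

end close

end Vale.Agent.P159.H358
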