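import Vale.Agent.P159.H358.Hr7
import Vale.Agent.P159.H363.Wde
import Vale.Agent.P159.H813.Ker3

/-!
P159, module VTOR, `u_two` (part 1): the cell densities `ut` (helper552) of two tori agree on fields
which live on the same window of cells (constant outside).

A cell field of the window is a function `g : ℕ → ℕ → ℝ` of the natural coordinates of the cells
(`cfn K g` on the cell torus `V K`), zero outside of the window.  The constant of the first harmonic is
cut off by `ψ` (`= 1` near the cell, zero outside of the window) at the price of the locality `LB4` of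
each torus; then LOC9 (energy form, real mass) compares the means.
-/

open Finset MeasureTheory

set_option linter.unusedSectionVars false
set_option linter.unusedDecidableInType false

namespace Vale.Agent.P159.H358

open Vale.Agent.P159.TM.H104 (EM Lg Ex Cv Gr li)
open Vale.Agent.P159.H37 (wt wM bf Rs Tq)
open Vale.Agent.P159.TM.Spec (V)
open Vale.Agent.P159.TM.SpecC (wT)
open Vale.Agent.P159.TM.H705 (dB)
open Vale.Agent.P159.TM.H459 (sd)
open Vale.Agent.P159.H145 (mt mt_mulVec bf_mt em_mt cs)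
open Vale.Agent.P159.H43 (dL dW continuous_dL)
open Vale.Agent.P159.H896 (ph continuous_ph norm_ph)
open Vale.Agent.P159.H552 (uq lft idc ut norm_two_pi_I_inv)
open Vale.Agent.P159.H864 (cl cl1 cl1_val card_cell)
open Vale.Agent.P159.H813 (LB4)

/-! ### first harmonics of two systems -/

section gen

variable {V₁ V₂ : Type*} [Fintype V₁] [Fintype V₂] {w₁ : (V₁ → ℤ) → ℝ} {w₂ : (V₂ → ℤ) → ℝ}
  {M₁ : Matrix V₁ V₁ ℝ} {M₂ : Matrix V₂ V₂ ℝ}

theorem dW_two (hE₁ : EM (wM w₁ M₁)) (hE₂ : EM (wM w₂ M₂)) (q : ℤ) (F₁ g₁ : V₁ → ℝ)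
    (F₂ g₂ : V₂ → ℝ) {r : ℝ}
    (h : ∀ c ∈ Set.Icc (0 : ℝ) 1, |dL w₁ M₁ (cs F₁ c) g₁ - dL w₂ M₂ (cs F₂ c) g₂| ≤ r) :
    ‖dW w₁ M₁ q F₁ g₁ - dW w₂ M₂ q F₂ g₂‖ ≤ r := by
  have c0 := continuous_ph q
  have c1 : Continuous fun c : ℝ => dL w₁ M₁ (cs F₁ c) g₁ :=
    (continuous_dL hE₁ g₁).comp (H145.continuous_cs F₁)
  have c2 : Continuous fun c : ℝ => dL w₂ M₂ (cs F₂ c) g₂ :=
    (continuous_dL hE₂ g₂).comp (H145.continuous_cs F₂)
  unfold dW
  rw [← intervalIntegral.integral_sub (Continuous.intervalIntegrable (by fun_prop) _ _)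
    (Continuous.intervalIntegrable (by fun_prop) _ _)]
  have h3 := intervalIntegral.norm_integral_le_of_norm_le_const (a := (0 : ℝ)) (b := 1)
    (f := fun c => (dL w₁ M₁ (cs F₁ c) g₁ : ℂ) * ph q c - (dL w₂ M₂ (cs F₂ c) g₂ : ℂ) * ph q c)
    (C := r) (fun c hc => by
      rw [← sub_mul, norm_mul, norm_ph, mul_one, ← Complex.ofReal_sub, Complex.norm_real,
        Real.norm_eq_abs]
      refine h c ?_
      rw [Set.uIoc_of_le zero_le_one] at hc
      exact ⟨hc.1.le, hc.2⟩)
  simpa using h3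

end gen

/-! ### cell functions in natural coordinates -/

/-- a function of the natural coordinates on the torus of side `K` -/
def cfn (K : ℕ) [NeZero K] (g : ℕ → ℕ → ℝ) (x : V K) : ℝ := g x.1.val x.2.val

/-- the indicator of one cell -/
def ind (p : ℕ × ℕ) (a b : ℕ) : ℝ := if a = p.1 ∧ b = p.2 then 1 else 0

/-- the cell `(a, b)` of side `l` lies in the open box of side `n` -/
structure Inb (l n a b : ℕ) : Prop where
  a0 : 1 ≤ a
  an : (a + 1) * l ≤ n
  b0 : 1 ≤ b
  bn : (b + 1) * l ≤ n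

/-- support of a cell function in the box of side `n` -/
def Win (l n : ℕ) (g : ℕ → ℕ → ℝ) : Prop := ∀ a b, g a b ≠ 0 → Inb l n a b

theorem Inb.lt {l n K a b : ℕ} (h : Inb l n a b) (hl : 0 < l) (hn : n ≤ K * l) : a < K ∧ b < K := by
  have h1 := h.an.trans hn
  have h2 := h.bn.trans hn
  have h3 := Nat.le_of_mul_le_mul_right h1 hl
  have h4 := Nat.le_of_mul_le_mul_right h2 hl
  omega

theorem win_ind {l n : ℕ} {p : ℕ × ℕ} (h : Inb l n p.1 p.2) : Win l n (ind p) := by
  intro a b hab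
  unfold ind at hab
  split_ifs at hab with h1
  · rw [h1.1, h1.2]
    exact h
  · exact absurd rfl hab

theorem Win.add {l n : ℕ} {g ψ : ℕ → ℕ → ℝ} (hg : Win l n g) (hψ : Win l n ψ) (c : ℝ) :
    Win l n (fun a b => g a b + c * ψ a b) := by
  intro a b h
  by_cases h1 : g a b = 0
  · refine hψ a b fun h2 => h ?_
    show g a b + c * ψ a b = 0
    rw [h1, h2, mul_zero, add_zero]
  · exact hg a b h1

section torus

variable {N l : ℕ} [NeZero N] [NeZero (N / l)]

theorem lft_cfn (hl : l ∣ N) (g : ℕ → ℕ → ℝ) (v : V N) :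
    lft (cl : V N → V (N / l)) (cfn (N / l) g) v = g (v.1.val / l) (v.2.val / l) := by
  show g (cl1 v.1 : ZMod (N / l)).val (cl1 v.2 : ZMod (N / l)).val = _
  rw [cl1_val hl, cl1_val hl]

/-- cell functions as sources of the open box -/
theorem src_cell (hl : l ∣ N) {n : ℕ} {g : ℕ → ℕ → ℝ} (hg : Win l n g) (t : ℝ) :
    src N n (fun i k => t * g (i / l) (k / l)) =
      t • lft (cl : V N → V (N / l)) (cfn (N / l) g) := by
  have hl0 : 0 < l := H864.l_pos hl
  funext v
  rw [Pi.smul_apply, smul_eq_mul, lft_cfn hl]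
  unfold src
  split_ifs with h
  · rfl
  · by_contra h0
    have h1 : g (v.1.val / l) (v.2.val / l) ≠ 0 := by
      intro h2
      exact h0 (by rw [h2, mul_zero])
    have h2 := hg _ _ h1
    apply h
    have a1 : v.1.val < (v.1.val / l + 1) * l := by
      rw [mul_comm]
      exact Nat.lt_mul_div_succ _ hl0
    have a2 : v.2.val < (v.2.val / l + 1) * l := by
      rw [mul_comm]
      exact Nat.lt_mul_div_succ _ hl0
    have b1 : 1 ≤ v.1.val := by
      by_contra h3
      have : v.1.val = 0 := by omega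
      have h4 := h2.a0
      rw [this, Nat.zero_div] at h4
      omega
    have b2 : 1 ≤ v.2.val := by
      by_contra h3
      have : v.2.val = 0 := by omega
      have h4 := h2.b0
      rw [this, Nat.zero_div] at h4
      omega
    exact ⟨b1, lt_of_lt_of_le a1 h2.an, b2, lt_of_lt_of_le a2 h2.bn⟩

/-- the cell `p` of the torus -/
def pc (K : ℕ) (p : ℕ × ℕ) : ZMod K × ZMod K := ((p.1 : ZMod K), (p.2 : ZMod K))

theorem eq_pc {K : ℕ} [NeZero K] {p : ℕ × ℕ} (h1 : p.1 < K) (h2 : p.2 < K) (x : V K) :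
    x = pc K p ↔ x.1.val = p.1 ∧ x.2.val = p.2 := by
  constructor
  · intro h
    rw [h]
    exact ⟨ZMod.val_cast_of_lt h1, ZMod.val_cast_of_lt h2⟩
  · rintro ⟨h3, h4⟩
    refine Prod.ext ?_ ?_
    · show x.1 = (p.1 : ZMod K)
      rw [← h3, ZMod.natCast_zmod_val]
    · show x.2 = (p.2 : ZMod K)
      rw [← h4, ZMod.natCast_zmod_val]

theorem idc_eq {p : ℕ × ℕ} (h1 : p.1 < N / l) (h2 : p.2 < N / l) :
    idc (cl : V N → V (N / l)) (pc (N / l) p) =
      lft (cl : V N → V (N / l)) (cfn (N / l) (ind p)) := by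
  funext v
  unfold idc lft cfn ind
  by_cases h : (cl v : V (N / l)) = pc (N / l) p
  · rw [if_pos h, if_pos ((eq_pc h1 h2 _).1 h)]
  · rw [if_neg h, if_neg fun h3 => h ((eq_pc h1 h2 _).2 h3)]

/-- the bilinear term of the density -/
theorem bf_cell (hl : l ∣ N) (t : ℝ) (g : V (N / l) → ℝ) (c : ℝ) (x : V (N / l)) :
    bf (mt N t) (cs (lft cl g) c) (idc cl x) = t * ((g x + c) * (l : ℝ) ^ 2) := by
  rw [bf_mt]
  congr 1
  have h1 : ∀ v : V N, cs (lft cl g) c v * idc cl x v =
      if (cl v : V (N / l)) = x then g x + c else 0 := by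
    intro v
    unfold cs idc lft
    split_ifs with h
    · rw [h, mul_one]
    · rw [mul_zero]
  rw [Finset.sum_congr rfl fun v _ => h1 v, ← Finset.sum_filter, Finset.sum_const, nsmul_eq_mul,
    card_cell hl, mul_comm]

end torus

/-! ### `R` on a triangle, sub-Gaussian bound -/

section one

variable {N : ℕ} [NeZero N] {b t : ℝ}

theorem Lg_sub_le (hb : 0 ≤ b) (ht : 0 < t) (J : V N → ℝ) :
    Lg (wt N b t) J - Lg (wt N b t) 0 ≤ (∑ x, J x ^ 2) / (2 * t) := by
  have h1 := H612.subG_wt (N := N) hb ht J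
  rw [Ex_exp (H789.em_wt hb ht) 0 J, zero_add] at h1
  exact Real.exp_le_exp.1 h1

/-- `T` on a triangle -/
theorem Tq_tri (hb : 0 ≤ b) (ht : 0 < t) {J0 J1 J2 : V N → ℝ} {τ : ℝ}
    (h0 : Rs (wt N b t) ((2 : ℝ) • J0) ≤ τ) (h1 : Rs (wt N b t) ((2 : ℝ) • J1) ≤ τ)
    (h2 : Rs (wt N b t) ((2 : ℝ) • J2) ≤ τ) {a c d : ℝ} (ha : 0 ≤ a) (hc : 0 ≤ c) (hd : 0 ≤ d)
    (hs : a + c + d = 1) : Tq (wt N b t) (a • J0 + c • J1 + d • J2) ≤ τ := by
  have hE : EM (wt N b t) := H789.em_wt hb ht
  have he := H789.ev_wt (N := N) (b := b) (t := t)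
  have hK := H789.pk_wt (N := N) hb ht
  refine (H612.Tq_le hE he hK _).trans ?_
  have hcx := H789.Rs_convex hE he hK
  have e : (2 : ℝ) • (a • J0 + c • J1 + d • J2) =
      a • ((2 : ℝ) • J0) + c • ((2 : ℝ) • J1) + d • ((2 : ℝ) • J2) := by
    rw [smul_add, smul_add, smul_comm 2 a, smul_comm 2 c, smul_comm 2 d]
  rw [e]
  rcases eq_or_lt_of_le hd with h | h
  · have h3 := hcx.2 (Set.mem_univ ((2 : ℝ) • J0)) (Set.mem_univ ((2 : ℝ) • J1)) ha hc
      (by linarith)
    rw [← h, zero_smul, add_zero]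
    refine h3.trans ?_
    simp only [smul_eq_mul]
    have q1 := mul_le_mul_of_nonneg_left h0 ha
    have q2 := mul_le_mul_of_nonneg_left h1 hc
    have q3 : a * τ + c * τ = τ := by
      rw [← add_mul]
      have : a + c = 1 := by linarith
      rw [this, one_mul]
    linarith
  · rcases eq_or_lt_of_le (add_nonneg ha hc) with h' | h'
    · have ha0 : a = 0 := by linarith
      have hc0 : c = 0 := by linarith
      have hd1 : d = 1 := by linarith
      rw [ha0, hc0, hd1, zero_smul, zero_smul, zero_add, zero_add, one_smul]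
      exact h2
    · set X := (a / (a + c)) • ((2 : ℝ) • J0) + (c / (a + c)) • ((2 : ℝ) • J1) with hX
      have h3 := hcx.2 (Set.mem_univ ((2 : ℝ) • J0)) (Set.mem_univ ((2 : ℝ) • J1))
        (div_nonneg ha h'.le) (div_nonneg hc h'.le) (by field_simp)
      rw [← hX] at h3
      simp only [smul_eq_mul] at h3
      have h4 : Rs (wt N b t) X ≤ τ := by
        refine h3.trans ?_
        have q1 := mul_le_mul_of_nonneg_left h0 (div_nonneg ha h'.le)
        have q2 := mul_le_mul_of_nonneg_left h1 (div_nonneg hc h'.le)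
        have q3 : a / (a + c) * τ + c / (a + c) * τ = τ := by field_simp
        linarith
      have h5 := hcx.2 (Set.mem_univ X) (Set.mem_univ ((2 : ℝ) • J2)) h'.le hd (by linarith)
      have e2 : (a + c) • X + d • ((2 : ℝ) • J2) =
          a • ((2 : ℝ) • J0) + c • ((2 : ℝ) • J1) + d • ((2 : ℝ) • J2) := by
        rw [hX, smul_add, smul_smul (a + c) (a / (a + c)), smul_smul (a + c) (c / (a + c)),
          mul_div_cancel₀ _ h'.ne', mul_div_cancel₀ _ h'.ne']
      rw [e2] at h5
      refine h5.trans ?_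
      simp only [smul_eq_mul]
      have q1 := mul_le_mul_of_nonneg_left h4 h'.le
      have q2 := mul_le_mul_of_nonneg_left h2 hd
      have q3 : (a + c) * τ + d * τ = τ := by rw [← add_mul, hs, one_mul]
      linarith

end one

end Vale.Agent.P159.H358
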