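import Vale.Agent.P159.H358.Utwo1

/-!
P159, module VTOR, `u_two` (part 2): the theorem.
-/

open Finset MeasureTheory

set_option linter.unusedSectionVars false
set_option linter.unusedDecidableInType false

namespace Vale.Agent.P159.H358

open Vale.Agent.P159.TM.H104 (EM Lg Ex Cv Gr li)
open Vale.Agent.P159.H37 (wt wM bf Rs Tq)
open Vale.Agent.P159.TM.Spec (V)
open Vale.Agent.P159.TM.SpecC (wT)
open Vale.Agent.P159.TM.H705 (dB)
open Vale.Agent.P159.TM.H459 (sd)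
open Vale.Agent.P159.H145 (mt mt_mulVec bf_mt em_mt cs)
open Vale.Agent.P159.H43 (dL dW continuous_dL)
open Vale.Agent.P159.H896 (ph continuous_ph norm_ph)
open Vale.Agent.P159.H552 (uq lft idc ut norm_two_pi_I_inv)
open Vale.Agent.P159.H864 (cl cl1 cl1_val card_cell)
open Vale.Agent.P159.H813 (LB4)

theorem Wd.add2 {ξ : ℕ} {I : Finset (ℕ × ℕ)} {A : ℝ} {j u : ℕ → ℕ → ℝ} (h : Wd ξ I A j)
    (h' : Wd ξ I A u) {s : ℝ} (hs : |s| ≤ 2) : Wd ξ I (3 * A) (fun i k => j i k + s * u i k) where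
  bd i k := by
    refine (abs_add_le _ _).trans ?_
    rw [abs_mul]
    have h1 := h.bd i k
    have h2 := h'.bd i k
    have h3 : |s| * |u i k| ≤ 2 * (A / (ξ : ℝ) ^ 2) :=
      mul_le_mul hs h2 (abs_nonneg _) (by norm_num)
    have e : 3 * A / (ξ : ℝ) ^ 2 = A / (ξ : ℝ) ^ 2 + 2 * (A / (ξ : ℝ) ^ 2) := by ring
    rw [e]
    linarith
  sp i k hne := by
    by_cases hj : j i k = 0
    · refine h'.sp i k fun hu => hne ?_
      simp only [hj, hu, mul_zero, add_zero]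
    · exact h.sp i k hj

section

variable {N l : ℕ} [NeZero N] [NeZero (N / l)] {b t : ℝ} {ξ : ℕ}

/-- the constant is cut off, one torus -/
theorem far_step (hb : 0 ≤ b) (ht : 0 < t) (hξ : 0 < ξ) (hl : l ∣ N) {c4 C4 : ℝ}
    (hLB : LB4 N b t ξ c4 C4) {ψ g : ℕ → ℕ → ℝ} (hψ0 : ∀ a b, 0 ≤ ψ a b)
    (hψ1 : ∀ a b, ψ a b ≤ 1) {x : V (N / l)} {D τ : ℝ} (hD : 0 ≤ D) (hC4 : 0 ≤ C4)
    (hd : ∀ v z : V N, (cl v : V (N / l)) = x → ψ (z.1.val / l) (z.2.val / l) ≠ 1 →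
      D * ξ ≤ sd v z)
    (R0 : Rs (wt N b t) ((2 : ℝ) • (t • lft (cl : V N → V (N / l)) (cfn (N / l) g))) ≤ τ)
    (R1 : Rs (wt N b t) ((2 : ℝ) • (t • cs (lft (cl : V N → V (N / l)) (cfn (N / l) g)) 1)) ≤ τ)
    (R2 : Rs (wt N b t) ((2 : ℝ) • (t • lft (cl : V N → V (N / l))
      (cfn (N / l) fun a b => g a b + ψ a b))) ≤ τ) {c : ℝ} (hc : c ∈ Set.Icc (0 : ℝ) 1) :
    |Ex (wt N b t) (t • cs (lft (cl : V N → V (N / l)) (cfn (N / l) g)) c) (li (t • idc cl x)) -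
      Ex (wt N b t) (t • lft (cl : V N → V (N / l)) (cfn (N / l) fun a b => g a b + c * ψ a b))
        (li (t • idc cl x))| ≤
      Real.exp (τ / 2) * (t * l * ξ) * (t * N * ξ) * (C4 * Real.exp (-(c4 * D))) := by
  have hE : EM (wt N b t) := H789.em_wt hb ht
  have hl0 : 0 < l := H864.l_pos hl
  have hξ' : (0 : ℝ) < ξ := by exact_mod_cast hξ
  have hl' : (0 : ℝ) < l := by exact_mod_cast hl0
  have hN' : (0 : ℝ) < N := by exact_mod_cast NeZero.pos N
  set J : V N → ℝ := t • cs (lft (cl : V N → V (N / l)) (cfn (N / l) g)) c with hJ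
  set J' : V N → ℝ := t • lft (cl : V N → V (N / l)) (cfn (N / l) fun a b => g a b + c * ψ a b)
    with hJ'
  have e0 : ∀ z : V N, J z = t * (g (z.1.val / l) (z.2.val / l) + c) := by
    intro z
    rw [hJ, Pi.smul_apply, smul_eq_mul]
    unfold cs
    rw [lft_cfn hl]
  have e1 : ∀ z : V N, J' z =
      t * (g (z.1.val / l) (z.2.val / l) + c * ψ (z.1.val / l) (z.2.val / l)) := by
    intro z
    rw [hJ', Pi.smul_apply, smul_eq_mul, lft_cfn hl]
  obtain ⟨s, hs, hse⟩ := H612.Ex_li_diff hE J' (J - J') (t • idc (cl : V N → V (N / l)) x)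
  rw [add_sub_cancel] at hse
  rw [hse]
  have hdiff : ∀ z : V N, (J - J') z = t * (c * (1 - ψ (z.1.val / l) (z.2.val / l))) := by
    intro z
    rw [Pi.sub_apply, e0, e1]
    ring
  have hu : ∑ z, (t • idc (cl : V N → V (N / l)) x) z ^ 2 ≤
      (t * l * ξ) ^ 2 * (1 / (ξ : ℝ) ^ 2) := by
    have h1 : ∀ z : V N, (t • idc (cl : V N → V (N / l)) x) z ^ 2 =
        if (cl z : V (N / l)) = x then t ^ 2 else 0 := by
      intro z
      rw [Pi.smul_apply, smul_eq_mul]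
      unfold idc
      split_ifs
      · rw [mul_one]
      · rw [mul_zero]; ring
    rw [Finset.sum_congr rfl fun z _ => h1 z, ← Finset.sum_filter, Finset.sum_const,
      nsmul_eq_mul, card_cell hl]
    refine le_of_eq ?_
    field_simp
  have hv : ∑ z, (J - J') z ^ 2 ≤ (t * N * ξ) ^ 2 * (1 / (ξ : ℝ) ^ 2) := by
    have h1 : ∀ z : V N, (J - J') z ^ 2 ≤ t ^ 2 := by
      intro z
      rw [hdiff]
      have h2 := hψ0 (z.1.val / l) (z.2.val / l)
      have h3 := hψ1 (z.1.val / l) (z.2.val / l)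
      have h4 : 0 ≤ c * (1 - ψ (z.1.val / l) (z.2.val / l)) := mul_nonneg hc.1 (by linarith)
      have h5 : c * (1 - ψ (z.1.val / l) (z.2.val / l)) ≤ 1 :=
        mul_le_one₀ hc.2 (by linarith) (by linarith)
      have h6 : t * (c * (1 - ψ (z.1.val / l) (z.2.val / l))) ≤ t * 1 :=
        mul_le_mul_of_nonneg_left h5 ht.le
      rw [mul_one] at h6
      exact pow_le_pow_left₀ (mul_nonneg ht.le h4) h6 2
    refine (Finset.sum_le_sum fun z _ => h1 z).trans (le_of_eq ?_)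
    rw [Finset.sum_const, nsmul_eq_mul, Finset.card_univ]
    have : (Fintype.card (V N) : ℝ) = (N : ℝ) ^ 2 := by
      rw [Fintype.card_prod, ZMod.card]
      push_cast
      ring
    rw [this]
    field_simp
  have hsep : ∀ v z : V N, (t • idc (cl : V N → V (N / l)) x) v ≠ 0 → (J - J') z ≠ 0 →
      D * ξ ≤ sd v z := by
    intro v z h1 h2
    refine hd v z ?_ ?_
    · by_contra h3
      apply h1
      rw [Pi.smul_apply, smul_eq_mul]
      unfold idc
      rw [if_neg h3, mul_zero]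
    · intro h3
      apply h2
      rw [hdiff, h3, sub_self, mul_zero, mul_zero]
  refine (hLB _ _ (t * l * ξ) (t * N * ξ) D (by positivity) (by positivity) hD hu hv hsep _).trans ?_
  have hT : Tq (wt N b t) (J' + s • (J - J')) ≤ τ := by
    have e2 : J' + s • (J - J') =
        (1 - c) • (t • lft (cl : V N → V (N / l)) (cfn (N / l) g)) +
        (c * s) • (t • cs (lft (cl : V N → V (N / l)) (cfn (N / l) g)) 1) +
        (c * (1 - s)) • (t • lft (cl : V N → V (N / l))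
          (cfn (N / l) fun a b => g a b + ψ a b)) := by
      funext z
      rw [Pi.add_apply, Pi.smul_apply, smul_eq_mul, hdiff, e1]
      simp only [Pi.add_apply, Pi.smul_apply, smul_eq_mul]
      rw [lft_cfn hl]
      unfold cs
      rw [lft_cfn hl, lft_cfn hl]
      ring
    rw [e2]
    exact Tq_tri hb ht R0 R1 R2 (by linarith [hc.2]) (mul_nonneg hc.1 hs.1)
      (mul_nonneg hc.1 (by linarith [hs.2])) (by ring)
  have h3 : Real.exp (Tq (wt N b t) (J' + s • (J - J')) / 2) ≤ Real.exp (τ / 2) :=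
    Real.exp_le_exp.2 (by linarith)
  have hx : 0 ≤ Real.exp (-(c4 * D)) := (Real.exp_pos _).le
  gcongr

/-- crude energy of a local source -/
theorem Lg_two_src (hb : 0 ≤ b) (ht : 0 < t) (hξ : 0 < ξ) {n : ℕ} {I : Finset (ℕ × ℕ)}
    (hI : ∀ p ∈ I, 2 * (ξ + 1) ≤ n) (hn : n ≤ N) {A : ℝ} {j u : ℕ → ℕ → ℝ} (hj : Wd ξ I A j)
    (hu : Wd ξ I A u) {s : ℝ} (hs : |s| ≤ 2) :
    Lg (wt N b t) ((2 : ℝ) • (src N n j + s • src N n u)) - Lg (wt N b t) 0 ≤
      162 * A ^ 2 * I.card / (t * (ξ : ℝ) ^ 2) := by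
  have hξ' : (0 : ℝ) < ξ := by exact_mod_cast hξ
  refine (Lg_sub_le hb ht _).trans ?_
  rw [← src_add]
  have h1 := qb_src (N := N) hξ hI hn (hj.add2 hu hs)
  unfold qb at h1
  have e1 : ∑ x : V N, ((2 : ℝ) • src N n fun i k => j i k + s * u i k) x ^ 2 =
      4 * ∑ x : V N, (src N n fun i k => j i k + s * u i k) x ^ 2 := by
    rw [Finset.mul_sum]
    refine Finset.sum_congr rfl fun x _ => ?_
    rw [Pi.smul_apply, smul_eq_mul]
    ring
  rw [e1]
  set S := ∑ x : V N, (src N n fun i k => j i k + s * u i k) x ^ 2 with hS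
  have h2 : S ≤ 81 * A ^ 2 * I.card / (ξ : ℝ) ^ 2 := by
    rw [le_div_iff₀ (by positivity)]
    nlinarith
  calc 4 * S / (2 * t) ≤ 4 * (81 * A ^ 2 * I.card / (ξ : ℝ) ^ 2) / (2 * t) := by gcongr
    _ = _ := by
        field_simp
        ring

end

/-! ### the theorem -/

/-- geometry of `u_two` -/
structure UT (N M l : ℕ) [NeZero N] [NeZero M] (b : ℝ) (hb : 0 ≤ b) (ξ : ℕ)
    (t y y' c C c4 C4 : ℝ) (I : Finset (ℕ × ℕ)) (r n : ℕ) (ψ : ℕ → ℕ → ℝ) (p : ℕ × ℕ) (D : ℝ) :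
    Prop where
  two : TwoT N M b hb ξ t y y' c C I r n
  hlN : l ∣ N
  hlM : l ∣ M
  lbN : LB4 N b t ξ c4 C4
  lbM : LB4 M b t ξ c4 C4
  hC4 : 0 ≤ C4
  hD : 0 ≤ D
  ψ0 : ∀ a b, 0 ≤ ψ a b
  ψ1 : ∀ a b, ψ a b ≤ 1
  ψp : ψ p.1 p.2 ≠ 0
  win : Win l n ψ
  net : ∀ i k, ψ (i / l) (k / l) ≠ 0 → ∃ q ∈ I, dB q (i, k) ≤ ξ
  dN : ∀ v z : V N, v.1.val / l = p.1 → v.2.val / l = p.2 →
    ψ (z.1.val / l) (z.2.val / l) ≠ 1 → D * ξ ≤ sd v z
  dM : ∀ v z : V M, v.1.val / l = p.1 → v.2.val / l = p.2 →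
    ψ (z.1.val / l) (z.2.val / l) ≠ 1 → D * ξ ≤ sd v z

/-- the error of `u_two` -/
noncomputable def eru (N M l ξ : ℕ) (t c C c4 C4 D τ G : ℝ) (k r : ℕ) : ℝ :=
  (2 * Real.pi)⁻¹ * (Real.exp (τ / 2) * (t * l * ξ) * (t * (N + M) * ξ) *
    (C4 * Real.exp (-(c4 * D))) +
    err9q C c (t * (ξ : ℝ) ^ 2 * (G + 1)) (162 * (t * (ξ : ℝ) ^ 2) * (G + 1) ^ 2 * k) k r ξ)

variable {N M l : ℕ} [NeZero N] [NeZero M] [NeZero (N / l)] [NeZero (M / l)] {b : ℝ} {hb : 0 ≤ b}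
  {ξ : ℕ} {t y y' c C c4 C4 : ℝ} {I : Finset (ℕ × ℕ)} {r n : ℕ} {ψ : ℕ → ℕ → ℝ} {p : ℕ × ℕ}
  {D : ℝ}

/-- smallness of `R` at the three vertices of the hull of the cut off fields -/
structure Rg (K l : ℕ) [NeZero K] [NeZero (K / l)] (b t : ℝ) (g ψ : ℕ → ℕ → ℝ) (τ : ℝ) : Prop where
  r0 : Rs (wt K b t) ((2 : ℝ) • (t • lft (cl : V K → V (K / l)) (cfn (K / l) g))) ≤ τ
  r1 : Rs (wt K b t) ((2 : ℝ) • (t • cs (lft (cl : V K → V (K / l)) (cfn (K / l) g)) 1)) ≤ τ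
  r2 : Rs (wt K b t) ((2 : ℝ) • (t • lft (cl : V K → V (K / l))
    (cfn (K / l) fun a b => g a b + ψ a b))) ≤ τ

/-- **`u_two`**: the cell densities of two tori agree on fields of the same window -/
theorem u_two (H : UT N M l b hb ξ t y y' c C c4 C4 I r n ψ p D) {g : ℕ → ℕ → ℝ}
    (hg : ∀ a b, g a b ≠ 0 → ψ a b ≠ 0) {G τ : ℝ} (hG0 : 0 ≤ G) (hG : ∀ a b, |g a b| ≤ G)
    (RN : Rg N l b t g ψ τ) (RM : Rg M l b t g ψ τ) :
    ‖ut N b t (cl : V N → V (N / l)) (pc (N / l) p) (cfn (N / l) g) -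
      ut M b t (cl : V M → V (M / l)) (pc (M / l) p) (cfn (M / l) g)‖ ≤
      eru N M l ξ t c C c4 C4 D τ G I.card r := by
  have ht := H.two.hτ
  have hξ := H.two.hξ
  have hξ' : (0 : ℝ) < ξ := by exact_mod_cast hξ
  have hl0 : 0 < l := H864.l_pos H.hlN
  have hp := H.win _ _ H.ψp
  have hNl : n ≤ N / l * l := by rw [Nat.div_mul_cancel H.hlN]; exact H.two.hn
  have hMl : n ≤ M / l * l := by rw [Nat.div_mul_cancel H.hlM]; exact H.two.hn'
  obtain ⟨pN1, pN2⟩ := hp.lt hl0 hNl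
  obtain ⟨pM1, pM2⟩ := hp.lt hl0 hMl
  have hgw : Win l n g := fun a b h => H.win a b (hg a b h)
  unfold ut uq eru
  rw [← mul_sub, norm_mul, norm_two_pi_I_inv]
  refine mul_le_mul_of_nonneg_left ?_ (by positivity)
  refine dW_two (em_mt hb ht) (em_mt hb ht) 1 _ _ _ _ fun c' hc => ?_
  unfold dL
  rw [bf_cell H.hlN, bf_cell H.hlM]
  have e0 : cfn (N / l) g (pc (N / l) p) = cfn (M / l) g (pc (M / l) p) := by
    unfold cfn pc
    rw [ZMod.val_cast_of_lt pN1, ZMod.val_cast_of_lt pN2, ZMod.val_cast_of_lt pM1,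
      ZMod.val_cast_of_lt pM2]
  rw [e0, sub_sub_sub_cancel_right, mt_mulVec, mt_mulVec, mt_mulVec, mt_mulVec]
  -- the two far steps
  have fN := far_step hb ht hξ H.hlN H.lbN H.ψ0 H.ψ1 (x := pc (N / l) p) H.hD H.hC4
    (fun v z h1 h2 => by
      have h3 := (eq_pc pN1 pN2 _).1 h1
      exact H.dN v z (by rw [← h3.1]; exact (cl1_val H.hlN _).symm)
        (by rw [← h3.2]; exact (cl1_val H.hlN _).symm) h2) RN.r0 RN.r1 RN.r2 hc
  have fM := far_step hb ht hξ H.hlM H.lbM H.ψ0 H.ψ1 (x := pc (M / l) p) H.hD H.hC4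
    (fun v z h1 h2 => by
      have h3 := (eq_pc pM1 pM2 _).1 h1
      exact H.dM v z (by rw [← h3.1]; exact (cl1_val H.hlM _).symm)
        (by rw [← h3.2]; exact (cl1_val H.hlM _).symm) h2) RM.r0 RM.r1 RM.r2 hc
  -- LOC9
  set A : ℝ := t * (ξ : ℝ) ^ 2 * (G + 1) with hA
  have hA0 : 0 ≤ A := by positivity
  set j : ℕ → ℕ → ℝ := fun i k => t * (g (i / l) (k / l) + c' * ψ (i / l) (k / l)) with hj
  set u : ℕ → ℕ → ℝ := fun i k => t * ind p (i / l) (k / l) with hu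
  have wj : Wd ξ I A j := by
    refine ⟨fun i k => ?_, fun i k h => ?_⟩
    · rw [hj, hA]
      show |t * (g (i / l) (k / l) + c' * ψ (i / l) (k / l))| ≤ _
      rw [abs_mul, abs_of_pos ht]
      have h1 : |g (i / l) (k / l) + c' * ψ (i / l) (k / l)| ≤ G + 1 := by
        refine (abs_add_le _ _).trans (add_le_add (hG _ _) ?_)
        rw [abs_of_nonneg (mul_nonneg hc.1 (H.ψ0 _ _))]
        exact mul_le_one₀ hc.2 (H.ψ0 _ _) (H.ψ1 _ _)
      refine (mul_le_mul_of_nonneg_left h1 ht.le).trans (le_of_eq ?_)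
      field_simp
    · refine H.net i k fun h0 => h ?_
      have h1 : g (i / l) (k / l) = 0 := by
        by_contra h2
        exact hg _ _ h2 h0
      show t * (g (i / l) (k / l) + c' * ψ (i / l) (k / l)) = 0
      rw [h0, h1, mul_zero, add_zero, mul_zero]
  have wu : Wd ξ I A u := by
    refine ⟨fun i k => ?_, fun i k h => ?_⟩
    · rw [hu, hA]
      show |t * ind p (i / l) (k / l)| ≤ _
      rw [abs_mul, abs_of_pos ht]
      have h1 : |ind p (i / l) (k / l)| ≤ G + 1 := by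
        unfold ind
        split_ifs
        · rw [abs_one]; linarith
        · rw [abs_zero]; linarith
      refine (mul_le_mul_of_nonneg_left h1 ht.le).trans (le_of_eq ?_)
      field_simp
    · refine H.net i k ?_
      have h1 : ind p (i / l) (k / l) ≠ 0 := by
        intro h2
        apply h
        show t * ind p (i / l) (k / l) = 0
        rw [h2, mul_zero]
      unfold ind at h1
      split_ifs at h1 with h3
      · rw [h3.1, h3.2]
        exact H.ψp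
      · exact absurd rfl h1
  have hI2 : ∀ q ∈ I, 2 * (ξ + 1) ≤ n := by
    intro q hq
    have h1 := H.two.hI q hq
    have h2 := H.two.hr
    omega
  have hΛ : 162 * A ^ 2 * I.card / (t * (ξ : ℝ) ^ 2) =
      162 * (t * (ξ : ℝ) ^ 2) * (G + 1) ^ 2 * I.card := by
    rw [hA]
    field_simp
  have m := loc9q_mean_t H.two (Λ := 162 * (t * (ξ : ℝ) ^ 2) * (G + 1) ^ 2 * I.card) hA0 wj wu
    (fun s hs => by rw [← hΛ]; exact Lg_two_src hb ht hξ hI2 H.two.hn wj wu hs)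
    (fun s hs => by rw [← hΛ]; exact Lg_two_src hb ht hξ hI2 H.two.hn' wj wu hs)
  have hwj : Win l n fun a b => g a b + c' * ψ a b := hgw.add H.win c'
  have wi : Win l n (ind p) := win_ind hp
  have ejN : src N n j = t • lft (cl : V N → V (N / l))
      (cfn (N / l) fun a b => g a b + c' * ψ a b) := src_cell H.hlN hwj t
  have ejM : src M n j = t • lft (cl : V M → V (M / l))
      (cfn (M / l) fun a b => g a b + c' * ψ a b) := src_cell H.hlM hwj t
  have euN : src N n u = t • idc (cl : V N → V (N / l)) (pc (N / l) p) := by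
    rw [idc_eq pN1 pN2]
    exact src_cell H.hlN wi t
  have euM : src M n u = t • idc (cl : V M → V (M / l)) (pc (M / l) p) := by
    rw [idc_eq pM1 pM2]
    exact src_cell H.hlM wi t
  rw [ejN, ejM, euN, euM] at m
  -- sum
  set a1 := Ex (wt N b t) (t • cs (lft (cl : V N → V (N / l)) (cfn (N / l) g)) c')
    (li (t • idc cl (pc (N / l) p)))
  set a2 := Ex (wt N b t) (t • lft (cl : V N → V (N / l))
    (cfn (N / l) fun a b => g a b + c' * ψ a b)) (li (t • idc cl (pc (N / l) p)))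
  set a3 := Ex (wt M b t) (t • lft (cl : V M → V (M / l))
    (cfn (M / l) fun a b => g a b + c' * ψ a b)) (li (t • idc cl (pc (M / l) p)))
  set a4 := Ex (wt M b t) (t • cs (lft (cl : V M → V (M / l)) (cfn (M / l) g)) c')
    (li (t • idc cl (pc (M / l) p)))
  have e5 : Real.exp (τ / 2) * (t * l * ξ) * (t * (N + M) * ξ) * (C4 * Real.exp (-(c4 * D))) =
      Real.exp (τ / 2) * (t * l * ξ) * (t * N * ξ) * (C4 * Real.exp (-(c4 * D))) +
      Real.exp (τ / 2) * (t * l * ξ) * (t * M * ξ) * (C4 * Real.exp (-(c4 * D))) := by ring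
  rw [e5]
  show |a1 - a4| ≤ _
  rw [abs_le] at fN fM m ⊢
  constructor <;> linarith [fN.1, fN.2, fM.1, fM.2, m.1, m.2]

end Vale.Agent.P159.H358
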