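import Vale.Agent.P159.H358.Vtor2

/-!
P159, module VTOR, abstract part 3: kernels. Two row stochastic kernels which agree on the window
up to `e` give the same smoothed window fields up to `e * osc φ`, and the main functions agree.
`alpha_of_loc`: the hypotheses `hα`, `hβ` of `vtor` from the pointwise locality of helper552.
-/

namespace Vale.Agent.P159.H358

open MeasureTheory ProbabilityTheory Finset Matrix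
open Vale.Agent.P159.H37 (gau)
open Vale.Agent.P159.H363 (Ch Loc mainf ee norm_ee measurable_mainf norm_mainf_le
  measurable_mulVec n2 n2_le n2_sq n2_nonneg n2_add_le n2_sub_le memLp_bdd n2_const_mul n2_congr)
open Vale.Agent.P159.H552 (Ps cutB hs_l2 hs_le norm_Ps_le measurable_Ps ch_Ps meas_mulVec ch_mainf
  norm_mainf_le_one norm_ee_sub_le l2_good)
open scoped Real

noncomputable section

set_option linter.unusedSectionVars false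

variable {B Λ : Type*} [Fintype B] [Fintype Λ] [DecidableEq B] [DecidableEq Λ]

/-- a row stochastic kernel on an extended window field -/
theorem exw_mulVec {ι : B → Λ} (hι : Function.Injective ι) {M : Matrix Λ Λ ℝ}
    (h1 : ∀ x, ∑ y, M x y = 1) (b0 : B) (φ : B → ℝ) (x : Λ) :
    (M *ᵥ exw ι univ b0 φ) x = φ b0 + ∑ b, M x (ι b) * (φ b - φ b0) := by
  have e1 : ∀ v, exw ι univ b0 φ v = φ b0 + (exw ι univ b0 φ v - φ b0) := fun v => by ring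
  have e2 : (M *ᵥ exw ι univ b0 φ) x = φ b0 * ∑ v, M x v +
      ∑ v, M x v * (exw ι univ b0 φ v - φ b0) := by
    simp only [mulVec, dotProduct]
    rw [Finset.mul_sum, ← Finset.sum_add_distrib]
    refine Finset.sum_congr rfl fun v _ => ?_
    ring
  rw [e2, h1 x, mul_one]
  congr 1
  rw [← Finset.sum_add_sum_compl (univ.image ι)]
  have hz : ∑ v ∈ (univ.image ι)ᶜ, M x v * (exw ι univ b0 φ v - φ b0) = 0 := by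
    refine Finset.sum_eq_zero fun v hv => ?_
    have : exw ι univ b0 φ v = φ b0 := by
      unfold exw
      rw [dif_neg]
      rintro ⟨b, hb, hbv⟩
      exact (Finset.mem_compl.1 hv) (Finset.mem_image.2 ⟨b, hb, hbv⟩)
    rw [this, sub_self, mul_zero]
  rw [hz, add_zero, Finset.sum_image fun x _ z _ h => hι h]
  exact Finset.sum_congr rfl fun b _ => by rw [exw_app hι (Finset.mem_univ b)]

variable {Λ₁ Λ₂ : Type*} [Fintype Λ₁] [Fintype Λ₂] [DecidableEq Λ₁] [DecidableEq Λ₂]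

/-- smoothed window fields on two tori -/
theorem kern_two {ι₁ : B → Λ₁} {ι₂ : B → Λ₂} (i₁ : Function.Injective ι₁)
    (i₂ : Function.Injective ι₂) {M₁ : Matrix Λ₁ Λ₁ ℝ} {M₂ : Matrix Λ₂ Λ₂ ℝ}
    (h₁ : ∀ x, ∑ y, M₁ x y = 1) (h₂ : ∀ x, ∑ y, M₂ x y = 1) (b0 v : B) {φ : B → ℝ} {Φ e : ℝ}
    (hΦ : ∀ b, |φ b - φ b0| ≤ Φ) (hΦ0 : 0 ≤ Φ)
    (he : ∑ b, |M₂ (ι₂ v) (ι₂ b) - M₁ (ι₁ v) (ι₁ b)| ≤ e) :
    |(M₂ *ᵥ exw ι₂ univ b0 φ) (ι₂ v) - (M₁ *ᵥ exw ι₁ univ b0 φ) (ι₁ v)| ≤ e * Φ := by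
  rw [exw_mulVec i₁ h₁, exw_mulVec i₂ h₂]
  have e1 : (φ b0 + ∑ b, M₂ (ι₂ v) (ι₂ b) * (φ b - φ b0)) -
      (φ b0 + ∑ b, M₁ (ι₁ v) (ι₁ b) * (φ b - φ b0)) =
      ∑ b, (M₂ (ι₂ v) (ι₂ b) - M₁ (ι₁ v) (ι₁ b)) * (φ b - φ b0) := by
    rw [add_sub_add_left_eq_sub, ← Finset.sum_sub_distrib]
    exact Finset.sum_congr rfl fun b _ => by ring
  rw [e1]
  refine (Finset.abs_sum_le_sum_abs _ _).trans ?_
  calc ∑ b, |(M₂ (ι₂ v) (ι₂ b) - M₁ (ι₁ v) (ι₁ b)) * (φ b - φ b0)|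
      ≤ ∑ b, |M₂ (ι₂ v) (ι₂ b) - M₁ (ι₁ v) (ι₁ b)| * Φ := by
        refine Finset.sum_le_sum fun b _ => ?_
        rw [abs_mul]
        exact mul_le_mul_of_nonneg_left (hΦ b) (abs_nonneg _)
    _ = (∑ b, |M₂ (ι₂ v) (ι₂ b) - M₁ (ι₁ v) (ι₁ b)|) * Φ := by rw [← Finset.sum_mul]
    _ ≤ _ := mul_le_mul_of_nonneg_right he hΦ0

/-- the main functions on two tori -/
theorem mainf_two {ι₁ : B → Λ₁} {ι₂ : B → Λ₂} (i₁ : Function.Injective ι₁)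
    (i₂ : Function.Injective ι₂) {S₁ : Matrix Λ₁ Λ₁ ℝ} {S₂ : Matrix Λ₂ Λ₂ ℝ}
    (h₁0 : ∀ x y, 0 ≤ S₁ x y) (h₂0 : ∀ x y, 0 ≤ S₂ x y)
    (h₁ : ∀ x, ∑ y, S₁ x y = 1) (h₂ : ∀ x, ∑ y, S₂ x y = 1) (b0 : B) {φ : B → ℝ} {Φ e e1 : ℝ}
    (hΦ : ∀ b, |φ b - φ b0| ≤ Φ) (hΦ0 : 0 ≤ Φ) (Nx : Finset B) (hb0 : b0 ∈ Nx)
    (he : ∀ v ∈ Nx, ∑ b, |S₂ (ι₂ v) (ι₂ b) - S₁ (ι₁ v) (ι₁ b)| ≤ e)
    (ht₁ : ∑ y ∈ (Nx.image ι₁)ᶜ, S₁ (ι₁ b0) y ≤ e1)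
    (ht₂ : ∑ y ∈ (Nx.image ι₂)ᶜ, S₂ (ι₂ b0) y ≤ e1) :
    ‖mainf S₂ (ι₂ b0) (exw ι₂ univ b0 φ) - mainf S₁ (ι₁ b0) (exw ι₁ univ b0 φ)‖ ≤
      2 * e1 + e + 2 * π * (e * Φ) := by
  have e₁ : mainf S₁ (ι₁ b0) (exw ι₁ univ b0 φ) =
      ∑ w ∈ (Nx.image ι₁)ᶜ, (S₁ (ι₁ b0) w : ℂ) * ee ((S₁ *ᵥ exw ι₁ univ b0 φ) w) +
      ∑ w ∈ Nx, (S₁ (ι₁ b0) (ι₁ w) : ℂ) * ee ((S₁ *ᵥ exw ι₁ univ b0 φ) (ι₁ w)) := by
    unfold mainf
    rw [← Finset.sum_add_sum_compl (Nx.image ι₁), Finset.sum_image fun x _ z _ h => i₁ h, add_comm]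
  have e₂ : mainf S₂ (ι₂ b0) (exw ι₂ univ b0 φ) =
      ∑ w ∈ (Nx.image ι₂)ᶜ, (S₂ (ι₂ b0) w : ℂ) * ee ((S₂ *ᵥ exw ι₂ univ b0 φ) w) +
      ∑ w ∈ Nx, (S₂ (ι₂ b0) (ι₂ w) : ℂ) * ee ((S₂ *ᵥ exw ι₂ univ b0 φ) (ι₂ w)) := by
    unfold mainf
    rw [← Finset.sum_add_sum_compl (Nx.image ι₂), Finset.sum_image fun x _ z _ h => i₂ h, add_comm]
  have t₁ : ‖∑ w ∈ (Nx.image ι₁)ᶜ, (S₁ (ι₁ b0) w : ℂ) * ee ((S₁ *ᵥ exw ι₁ univ b0 φ) w)‖ ≤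
      ∑ w ∈ (Nx.image ι₁)ᶜ, S₁ (ι₁ b0) w := by
    refine (norm_sum_le _ _).trans (Finset.sum_le_sum fun w _ => ?_)
    rw [norm_mul, norm_ee, mul_one, Complex.norm_real, Real.norm_eq_abs, abs_of_nonneg (h₁0 _ w)]
  have t₂ : ‖∑ w ∈ (Nx.image ι₂)ᶜ, (S₂ (ι₂ b0) w : ℂ) * ee ((S₂ *ᵥ exw ι₂ univ b0 φ) w)‖ ≤
      ∑ w ∈ (Nx.image ι₂)ᶜ, S₂ (ι₂ b0) w := by
    refine (norm_sum_le _ _).trans (Finset.sum_le_sum fun w _ => ?_)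
    rw [norm_mul, norm_ee, mul_one, Complex.norm_real, Real.norm_eq_abs, abs_of_nonneg (h₂0 _ w)]
  -- inner sites
  have hmid : ‖(∑ w ∈ Nx, (S₂ (ι₂ b0) (ι₂ w) : ℂ) * ee ((S₂ *ᵥ exw ι₂ univ b0 φ) (ι₂ w))) -
      ∑ w ∈ Nx, (S₁ (ι₁ b0) (ι₁ w) : ℂ) * ee ((S₁ *ᵥ exw ι₁ univ b0 φ) (ι₁ w))‖ ≤
      e + 2 * π * (e * Φ) := by
    have es : (∑ w ∈ Nx, (S₂ (ι₂ b0) (ι₂ w) : ℂ) * ee ((S₂ *ᵥ exw ι₂ univ b0 φ) (ι₂ w))) -
        ∑ w ∈ Nx, (S₁ (ι₁ b0) (ι₁ w) : ℂ) * ee ((S₁ *ᵥ exw ι₁ univ b0 φ) (ι₁ w)) =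
        (∑ w ∈ Nx, ((S₂ (ι₂ b0) (ι₂ w) - S₁ (ι₁ b0) (ι₁ w) : ℝ) : ℂ) *
          ee ((S₂ *ᵥ exw ι₂ univ b0 φ) (ι₂ w))) +
        ∑ w ∈ Nx, (S₁ (ι₁ b0) (ι₁ w) : ℂ) * (ee ((S₂ *ᵥ exw ι₂ univ b0 φ) (ι₂ w)) -
          ee ((S₁ *ᵥ exw ι₁ univ b0 φ) (ι₁ w))) := by
      rw [← Finset.sum_sub_distrib, ← Finset.sum_add_distrib]
      refine Finset.sum_congr rfl fun y _ => ?_
      push_cast
      ring
    rw [es]
    refine (norm_add_le _ _).trans (add_le_add ?_ ?_)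
    · refine (norm_sum_le _ _).trans ?_
      calc ∑ w ∈ Nx, ‖((S₂ (ι₂ b0) (ι₂ w) - S₁ (ι₁ b0) (ι₁ w) : ℝ) : ℂ) *
            ee ((S₂ *ᵥ exw ι₂ univ b0 φ) (ι₂ w))‖
          = ∑ w ∈ Nx, |S₂ (ι₂ b0) (ι₂ w) - S₁ (ι₁ b0) (ι₁ w)| := by
            refine Finset.sum_congr rfl fun w _ => ?_
            rw [norm_mul, norm_ee, mul_one, Complex.norm_real, Real.norm_eq_abs]
        _ ≤ ∑ w, |S₂ (ι₂ b0) (ι₂ w) - S₁ (ι₁ b0) (ι₁ w)| :=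
            Finset.sum_le_sum_of_subset_of_nonneg (Finset.subset_univ _)
              fun _ _ _ => abs_nonneg _
        _ ≤ e := he b0 hb0
    · refine (norm_sum_le _ _).trans ?_
      calc ∑ w ∈ Nx, ‖(S₁ (ι₁ b0) (ι₁ w) : ℂ) * (ee ((S₂ *ᵥ exw ι₂ univ b0 φ) (ι₂ w)) -
            ee ((S₁ *ᵥ exw ι₁ univ b0 φ) (ι₁ w)))‖
          ≤ ∑ w ∈ Nx, S₁ (ι₁ b0) (ι₁ w) * (2 * π * (e * Φ)) := by
            refine Finset.sum_le_sum fun w hw => ?_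
            rw [norm_mul, Complex.norm_real, Real.norm_eq_abs, abs_of_nonneg (h₁0 _ _)]
            refine mul_le_mul_of_nonneg_left ((norm_ee_sub_le _ _).trans ?_) (h₁0 _ _)
            exact mul_le_mul_of_nonneg_left (kern_two i₁ i₂ h₁ h₂ b0 w hΦ hΦ0 (he w hw))
              (by positivity)
        _ = (∑ w ∈ Nx, S₁ (ι₁ b0) (ι₁ w)) * (2 * π * (e * Φ)) := by rw [← Finset.sum_mul]
        _ ≤ 1 * (2 * π * (e * Φ)) := by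
            have he0 : 0 ≤ e := (Finset.sum_nonneg fun b _ => abs_nonneg _).trans (he b0 hb0)
            refine mul_le_mul_of_nonneg_right ?_ (by positivity)
            rw [← h₁ (ι₁ b0)]
            have : ∑ y ∈ Nx, S₁ (ι₁ b0) (ι₁ y) = ∑ y ∈ Nx.image ι₁, S₁ (ι₁ b0) y := by
              rw [Finset.sum_image fun x _ z _ h => i₁ h]
            rw [this]
            exact Finset.sum_le_sum_of_subset_of_nonneg (Finset.subset_univ _)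
              fun y _ _ => h₁0 _ _
        _ = _ := one_mul _
  rw [e₁, e₂]
  have e3 : ∀ a b c d : ℂ, (a + b) - (c + d) = (a - c) + (b - d) := fun a b c d => by ring
  rw [e3]
  refine (norm_add_le _ _).trans ?_
  have t3 := norm_sub_le
    (∑ w ∈ (Nx.image ι₂)ᶜ, (S₂ (ι₂ b0) w : ℂ) * ee ((S₂ *ᵥ exw ι₂ univ b0 φ) w))
    (∑ w ∈ (Nx.image ι₁)ᶜ, (S₁ (ι₁ b0) w : ℂ) * ee ((S₁ *ᵥ exw ι₁ univ b0 φ) w))
  linarith

/-- `hα` and `hβ` of `vtor` from a pointwise bound on a good set -/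
theorem n2_good {J : Type*} [Fintype J] {C : Matrix Λ J ℝ} {ψ : (Λ → ℝ) → ℂ} (hψ : Measurable ψ)
    {K : ℝ} (hK : ∀ F, ‖ψ F‖ ≤ K) (ι : B → Λ) (b0 : B) {G : Set (Λ → ℝ)} (hG : MeasurableSet G)
    {a p : ℝ} (ha : 0 ≤ a) (h : ∀ F ∈ G, ‖ψ F - ψ (cutB (univ.image ι) (ι b0) F)‖ ≤ a)
    (hp : (gau J).real {g | C *ᵥ g ∉ G} ≤ p) :
    n2 (gau J) (fun g => ψ (C *ᵥ g) - ψ (exw ι univ b0 (rsw ι (C *ᵥ g)))) ≤ a + 2 * K * √p := by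
  have hK0 : 0 ≤ K := (norm_nonneg _).trans (hK 0)
  have hp0 : 0 ≤ p := measureReal_nonneg.trans hp
  have mC := measurable_mulVec C
  have e : ∀ F : Λ → ℝ, exw ι univ b0 (rsw ι F) = cutB (univ.image ι) (ι b0) F := fun F =>
    exw_comp ι univ b0 F
  have mcut : Measurable fun F : Λ → ℝ => ψ F - ψ (exw ι univ b0 (rsw ι F)) :=
    hψ.sub (hψ.comp ((measurable_exw ι univ b0).comp (measurable_rsw ι)))
  have hb : ∀ F : Λ → ℝ, ‖ψ F - ψ (exw ι univ b0 (rsw ι F))‖ ≤ 2 * K := fun F =>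
    (norm_sub_le _ _).trans (by linarith [hK F, hK (exw ι univ b0 (rsw ι F))])
  have h1 := l2_good (P := gau J) (X := fun g => C *ᵥ g) mC mcut hG
    (fun F hF => by
      rw [e]
      exact h F hF) hb hp
  have LP : MemLp (fun g => ψ (C *ᵥ g) - ψ (exw ι univ b0 (rsw ι (C *ᵥ g)))) 2 (gau J) :=
    memLp_bdd (mcut.comp mC).aestronglyMeasurable fun g => hb _
  refine (n2_le_sqrt LP h1).trans ((sqrt_add_sq_le ha (by positivity)).trans (le_of_eq ?_))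
  rw [Real.sqrt_mul (by positivity), Real.sqrt_sq (by positivity)]

end

end Vale.Agent.P159.H358
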