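import Vale.Agent.P159.H358.Utwo2
import Vale.Agent.P159.H358.Vtor3

/-!
P159, module VTOR, `u_two` (part 3): the hypotheses on `R` are needed on ONE torus only (`R` of local
fields is transferred by LOC8 and LOC9; the constant `1` costs `t (1 - t Ĝ(0)) N²`), and the statement in
the letters of `step_two` (window `B`, embeddings, `exw`).
-/

open Finset MeasureTheory

set_option linter.unusedSectionVars false
set_option linter.unusedDecidableInType false

namespace Vale.Agent.P159.H358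

open Vale.Agent.P159.TM.H104 (EM Lg Ex Cv Gr li)
open Vale.Agent.P159.H37 (wt wM bf qf Rs Tq Gm Ght)
open Vale.Agent.P159.TM.Spec (V)
open Vale.Agent.P159.TM.SpecC (wT)
open Vale.Agent.P159.TM.H705 (dB)
open Vale.Agent.P159.TM.H459 (sd)
open Vale.Agent.P159.H145 (mt mt_mulVec bf_mt em_mt cs LM)
open Vale.Agent.P159.H552 (uq lft idc ut ut_ch)
open Vale.Agent.P159.H864 (cl cl1 cl1_val card_cell)
open Vale.Agent.P159.H363 (Ch)

/-! ### `R` and the constant `1` -/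

section one

variable {N : ℕ} [NeZero N] {b t : ℝ}

/-- `1 - t Ĝ_t(0)` -/
noncomputable def om (N : ℕ) [NeZero N] (b t : ℝ) : ℝ := 1 - t * Ght N b t 0

theorem Lg_cs (hb : 0 ≤ b) (ht : 0 < t) (F : V N → ℝ) :
    Lg (wt N b t) (t • cs F 1) =
      Lg (wt N b t) (t • F) + t * (∑ x, F x + (N : ℝ) ^ 2 / 2) := by
  have hE := em_mt (N := N) hb ht
  have e1 := H145.LM_eq H145.mt_symm hE (cs F 1)
  have e2 := H145.LM_eq H145.mt_symm hE F
  rw [H552.LM_per H145.per_wT, e2] at e1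
  rw [mt_mulVec, mt_mulVec] at e1
  have e3 : ∀ G : V N → ℝ, qf (mt N t) G = t * ∑ x, G x ^ 2 := by
    intro G
    have := bf_mt (N := N) (t := t) G G
    rw [show qf (mt N t) G = bf (mt N t) G G from rfl, this]
    congr 1
    exact Finset.sum_congr rfl fun x _ => by ring
  rw [e3, e3] at e1
  have e4 : ∑ x : V N, cs F 1 x ^ 2 = ∑ x : V N, F x ^ 2 + 2 * ∑ x, F x + (N : ℝ) ^ 2 := by
    have hcard : (Fintype.card (V N) : ℝ) = (N : ℝ) ^ 2 := by
      rw [Fintype.card_prod, ZMod.card]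
      push_cast
      ring
    have e5 : ∀ x : V N, cs F 1 x ^ 2 = F x ^ 2 + 2 * F x + 1 := by
      intro x
      show (F x + 1) ^ 2 = _
      ring
    rw [Finset.sum_congr rfl fun x _ => e5 x, Finset.sum_add_distrib, Finset.sum_add_distrib,
      ← Finset.mul_sum, Finset.sum_const, Finset.card_univ, nsmul_eq_mul, hcard, mul_one]
  rw [e4] at e1
  have e6 : (wM (wT b N) (mt N t) : (V N → ℤ) → ℝ) = wt N b t := rfl
  rw [e6] at e1
  linarith

theorem card_V : (Fintype.card (V N) : ℝ) = (N : ℝ) ^ 2 := by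
  rw [Fintype.card_prod, ZMod.card]
  push_cast
  ring

/-- the quadratic part -/
theorem qf_cs (F : V N → ℝ) (c : ℝ) :
    qf (Gm (wt N b t)) (t • cs F c) = qf (Gm (wt N b t)) (t • F) +
      t ^ 2 * Ght N b t 0 * (2 * c * ∑ x, F x + c ^ 2 * (N : ℝ) ^ 2) := by
  have hrow : ∀ x : V N, ∑ z, Gm (wt N b t) x z = Ght N b t 0 := by
    intro x
    unfold H37.Ght
    rw [TM.H764.Gh_zero]
    simp only [H864.Gm_wt]
    exact Equiv.sum_comp (Equiv.subRight x) fun w => H37.Gt N b t w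
  have hcol : ∀ z : V N, ∑ x, Gm (wt N b t) x z = Ght N b t 0 := by
    intro z
    rw [← hrow z]
    refine Finset.sum_congr rfl fun x _ => ?_
    unfold Gm H37.Cm
    rw [Matrix.of_apply, Matrix.of_apply]
    exact TM.H104.Cv_comm _ _ _
  unfold qf
  have e1 : ∀ x z : V N, (t • cs F c) x * Gm (wt N b t) x z * (t • cs F c) z =
      (t • F) x * Gm (wt N b t) x z * (t • F) z + (t ^ 2 * c * F x * Gm (wt N b t) x z +
        t ^ 2 * c * F z * Gm (wt N b t) x z + t ^ 2 * c ^ 2 * Gm (wt N b t) x z) := by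
    intro x z
    show (t * (F x + c)) * _ * (t * (F z + c)) = (t * F x) * _ * (t * F z) + _
    ring
  simp only [e1, Finset.sum_add_distrib]
  have s1 : ∑ x : V N, ∑ z, t ^ 2 * c * F x * Gm (wt N b t) x z =
      t ^ 2 * c * (∑ x, F x) * Ght N b t 0 := by
    rw [Finset.mul_sum, Finset.sum_mul]
    refine Finset.sum_congr rfl fun x _ => ?_
    rw [← Finset.mul_sum, hrow]
  have s2 : ∑ x : V N, ∑ z, t ^ 2 * c * F z * Gm (wt N b t) x z =
      t ^ 2 * c * (∑ x, F x) * Ght N b t 0 := by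
    rw [Finset.sum_comm, Finset.mul_sum, Finset.sum_mul]
    refine Finset.sum_congr rfl fun z _ => ?_
    rw [← Finset.mul_sum, hcol]
  have s3 : ∑ x : V N, ∑ z, t ^ 2 * c ^ 2 * Gm (wt N b t) x z =
      t ^ 2 * c ^ 2 * ((N : ℝ) ^ 2 * Ght N b t 0) := by
    simp only [← Finset.mul_sum, hrow]
    rw [Finset.sum_const, Finset.card_univ, nsmul_eq_mul, card_V]
  rw [s1, s2, s3]
  ring

/-- `R` of a field shifted by an integer constant -/
theorem Rs_cs (hb : 0 ≤ b) (ht : 0 < t) (F : V N → ℝ) :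
    Rs (wt N b t) (t • cs F 1) =
      Rs (wt N b t) (t • F) + t * om N b t * (∑ x, F x + (N : ℝ) ^ 2 / 2) := by
  unfold Rs om
  rw [Lg_cs hb ht, qf_cs]
  ring

/-- the same for `2 (F + 1)` -/
theorem Rs_cs2 (hb : 0 ≤ b) (ht : 0 < t) (F : V N → ℝ) :
    Rs (wt N b t) ((2 : ℝ) • (t • cs F 1)) =
      Rs (wt N b t) ((2 : ℝ) • (t • F)) + t * om N b t * (4 * ∑ x, F x + 2 * (N : ℝ) ^ 2) := by
  have e1 : (2 : ℝ) • (t • cs F 1) = t • cs (cs ((2 : ℝ) • F) 1) 1 := by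
    funext x
    simp only [cs, Pi.smul_apply, smul_eq_mul]
    ring
  have e2 : (2 : ℝ) • (t • F) = t • ((2 : ℝ) • F) := smul_comm _ _ _
  rw [e1, e2, Rs_cs hb ht, Rs_cs hb ht]
  have e3 : ∑ x : V N, cs ((2 : ℝ) • F) 1 x = 2 * ∑ x, F x + (N : ℝ) ^ 2 := by
    have : ∀ x : V N, cs ((2 : ℝ) • F) 1 x = 2 * F x + 1 := fun x => rfl
    rw [Finset.sum_congr rfl fun x _ => this x, Finset.sum_add_distrib, ← Finset.mul_sum,
      Finset.sum_const, Finset.card_univ, nsmul_eq_mul, card_V, mul_one]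
  have e4 : ∑ x : V N, ((2 : ℝ) • F) x = 2 * ∑ x, F x := by
    rw [Finset.mul_sum]
    rfl
  rw [e3, e4]
  ring

theorem om_nonneg (hb : 0 ≤ b) (ht : 0 < t) : 0 ≤ om N b t := by
  have h1 := Rs_cs (N := N) hb ht 0
  have h2 := H789.Rs_nonneg (H789.em_wt (N := N) hb ht) H789.ev_wt (H789.pk_wt hb ht) (t • cs 0 1)
  rw [h1, smul_zero] at h2
  have h3 : Rs (wt N b t) 0 = 0 := by
    unfold Rs qf
    simp
  rw [h3] at h2
  simp only [Pi.zero_apply, Finset.sum_const_zero, zero_add] at h2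
  have hN : (0 : ℝ) < (N : ℝ) ^ 2 / 2 := by
    have : (0 : ℝ) < N := by exact_mod_cast Nat.pos_of_ne_zero (NeZero.ne N)
    positivity
  by_contra hcon
  rw [not_le] at hcon
  have h4 : t * om N b t < 0 := mul_neg_of_pos_of_neg ht hcon
  have := mul_neg_of_neg_of_pos h4 hN
  linarith

/-- `R(2 (F + 1))` from `R(2F)` -/
theorem Rs_cs2_le (hb : 0 ≤ b) (ht : 0 < t) (F : V N → ℝ) {G : ℝ} (hG : ∀ x, |F x| ≤ G) :
    Rs (wt N b t) ((2 : ℝ) • (t • cs F 1)) ≤
      Rs (wt N b t) ((2 : ℝ) • (t • F)) + t * (N : ℝ) ^ 2 * om N b t * (4 * G + 2) := by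
  rw [Rs_cs2 hb ht]
  have h1 : ∑ x, F x ≤ G * (N : ℝ) ^ 2 := by
    calc ∑ x, F x ≤ ∑ _x : V N, G := Finset.sum_le_sum fun x _ => (le_abs_self _).trans (hG x)
      _ = _ := by rw [Finset.sum_const, Finset.card_univ, nsmul_eq_mul, card_V, mul_comm]
  have h2 : 0 ≤ t * om N b t := mul_nonneg ht.le (om_nonneg hb ht)
  have h3 := mul_le_mul_of_nonneg_left
    (by linarith : 4 * ∑ x, F x + 2 * (N : ℝ) ^ 2 ≤ (4 * G + 2) * (N : ℝ) ^ 2) h2
  have e : t * om N b t * ((4 * G + 2) * (N : ℝ) ^ 2) = t * (N : ℝ) ^ 2 * om N b t * (4 * G + 2) := by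
    ring
  linarith

end one

/-! ### transfer of `R` between the tori -/

section two

variable {N M : ℕ} [NeZero N] [NeZero M] {b : ℝ} {hb : 0 ≤ b} {ξ : ℕ} {t y y' c C : ℝ}
  {I : Finset (ℕ × ℕ)} {r n : ℕ}

theorem wd_zero {A : ℝ} (hA : 0 ≤ A) : Wd ξ I A fun _ _ => 0 := by
  refine ⟨fun i k => ?_, fun i k h => absurd rfl h⟩
  rw [abs_zero]
  positivity

theorem src_zero (N : ℕ) [NeZero N] (n : ℕ) : src N n (fun _ _ => (0 : ℝ)) = 0 := by
  funext x
  unfold src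
  split_ifs <;> rfl

/-- **`R` of a local source on two tori** -/
theorem rs_two (H : TwoT N M b hb ξ t y y' c C I r n) {j : ℕ → ℕ → ℝ} {A : ℝ} (hA : 0 ≤ A)
    (hj : Wd ξ I A j) :
    |Rs (wt N b t) (src N n j) - Rs (wt M b t) (src M n j)| ≤
      eps8q C c A (162 * A ^ 2 * I.card / (t * (ξ : ℝ) ^ 2)) I.card r ξ +
      err9q C c A (162 * A ^ 2 * I.card / (t * (ξ : ℝ) ^ 2)) I.card r ξ / 2 := by
  have ht := H.hτ
  have hI2 : ∀ q ∈ I, 2 * (ξ + 1) ≤ n := by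
    intro q hq
    have h1 := H.hI q hq
    have h2 := H.hr
    omega
  set Λ := 162 * A ^ 2 * I.card / (t * (ξ : ℝ) ^ 2) with hΛ
  have w0 : Wd ξ I A fun _ _ => 0 := wd_zero hA
  have LN : ∀ s : ℝ, |s| ≤ 2 → Lg (wt N b t) ((2 : ℝ) • (src N n (fun _ _ => (0 : ℝ)) +
      s • src N n j)) - Lg (wt N b t) 0 ≤ Λ := fun s hs =>
    Lg_two_src hb ht H.hξ hI2 H.hn w0 hj hs
  have LM' : ∀ s : ℝ, |s| ≤ 2 → Lg (wt M b t) ((2 : ℝ) • (src M n (fun _ _ => (0 : ℝ)) +
      s • src M n j)) - Lg (wt M b t) 0 ≤ Λ := fun s hs =>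
    Lg_two_src hb ht H.hξ hI2 H.hn' w0 hj hs
  have h1 := (loc9q_diag_t H hA w0 hj LN LM').2
  rw [src_zero, src_zero] at h1
  have LN1 := LN 1 (by norm_num)
  have LM1 := LM' 1 (by norm_num)
  rw [src_zero, zero_add, one_smul] at LN1 LM1
  have h2 := loc8q_two_t hb H.hξ H.hτ H.hC H.hT H.hT' H.hr H.hny H.hny' H.hI H.hn H.hn' hA
    hj.bd hj.sp LN1 LM1
  have eN : qf (Gm (wt N b t)) (src N n j) =
      Cv (wt N b t) 0 (li (src N n j)) (li (src N n j)) :=
    (H159.Cv_li (H789.em_wt hb ht) 0 (src N n j) (src N n j)).symm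
  have eM : qf (Gm (wt M b t)) (src M n j) =
      Cv (wt M b t) 0 (li (src M n j)) (li (src M n j)) :=
    (H159.Cv_li (H789.em_wt hb ht) 0 (src M n j) (src M n j)).symm
  unfold Rs
  rw [eN, eM]
  rw [abs_le] at h1 h2 ⊢
  constructor <;> linarith [h1.1, h1.2, h2.1, h2.2]

end two

end Vale.Agent.P159.H358
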