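import Vale.Agent.P159.H358.Utwo3

/-!
P159, module VTOR, `u_two` (part 4): final forms.
-/

open Finset MeasureTheory

set_option linter.unusedSectionVars false
set_option linter.unusedDecidableInType false

namespace Vale.Agent.P159.H358

open Vale.Agent.P159.TM.H104 (EM Lg Ex Cv Gr li)
open Vale.Agent.P159.H37 (wt wM bf qf Rs Tq Gm Ght)
open Vale.Agent.P159.TM.Spec (V)
open Vale.Agent.P159.TM.SpecC (wT)
open Vale.Agent.P159.TM.H705 (dB)
open Vale.Agent.P159.TM.H459 (sd)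
open Vale.Agent.P159.H145 (mt mt_mulVec bf_mt em_mt cs LM)
open Vale.Agent.P159.H552 (uq lft idc ut ut_ch)
open Vale.Agent.P159.H864 (cl cl1 cl1_val card_cell)
open Vale.Agent.P159.H363 (Ch)

variable {N M l : ℕ} [NeZero N] [NeZero M] [NeZero (N / l)] [NeZero (M / l)] {b : ℝ} {hb : 0 ≤ b}
  {ξ : ℕ} {t y y' c C c4 C4 : ℝ} {I : Finset (ℕ × ℕ)} {r n : ℕ} {ψ : ℕ → ℕ → ℝ} {p : ℕ × ℕ}
  {D : ℝ}

/-- the error of the transfer of `R` -/
noncomputable def erR (ξ : ℕ) (t c C G : ℝ) (k r : ℕ) : ℝ :=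
  eps8q C c (2 * (t * (ξ : ℝ) ^ 2 * (G + 1))) (648 * (t * (ξ : ℝ) ^ 2) * (G + 1) ^ 2 * k) k r ξ +
  err9q C c (2 * (t * (ξ : ℝ) ^ 2 * (G + 1))) (648 * (t * (ξ : ℝ) ^ 2) * (G + 1) ^ 2 * k) k r ξ / 2

/-- `R` of twice a local cell field on two tori -/
theorem rs_cell (H : UT N M l b hb ξ t y y' c C c4 C4 I r n ψ p D) {g : ℕ → ℕ → ℝ}
    (hg : ∀ a b, g a b ≠ 0 → ψ a b ≠ 0) {G : ℝ} (hG0 : 0 ≤ G) (hG : ∀ a b, |g a b| ≤ G + 1) :
    |Rs (wt N b t) ((2 : ℝ) • (t • lft (cl : V N → V (N / l)) (cfn (N / l) g))) -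
      Rs (wt M b t) ((2 : ℝ) • (t • lft (cl : V M → V (M / l)) (cfn (M / l) g)))| ≤
      erR ξ t c C G I.card r := by
  have ht := H.two.hτ
  have hξ' : (0 : ℝ) < ξ := by exact_mod_cast H.two.hξ
  set A : ℝ := 2 * (t * (ξ : ℝ) ^ 2 * (G + 1)) with hA
  have hA0 : 0 ≤ A := by positivity
  have hgw : Win l n g := fun a b h => H.win a b (hg a b h)
  have w : Wd ξ I A fun i k => (2 * t) * g (i / l) (k / l) := by
    refine ⟨fun i k => ?_, fun i k h => ?_⟩
    · rw [abs_mul, abs_of_pos (by positivity : (0 : ℝ) < 2 * t), hA]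
      refine (mul_le_mul_of_nonneg_left (hG _ _) (by positivity)).trans (le_of_eq ?_)
      field_simp
    · refine H.net i k (hg _ _ fun h0 => h ?_)
      rw [h0, mul_zero]
  have h := rs_two H.two hA0 w
  rw [src_cell H.hlN hgw, src_cell H.hlM hgw, mul_smul, mul_smul] at h
  refine h.trans (le_of_eq ?_)
  have e : 162 * A ^ 2 * I.card / (t * (ξ : ℝ) ^ 2) =
      648 * (t * (ξ : ℝ) ^ 2) * (G + 1) ^ 2 * I.card := by
    rw [hA]
    field_simp
    ring
  rw [e]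
  rfl

/-- **`u_two`, conditions on one torus**: if `R(2 t g)`, `R(2 t (g + ψ)) ≤ τ₀` on the torus `M` then
the cell densities of the tori `N`, `M` agree. -/
theorem u_two' (H : UT N M l b hb ξ t y y' c C c4 C4 I r n ψ p D) {g : ℕ → ℕ → ℝ}
    (hg : ∀ a b, g a b ≠ 0 → ψ a b ≠ 0) {G τ τ₀ : ℝ} (hG0 : 0 ≤ G) (hG : ∀ a b, |g a b| ≤ G)
    (h0 : Rs (wt M b t) ((2 : ℝ) • (t • lft (cl : V M → V (M / l)) (cfn (M / l) g))) ≤ τ₀)
    (h2 : Rs (wt M b t) ((2 : ℝ) • (t • lft (cl : V M → V (M / l))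
      (cfn (M / l) fun a b => g a b + ψ a b))) ≤ τ₀)
    (hτN : τ₀ + erR ξ t c C G I.card r + t * (N : ℝ) ^ 2 * om N b t * (4 * G + 2) ≤ τ)
    (hτM : τ₀ + t * (M : ℝ) ^ 2 * om M b t * (4 * G + 2) ≤ τ) :
    ‖ut N b t (cl : V N → V (N / l)) (pc (N / l) p) (cfn (N / l) g) -
      ut M b t (cl : V M → V (M / l)) (pc (M / l) p) (cfn (M / l) g)‖ ≤
      eru N M l ξ t c C c4 C4 D τ G I.card r := by
  have ht := H.two.hτ
  have q0 := rs_cell H hg hG0 fun a b => (hG a b).trans (by linarith)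
  have q2 := rs_cell H (g := fun a b => g a b + ψ a b) (fun a b h h3 => by
    have h4 : g a b = 0 := by
      by_contra h5
      exact hg a b h5 h3
    exact h (by rw [h4, h3, add_zero])) hG0 fun a b => by
      refine (abs_add_le _ _).trans (add_le_add (hG _ _) ?_)
      rw [abs_of_nonneg (H.ψ0 _ _)]
      exact H.ψ1 _ _
  have oN : 0 ≤ t * (N : ℝ) ^ 2 * om N b t * (4 * G + 2) :=
    mul_nonneg (mul_nonneg (by positivity) (om_nonneg hb ht)) (by linarith)
  have oM : 0 ≤ t * (M : ℝ) ^ 2 * om M b t * (4 * G + 2) :=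
    mul_nonneg (mul_nonneg (by positivity) (om_nonneg hb ht)) (by linarith)
  have er0 : 0 ≤ erR ξ t c C G I.card r := (abs_nonneg _).trans q0
  have a0 := (abs_le.1 q0).2
  have a2 := (abs_le.1 q2).2
  have gN : ∀ x : V N, |lft (cl : V N → V (N / l)) (cfn (N / l) g) x| ≤ G := fun x => hG _ _
  have gM : ∀ x : V M, |lft (cl : V M → V (M / l)) (cfn (M / l) g) x| ≤ G := fun x => hG _ _
  have b1 := Rs_cs2_le hb ht _ gN
  have b2 := Rs_cs2_le hb ht _ gM
  refine u_two H hg hG0 hG ⟨by linarith, by linarith, by linarith⟩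
    ⟨by linarith, by linarith, by linarith⟩

/-! ### the letters of `step_two` -/

section window

variable {B : Type*} [Fintype B] [DecidableEq B]

/-- the embedding of the window in the cell torus -/
def wi (K : ℕ) (co : B → ℕ × ℕ) (x : B) : V K := pc K (co x)

/-- the field of the window, cut to `S`, relative to the value at `y`, in natural coordinates -/
noncomputable def gxw (co : B → ℕ × ℕ) (S : Finset B) (y : B) (φ : B → ℝ) (a b : ℕ) : ℝ :=
  open Classical in if h : ∃ s ∈ S, co s = (a, b) then φ h.choose - φ y else 0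

theorem gxw_app {co : B → ℕ × ℕ} (hco : Function.Injective co) {S : Finset B} {s : B} (hs : s ∈ S)
    (y : B) (φ : B → ℝ) : gxw co S y φ (co s).1 (co s).2 = φ s - φ y := by
  unfold gxw
  have h : ∃ s' ∈ S, co s' = ((co s).1, (co s).2) := ⟨s, hs, rfl⟩
  rw [dif_pos h]
  have h2 := h.choose_spec.2
  rw [show h.choose = s from hco h2]

theorem gxw_bd {co : B → ℕ × ℕ} {S : Finset B} {y : B} {φ : B → ℝ} {G : ℝ} (hG0 : 0 ≤ G)
    (hG : ∀ s ∈ S, |φ s - φ y| ≤ G) (a b : ℕ) : |gxw co S y φ a b| ≤ G := by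
  unfold gxw
  split_ifs with h
  · exact hG _ h.choose_spec.1
  · rwa [abs_zero]

theorem gxw_supp {co : B → ℕ × ℕ} {S : Finset B} {y : B} {φ : B → ℝ} {a b : ℕ}
    (h : gxw co S y φ a b ≠ 0) : ∃ s ∈ S, co s = (a, b) := by
  unfold gxw at h
  split_ifs at h with h1
  · exact h1
  · exact absurd rfl h

theorem wi_inj {K : ℕ} [NeZero K] {co : B → ℕ × ℕ} (hco : Function.Injective co)
    (hK : ∀ x, (co x).1 < K ∧ (co x).2 < K) : Function.Injective (wi K co) := by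
  intro x x' h
  have h1 := (eq_pc (hK x').1 (hK x').2 (wi K co x)).1 h
  have h2 := (eq_pc (hK x).1 (hK x).2 (wi K co x)).1 rfl
  exact hco (Prod.ext (h2.1.symm.trans h1.1) (h2.2.symm.trans h1.2))

/-- the extended window field is a cell function plus a constant -/
theorem exw_eq {K : ℕ} [NeZero K] {co : B → ℕ × ℕ} (hco : Function.Injective co)
    (hK : ∀ x, (co x).1 < K ∧ (co x).2 < K) (S : Finset B) (y : B) (φ : B → ℝ) :
    exw (wi K co) S y φ = fun x : V K => cfn K (gxw co S y φ) x + φ y := by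
  classical
  funext x
  have hi := wi_inj (K := K) hco hK
  by_cases h : ∃ s ∈ S, wi K co s = x
  · obtain ⟨s, hs, rfl⟩ := h
    rw [exw_app hi hs]
    have h2 := (eq_pc (hK s).1 (hK s).2 (wi K co s)).1 rfl
    unfold cfn
    rw [h2.1, h2.2, gxw_app hco hs]
    ring
  · have e1 : exw (wi K co) S y φ x = φ y := by
      unfold exw
      rw [dif_neg h]
    rw [e1]
    have e2 : cfn K (gxw co S y φ) x = 0 := by
      by_contra h3
      obtain ⟨s, hs, hs2⟩ := gxw_supp h3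
      apply h
      refine ⟨s, hs, ?_⟩
      have h4 := (eq_pc (hK s).1 (hK s).2 x).2 (by rw [hs2]; exact ⟨rfl, rfl⟩)
      exact h4.symm
    rw [e2, zero_add]

/-- **`u_two` in the letters of `step_two`.** -/
theorem two_exw {co : B → ℕ × ℕ} (hco : Function.Injective co) {S : Finset B} {y : B}
    (hN : ∀ x, (co x).1 < N / l ∧ (co x).2 < N / l) (hM : ∀ x, (co x).1 < M / l ∧ (co x).2 < M / l)
    {yN yM : ℝ} (H : UT N M l b hb ξ t yN yM c C c4 C4 I r n ψ (co y) D)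
    (hS : ∀ s ∈ S, ψ (co s).1 (co s).2 ≠ 0) {φ : B → ℝ} {G τ τ₀ : ℝ} (hG0 : 0 ≤ G)
    (hG : ∀ s ∈ S, |φ s - φ y| ≤ G)
    (h0 : Rs (wt M b t) ((2 : ℝ) • (t • lft (cl : V M → V (M / l))
      (cfn (M / l) (gxw co S y φ)))) ≤ τ₀)
    (h2 : Rs (wt M b t) ((2 : ℝ) • (t • lft (cl : V M → V (M / l))
      (cfn (M / l) fun a b => gxw co S y φ a b + ψ a b))) ≤ τ₀)
    (hτN : τ₀ + erR ξ t c C G I.card r + t * (N : ℝ) ^ 2 * om N b t * (4 * G + 2) ≤ τ)
    (hτM : τ₀ + t * (M : ℝ) ^ 2 * om M b t * (4 * G + 2) ≤ τ) :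
    ‖ut N b t (cl : V N → V (N / l)) (wi (N / l) co y) (exw (wi (N / l) co) S y φ) -
      ut M b t (cl : V M → V (M / l)) (wi (M / l) co y) (exw (wi (M / l) co) S y φ)‖ ≤
      eru N M l ξ t c C c4 C4 D τ G I.card r := by
  have ht := H.two.hτ
  rw [exw_eq hco hN, exw_eq hco hM, ut_ch hb ht, ut_ch hb ht, ← mul_sub, norm_mul]
  have e : ‖Complex.exp (((2 * Real.pi * φ y : ℝ) : ℂ) * Complex.I)‖ = 1 :=
    Complex.norm_exp_ofReal_mul_I _
  rw [e, one_mul]
  exact u_two' H (fun a b h => by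
    obtain ⟨s, hs, hs2⟩ := gxw_supp h
    have := hS s hs
    rwa [hs2] at this) hG0 (gxw_bd hG0 hG) h0 h2 hτN hτM

end window

end Vale.Agent.P159.H358
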