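import Vale.Agent.P159.H358.Ck2
import Vale.Agent.P159.H801.Master1

/-!
P159, V step of the master: the numbers of one window (activity before and after, sizes), as powers
of two.
-/

set_option linter.unusedSectionVars false

open Filter Topology

namespace Vale.Agent.P159.H358

open Vale.Agent.P159.H972 (Par lg)
open Vale.Agent.P159.H801 (Ev xa)

noncomputable section

/-- the numbers of a size `e`: `e` small against the window -/
structure NW (P : Par) (e : ℝ) : Prop where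
  e0 : 0 < e
  e1 : e ≤ 1
  p4 : P.thp ≤ 1 / 4
  px : 2 * P.thp ≤ P.x1
  l4 : 10 ^ 4 ≤ P.thp * l2 e

/-- the numbers hold for small sizes -/
theorem nw_ev (b1 b2 pf : ℝ) (Q : ℕ) :
    Ev b1 b2 pf Q fun P _ => ∀ e, 0 < e → e ≤ P.es → NW P e := by
  apply Ev.of
  refine ⟨0, fun _ _ => ⟨1, one_pos, fun _ _ _ => ⟨0, fun _ _ => ⟨1, one_pos, fun x1 hx1 _ =>
    ⟨min (1 / 4) (x1 / 2), by positivity, fun thp hthp hthp4 => ⟨1, one_pos,
    fun th hth hth1 => ⟨0, fun C0 _ => ⟨1, one_pos, fun c1 hc1 hc11 => ?_⟩⟩⟩⟩⟩⟩⟩⟩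
  obtain ⟨ea, hea, hA⟩ := H640.sm_rpow (s := 1) (A := (2 : ℝ) ^ (10 ^ 4 / thp)) one_pos one_pos
  refine ⟨min ea 1, by positivity, fun P hP e he hes => ?_⟩
  have heE : e ≤ min ea 1 := hes.trans hP.ees
  have he1 : e ≤ 1 := heE.trans (min_le_right _ _)
  have hA' := hA e he (heE.trans (min_le_left _ _))
  have hthp' : P.thp = thp := hP.ethp
  have hx1' : P.x1 = x1 := hP.ex1
  refine ⟨he, he1, by rw [hthp']; exact hthp4.trans (min_le_left _ _), ?_, ?_⟩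
  · rw [hthp', hx1']
    have := hthp4.trans (min_le_right _ _)
    linarith
  · rw [hthp']
    have h1 : (10 : ℝ) ^ 4 / thp ≤ l2 e := by
      unfold l2
      rw [Real.le_logb_iff_rpow_le one_lt_two (by positivity), le_div_iff₀ he]
      rw [Real.rpow_one] at hA'
      exact hA'
    have h2 := mul_le_mul_of_nonneg_left h1 hthp.le
    have h3 : thp * (10 ^ 4 / thp) = 10 ^ 4 := by field_simp
    linarith

variable {P : Par} {e e' z z' x : ℝ} {n m : ℕ}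

/-- the activities before and after the window -/
lemma NW.ratio (h : NW P e) (hz : 0 < z) (hz' : 0 < z') (h1 : n ≤ m) (h2 : m ≤ n + 4 * P.w e)
    (hx : |x| ≤ ((m : ℝ) - n) / 10 ^ 7)
    (hl : |Real.log z' - Real.log z - x| ≤ e ^ (17 / 20 : ℝ)) :
    z ≤ (2 : ℝ) ^ (2 + (P.w e : ℝ) / 10 ^ 6) * z' ∧
      z' ≤ (2 : ℝ) ^ (2 + (P.w e : ℝ) / 10 ^ 6) * z := by
  have he1 : e ^ (17 / 20 : ℝ) ≤ 1 := Real.rpow_le_one h.e0.le h.e1 (by norm_num)
  have hD1 : (0 : ℝ) ≤ (m : ℝ) - n := by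
    have : (n : ℝ) ≤ m := by exact_mod_cast h1
    linarith
  have hD2 : (m : ℝ) - n ≤ 4 * P.w e := by
    have : (m : ℝ) ≤ n + 4 * P.w e := by exact_mod_cast h2
    linarith
  have hl2 := Real.log_two_gt_d9
  have hw0 : (0 : ℝ) ≤ P.w e := Nat.cast_nonneg _
  have k1 := abs_le.1 hl
  have k2 := abs_le.1 hx
  have key : (4 : ℝ) * P.w e / 10 ^ 7 + 1 ≤ (2 + (P.w e : ℝ) / 10 ^ 6) * Real.log 2 := by
    nlinarith
  have hb : |Real.log z' - Real.log z| ≤ (2 + (P.w e : ℝ) / 10 ^ 6) * Real.log 2 := by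
    rw [abs_le]
    constructor <;> linarith [k1.1, k1.2, k2.1, k2.2]
  have k3 := abs_le.1 hb
  constructor
  · rw [← Real.log_le_log_iff hz (by positivity), Real.log_mul (by positivity) hz'.ne',
      Real.log_rpow two_pos]
    linarith [k3.1]
  · rw [← Real.log_le_log_iff hz' (by positivity), Real.log_mul (by positivity) hz.ne',
      Real.log_rpow two_pos]
    linarith [k3.2]

/-- (1) the background at the new level against the new activity -/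
lemma NW.vy (h : NW P e) (hz : 0 < z) (hz' : 0 < z') (h1 : n ≤ m) (h2 : m ≤ n + 4 * P.w e)
    (hx : |x| ≤ ((m : ℝ) - n) / 10 ^ 7)
    (hl : |Real.log z' - Real.log z - x| ≤ e ^ (17 / 20 : ℝ)) (he' : 0 < e')
    (hee : e' ≤ e ^ (19 / 20 : ℝ)) {q : ℝ} (hq : P.thp / 100 ≤ q) :
    e ^ (-(P.thp / 400)) * z ≤ e' ^ (-q) * z' := by
  obtain ⟨r1, -⟩ := h.ratio hz hz' h1 h2 hx hl
  obtain ⟨w1, w2⟩ : P.thp * l2 e ≤ P.w e ∧ (P.w e : ℝ) ≤ P.thp * l2 e + 1 :=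
    lg_bds P.thp0.le h.e0 h.e1
  have hl4 := h.l4
  have hthp := P.thp0
  have he0 := h.e0
  have g1 : e ^ (-(P.thp / 400)) = (2 : ℝ) ^ (P.thp * l2 e / 400) := by
    rw [e_pow he0]
    congr 1
    ring
  have he'1 : e' ≤ 1 := hee.trans (Real.rpow_le_one he0.le h.e1 (by norm_num))
  have g2 : (2 : ℝ) ^ (19 / 20 * (P.thp * l2 e / 100)) ≤ e' ^ (-q) := by
    have f1 : (2 : ℝ) ^ (19 / 20 * (P.thp * l2 e / 100)) =
        (e ^ (19 / 20 : ℝ)) ^ (-(P.thp / 100)) := by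
      rw [← Real.rpow_mul he0.le, e_pow he0]
      congr 1
      ring
    have f2 : (e ^ (19 / 20 : ℝ)) ^ (-(P.thp / 100)) ≤ e' ^ (-(P.thp / 100)) :=
      Real.rpow_le_rpow_of_nonpos he' hee (by linarith)
    have f3 : e' ^ (-(P.thp / 100)) ≤ e' ^ (-q) :=
      Real.rpow_le_rpow_of_exponent_ge he' he'1 (by linarith)
    rw [f1]
    exact f2.trans f3
  rw [g1]
  calc (2 : ℝ) ^ (P.thp * l2 e / 400) * z
      ≤ (2 : ℝ) ^ (P.thp * l2 e / 400) * ((2 : ℝ) ^ (2 + (P.w e : ℝ) / 10 ^ 6) * z') :=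
        mul_le_mul_of_nonneg_left r1 (by positivity)
    _ = (2 : ℝ) ^ (P.thp * l2 e / 400 + (2 + (P.w e : ℝ) / 10 ^ 6)) * z' := by
        rw [Real.rpow_add two_pos (P.thp * l2 e / 400) (2 + (P.w e : ℝ) / 10 ^ 6), mul_assoc]
    _ ≤ (2 : ℝ) ^ (19 / 20 * (P.thp * l2 e / 100)) * z' :=
        mul_le_mul_of_nonneg_right (two_le (by linarith)) hz'.le
    _ ≤ _ := mul_le_mul_of_nonneg_right g2 hz'.le

/-- (2) the number of `YBn` -/
lemma NW.yb (h : NW P e) (hz : 0 < z) (hz' : 0 < z') (h1 : n ≤ m) (h2 : m ≤ n + 4 * P.w e)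
    (hx : |x| ≤ ((m : ℝ) - n) / 10 ^ 7)
    (hl : |Real.log z' - Real.log z - x| ≤ e ^ (17 / 20 : ℝ)) (he' : 0 < e')
    (hee : e' ≤ e ^ (19 / 20 : ℝ)) :
    e' ^ (-(P.thp / 200)) * (e ^ (-(P.thp / 400)) * z) ≤ e' ^ (-(P.x1 / 100)) * z' := by
  have hthp := P.thp0
  have hpx := h.px
  have k1 := h.vy hz hz' h1 h2 hx hl he' hee (q := P.x1 / 100 - P.thp / 200) (by linarith)
  have k2 : 0 < e' ^ (-(P.thp / 200)) := Real.rpow_pos_of_pos he' _
  calc e' ^ (-(P.thp / 200)) * (e ^ (-(P.thp / 400)) * z)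
      ≤ e' ^ (-(P.thp / 200)) * (e' ^ (-(P.x1 / 100 - P.thp / 200)) * z') :=
        mul_le_mul_of_nonneg_left k1 k2.le
    _ = _ := by
        rw [← mul_assoc, ← Real.rpow_add he']
        congr 2
        ring

/-- (3) the a priori smallness -/
lemma NW.y4 (h : NW P e) (hz : 0 < z) (hze : z ^ (39 / 20 : ℝ) ≤ e) (hee : e / 2 ≤ e') :
    e ^ (-(P.thp / 400)) * z ≤ 4 * e' ^ (1 / 4 : ℝ) := by
  have he0 := h.e0
  have he1 := h.e1
  have hthp := P.thp0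
  have hp4 := h.p4
  have h1 : z ≤ e ^ (20 / 39 : ℝ) := by
    have h2 := Real.rpow_le_rpow (Real.rpow_nonneg hz.le _) hze (show (0 : ℝ) ≤ 20 / 39 by norm_num)
    rwa [← Real.rpow_mul hz.le, show (39 / 20 * (20 / 39) : ℝ) = 1 by norm_num,
      Real.rpow_one] at h2
  have h2 : e ^ (-(P.thp / 400)) * z ≤ e ^ (1 / 4 : ℝ) := by
    calc e ^ (-(P.thp / 400)) * z ≤ e ^ (-(P.thp / 400)) * e ^ (20 / 39 : ℝ) :=
          mul_le_mul_of_nonneg_left h1 (Real.rpow_pos_of_pos he0 _).le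
      _ = e ^ (-(P.thp / 400) + 20 / 39) := (Real.rpow_add he0 _ _).symm
      _ ≤ _ := Real.rpow_le_rpow_of_exponent_ge he0 he1 (by linarith)
  have h3 : e ^ (1 / 4 : ℝ) ≤ (2 * e') ^ (1 / 4 : ℝ) :=
    Real.rpow_le_rpow he0.le (by linarith) (by norm_num)
  have he'0 : 0 < e' := lt_of_lt_of_le (by positivity) hee
  have h4 : (2 * e') ^ (1 / 4 : ℝ) = (2 : ℝ) ^ (1 / 4 : ℝ) * e' ^ (1 / 4 : ℝ) :=
    Real.mul_rpow two_pos.le he'0.le
  have h5 : (2 : ℝ) ^ (1 / 4 : ℝ) ≤ 4 := by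
    calc (2 : ℝ) ^ (1 / 4 : ℝ) ≤ (2 : ℝ) ^ (2 : ℝ) := two_le (by norm_num)
      _ = 4 := by rw [Real.rpow_two]; norm_num
  have h6 : 0 < e' ^ (1 / 4 : ℝ) := Real.rpow_pos_of_pos he'0 _
  calc e ^ (-(P.thp / 400)) * z ≤ (2 : ℝ) ^ (1 / 4 : ℝ) * e' ^ (1 / 4 : ℝ) := by
        rw [← h4]
        exact h2.trans h3
    _ ≤ _ := mul_le_mul_of_nonneg_right h5 h6.le

/-- (4) the old activity is at most a small power of the window times the new one -/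
lemma NW.yy (h : NW P e) (hz : 0 < z) (hz' : 0 < z') (h1 : n + P.w e ≤ m)
    (h2 : m ≤ n + 4 * P.w e) (hx : |x| ≤ ((m : ℝ) - n) / 10 ^ 7)
    (hl : |Real.log z' - Real.log z - x| ≤ e ^ (17 / 20 : ℝ)) {q : ℝ} (hq : 1 / 100 ≤ q) :
    z ≤ (2 : ℝ) ^ (q * ((m - n : ℕ) : ℝ)) * z' := by
  obtain ⟨r1, -⟩ := h.ratio hz hz' (by omega) h2 hx hl
  obtain ⟨w1, w2⟩ : P.thp * l2 e ≤ P.w e ∧ (P.w e : ℝ) ≤ P.thp * l2 e + 1 :=
    lg_bds P.thp0.le h.e0 h.e1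
  have hl4 := h.l4
  refine r1.trans (mul_le_mul_of_nonneg_right (two_le ?_) hz'.le)
  have h3 : (P.w e : ℝ) ≤ ((m - n : ℕ) : ℝ) := by
    have : P.w e ≤ m - n := by omega
    exact_mod_cast this
  have h4 : 1 / 100 * ((m - n : ℕ) : ℝ) ≤ q * ((m - n : ℕ) : ℝ) :=
    mul_le_mul_of_nonneg_right hq (Nat.cast_nonneg _)
  linarith

/-- (5) the deviation of the V state in PERS -/
lemma NW.dv (h : NW P e) (hz : 0 < z) (h2 : m ≤ n + 4 * P.w e) :
    (2 : ℝ) ^ (((m : ℝ) - n) / 4) * (z * e ^ (7 / 8 : ℝ)) ≤ z := by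
  obtain ⟨w1, w2⟩ : P.thp * l2 e ≤ P.w e ∧ (P.w e : ℝ) ≤ P.thp * l2 e + 1 :=
    lg_bds P.thp0.le h.e0 h.e1
  have hD2 : (m : ℝ) - n ≤ 4 * P.w e := by
    have : (m : ℝ) ≤ n + 4 * P.w e := by exact_mod_cast h2
    linarith
  have hl0 : 0 ≤ l2 e := H972.logb_nonneg' h.e0 h.e1
  have hpl : P.thp * l2 e ≤ 1 / 4 * l2 e := mul_le_mul_of_nonneg_right h.p4 hl0
  have hl4 := h.l4
  have h3 : (2 : ℝ) ^ (((m : ℝ) - n) / 4) * e ^ (7 / 8 : ℝ) ≤ 1 := by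
    rw [e_pow h.e0, ← Real.rpow_add two_pos]
    refine (two_le (y := 0) ?_).trans (by rw [Real.rpow_zero])
    linarith
  calc (2 : ℝ) ^ (((m : ℝ) - n) / 4) * (z * e ^ (7 / 8 : ℝ))
      = ((2 : ℝ) ^ (((m : ℝ) - n) / 4) * e ^ (7 / 8 : ℝ)) * z := by ring
    _ ≤ 1 * z := mul_le_mul_of_nonneg_right h3 hz.le
    _ = z := one_mul z

/-- (5') the error of the functional in PERS -/
lemma NW.er (h : NW P e) (hz : 0 < z) :
    z * e ^ (439 / 500 : ℝ) ≤ e ^ (2 / 5 : ℝ) * z := by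
  rw [mul_comm]
  exact mul_le_mul_of_nonneg_right
    (Real.rpow_le_rpow_of_exponent_ge h.e0 h.e1 (by norm_num)) hz.le

/-- (6) the exponent of the growth in the letters of the master -/
lemma grow_eq (a : ℕ → ℝ) (n : ℕ) (D : ℝ) :
    (2 - Real.pi / a n) * D * Real.log 2 = -(H264.kap * xa a n * D) := by
  unfold H264.kap xa
  have hp := Real.pi_ne_zero
  field_simp
  ring

end

end Vale.Agent.P159.H358
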